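import Vale.Agent.P177.MathlibUsed

set_option linter.all false

section

section

/-!
Height inequality for primes of `R₁ ⊗[A] R₂`.
-/

namespace Vale.Agent.P177

open Function IsLocalRing TensorProduct

universe u

section fiber

variable {R S : Type u} [CommRing R] [CommRing S] [Algebra R S]

theorem height_quot_eq_fiber (p : PrimeSpectrum R) (P : PrimeSpectrum S)
    (h : P ∈ PrimeSpectrum.comap (algebraMap R S) ⁻¹' {p}) :
    (P.asIdeal.map (Ideal.Quotient.mk (p.asIdeal.map (algebraMap R S)))).height =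
      (PrimeSpectrum.preimageOrderIsoFiber R S p ⟨P, h⟩).asIdeal.height := by
  let X := PrimeSpectrum.comap (algebraMap R S) ⁻¹' {p}
  have hX : ∀ x : X, p.asIdeal.map (algebraMap R S) ≤ x.1.asIdeal := by
    intro x
    rw [Ideal.map_le_iff_le_comap]
    have h1 := x.2
    simp only [X, Set.mem_preimage, Set.mem_singleton_iff] at h1
    rw [← h1]
    rfl
  let f : X → PrimeSpectrum (S ⧸ p.asIdeal.map (algebraMap R S)) := fun x =>
    ⟨x.1.asIdeal.map (Ideal.Quotient.mk _),
      Ideal.map_isPrime_of_surjective Ideal.Quotient.mk_surjective (by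
        rw [Ideal.mk_ker]
        exact hX x)⟩
  have hcf : ∀ x : X, (f x).asIdeal.comap (Ideal.Quotient.mk _) = x.1.asIdeal := by
    intro x
    change (x.1.asIdeal.map (Ideal.Quotient.mk _)).comap (Ideal.Quotient.mk _) = _
    rw [Ideal.comap_map_of_surjective' _ Ideal.Quotient.mk_surjective, Ideal.mk_ker,
      sup_eq_left.2 (hX x)]
  have hf : StrictMono f := by
    intro x y hxy
    refine lt_of_le_not_ge (Ideal.map_mono hxy.le) ?_
    intro hcon
    have h1 : (f y).asIdeal.comap (Ideal.Quotient.mk _) ≤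
        (f x).asIdeal.comap (Ideal.Quotient.mk _) := Ideal.comap_mono hcon
    rw [hcf, hcf] at h1
    exact absurd h1 (not_le_of_gt hxy)
  have h1 := Order.height_eq_of_strictMono f hf (by
    intro a b hb
    have h2 : (PrimeSpectrum.comap (Ideal.Quotient.mk _) b).asIdeal ≤ a.1.asIdeal := by
      rw [← hcf a]
      exact Ideal.comap_mono hb.le
    have h3 : p.asIdeal.map (algebraMap R S) ≤
        (PrimeSpectrum.comap (Ideal.Quotient.mk _) b).asIdeal := by
      intro x hx
      rw [PrimeSpectrum.comap_asIdeal, Ideal.mem_comap, Ideal.Quotient.eq_zero_iff_mem.2 hx]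
      exact zero_mem _
    have h4 : PrimeSpectrum.comap (Ideal.Quotient.mk _) b ∈ X := by
      simp only [X, Set.mem_preimage, Set.mem_singleton_iff]
      apply PrimeSpectrum.ext
      apply le_antisymm
      · have h5 := a.2
        simp only [X, Set.mem_preimage, Set.mem_singleton_iff] at h5
        exact (Ideal.comap_mono h2).trans (congrArg PrimeSpectrum.asIdeal h5).le
      · rw [PrimeSpectrum.comap_asIdeal, ← Ideal.map_le_iff_le_comap]
        exact h3
    have h6 : f ⟨_, h4⟩ = b := by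
      apply PrimeSpectrum.ext
      change ((PrimeSpectrum.comap (Ideal.Quotient.mk _) b).asIdeal).map _ = _
      rw [PrimeSpectrum.comap_asIdeal, Ideal.map_comap_of_surjective _ Ideal.Quotient.mk_surjective]
    refine ⟨⟨_, h4⟩, ?_, h6⟩
    rw [← h6] at hb
    refine lt_of_le_not_ge h2 ?_
    intro hcon
    exact absurd (Ideal.map_mono (f := Ideal.Quotient.mk _) hcon : f a ≤ f ⟨_, h4⟩)
      (not_le_of_gt hb)) ⟨P, h⟩
  rw [PrimeSpectrum.height_eq_orderHeight, Order.height_orderIso, h1,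
    ← PrimeSpectrum.height_eq_orderHeight]

theorem isNoetherianRing_fiber (p : Ideal R) [p.IsPrime] [IsNoetherianRing S] :
    IsNoetherianRing (p.Fiber S) := by
  let _ : Algebra S (p.Fiber S) := Algebra.TensorProduct.rightAlgebra
  exact isNoetherianRing_of_ringEquiv _ (Ideal.Fiber.algEquivAux₁ (S := S) p).symm.toRingEquiv

end fiber

section fields

theorem flat_includeRight (k K F : Type u) [CommRing k] [CommRing K] [CommRing F]
    [Algebra k K] [Algebra k F] [Module.Flat k K] :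
    ((Algebra.TensorProduct.includeRight : F →ₐ[k] K ⊗[k] F) : F →+* K ⊗[k] F).Flat := by
  have h1 : (algebraMap F (F ⊗[k] K)).Flat := by
    rw [RingHom.flat_algebraMap_iff]
    infer_instance
  have h2 : ((Algebra.TensorProduct.comm k F K : F ⊗[k] K →ₐ[k] K ⊗[k] F) :
      F ⊗[k] K →+* K ⊗[k] F).Flat :=
    RingHom.Flat.of_bijective (Algebra.TensorProduct.comm k F K).bijective
  have h3 := h1.comp h2
  convert h3 using 1
  ext x
  rw [RingHom.comp_apply, Algebra.TensorProduct.algebraMap_apply]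
  change Algebra.TensorProduct.includeRight x =
    Algebra.TensorProduct.comm k F K (algebraMap F F x ⊗ₜ[k] (1 : K))
  rw [Algebra.TensorProduct.comm_tmul]
  rfl

theorem exists_flat_map (A R₁ R₂ k K : Type u) [CommRing A] [CommRing R₁] [CommRing R₂]
    [Algebra A R₁] [Algebra A R₂] [Field k] [Field K] [Algebra A k] [Algebra A K] [Algebra R₁ K]
    [Algebra k K] [IsScalarTower A k K] [IsScalarTower A R₁ K] :
    ∃ φ : k ⊗[A] R₂ →+* K ⊗[R₁] (R₁ ⊗[A] R₂), φ.Flat ∧ ∀ r : R₂, φ (1 ⊗ₜ r) = 1 ⊗ₜ (1 ⊗ₜ r) := by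
  let e₁ : K ⊗[R₁] (R₁ ⊗[A] R₂) ≃ₐ[K] K ⊗[A] R₂ :=
    Algebra.TensorProduct.cancelBaseChange A R₁ K K R₂
  let e₂ : K ⊗[k] (k ⊗[A] R₂) ≃ₐ[K] K ⊗[A] R₂ := Algebra.TensorProduct.cancelBaseChange A k K K R₂
  have h1 : ∀ r : R₂, e₂ ((1 : K) ⊗ₜ[k] ((1 : k) ⊗ₜ[A] r)) = 1 ⊗ₜ r := fun r => by
    simp only [e₂, Algebra.TensorProduct.cancelBaseChange_tmul, one_smul]
  have h2 : ∀ r : R₂, e₁.symm (1 ⊗ₜ r) = ((1 : K) ⊗ₜ[R₁] ((1 : R₁) ⊗ₜ[A] r)) := fun r => by
    rw [AlgEquiv.symm_apply_eq]
    simp only [e₁, Algebra.TensorProduct.cancelBaseChange_tmul, one_smul]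
  have f1 := flat_includeRight k K (k ⊗[A] R₂)
  have f2 : (e₂ : K ⊗[k] (k ⊗[A] R₂) →+* K ⊗[A] R₂).Flat :=
    RingHom.Flat.of_bijective e₂.bijective
  have f3 : (e₁.symm : K ⊗[A] R₂ →+* K ⊗[R₁] (R₁ ⊗[A] R₂)).Flat :=
    RingHom.Flat.of_bijective e₁.symm.bijective
  refine ⟨_, (f1.comp f2).comp f3, ?_⟩
  intro r
  simp only [RingHom.coe_comp, comp_apply, RingHom.coe_coe,
    Algebra.TensorProduct.includeRight_apply]
  rw [h1, h2]

end fields

section

variable {A R₁ R₂ : Type u} [CommRing A] [CommRing R₁] [CommRing R₂] [Algebra A R₁]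
  [Algebra A R₂] [IsNoetherianRing A] [IsNoetherianRing R₁] [IsNoetherianRing R₂]
  [IsNoetherianRing (R₁ ⊗[A] R₂)] [Module.Flat A R₂]

theorem height_bound (Q : Ideal (R₁ ⊗[A] R₂)) [Q.IsPrime] :
    (Q.comap (algebraMap R₁ (R₁ ⊗[A] R₂))).height +
      (Q.comap (Algebra.TensorProduct.includeRight : R₂ →ₐ[A] R₁ ⊗[A] R₂)).height ≤
      Q.height + (Q.comap (algebraMap A (R₁ ⊗[A] R₂))).height := by
  let P₁ : PrimeSpectrum R₁ := ⟨Q.comap (algebraMap R₁ (R₁ ⊗[A] R₂)), Ideal.IsPrime.comap _⟩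
  let P₂ : PrimeSpectrum R₂ :=
    ⟨Q.comap (Algebra.TensorProduct.includeRight : R₂ →ₐ[A] R₁ ⊗[A] R₂), Ideal.IsPrime.comap _⟩
  let q : PrimeSpectrum A := ⟨Q.comap (algebraMap A (R₁ ⊗[A] R₂)), Ideal.IsPrime.comap _⟩
  have hP₁ : q = PrimeSpectrum.comap (algebraMap A R₁) P₁ := by
    apply PrimeSpectrum.ext
    change Q.comap _ = (Q.comap _).comap _
    rw [Ideal.comap_comap, ← IsScalarTower.algebraMap_eq]
  have hP₂ : q = PrimeSpectrum.comap (algebraMap A R₂) P₂ := by
    apply PrimeSpectrum.ext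
    ext x
    change algebraMap A (R₁ ⊗[A] R₂) x ∈ Q ↔
      (Algebra.TensorProduct.includeRight : R₂ →ₐ[A] R₁ ⊗[A] R₂) (algebraMap A R₂ x) ∈ Q
    rw [AlgHom.commutes]
  have hq₁ : Q.comap (algebraMap A (R₁ ⊗[A] R₂)) = q.asIdeal := rfl
  -- fields
  let φ₀ : q.asIdeal.ResidueField →ₐ[A] P₁.asIdeal.ResidueField :=
    Ideal.ResidueField.mapₐ q.asIdeal P₁.asIdeal (Algebra.ofId _ _)
      (congrArg PrimeSpectrum.asIdeal hP₁)
  let _ : Algebra q.asIdeal.ResidueField P₁.asIdeal.ResidueField := φ₀.toRingHom.toAlgebra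
  have htow : IsScalarTower A q.asIdeal.ResidueField P₁.asIdeal.ResidueField :=
    IsScalarTower.of_algebraMap_eq fun x => (φ₀.commutes x).symm
  obtain ⟨φ, hφflat, hφ⟩ := exists_flat_map A R₁ R₂ q.asIdeal.ResidueField
    P₁.asIdeal.ResidueField
  let _ : Algebra (q.asIdeal.Fiber R₂) (P₁.asIdeal.Fiber (R₁ ⊗[A] R₂)) := φ.toAlgebra
  have : Module.Flat (q.asIdeal.Fiber R₂) (P₁.asIdeal.Fiber (R₁ ⊗[A] R₂)) := hφflat
  have : Algebra.HasGoingDown (q.asIdeal.Fiber R₂) (P₁.asIdeal.Fiber (R₁ ⊗[A] R₂)) :=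
    Algebra.HasGoingDown.of_flat
  have hF : IsNoetherianRing (q.asIdeal.Fiber R₂) := isNoetherianRing_fiber q.asIdeal
  have hG : IsNoetherianRing (P₁.asIdeal.Fiber (R₁ ⊗[A] R₂)) := isNoetherianRing_fiber P₁.asIdeal
  have m₂ : P₂ ∈ PrimeSpectrum.comap (algebraMap A R₂) ⁻¹' {q} := hP₂.symm
  have m₁ : (⟨Q, inferInstance⟩ : PrimeSpectrum (R₁ ⊗[A] R₂)) ∈
      PrimeSpectrum.comap (algebraMap R₁ (R₁ ⊗[A] R₂)) ⁻¹' {P₁} := rfl
  let PF := PrimeSpectrum.preimageOrderIsoFiber A R₂ q ⟨P₂, m₂⟩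
  let QG := PrimeSpectrum.preimageOrderIsoFiber R₁ (R₁ ⊗[A] R₂) P₁ ⟨_, m₁⟩
  have hcom : PrimeSpectrum.comap φ QG = PF := by
    apply (PrimeSpectrum.preimageOrderIsoFiber A R₂ q).symm.injective
    rw [OrderIso.symm_apply_apply]
    apply Subtype.ext
    apply PrimeSpectrum.ext
    ext r
    have h1 : r ∈ (((PrimeSpectrum.preimageOrderIsoFiber A R₂ q).symm
        (PrimeSpectrum.comap φ QG)).1).asIdeal ↔ φ (1 ⊗ₜ r) ∈ QG.asIdeal := by
      rfl
    have h2 : ((PrimeSpectrum.preimageOrderIsoFiber R₁ (R₁ ⊗[A] R₂) P₁).symm QG) = ⟨_, m₁⟩ :=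
      OrderIso.symm_apply_apply _ _
    have h3 : ∀ x : R₁ ⊗[A] R₂, x ∈ Q ↔ ((1 : P₁.asIdeal.ResidueField) ⊗ₜ x) ∈ QG.asIdeal := by
      intro x
      have h4 : x ∈ (((PrimeSpectrum.preimageOrderIsoFiber R₁ (R₁ ⊗[A] R₂) P₁).symm QG).1).asIdeal
          ↔ ((1 : P₁.asIdeal.ResidueField) ⊗ₜ x) ∈ QG.asIdeal := by
        rfl
      rw [h2] at h4
      exact h4
    rw [h1, hφ, ← h3]
    rfl
  have i1 : P₂.asIdeal.LiesOver q.asIdeal := ⟨congrArg PrimeSpectrum.asIdeal hP₂⟩
  have i2 : Q.LiesOver P₁.asIdeal := ⟨rfl⟩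
  have i3 : QG.asIdeal.LiesOver PF.asIdeal := ⟨(congrArg PrimeSpectrum.asIdeal hcom).symm⟩
  have h1 := Ideal.height_le_height_add_of_liesOver q.asIdeal P₂.asIdeal
  have h2 := Ideal.height_eq_height_add_of_liesOver_of_hasGoingDown PF.asIdeal QG.asIdeal
  have hflat1 : Module.Flat R₁ (R₁ ⊗[A] R₂) := inferInstance
  have hgd1 : Algebra.HasGoingDown R₁ (R₁ ⊗[A] R₂) := Algebra.HasGoingDown.of_flat
  have h3 := Ideal.height_eq_height_add_of_liesOver_of_hasGoingDown P₁.asIdeal Q
  have h4 := height_quot_eq_fiber q P₂ m₂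
  have h5 := height_quot_eq_fiber P₁ ⟨Q, inferInstance⟩ m₁
  have h6 : PF.asIdeal.height ≤ QG.asIdeal.height := by
    rw [h2]
    exact le_self_add
  change P₁.asIdeal.height + P₂.asIdeal.height ≤ Q.height + q.asIdeal.height
  rw [h4] at h1
  rw [h3]
  change (Q.map _).height = QG.asIdeal.height at h5
  rw [h5]
  calc P₁.asIdeal.height + P₂.asIdeal.height ≤
      P₁.asIdeal.height + (q.asIdeal.height + PF.asIdeal.height) := by gcongr
    _ ≤ P₁.asIdeal.height + (q.asIdeal.height + QG.asIdeal.height) := by gcongr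
    _ = _ := by ring

end

end Vale.Agent.P177
end
end

section

section

/-!
Heights of primes in polynomial rings: elimination of variables.
-/

namespace Vale.Agent.P177

section step

variable {Γ : Type*} [CommRing Γ] [IsNoetherianRing Γ]

theorem height_comap_le_of_flat {R S : Type*} [CommRing R] [CommRing S] [IsNoetherianRing R]
    [IsNoetherianRing S] [Algebra R S] [Module.Flat R S] (P : Ideal S) [P.IsPrime] :
    (P.comap (algebraMap R S)).height ≤ P.height := by
  have : Algebra.HasGoingDown R S := Algebra.HasGoingDown.of_flat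
  have : P.LiesOver (P.comap (algebraMap R S)) := ⟨rfl⟩
  rw [Ideal.height_eq_height_add_of_liesOver_of_hasGoingDown (P.comap (algebraMap R S)) P]
  exact le_self_add

theorem elim_step (P : Ideal (Polynomial Γ)) [P.IsPrime] (c u : Γ)
    (hcu : Polynomial.C c - Polynomial.C u * Polynomial.X ∈ P) (hu : Polynomial.C u ∉ P) :
    (P.comap Polynomial.C).height + 1 ≤ P.height := by
  set p := P.comap Polynomial.C with hp
  have hpp : p.IsPrime := Ideal.IsPrime.comap _
  have hmp : (p.map Polynomial.C).IsPrime := Ideal.isPrime_map_C_of_isPrime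
  have hle : p.map Polynomial.C ≤ P := Ideal.map_comap_le
  have hcomap : (p.map Polynomial.C).comap Polynomial.C = p := by
    apply le_antisymm
    · exact (Ideal.comap_mono hle).trans hp.ge
    · exact Ideal.le_comap_map
  have hlt : p.map Polynomial.C < P := by
    refine lt_of_le_of_ne hle ?_
    intro h
    rw [← h] at hcu
    have h1 := Ideal.mem_map_C_iff.1 hcu 1
    simp only [Polynomial.coeff_sub, Polynomial.coeff_C_mul, Polynomial.coeff_X_one, mul_one,
      Polynomial.coeff_C_succ, zero_sub, neg_mem_iff] at h1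
    exact hu h1
  have h2 := Ideal.height_add_one_le_of_lt_of_isPrime hlt
  have h3 : p.height ≤ (p.map Polynomial.C).height := by
    have h4 := height_comap_le_of_flat (R := Γ) (S := Polynomial Γ) (p.map Polynomial.C)
    change ((p.map Polynomial.C).comap Polynomial.C).height ≤ _ at h4
    rwa [hcomap] at h4
  exact (add_le_add_left h3 1).trans h2

theorem elim_fin (n : ℕ) (Q : Ideal (MvPolynomial (Fin n) Γ)) [Q.IsPrime] (c : Fin n → Γ) (u : Γ)
    (hu : MvPolynomial.C u ∉ Q)
    (hc : ∀ i, MvPolynomial.C (c i) - MvPolynomial.C u * MvPolynomial.X i ∈ Q) :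
    (Q.comap MvPolynomial.C).height + n ≤ Q.height := by
  induction n with
  | zero =>
    have h := height_comap_le_of_flat (R := Γ) (S := MvPolynomial (Fin 0) Γ) Q
    simpa using h
  | succ n ih =>
    let e := MvPolynomial.finSuccEquiv Γ n
    let Q' : Ideal (Polynomial (MvPolynomial (Fin n) Γ)) := Q.comap (e.symm : _ →+* _)
    have hQ' : Q'.IsPrime := Ideal.IsPrime.comap _
    have hmem : ∀ x, e x ∈ Q' ↔ x ∈ Q := by
      intro x
      change e.symm (e x) ∈ Q ↔ _
      rw [AlgEquiv.symm_apply_apply]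
    have hht : Q'.height = Q.height := RingEquiv.height_comap e.symm.toRingEquiv Q
    have hP : (Q'.comap Polynomial.C).IsPrime := Ideal.IsPrime.comap _
    have h1 := elim_step Q' (MvPolynomial.C (c 0)) (MvPolynomial.C u) (by
      have := (hmem _).2 (hc 0)
      simpa [e, MvPolynomial.finSuccEquiv_apply] using this) (by
      intro h
      apply hu
      rw [← hmem]
      simpa [e, MvPolynomial.finSuccEquiv_apply] using h)
    have h2 := ih (Q'.comap Polynomial.C) (fun i => c i.succ) (by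
      intro h
      apply hu
      rw [← hmem]
      rw [Ideal.mem_comap] at h
      simpa [e, MvPolynomial.finSuccEquiv_apply] using h) (by
      intro i
      rw [Ideal.mem_comap]
      have := (hmem _).2 (hc i.succ)
      simpa [e, MvPolynomial.finSuccEquiv_apply] using this)
    have h3 : (Q'.comap Polynomial.C).comap MvPolynomial.C = Q.comap MvPolynomial.C := by
      ext x
      change Polynomial.C (MvPolynomial.C x) ∈ Q' ↔ MvPolynomial.C x ∈ Q
      have hx : e (MvPolynomial.C x) = Polynomial.C (MvPolynomial.C x) := by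
        simp [e, MvPolynomial.finSuccEquiv_apply]
      rw [← hx, hmem]
    rw [h3] at h2
    rw [← hht]
    push_cast
    rw [← add_assoc]
    exact (add_le_add_left h2 1).trans h1

theorem elim_fintype {ι : Type*} [Fintype ι] (Q : Ideal (MvPolynomial ι Γ)) [Q.IsPrime]
    (c : ι → Γ) (u : Γ) (hu : MvPolynomial.C u ∉ Q)
    (hc : ∀ i, MvPolynomial.C (c i) - MvPolynomial.C u * MvPolynomial.X i ∈ Q) :
    (Q.comap MvPolynomial.C).height + Fintype.card ι ≤ Q.height := by
  let e := MvPolynomial.renameEquiv Γ (Fintype.equivFin ι)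
  let Q' : Ideal (MvPolynomial (Fin (Fintype.card ι)) Γ) := Q.comap (e.symm : _ →+* _)
  have hQ' : Q'.IsPrime := Ideal.IsPrime.comap _
  have hmem : ∀ x, e x ∈ Q' ↔ x ∈ Q := by
    intro x
    change e.symm (e x) ∈ Q ↔ _
    rw [AlgEquiv.symm_apply_apply]
  have hht : Q'.height = Q.height := RingEquiv.height_comap e.symm.toRingEquiv Q
  have hC : ∀ x, e (MvPolynomial.C x) = MvPolynomial.C x := fun x => by
    simp [e]
  have hX : ∀ i, e (MvPolynomial.X i) = MvPolynomial.X (Fintype.equivFin ι i) := fun i => by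
    simp [e]
  have h := elim_fin (Fintype.card ι) Q' (fun i => c ((Fintype.equivFin ι).symm i)) u (by
    rwa [← hC, hmem]) (by
    intro i
    have := (hmem _).2 (hc ((Fintype.equivFin ι).symm i))
    rw [map_sub, map_mul, hC, hC, hX, Equiv.apply_symm_apply] at this
    exact this)
  have h3 : Q'.comap MvPolynomial.C = Q.comap MvPolynomial.C := by
    ext x
    change MvPolynomial.C x ∈ Q' ↔ MvPolynomial.C x ∈ Q
    rw [← hC, hmem]
  rwa [h3, hht] at h

/-- Elimination of the variables in `s`. -/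
theorem elim_supported {ι : Type*} [Fintype ι] [DecidableEq ι] (s : Finset ι)
    (Q : Ideal (MvPolynomial ι Γ)) [Q.IsPrime]
    (c : ι → MvPolynomial ι Γ) (u : Γ) (hcs : ∀ i ∈ s, c i ∈ MvPolynomial.supported Γ (sᶜ : Set ι))
    (hu : MvPolynomial.C u ∉ Q)
    (hc : ∀ i ∈ s, c i - MvPolynomial.C u * MvPolynomial.X i ∈ Q) :
    (Q.comap MvPolynomial.C).height + s.card ≤ Q.height := by
  classical
  let e₁ := MvPolynomial.renameEquiv Γ (Equiv.sumCompl (fun x => x ∈ s)).symm
  let e₂ := MvPolynomial.sumRingEquiv Γ {x // x ∈ s} {x // ¬ x ∈ s}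
  let e : MvPolynomial ι Γ ≃+* MvPolynomial {x // x ∈ s} (MvPolynomial {x // ¬ x ∈ s} Γ) :=
    e₁.toRingEquiv.trans e₂
  have he : ∀ x, e x = e₂ (e₁ x) := fun x => rfl
  let Q' : Ideal (MvPolynomial {x // x ∈ s} (MvPolynomial {x // ¬ x ∈ s} Γ)) :=
    Q.comap (e.symm : _ →+* _)
  have hQ' : Q'.IsPrime := Ideal.IsPrime.comap _
  have hmem : ∀ x, e x ∈ Q' ↔ x ∈ Q := by
    intro x
    change e.symm (e x) ∈ Q ↔ _
    rw [RingEquiv.symm_apply_apply]
  have hht : Q'.height = Q.height := RingEquiv.height_comap e.symm Q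
  have hC : ∀ x, e (MvPolynomial.C x) = MvPolynomial.C (MvPolynomial.C x) := fun x => by
    rw [he]
    simp [e₁, e₂]
  have hX : ∀ i : {x // x ∈ s}, e (MvPolynomial.X i.1) = MvPolynomial.X i := fun i => by
    rw [he]
    have : e₁ (MvPolynomial.X i.1) = MvPolynomial.X (Sum.inl i) := by
      simp [e₁, Equiv.sumCompl_symm_apply_of_pos i.2]
    rw [this]
    simp [e₂]
  have hX' : ∀ i : {x // ¬ x ∈ s}, e (MvPolynomial.X i.1) =
      MvPolynomial.C (MvPolynomial.X i) := fun i => by
    rw [he]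
    have : e₁ (MvPolynomial.X i.1) = MvPolynomial.X (Sum.inr i) := by
      simp [e₁, Equiv.sumCompl_symm_apply_of_neg i.2]
    rw [this]
    simp [e₂]
  have hsupp : ∀ i : {x // x ∈ s}, ∃ c' : MvPolynomial {x // ¬ x ∈ s} Γ,
      e (c i.1) = MvPolynomial.C c' := by
    intro i
    have h1 := hcs i.1 i.2
    rw [MvPolynomial.supported] at h1
    refine Algebra.adjoin_induction (p := fun y _ => ∃ c' : MvPolynomial {x // ¬ x ∈ s} Γ,
      e y = MvPolynomial.C c') ?_ ?_ ?_ ?_ h1
    · rintro _ ⟨j, hj, rfl⟩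
      exact ⟨MvPolynomial.X ⟨j, by simpa using hj⟩, hX' ⟨j, by simpa using hj⟩⟩
    · intro r
      exact ⟨MvPolynomial.C r, hC r⟩
    · rintro x y - - ⟨cx, hx⟩ ⟨cy, hy⟩
      exact ⟨cx + cy, by rw [map_add, hx, hy, map_add]⟩
    · rintro x y - - ⟨cx, hx⟩ ⟨cy, hy⟩
      exact ⟨cx * cy, by rw [map_mul, hx, hy, map_mul]⟩
  choose c' hc' using hsupp
  have h := elim_fintype Q' c' (MvPolynomial.C u) (by
    rwa [← hC, hmem]) (by
    intro i
    have := (hmem _).2 (hc i.1 i.2)
    rw [map_sub, map_mul, hc', hC, hX] at this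
    exact this)
  have hP : (Q'.comap MvPolynomial.C).IsPrime := Ideal.IsPrime.comap _
  have h2 := height_comap_le_of_flat (R := Γ) (S := MvPolynomial {x // ¬ x ∈ s} Γ)
    (Q'.comap MvPolynomial.C)
  have h3 : (Q'.comap MvPolynomial.C).comap (algebraMap Γ (MvPolynomial {x // ¬ x ∈ s} Γ)) =
      Q.comap MvPolynomial.C := by
    ext x
    change MvPolynomial.C (MvPolynomial.C x) ∈ Q' ↔ MvPolynomial.C x ∈ Q
    rw [← hC, hmem]
  rw [h3] at h2
  rw [hht, Fintype.card_coe] at h
  exact (add_le_add_left h2 _).trans h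

end step

end Vale.Agent.P177
end
end

section

section

/-!
The elements `h_i - ∑_l (A_il - A_li) u_l` and elimination of `d - 1` variables.
-/

namespace Vale.Agent.P177

open MvPolynomial

variable {Γ : Type*} [CommRing Γ] {d : ℕ}

/-- The elements `h_i - ∑_l (A_il - A_li) u_l`. -/
noncomputable def altElt (h u : Fin d → Γ) (i : Fin d) : MvPolynomial (Fin d × Fin d) Γ :=
  C (h i) - ∑ l, (X (i, l) - X (l, i)) * C (u l)

theorem sum_alt_eq_zero {S : Type*} [CommRing S] (A : Fin d × Fin d → S) (u : Fin d → S) :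
    ∑ i, u i * ∑ l, (A (i, l) - A (l, i)) * u l = 0 := by
  have h1 : ∑ i, u i * ∑ l, (A (i, l) - A (l, i)) * u l =
      ∑ i, ∑ l, A (i, l) * u i * u l - ∑ i, ∑ l, A (l, i) * u i * u l := by
    rw [← Finset.sum_sub_distrib]
    refine Finset.sum_congr rfl fun i _ => ?_
    rw [Finset.mul_sum, ← Finset.sum_sub_distrib]
    refine Finset.sum_congr rfl fun l _ => ?_
    ring
  rw [h1, sub_eq_zero]
  rw [Finset.sum_comm]
  refine Finset.sum_congr rfl fun i _ => Finset.sum_congr rfl fun l _ => ?_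
  ring

theorem elim_main [IsNoetherianRing Γ] (h u : Fin d → Γ)
    (Q : Ideal (MvPolynomial (Fin d × Fin d) Γ)) [Q.IsPrime] (hE : ∀ i, altElt h u i ∈ Q)
    (j : Fin d) (hj : C (u j) ∉ Q) : (Q.comap C).height + d ≤ Q.height + 1 := by
  classical
  let s : Finset (Fin d × Fin d) := (Finset.univ.erase j).image (fun i => (i, j))
  have hs : ∀ p, p ∈ s ↔ p.1 ≠ j ∧ p.2 = j := by
    rintro ⟨a, b⟩
    simp only [s, Finset.mem_image, Finset.mem_erase, Finset.mem_univ, and_true, Prod.mk.injEq]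
    constructor
    · rintro ⟨i, hi, rfl, rfl⟩
      exact ⟨hi, rfl⟩
    · rintro ⟨ha, rfl⟩
      exact ⟨a, ha, rfl, rfl⟩
  have hcard : s.card + 1 = d := by
    rw [Finset.card_image_of_injective _ (fun a b hab => (Prod.mk.inj hab).1),
      Finset.card_erase_of_mem (Finset.mem_univ j), Finset.card_univ, Fintype.card_fin]
    have := j.pos
    omega
  have hX : ∀ p, p ∉ s → (X p : MvPolynomial (Fin d × Fin d) Γ) ∈
      supported Γ (sᶜ : Set (Fin d × Fin d)) := by
    intro p hp
    exact Algebra.subset_adjoin ⟨p, by simpa using hp, rfl⟩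
  have hC : ∀ a : Γ, (C a : MvPolynomial (Fin d × Fin d) Γ) ∈
      supported Γ (sᶜ : Set (Fin d × Fin d)) := fun a => Subalgebra.algebraMap_mem _ a
  have h1 := elim_supported s Q (fun p => altElt h u p.1 + C (u j) * X p) (u j) (by
    intro p hp
    obtain ⟨h1, h2⟩ := (hs p).1 hp
    obtain ⟨i, j'⟩ := p
    simp only at h1 h2
    subst h2
    have h3 : altElt h u i + C (u j') * X (i, j') =
        C (h i) - ∑ l ∈ Finset.univ.erase j', (X (i, l) - X (l, i)) * C (u l) +
          X (j', i) * C (u j') := by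
      rw [altElt, ← Finset.add_sum_erase Finset.univ _ (Finset.mem_univ j')]
      ring
    simp only
    rw [h3]
    refine Subalgebra.add_mem _ (Subalgebra.sub_mem _ (hC _) (Subalgebra.sum_mem _ ?_))
      (Subalgebra.mul_mem _ (hX _ ?_) (hC _))
    · intro l hl
      refine Subalgebra.mul_mem _ (Subalgebra.sub_mem _ (hX _ ?_) (hX _ ?_)) (hC _)
      · rw [hs]
        rintro ⟨-, h⟩
        exact (Finset.mem_erase.1 hl).1 h
      · rw [hs]
        rintro ⟨-, h⟩
        exact h1 h
    · rw [hs]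
      rintro ⟨-, h⟩
      exact h1 h) hj (by
    intro p hp
    rw [add_sub_cancel_right]
    exact hE p.1)
  calc (Q.comap C).height + d = ((Q.comap C).height + s.card) + 1 := by
        rw [add_assoc]
        congr 1
        exact_mod_cast hcard.symm
    _ ≤ Q.height + 1 := add_le_add_left h1 1

end Vale.Agent.P177
end
end

section

section

/-!
Quotients of the localization of a polynomial ring over a local ring at the origin.
-/

namespace Vale.Agent.P177

open TensorProduct IsLocalRing MvPolynomial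

universe u

theorem sub_C_constantCoeff_mem {ι : Type*} {Γ : Type*} [CommRing Γ] (p : MvPolynomial ι Γ) :
    p - C (constantCoeff p) ∈ Ideal.span (Set.range (X : ι → MvPolynomial ι Γ)) := by
  induction p using MvPolynomial.induction_on with
  | C a => simp
  | add p q hp hq =>
    have := Ideal.add_mem _ hp hq
    rw [map_add, map_add]
    convert this using 1
    ring
  | mul_X p i _ =>
    rw [map_mul, constantCoeff_X, mul_zero, map_zero, sub_zero]
    exact Ideal.mul_mem_left _ _ (Ideal.subset_span ⟨i, rfl⟩)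

theorem comap_constantCoeff_eq {ι : Type*} {Γ : Type*} [CommRing Γ] (I : Ideal Γ) :
    I.comap (constantCoeff : MvPolynomial ι Γ →+* Γ) =
      I.map C ⊔ Ideal.span (Set.range (X : ι → MvPolynomial ι Γ)) := by
  apply le_antisymm
  · intro p hp
    rw [Ideal.mem_comap] at hp
    have h1 := Ideal.add_mem _ (Ideal.mem_sup_right (sub_C_constantCoeff_mem p))
      (Ideal.mem_sup_left (Ideal.mem_map_of_mem (C : Γ →+* MvPolynomial ι Γ) hp))
    rwa [sub_add_cancel] at h1
  · refine sup_le ?_ ?_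
    · rw [Ideal.map_le_iff_le_comap]
      intro a ha
      rw [Ideal.mem_comap, Ideal.mem_comap, constantCoeff_C]
      exact ha
    · rw [Ideal.span_le]
      rintro _ ⟨i, rfl⟩
      rw [SetLike.mem_coe, Ideal.mem_comap, constantCoeff_X]
      exact I.zero_mem

theorem exists_local_quotient {Γ : Type u} [CommRing Γ] [IsLocalRing Γ] [IsNoetherianRing Γ]
    (ι : Type) [Fintype ι] (g : ℕ) (hg : ringKrullDim Γ = (g : WithBot ℕ∞)) (n : ℕ)
    (E : Fin n → MvPolynomial ι Γ) (hE : ∀ i, constantCoeff (E i) ∈ maximalIdeal Γ) :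
    ∃ (T : Type u) (_ : CommRing T) (_ : IsLocalRing T) (_ : IsNoetherianRing T)
      (f : MvPolynomial ι Γ →+* T),
      (∀ i, f (E i) = 0) ∧
      maximalIdeal T = (maximalIdeal Γ).map (f.comp C) ⊔
        Ideal.span (Set.range (fun i => f (X i))) ∧
      ((g + Fintype.card ι : ℕ) : WithBot ℕ∞) ≤ ringKrullDim T + n ∧
      (∀ Q : Ideal T, Q.IsPrime → (Q.comap f).height ≤ Q.height + n) ∧
      (∀ (R' : Type u) [CommRing R'] (φ : MvPolynomial ι Γ →+* R'), (∀ i, φ (E i) = 0) →
        (∀ p, constantCoeff p ∉ maximalIdeal Γ → IsUnit (φ p)) →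
        ∃ ν : T →+* R', ν.comp f = φ) := by
  classical
  let P := MvPolynomial ι Γ
  let 𝔐 : Ideal P := (maximalIdeal Γ).comap constantCoeff
  have hM : 𝔐.IsPrime := Ideal.IsPrime.comap _
  let S := Localization.AtPrime 𝔐
  have hSN : IsNoetherianRing S := IsLocalization.isNoetherianRing 𝔐.primeCompl S inferInstance
  have hms : maximalIdeal S = 𝔐.map (algebraMap P S) :=
    (IsLocalization.AtPrime.map_eq_maximalIdeal 𝔐 S).symm
  let s : Finset S := Finset.univ.image (fun i => algebraMap P S (E i))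
  have hcard : s.card ≤ n := by
    refine Finset.card_image_le.trans ?_
    simp
  let J : Ideal S := Ideal.span (s : Set S)
  have hsm : (s : Set S) ⊆ maximalIdeal S := by
    intro y hy
    simp only [s, Finset.coe_image, Finset.coe_univ, Set.image_univ, Set.mem_range] at hy
    obtain ⟨i, rfl⟩ := hy
    rw [hms]
    exact Ideal.mem_map_of_mem _ (hE i)
  have hJ : J ≤ maximalIdeal S := Ideal.span_le.2 hsm
  have hJtop : J ≠ ⊤ := fun h => (maximalIdeal.isMaximal S).ne_top (top_le_iff.1 (h ▸ hJ))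
  have hnt : Nontrivial (S ⧸ J) := Ideal.Quotient.nontrivial_iff.2 hJtop
  have hloc : IsLocalRing (S ⧸ J) :=
    .of_surjective' (Ideal.Quotient.mk J) Ideal.Quotient.mk_surjective
  let f : P →+* S ⧸ J := (Ideal.Quotient.mk J).comp (algebraMap P S)
  refine ⟨S ⧸ J, inferInstance, hloc, inferInstance, f, ?_, ?_, ?_, ?_, ?_⟩
  · intro i
    apply Ideal.Quotient.eq_zero_iff_mem.2
    apply Ideal.subset_span
    simp only [s, Finset.coe_image, Finset.coe_univ, Set.image_univ]
    exact ⟨i, rfl⟩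
  · have hmT : (maximalIdeal S).map (Ideal.Quotient.mk J) = maximalIdeal (S ⧸ J) :=
      map_maximalIdeal_of_surjective _ Ideal.Quotient.mk_surjective
    rw [← hmT, hms, Ideal.map_map]
    change Ideal.map f 𝔐 = _
    have h1 : Ideal.map f 𝔐 = Ideal.map f ((maximalIdeal Γ).map C ⊔
        Ideal.span (Set.range (X : ι → MvPolynomial ι Γ))) :=
      congrArg (Ideal.map f) (comap_constantCoeff_eq (maximalIdeal Γ))
    rw [h1, Ideal.map_sup, Ideal.map_map, Ideal.map_span, ← Set.range_comp]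
    rfl
  · have h1 : ((g + Fintype.card ι : ℕ) : ℕ∞) ≤ 𝔐.height := by
      have h2 := elim_fintype 𝔐 (fun _ => 0) 1 (by
        change constantCoeff (C 1) ∉ maximalIdeal Γ
        rw [constantCoeff_C]
        exact (Ideal.ne_top_iff_one _).1 (maximalIdeal.isMaximal Γ).ne_top) (fun i => by
        change constantCoeff (C 0 - C 1 * X i) ∈ maximalIdeal Γ
        simp)
      have h3 : 𝔐.comap C = maximalIdeal Γ := by
        ext a
        change constantCoeff (C a) ∈ maximalIdeal Γ ↔ _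
        rw [constantCoeff_C]
      rw [h3] at h2
      have h4 : ((maximalIdeal Γ).height : WithBot ℕ∞) = (g : WithBot ℕ∞) := by
        rw [IsLocalRing.maximalIdeal_height_eq_ringKrullDim, hg]
      have h5 : (maximalIdeal Γ).height = (g : ℕ∞) := by exact_mod_cast h4
      rw [h5] at h2
      exact_mod_cast h2
    have h2 : ringKrullDim S = 𝔐.height := IsLocalization.AtPrime.ringKrullDim_eq_height 𝔐 S
    have h3 := ringKrullDim_le_ringKrullDim_quotient_add_card s (by
      rw [IsLocalRing.ringJacobson_eq_maximalIdeal]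
      exact hsm)
    rw [h2] at h3
    calc ((g + Fintype.card ι : ℕ) : WithBot ℕ∞) ≤ (𝔐.height : WithBot ℕ∞) := by
          exact_mod_cast h1
      _ ≤ ringKrullDim (S ⧸ J) + s.card := h3
      _ ≤ ringKrullDim (S ⧸ J) + n := by
          gcongr
  · intro Q hQ
    have hQS : (Q.comap (Ideal.Quotient.mk J)).IsPrime := Ideal.IsPrime.comap _
    have h1 := Ideal.height_le_height_add_encard_of_subset (s : Set S)
      (p := Q.comap (Ideal.Quotient.mk J)) (by
        intro y hy
        rw [SetLike.mem_coe, Ideal.mem_comap, Ideal.Quotient.eq_zero_iff_mem.2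
          (Ideal.subset_span hy)]
        exact Q.zero_mem)
    have h2 : (Q.comap (Ideal.Quotient.mk J)).map (Ideal.Quotient.mk J) = Q :=
      Ideal.map_comap_of_surjective _ Ideal.Quotient.mk_surjective _
    have h3 : ((Q.comap (Ideal.Quotient.mk J)).under P).height =
        (Q.comap (Ideal.Quotient.mk J)).height :=
      IsLocalization.height_under 𝔐.primeCompl _
    have h4 : (Q.comap (Ideal.Quotient.mk J)).under P = Q.comap f := rfl
    rw [← h4, h3]
    refine h1.trans ?_
    have h5 : (s : Set S).encard ≤ n := by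
      rw [Set.encard_coe_eq_coe_finsetCard]
      exact_mod_cast hcard
    change ((Q.comap (Ideal.Quotient.mk J)).map (Ideal.Quotient.mk J)).height + _ ≤ _
    rw [h2]
    exact add_le_add_right h5 _
  · intro R' _ φ hφ hu
    let ψ : S →+* R' := IsLocalization.lift (M := 𝔐.primeCompl) (g := φ) (fun y => hu y.1 y.2)
    have hψ : ∀ p, ψ (algebraMap P S p) = φ p := fun p => IsLocalization.lift_eq _ p
    have hJψ : ∀ a ∈ J, ψ a = 0 := by
      intro a ha
      have h1 : J ≤ RingHom.ker ψ := by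
        rw [Ideal.span_le]
        intro y hy
        simp only [s, Finset.coe_image, Finset.coe_univ, Set.image_univ, Set.mem_range] at hy
        obtain ⟨i, rfl⟩ := hy
        rw [SetLike.mem_coe, RingHom.mem_ker, hψ, hφ]
      exact h1 ha
    refine ⟨Ideal.Quotient.lift J ψ hJψ, ?_⟩
    apply RingHom.ext
    intro p
    change Ideal.Quotient.lift J ψ hJψ (Ideal.Quotient.mk J (algebraMap P S p)) = φ p
    rw [Ideal.Quotient.lift_mk, hψ]

end Vale.Agent.P177
end
end

section

section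

/-!
Stable filtrations and strict free covers.
-/

namespace Vale.Agent.P177

open IsLocalRing Function Pointwise

universe u

section fil

variable {A : Type*} [CommRing A] (I : Ideal A)

/-- A stable filtration starting with the whole module. -/
structure GoodFil {M : Type*} [AddCommGroup M] [Module A M] (F : ℕ → Submodule A M) : Prop where
  top : F 0 = ⊤
  anti : ∀ n, F (n + 1) ≤ F n
  smul : ∀ n, I • F n ≤ F (n + 1)
  stable : ∃ n₀, ∀ n, n₀ ≤ n → I • F n = F (n + 1)

variable {I}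
variable {M N : Type*} [AddCommGroup M] [Module A M] [AddCommGroup N] [Module A N]
  {F : ℕ → Submodule A M} {G : ℕ → Submodule A N}

theorem GoodFil.antitone (hF : GoodFil I F) : Antitone F := antitone_nat_of_succ_le hF.anti

theorem GoodFil.pow_smul (hF : GoodFil I F) (k n : ℕ) : I ^ k • F n ≤ F (n + k) := by
  induction k with
  | zero => simp
  | succ k ih =>
    rw [pow_succ', mul_smul]
    exact (smul_mono_right I ih).trans (hF.smul _)

theorem GoodFil.smul_mem (hF : GoodFil I F) {k n : ℕ} {c : A} {m : M} (hc : c ∈ I ^ k)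
    (hm : m ∈ F n) : c • m ∈ F (n + k) :=
  hF.pow_smul k n (Submodule.smul_mem_smul hc hm)

/-- The underlying filtration in the sense of Mathlib. -/
def GoodFil.toFiltration (hF : GoodFil I F) : I.Filtration M where
  N := F
  mono := hF.anti
  smul_le := hF.smul

theorem GoodFil.toFiltration_stable (hF : GoodFil I F) : hF.toFiltration.Stable := by
  obtain ⟨n₀, h⟩ := hF.stable
  exact ⟨n₀, fun n hn => h n hn⟩

variable (I M) in
theorem goodFil_pow : GoodFil I (fun n => (I ^ n • ⊤ : Submodule A M)) where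
  top := by simp
  anti n := by
    rw [pow_succ]
    exact Submodule.smul_mono_left Ideal.mul_le_left
  smul n := by rw [pow_succ', mul_smul]
  stable := ⟨0, fun n _ => by rw [pow_succ', mul_smul]⟩

variable (I) in
theorem goodFil_self : GoodFil I (fun n => (I ^ n : Ideal A)) := by
  have := goodFil_pow I A
  simpa using this

/-- The weighted filtration on a power of a module. -/
def wfil (G : ℕ → Submodule A N) {b : ℕ} (a : Fin b → ℕ) (n : ℕ) : Submodule A (Fin b → N) :=
  Submodule.pi Set.univ (fun j => G (n - a j))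

theorem mem_wfil {b : ℕ} {a : Fin b → ℕ} {n : ℕ} {f : Fin b → N} :
    f ∈ wfil G a n ↔ ∀ j, f j ∈ G (n - a j) := by
  simp [wfil, Submodule.mem_pi]

theorem GoodFil.weighted (hG : GoodFil I G) {b : ℕ} (a : Fin b → ℕ) : GoodFil I (wfil G a) where
  top := by
    ext f
    simp [mem_wfil, hG.top]
  anti n := by
    intro f hf
    rw [mem_wfil] at hf ⊢
    exact fun j => hG.antitone (by omega) (hf j)
  smul n := by
    rw [Submodule.smul_le]
    intro c hc f hf
    rw [mem_wfil] at hf ⊢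
    intro j
    have h1 := hG.smul_mem (k := 1) (by simpa using hc) (hf j)
    exact hG.antitone (by omega) h1
  stable := by
    obtain ⟨n₀, hn₀⟩ := hG.stable
    refine ⟨n₀ + ∑ j, a j, fun n hn => ?_⟩
    have haj : ∀ j, a j ≤ ∑ j, a j := fun j =>
      Finset.single_le_sum (f := a) (fun _ _ => Nat.zero_le _) (Finset.mem_univ j)
    refine le_antisymm ?_ ?_
    · rw [Submodule.smul_le]
      intro c hc f hf
      rw [mem_wfil] at hf ⊢
      intro j
      have h1 := hG.smul_mem (k := 1) (by simpa using hc) (hf j)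
      exact hG.antitone (by omega) h1
    · intro f hf
      rw [mem_wfil] at hf
      have h1 : f = ∑ j, LinearMap.single A (fun _ => N) j (f j) := by
        funext i
        simp [Finset.sum_apply, Pi.single_apply]
      rw [h1]
      refine Submodule.sum_mem _ fun j _ => ?_
      have h2 : f j ∈ I • G (n - a j) := by
        have h3 := haj j
        rw [hn₀ _ (by omega)]
        have h4 : n - a j + 1 = n + 1 - a j := by omega
        rw [h4]
        exact hf j
      have h5 : (I • G (n - a j)).map (LinearMap.single A (fun _ : Fin b => N) j) ≤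
          I • wfil G a n := by
        rw [Submodule.map_smul'']
        refine smul_mono_right I ?_
        rintro _ ⟨y, hy, rfl⟩
        rw [mem_wfil]
        intro i
        by_cases hij : i = j
        · subst hij
          simpa using hy
        · simp [Pi.single_eq_of_ne hij]
      exact h5 ⟨_, h2, rfl⟩

/-- Restriction of a stable filtration to a submodule (Artin-Rees). -/
theorem GoodFil.comap_subtype [IsNoetherianRing A] [Module.Finite A M] (hF : GoodFil I F)
    (K : Submodule A M) : GoodFil I (fun n => (F n).comap K.subtype) where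
  top := by simp [hF.top]
  anti n := Submodule.comap_mono (hF.anti n)
  smul n := by
    rw [Submodule.smul_le]
    intro c hc f hf
    exact hF.smul n (Submodule.smul_mem_smul hc hf)
  stable := by
    have h1 := hF.toFiltration_stable.inter_right (I.trivialFiltration K)
    obtain ⟨n₀, h2⟩ := h1
    refine ⟨n₀, fun n hn => ?_⟩
    apply Submodule.map_injective_of_injective K.injective_subtype
    have h3 := h2 n hn
    change I • (F n ⊓ K) = F (n + 1) ⊓ K at h3
    rw [Submodule.map_smul'', Submodule.map_comap_subtype, Submodule.map_comap_subtype,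
      inf_comm, h3, inf_comm]

/-- The linear map on a free module given by the images of the basis vectors. -/
noncomputable def lc {b : ℕ} (k : Fin b → M) : (Fin b → A) →ₗ[A] M :=
  Fintype.linearCombination A k

theorem lc_apply {b : ℕ} (k : Fin b → M) (f : Fin b → A) : lc k f = ∑ j, f j • k j :=
  Fintype.linearCombination_apply _ _ _

theorem lc_mem (hF : GoodFil I F) {b : ℕ} {a : Fin b → ℕ} {k : Fin b → M}
    (hk : ∀ j, k j ∈ F (a j)) {n : ℕ} {f : Fin b → A}
    (hf : f ∈ wfil (fun k => (I ^ k : Ideal A)) a n) : lc k f ∈ F n := by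
  rw [lc_apply]
  rw [mem_wfil] at hf
  refine Submodule.sum_mem _ fun j _ => ?_
  exact hF.antitone (by omega) (hF.smul_mem (hf j) (hk j))

/-- Existence of strict free covers. -/
theorem exists_strict_cover [IsNoetherianRing A] [Module.Finite A M] (hF : GoodFil I F) :
    ∃ (b : ℕ) (a : Fin b → ℕ) (φ : (Fin b → A) →ₗ[A] M),
      ∀ n, (wfil (fun k => (I ^ k : Ideal A)) a n).map φ = F n := by
  obtain ⟨n₀, hn₀⟩ := hF.stable
  have hfg : ∀ i : Fin (n₀ + 1), ∃ (m : ℕ) (s : Fin m → M), Submodule.span A (Set.range s) = F i :=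
    fun i => (Submodule.fg_iff_exists_fin_generating_family.1
      (IsNoetherian.noetherian (F i)))
  choose m s hs using hfg
  let e := Fintype.equivFin (Σ i : Fin (n₀ + 1), Fin (m i))
  let a : Fin (Fintype.card (Σ i : Fin (n₀ + 1), Fin (m i))) → ℕ := fun j => (e.symm j).1
  let k : Fin (Fintype.card (Σ i : Fin (n₀ + 1), Fin (m i))) → M :=
    fun j => s (e.symm j).1 (e.symm j).2
  have hk : ∀ j, k j ∈ F (a j) := fun j => by
    rw [← hs]
    exact Submodule.subset_span ⟨_, rfl⟩
  refine ⟨_, a, lc k, fun n => le_antisymm ?_ ?_⟩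
  · rintro _ ⟨f, hf, rfl⟩
    exact lc_mem hF hk hf
  · -- first the case `n ≤ n₀`
    have h1 : ∀ n, n ≤ n₀ → F n ≤ (wfil (fun k => (I ^ k : Ideal A)) a n).map (lc k) := by
      intro n hn
      have h2 := hs ⟨n, by omega⟩
      change _ = F n at h2
      rw [← h2, Submodule.span_le]
      rintro _ ⟨t, rfl⟩
      refine ⟨Pi.single (e ⟨⟨n, by omega⟩, t⟩) 1, ?_, ?_⟩
      · rw [SetLike.mem_coe, mem_wfil]
        intro j
        by_cases hj : j = e ⟨⟨n, by omega⟩, t⟩
        · subst hj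
          simp [a]
        · simp [Pi.single_eq_of_ne hj]
      · rw [lc_apply]
        rw [Finset.sum_eq_single (e ⟨⟨n, by omega⟩, t⟩)]
        · rw [Pi.single_eq_same, one_smul]
          change s (e.symm (e _)).1 (e.symm (e _)).2 = _
          rw [Equiv.symm_apply_apply]
        · intro j _ hj
          simp [Pi.single_eq_of_ne hj]
        · simp
    induction n with
    | zero => exact h1 0 (Nat.zero_le _)
    | succ n ih =>
      by_cases hn : n + 1 ≤ n₀
      · exact h1 _ hn
      · rw [← hn₀ n (by omega)]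
        refine (smul_mono_right I ih).trans ?_
        rw [← Submodule.map_smul'']
        exact Submodule.map_mono (((goodFil_self I).weighted a).smul n)

end fil

end Vale.Agent.P177
end
end

section

section

/-!
Finite strict free resolutions of filtered modules over regular local rings.
-/

namespace Vale.Agent.P177

open IsLocalRing Function Pointwise

universe u

/-- The filtered module `(M, F)` has a strict free resolution of length at most `r`. -/
def FPD {A : Type u} [CommRing A] (I : Ideal A) : ℕ → ∀ (M : Type u) [AddCommGroup M] [Module A M]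
    (_ : ℕ → Submodule A M), Prop
  | 0, M, _, _, F => ∃ (b : ℕ) (a : Fin b → ℕ) (φ : (Fin b → A) →ₗ[A] M),
      (∀ n, (wfil (fun k => (I ^ k : Ideal A)) a n).map φ = F n) ∧ LinearMap.ker φ = ⊥
  | r + 1, M, _, _, F => ∃ (b : ℕ) (a : Fin b → ℕ) (φ : (Fin b → A) →ₗ[A] M),
      (∀ n, (wfil (fun k => (I ^ k : Ideal A)) a n).map φ = F n) ∧
      FPD I r (LinearMap.ker φ)
        (fun n => (wfil (fun k => (I ^ k : Ideal A)) a n).comap (LinearMap.ker φ).subtype)

section lift

variable {A A' : Type u} [CommRing A] [IsLocalRing A] [IsNoetherianRing A] [CommRing A']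
  [Algebra A A'] (hq : Surjective (algebraMap A A')) (x : A)
  (hker : RingHom.ker (algebraMap A A') = Ideal.span {x}) (hxm : x ∈ maximalIdeal A)
  (I : Ideal A) (hxI : x ∈ I) (hxreg : ∀ c, x * c = 0 → c = 0)
  (hxs : ∀ m c, x * c ∈ I ^ (m + 1) → c ∈ I ^ m)

variable {K K' : Type u} [AddCommGroup K] [Module A K] [Module.Finite A K] [AddCommGroup K']
  [Module A K'] [Module A' K'] [IsScalarTower A A' K'] (p : K →ₗ[A] K')
  (hp : Surjective p) (hpk : ∀ v, p v = 0 → ∃ w, v = x • w)
  (F : ℕ → Submodule A K) (F' : ℕ → Submodule A' K') (hF : GoodFil I F)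
  (hK0 : ∀ v : K, x • v = 0 → v = 0) (hKs : ∀ n (v : K), x • v ∈ F (n + 1) → v ∈ F n)
  (hF' : ∀ n y, y ∈ F' n ↔ ∃ v ∈ F n, p v = y)

omit [IsLocalRing A] [IsNoetherianRing A] in
include hker in
theorem exists_mul_of_map_eq_zero {b : ℕ} (f : Fin b → A) (h : ∀ j, algebraMap A A' (f j) = 0) :
    ∃ g : Fin b → A, f = x • g := by
  have h1 : ∀ j, ∃ c, f j = x * c := by
    intro j
    have : f j ∈ RingHom.ker (algebraMap A A') := h j
    rw [hker, Ideal.mem_span_singleton'] at this
    obtain ⟨c, hc⟩ := this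
    exact ⟨c, by rw [← hc, mul_comm]⟩
  choose g hg using h1
  exact ⟨g, funext fun j => hg j⟩

omit [IsLocalRing A] [IsNoetherianRing A] in
include hq in
theorem exists_lift_wfil {b : ℕ} (a : Fin b → ℕ) (n : ℕ) (f' : Fin b → A')
    (hf' : f' ∈ wfil (fun k => ((I.map (algebraMap A A')) ^ k : Ideal A')) a n) :
    ∃ f ∈ wfil (fun k => (I ^ k : Ideal A)) a n, ∀ j, algebraMap A A' (f j) = f' j := by
  rw [mem_wfil] at hf'
  have h1 : ∀ j, ∃ c ∈ I ^ (n - a j), algebraMap A A' c = f' j := by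
    intro j
    have := hf' j
    rw [← Ideal.map_pow, Ideal.mem_map_iff_of_surjective _ hq] at this
    exact this
  choose f hf hff using h1
  exact ⟨f, mem_wfil.2 hf, hff⟩

include hq hker hxm hxI hp hpk hF hKs hF' in
/-- Lifting a strict cover modulo `x`. -/
theorem lift_cover {b : ℕ} (a : Fin b → ℕ) (φ' : (Fin b → A') →ₗ[A'] K')
    (hφ' : ∀ n, (wfil (fun k => ((I.map (algebraMap A A')) ^ k : Ideal A')) a n).map φ' = F' n) :
    ∃ φ : (Fin b → A) →ₗ[A] K, (∀ n, (wfil (fun k => (I ^ k : Ideal A)) a n).map φ = F n) ∧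
      (∀ f, p (φ f) = φ' (fun j => algebraMap A A' (f j))) := by
  have h1 : ∀ j, ∃ k ∈ F (a j), p k = φ' (Pi.single j 1) := by
    intro j
    rw [← hF', ← hφ']
    refine ⟨Pi.single j 1, ?_, rfl⟩
    rw [SetLike.mem_coe, mem_wfil]
    intro i
    by_cases hij : i = j
    · subst hij
      simp
    · simp [Pi.single_eq_of_ne hij]
  choose k hk hpkj using h1
  have hcomp : ∀ f, p (lc k f) = φ' (fun j => algebraMap A A' (f j)) := by
    intro f
    rw [lc_apply, map_sum, LinearMap.pi_apply_eq_sum_univ φ']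
    refine Finset.sum_congr rfl fun j _ => ?_
    rw [map_smul, hpkj, algebraMap_smul]
    congr 2
    funext i
    rw [Pi.single_apply]
    simp only [eq_comm]
  refine ⟨lc k, ?_, hcomp⟩
  have hstep : ∀ n, ∀ v ∈ F n, ∃ f ∈ wfil (fun k => (I ^ k : Ideal A)) a n, ∃ w,
      v - lc k f = x • w := by
    intro n v hv
    have h2 : p v ∈ F' n := (hF' n _).2 ⟨v, hv, rfl⟩
    rw [← hφ'] at h2
    obtain ⟨f', hf', hf'v⟩ := h2
    obtain ⟨f, hf, hff⟩ := exists_lift_wfil hq I a n f' hf'
    refine ⟨f, hf, hpk _ ?_⟩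
    rw [map_sub, hcomp]
    have : (fun j => algebraMap A A' (f j)) = f' := funext hff
    rw [this, hf'v, sub_self]
  have hle : ∀ n, (wfil (fun k => (I ^ k : Ideal A)) a n).map (lc k) ≤ F n := by
    rintro n _ ⟨f, hf, rfl⟩
    exact lc_mem hF hk hf
  intro n
  refine le_antisymm (hle n) ?_
  induction n with
  | zero =>
    have h2 : F 0 ≤ (wfil (fun k => (I ^ k : Ideal A)) a 0).map (lc k) ⊔
        Ideal.span {x} • F 0 := by
      intro v hv
      obtain ⟨f, hf, w, hw⟩ := hstep 0 v hv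
      rw [← sub_add_cancel v (lc k f), add_comm]
      refine Submodule.add_mem_sup ⟨f, hf, rfl⟩ ?_
      rw [hw]
      exact Submodule.smul_mem_smul (Ideal.mem_span_singleton_self x) (by rw [hF.top]; trivial)
    refine Submodule.le_of_le_smul_of_le_jacobson_bot ?_ ?_ h2
    · exact IsNoetherian.noetherian _
    · rw [IsLocalRing.jacobson_eq_maximalIdeal ⊥ bot_ne_top, Ideal.span_singleton_le_iff_mem]
      exact hxm
  | succ n ih =>
    intro v hv
    obtain ⟨f, hf, w, hw⟩ := hstep (n + 1) v hv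
    have hw' : w ∈ F n := by
      apply hKs
      rw [← hw]
      exact sub_mem hv (hle _ ⟨f, hf, rfl⟩)
    obtain ⟨g, hg, rfl⟩ := ih hw'
    refine ⟨f + x • g, add_mem hf ?_, ?_⟩
    · exact ((goodFil_self I).weighted a).smul n (Submodule.smul_mem_smul hxI hg)
    · rw [map_add, map_smul, ← hw]
      abel

end lift

/-- Finite strict resolutions lift from `A/x` to `A`. -/
theorem FPD.lift {A A' : Type u} [CommRing A] [IsLocalRing A] [IsNoetherianRing A] [CommRing A']
    [Algebra A A'] (hq : Surjective (algebraMap A A')) (x : A)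
    (hker : RingHom.ker (algebraMap A A') = Ideal.span {x}) (hxm : x ∈ maximalIdeal A)
    (I : Ideal A) (hxI : x ∈ I) (hxreg : ∀ c, x * c = 0 → c = 0)
    (hxs : ∀ m c, x * c ∈ I ^ (m + 1) → c ∈ I ^ m) (r : ℕ) :
    ∀ {K K' : Type u} [AddCommGroup K] [Module A K] [Module.Finite A K] [AddCommGroup K']
      [Module A K'] [Module A' K'] [IsScalarTower A A' K'] (p : K →ₗ[A] K')
      (_ : Surjective p) (_ : ∀ v, p v = 0 → ∃ w, v = x • w)
      (F : ℕ → Submodule A K) (F' : ℕ → Submodule A' K') (_ : GoodFil I F)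
      (_ : ∀ v : K, x • v = 0 → v = 0) (_ : ∀ n (v : K), x • v ∈ F (n + 1) → v ∈ F n)
      (_ : ∀ n y, y ∈ F' n ↔ ∃ v ∈ F n, p v = y),
      FPD (I.map (algebraMap A A')) r K' F' → FPD I r K F := by
  have hq0 : algebraMap A A' x = 0 := by
    have : x ∈ RingHom.ker (algebraMap A A') := hker ▸ Ideal.mem_span_singleton_self x
    exact this
  induction r with
  | zero =>
    intro K K' _ _ _ _ _ _ _ p hp hpk F F' hF hK0 hKs hF' h
    obtain ⟨b, a, φ', hφ', hinj⟩ := h
    obtain ⟨φ, hφ, hφφ'⟩ := lift_cover hq x hker hxm I hxI p hp hpk F F' hF hKs hF' a φ' hφ'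
    refine ⟨b, a, φ, hφ, ?_⟩
    have h1 : LinearMap.ker φ ≤ Ideal.span {x} • LinearMap.ker φ := by
      intro f hf
      have h2 : φ' (fun j => algebraMap A A' (f j)) = 0 := by
        rw [← hφφ', (LinearMap.mem_ker).1 hf, map_zero]
      have h3 : (fun j => algebraMap A A' (f j)) = 0 := by
        have : (fun j => algebraMap A A' (f j)) ∈ LinearMap.ker φ' := h2
        rw [hinj] at this
        exact this
      obtain ⟨g, rfl⟩ := exists_mul_of_map_eq_zero x hker f (fun j => congrFun h3 j)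
      refine Submodule.smul_mem_smul (Ideal.mem_span_singleton_self x) ?_
      rw [LinearMap.mem_ker, map_smul] at hf
      exact hK0 _ hf
    refine Submodule.eq_bot_of_le_smul_of_le_jacobson_bot (Ideal.span {x}) _ ?_ h1 ?_
    · exact IsNoetherian.noetherian _
    · rw [IsLocalRing.jacobson_eq_maximalIdeal ⊥ bot_ne_top, Ideal.span_singleton_le_iff_mem]
      exact hxm
  | succ r ih =>
    intro K K' _ _ _ _ _ _ _ p hp hpk F F' hF hK0 hKs hF' h
    obtain ⟨b, a, φ', hφ', hrec⟩ := h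
    obtain ⟨φ, hφ, hφφ'⟩ := lift_cover hq x hker hxm I hxI p hp hpk F F' hF hKs hF' a φ' hφ'
    refine ⟨b, a, φ, hφ, ?_⟩
    -- the induced map on kernels
    let ψ : (Fin b → A) →ₗ[A] (Fin b → A') :=
      LinearMap.pi fun j => (Algebra.linearMap A A').comp (LinearMap.proj j)
    have hψ : ∀ f, ψ f = fun j => algebraMap A A' (f j) := fun f => rfl
    let p₁ : LinearMap.ker φ →ₗ[A] LinearMap.ker φ' :=
      LinearMap.codRestrict ((LinearMap.ker φ').restrictScalars A)
        (ψ.comp (LinearMap.ker φ).subtype) (fun f => by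
          change φ' (ψ f.1) = 0
          rw [hψ, ← hφφ', (LinearMap.mem_ker).1 f.2, map_zero])
    have hp₁ : ∀ f : LinearMap.ker φ, (p₁ f : Fin b → A') = fun j => algebraMap A A' (f.1 j) :=
      fun f => rfl
    have hlift : ∀ n, ∀ f' ∈ LinearMap.ker φ',
        f' ∈ wfil (fun k => ((I.map (algebraMap A A')) ^ k : Ideal A')) a n →
        ∃ f ∈ LinearMap.ker φ, f ∈ wfil (fun k => (I ^ k : Ideal A)) a n ∧
          ∀ j, algebraMap A A' (f j) = f' j := by
      intro n f' hf' hf'n
      obtain ⟨f, hf, hff⟩ := exists_lift_wfil hq I a n f' hf'n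
      have h1 : p (φ f) = 0 := by
        rw [hφφ']
        have : (fun j => algebraMap A A' (f j)) = f' := funext hff
        rw [this]
        exact hf'
      obtain ⟨w, hw⟩ := hpk _ h1
      have hfn : φ f ∈ F n := by rw [← hφ]; exact ⟨f, hf, rfl⟩
      -- `w` comes from the appropriate step of the filtration
      have h2 : ∃ g, φ g = w ∧ x • g ∈ wfil (fun k => (I ^ k : Ideal A)) a n := by
        cases n with
        | zero =>
          have hw0 : w ∈ F 0 := by rw [hF.top]; trivial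
          rw [← hφ] at hw0
          obtain ⟨g, -, hg⟩ := hw0
          refine ⟨g, hg, ?_⟩
          rw [((goodFil_self I).weighted a).top]
          trivial
        | succ n =>
          rw [hw] at hfn
          have hw0 := hKs n w hfn
          rw [← hφ] at hw0
          obtain ⟨g, hg, hgw⟩ := hw0
          exact ⟨g, hgw, ((goodFil_self I).weighted a).smul n (Submodule.smul_mem_smul hxI hg)⟩
      obtain ⟨g, hgw, hxg⟩ := h2
      refine ⟨f - x • g, ?_, sub_mem hf hxg, fun j => ?_⟩
      · rw [LinearMap.mem_ker, map_sub, map_smul, hgw, ← hw, sub_self]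
      · rw [← hff j]
        simp [hq0]
    refine ih p₁ ?_ ?_ _ _ ?_ ?_ ?_ ?_ hrec
    · rintro ⟨f', hf'⟩
      obtain ⟨f, hf, -, hff⟩ := hlift 0 f' hf' (by
        rw [((goodFil_self (I.map (algebraMap A A'))).weighted a).top]; trivial)
      exact ⟨⟨f, hf⟩, Subtype.ext (funext hff)⟩
    · rintro ⟨f, hf⟩ h0
      have h1 : ∀ j, algebraMap A A' (f j) = 0 := fun j =>
        congrFun (congrArg Subtype.val h0) j
      obtain ⟨g, rfl⟩ := exists_mul_of_map_eq_zero x hker f h1
      rw [LinearMap.mem_ker, map_smul] at hf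
      exact ⟨⟨g, hK0 _ hf⟩, rfl⟩
    · exact ((goodFil_self I).weighted a).comap_subtype _
    · rintro ⟨f, hf⟩ h0
      have h1 : x • f = 0 := congrArg Subtype.val h0
      apply Subtype.ext
      funext j
      exact hxreg _ (congrFun h1 j)
    · rintro n ⟨f, hf⟩ h0
      have h1 : x • f ∈ wfil (fun k => (I ^ k : Ideal A)) a (n + 1) := h0
      change f ∈ wfil (fun k => (I ^ k : Ideal A)) a n
      rw [mem_wfil] at h1 ⊢
      intro j
      have h2 := h1 j
      by_cases hj : a j ≤ n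
      · have h3 : n + 1 - a j = (n - a j) + 1 := by omega
        rw [h3] at h2
        exact hxs _ _ h2
      · have h3 : n - a j = 0 := by omega
        rw [h3]
        simp
    · rintro n ⟨f', hf'⟩
      constructor
      · intro h
        obtain ⟨f, hf, hfn, hff⟩ := hlift n f' hf' h
        exact ⟨⟨f, hf⟩, hfn, Subtype.ext (funext hff)⟩
      · rintro ⟨⟨f, hf⟩, hfn, hff⟩
        have h1 : f ∈ wfil (fun k => (I ^ k : Ideal A)) a n := hfn
        change f' ∈ wfil (fun k => ((I.map (algebraMap A A')) ^ k : Ideal A')) a n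
        rw [mem_wfil] at h1 ⊢
        intro j
        have h2 : f' j = algebraMap A A' (f j) := (congrFun (congrArg Subtype.val hff) j).symm
        rw [h2, ← Ideal.map_pow]
        exact Ideal.mem_map_of_mem _ (h1 j)

end Vale.Agent.P177
end
end

section

section

/-!
Relative lengths and Euler characteristics of filtered complexes.
-/

namespace Vale.Agent.P177

open Function

section rl

variable {A : Type*} [CommRing A] {C C' : Type*} [AddCommGroup C] [Module A C] [AddCommGroup C']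
  [Module A C']

/-- Length of `X / (X ⊓ Y)`. -/
noncomputable def rl (X Y : Submodule A C) : ℕ∞ := Module.length A (X ⧸ Y.submoduleOf X)

theorem rl_add {X Y Z : Submodule A C} (h1 : Z ≤ Y) (h2 : Y ≤ X) : rl X Z = rl X Y + rl Y Z := by
  unfold rl
  let f : (Y ⧸ Z.submoduleOf Y) →ₗ[A] (X ⧸ Z.submoduleOf X) :=
    Submodule.mapQ _ _ (Submodule.inclusion h2) (fun v hv => hv)
  let g : (X ⧸ Z.submoduleOf X) →ₗ[A] (X ⧸ Y.submoduleOf X) :=
    Submodule.factor (fun v hv => h1 hv)
  have hf : Injective f := by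
    rw [injective_iff_map_eq_zero]
    intro v hv
    obtain ⟨v, rfl⟩ := Submodule.mkQ_surjective _ v
    have h3 : (Submodule.Quotient.mk (Submodule.inclusion h2 v) : X ⧸ Z.submoduleOf X) = 0 := hv
    rw [Submodule.Quotient.mk_eq_zero] at h3
    exact (Submodule.Quotient.mk_eq_zero _).2 h3
  have hg : Surjective g := by
    intro v
    obtain ⟨v, rfl⟩ := Submodule.mkQ_surjective _ v
    exact ⟨Submodule.Quotient.mk v, rfl⟩
  have hfg : Exact f g := by
    intro v
    obtain ⟨v, rfl⟩ := Submodule.mkQ_surjective _ v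
    constructor
    · intro h3
      have h4 : (Submodule.Quotient.mk v : X ⧸ Y.submoduleOf X) = 0 := h3
      rw [Submodule.Quotient.mk_eq_zero] at h4
      exact ⟨Submodule.Quotient.mk ⟨v.1, h4⟩, rfl⟩
    · rintro ⟨w, hw⟩
      obtain ⟨w, rfl⟩ := Submodule.mkQ_surjective _ w
      rw [← hw]
      change (Submodule.Quotient.mk (Submodule.inclusion h2 w) : X ⧸ Y.submoduleOf X) = 0
      rw [Submodule.Quotient.mk_eq_zero]
      exact w.2
  rw [Module.length_eq_add_of_exact f g hf hg hfg, add_comm]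

theorem rl_map (f : C →ₗ[A] C') {X Y : Submodule A C} (h : Y ≤ X) :
    rl X Y = rl (LinearMap.ker f ⊓ X) (LinearMap.ker f ⊓ Y) + rl (X.map f) (Y.map f) := by
  unfold rl
  let u : ((LinearMap.ker f ⊓ X : Submodule A C) ⧸
      (LinearMap.ker f ⊓ Y).submoduleOf (LinearMap.ker f ⊓ X)) →ₗ[A] (X ⧸ Y.submoduleOf X) :=
    Submodule.mapQ _ _ (Submodule.inclusion inf_le_right) (fun v hv => hv.2)
  let g₀ : X →ₗ[A] X.map f := f.submoduleMap X
  let g : (X ⧸ Y.submoduleOf X) →ₗ[A] (X.map f ⧸ (Y.map f).submoduleOf (X.map f)) :=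
    Submodule.mapQ _ _ g₀ (fun v hv => ⟨v.1, hv, rfl⟩)
  have hu : Injective u := by
    rw [injective_iff_map_eq_zero]
    intro v hv
    obtain ⟨v, rfl⟩ := Submodule.mkQ_surjective _ v
    have h3 : (Submodule.Quotient.mk (Submodule.inclusion inf_le_right v) :
      X ⧸ Y.submoduleOf X) = 0 := hv
    rw [Submodule.Quotient.mk_eq_zero] at h3
    exact (Submodule.Quotient.mk_eq_zero _).2 ⟨v.2.1, h3⟩
  have hg : Surjective g := by
    intro v
    obtain ⟨⟨_, v, hv, rfl⟩, rfl⟩ := Submodule.mkQ_surjective _ v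
    exact ⟨Submodule.Quotient.mk ⟨v, hv⟩, rfl⟩
  have hug : Exact u g := by
    intro v
    obtain ⟨v, rfl⟩ := Submodule.mkQ_surjective _ v
    constructor
    · intro h3
      have h4 : (Submodule.Quotient.mk (g₀ v) : X.map f ⧸ (Y.map f).submoduleOf (X.map f)) = 0 := h3
      rw [Submodule.Quotient.mk_eq_zero] at h4
      obtain ⟨y, hy, hyv⟩ := h4
      have hyv' : f y = f v.1 := hyv
      refine ⟨Submodule.Quotient.mk ⟨v.1 - y, ?_, sub_mem v.2 (h hy)⟩, ?_⟩
      · change f (v.1 - y) = 0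
        rw [map_sub, hyv', sub_self]
      · change (Submodule.Quotient.mk (⟨v.1 - y, sub_mem v.2 (h hy)⟩ : X) : X ⧸ Y.submoduleOf X) =
          Submodule.Quotient.mk v
        rw [Submodule.Quotient.eq]
        change (v.1 - y) - v.1 ∈ Y
        rw [sub_sub_cancel_left]
        exact neg_mem hy
    · rintro ⟨w, hw⟩
      obtain ⟨w, rfl⟩ := Submodule.mkQ_surjective _ w
      rw [← hw]
      change (Submodule.Quotient.mk (g₀ (Submodule.inclusion inf_le_right w)) :
        X.map f ⧸ (Y.map f).submoduleOf (X.map f)) = 0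
      rw [Submodule.Quotient.mk_eq_zero]
      change f w.1 ∈ Y.map f
      have : f w.1 = 0 := w.2.1
      rw [this]
      exact zero_mem _
  exact Module.length_eq_add_of_exact u g hu hg hug

theorem rl_eq_zero {X Y : Submodule A C} (h : X ≤ Y) : rl X Y = 0 := by
  unfold rl
  have : Subsingleton (X ⧸ Y.submoduleOf X) := by
    rw [subsingleton_iff_forall_eq 0]
    intro v
    obtain ⟨v, rfl⟩ := Submodule.mkQ_surjective _ v
    exact (Submodule.Quotient.mk_eq_zero _).2 (h v.2)
  exact Module.length_eq_zero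

end rl

section complex

variable {A : Type*} [CommRing A] (C : ℕ → Type*) [∀ i, AddCommGroup (C i)] [∀ i, Module A (C i)]
  (D : ∀ i, C (i + 1) →ₗ[A] C i)

/-- The cycles of a complex. -/
def Zc : ∀ i, Submodule A (C i)
  | 0 => ⊤
  | i + 1 => LinearMap.ker (D i)

theorem numeric_euler (r : ℕ) (a z β h h' : ℕ → ℤ) (h0 : a 0 = z 0)
    (h1 : ∀ i, a (i + 1) = z (i + 1) + β i) (h2 : ∀ i, h i + β i = z i + h' i) (h3 : β r = 0) :
    ∑ i ∈ Finset.range (r + 1), (-1) ^ i * h i - ∑ i ∈ Finset.range (r + 1), (-1) ^ i * h' i =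
      ∑ i ∈ Finset.range (r + 1), (-1) ^ i * a i := by
  have key : ∀ n, ∑ i ∈ Finset.range (n + 1), (-1) ^ i * a i =
      ∑ i ∈ Finset.range (n + 1), (-1) ^ i * h i - ∑ i ∈ Finset.range (n + 1), (-1) ^ i * h' i +
        (-1) ^ n * β n := by
    intro n
    induction n with
    | zero =>
      have := h2 0
      simp
      linarith
    | succ n ih =>
      rw [Finset.sum_range_succ, ih, Finset.sum_range_succ _ (n + 1),
        Finset.sum_range_succ (fun i => (-1) ^ i * h' i) (n + 1), h1 n, pow_succ]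
      have := h2 (n + 1)
      have e : z (n + 1) = h (n + 1) + β (n + 1) - h' (n + 1) := by linarith
      rw [e]
      ring
  rw [key r, h3]
  ring

/-- Comparison of the Euler characteristics of a complex and a subcomplex of finite colength. -/
theorem rel_euler (r : ℕ) (hr : Subsingleton (C (r + 1))) (hD : ∀ i v, D i (D (i + 1) v) = 0)
    (K K' : ∀ i, Submodule A (C i)) (hle : ∀ i, K' i ≤ K i)
    (hK : ∀ i, (K (i + 1)).map (D i) ≤ K i) (hK' : ∀ i, (K' (i + 1)).map (D i) ≤ K' i)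
    (hfin : ∀ i, rl (K i) (K' i) ≠ ⊤)
    (hH : ∀ i, rl (Zc C D i ⊓ K i) ((K (i + 1)).map (D i)) ≠ ⊤) :
    (∀ i, rl (Zc C D i ⊓ K' i) ((K' (i + 1)).map (D i)) ≠ ⊤) ∧
    ∑ i ∈ Finset.range (r + 1), (-1) ^ i *
        ((rl (Zc C D i ⊓ K i) ((K (i + 1)).map (D i))).toNat : ℤ) -
      ∑ i ∈ Finset.range (r + 1), (-1) ^ i *
        ((rl (Zc C D i ⊓ K' i) ((K' (i + 1)).map (D i))).toNat : ℤ) =
      ∑ i ∈ Finset.range (r + 1), (-1) ^ i * ((rl (K i) (K' i)).toNat : ℤ) := by
  have hB : ∀ i, LinearMap.range (D i) ≤ Zc C D i := by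
    intro i
    cases i with
    | zero => exact le_top
    | succ i =>
      rintro _ ⟨v, rfl⟩
      exact hD i v
  have hBK : ∀ i, (K (i + 1)).map (D i) ≤ Zc C D i ⊓ K i := fun i =>
    le_inf (LinearMap.map_le_range.trans (hB i)) (hK i)
  have hBK' : ∀ i, (K' (i + 1)).map (D i) ≤ Zc C D i ⊓ K' i := fun i =>
    le_inf (LinearMap.map_le_range.trans (hB i)) (hK' i)
  have e0 : rl (K 0) (K' 0) = rl (Zc C D 0 ⊓ K 0) (Zc C D 0 ⊓ K' 0) := by
    change _ = rl (⊤ ⊓ K 0) (⊤ ⊓ K' 0)
    rw [top_inf_eq, top_inf_eq]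
  have e1 : ∀ i, rl (K (i + 1)) (K' (i + 1)) = rl (Zc C D (i + 1) ⊓ K (i + 1))
      (Zc C D (i + 1) ⊓ K' (i + 1)) + rl ((K (i + 1)).map (D i)) ((K' (i + 1)).map (D i)) :=
    fun i => rl_map (D i) (hle (i + 1))
  have e2 : ∀ i, rl (Zc C D i ⊓ K i) ((K (i + 1)).map (D i)) +
      rl ((K (i + 1)).map (D i)) ((K' (i + 1)).map (D i)) =
      rl (Zc C D i ⊓ K i) (Zc C D i ⊓ K' i) + rl (Zc C D i ⊓ K' i) ((K' (i + 1)).map (D i)) := by
    intro i
    rw [← rl_add (Submodule.map_mono (hle (i + 1))) (hBK i),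
      ← rl_add (hBK' i) (inf_le_inf_left _ (hle i))]
  have hβ : ∀ i, rl ((K (i + 1)).map (D i)) ((K' (i + 1)).map (D i)) ≠ ⊤ := by
    intro i h
    apply hfin (i + 1)
    rw [e1, h, add_top]
  have hz : ∀ i, rl (Zc C D i ⊓ K i) (Zc C D i ⊓ K' i) ≠ ⊤ := by
    intro i h
    cases i with
    | zero => exact hfin 0 (by rw [e0, h])
    | succ i => exact hfin (i + 1) (by rw [e1, h, top_add])
  have hH' : ∀ i, rl (Zc C D i ⊓ K' i) ((K' (i + 1)).map (D i)) ≠ ⊤ := by
    intro i h
    have := e2 i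
    rw [h, add_top] at this
    exact (WithTop.add_ne_top.2 ⟨hH i, hβ i⟩) this
  refine ⟨hH', ?_⟩
  refine numeric_euler r _
    (fun i => ((rl (Zc C D i ⊓ K i) (Zc C D i ⊓ K' i)).toNat : ℤ))
    (fun i => ((rl ((K (i + 1)).map (D i)) ((K' (i + 1)).map (D i))).toNat : ℤ)) _ _ ?_ ?_ ?_ ?_
  · rw [e0]
  · intro i
    rw [e1, ENat.toNat_add (hz _) (hβ i)]
    push_cast
    rfl
  · intro i
    have := congrArg ENat.toNat (e2 i)
    rw [ENat.toNat_add (hH i) (hβ i), ENat.toNat_add (hz i) (hH' i)] at this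
    exact_mod_cast this
  · have h0 : rl ((K (r + 1)).map (D r)) ((K' (r + 1)).map (D r)) = 0 := by
      apply rl_eq_zero
      rintro _ ⟨v, -, rfl⟩
      rw [Subsingleton.elim v 0, map_zero]
      exact zero_mem _
    rw [h0]
    rfl

end complex

end Vale.Agent.P177
end
end

section

section

/-!
Strict transforms of filtered modules.
-/

namespace Vale.Agent.P177

open Function IsLocalRing

universe u

section basic

variable {A : Type*} [CommRing A] {M M₁ : Type*} [AddCommGroup M] [Module A M]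
  [AddCommGroup M₁] [Module A M₁] {x : A}

/-- `M₁` is the union of the `x ^ (-n) F n`. -/
structure IsStrict (x : A) (F : ℕ → Submodule A M) (ι : M →ₗ[A] M₁) : Prop where
  reg : ∀ v : M₁, x • v = 0 → v = 0
  div : ∀ n, ∀ m ∈ F n, ∃ v, x ^ n • v = ι m
  surj : ∀ v, ∃ n, ∃ m ∈ F n, x ^ n • v = ι m
  ker : ∀ m, ι m = 0 → ∃ l, x ^ l • m = 0

variable {F : ℕ → Submodule A M} {ι : M →ₗ[A] M₁}

theorem IsStrict.reg_pow (h : IsStrict x F ι) (n : ℕ) {v : M₁} (hv : x ^ n • v = 0) : v = 0 := by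
  induction n with
  | zero => simpa using hv
  | succ n ih =>
    rw [pow_succ', mul_smul] at hv
    exact ih (h.reg _ hv)

theorem IsStrict.cancel (h : IsStrict x F ι) (n : ℕ) {v w : M₁} (hv : x ^ n • v = x ^ n • w) :
    v = w := by
  rw [← sub_eq_zero]
  apply h.reg_pow n
  rw [smul_sub, hv, sub_self]

/-- Division by `x ^ n`. -/
noncomputable def IsStrict.divMap (h : IsStrict x F ι) (n : ℕ) : F n →ₗ[A] M₁ where
  toFun m := (h.div n m.1 m.2).choose
  map_add' m m' := by
    apply h.cancel n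
    rw [smul_add, (h.div n _ (m + m').2).choose_spec, (h.div n _ m.2).choose_spec,
      (h.div n _ m'.2).choose_spec]
    exact map_add ι _ _
  map_smul' c m := by
    apply h.cancel n
    rw [(h.div n _ (c • m).2).choose_spec, smul_comm, RingHom.id_apply,
      (h.div n _ m.2).choose_spec]
    exact map_smul ι _ _

theorem IsStrict.divMap_spec (h : IsStrict x F ι) (n : ℕ) (m : F n) :
    x ^ n • h.divMap n m = ι m := (h.div n m.1 m.2).choose_spec

/-- The weighted version of a map. -/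
def wmap (x : A) (ι : M →ₗ[A] M₁) {b : ℕ} (a : Fin b → ℕ) : (Fin b → M) →ₗ[A] (Fin b → M₁) where
  toFun f j := x ^ a j • ι (f j)
  map_add' f g := by
    funext j
    simp
  map_smul' c f := by
    funext j
    simp only [Pi.smul_apply, map_smul, RingHom.id_apply]
    exact smul_comm _ _ _

theorem wmap_apply {b : ℕ} (a : Fin b → ℕ) (f : Fin b → M) (j : Fin b) :
    wmap x ι a f j = x ^ a j • ι (f j) := rfl

theorem pow_smul_mem {F : ℕ → Submodule A M} (hxF : ∀ n, ∀ m ∈ F n, x • m ∈ F (n + 1)) {n : ℕ}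
    {m : M} (hm : m ∈ F n) (k : ℕ) : x ^ k • m ∈ F (n + k) := by
  induction k with
  | zero => simpa using hm
  | succ k ih =>
    rw [pow_succ', mul_smul, ← add_assoc]
    exact hxF _ _ ih

theorem IsStrict.weighted (h : IsStrict x F ι) (hanti : Antitone F)
    (hxF : ∀ n, ∀ m ∈ F n, x • m ∈ F (n + 1)) {b : ℕ} (a : Fin b → ℕ) :
    IsStrict x (wfil F a) (wmap x ι a) where
  reg v hv := by
    funext j
    exact h.reg _ (congrFun hv j)
  div n m hm := by
    rw [mem_wfil] at hm
    have h1 : ∀ j, ∃ v, x ^ n • v = x ^ a j • ι (m j) := by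
      intro j
      rcases le_total (a j) n with hj | hj
      · obtain ⟨v, hv⟩ := h.div _ _ (hm j)
        refine ⟨v, ?_⟩
        rw [← hv, ← mul_smul, ← pow_add]
        congr 2
        omega
      · refine ⟨x ^ (a j - n) • ι (m j), ?_⟩
        rw [← mul_smul, ← pow_add]
        congr 2
        omega
    choose v hv using h1
    exact ⟨v, funext fun j => hv j⟩
  surj v := by
    have h1 : ∀ j, ∃ n, ∃ m ∈ F n, x ^ n • v j = ι m := fun j => h.surj (v j)
    choose n m hm hv using h1
    refine ⟨∑ j, (n j + a j), fun j => x ^ (∑ i, (n i + a i) - n j - a j) • m j, ?_, ?_⟩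
    · rw [mem_wfil]
      intro j
      have hj : n j + a j ≤ ∑ i, (n i + a i) := Finset.single_le_sum
        (f := fun i => n i + a i) (fun _ _ => Nat.zero_le _) (Finset.mem_univ j)
      exact hanti (by omega) (pow_smul_mem hxF (hm j) _)
    · funext j
      have hj : n j + a j ≤ ∑ i, (n i + a i) := Finset.single_le_sum
        (f := fun i => n i + a i) (fun _ _ => Nat.zero_le _) (Finset.mem_univ j)
      rw [wmap_apply, map_smul, ← hv j, ← mul_smul, ← mul_smul, ← pow_add, ← pow_add]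
      change x ^ _ • v j = _
      congr 2
      omega
  ker m hm := by
    have h1 : ∀ j, ∃ l, x ^ l • m j = 0 := fun j => h.ker _ (h.reg_pow _ (congrFun hm j))
    choose l hl using h1
    refine ⟨∑ j, l j, ?_⟩
    funext j
    obtain ⟨e, he⟩ := Nat.exists_eq_add_of_le (Finset.single_le_sum (f := l)
      (fun _ _ => Nat.zero_le _) (Finset.mem_univ j))
    change x ^ (∑ j, l j) • m j = 0
    rw [he, add_comm, pow_add, mul_smul, hl, smul_zero]

end basic

section compare

variable {A : Type*} [CommRing A] {C₂ C₁ E₂ E₁ : Type*} [AddCommGroup C₂] [Module A C₂]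
  [AddCommGroup C₁] [Module A C₁] [AddCommGroup E₂] [Module A E₂] [AddCommGroup E₁] [Module A E₁]
  {x : A} {K₂ : ℕ → Submodule A C₂} {K₁ : ℕ → Submodule A C₁} {ι₂ : C₂ →ₗ[A] E₂}
  {ι₁ : C₁ →ₗ[A] E₁}

theorem strict_homology (h₂ : IsStrict x K₂ ι₂) (h₁ : IsStrict x K₁ ι₁) {D : C₂ →ₗ[A] C₁}
    {D₁ : E₂ →ₗ[A] E₁} (hD : ∀ v, D₁ (ι₂ v) = ι₁ (D v))
    (hx₂ : ∀ n, ∀ m ∈ K₂ n, x • m ∈ K₂ (n + 1)) (hx₁ : ∀ n, ∀ m ∈ K₁ n, x • m ∈ K₁ (n + 1))
    {Z : Submodule A C₁} {Z₁ : Submodule A E₁}
    (zA : ∀ (v : E₁) (n : ℕ), ∀ m ∈ K₁ n, x ^ n • v = ι₁ m → v ∈ Z₁ → ∃ e, x ^ e • m ∈ Z)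
    (zB : ∀ (v : E₁) (n : ℕ), ∀ m ∈ K₁ n, x ^ n • v = ι₁ m → m ∈ Z → v ∈ Z₁)
    {k : ℕ} (hs : ∀ k', k ≤ k' → ∀ z ∈ Z ⊓ K₁ (k' + 1), ∃ w ∈ Z ⊓ K₁ k', z - x • w ∈
      (K₂ (k' + 1)).map D)
    (hi : ∀ k', k ≤ k' → ∀ w ∈ Z ⊓ K₁ k', x • w ∈ (K₂ (k' + 1)).map D → w ∈ (K₂ k').map D) :
    Nonempty (((Z ⊓ K₁ k : Submodule A C₁) ⧸ ((K₂ k).map D).submoduleOf (Z ⊓ K₁ k)) ≃ₗ[A]
      (Z₁ ⧸ (LinearMap.range D₁).submoduleOf Z₁)) := by
  have hs' : ∀ e, ∀ z ∈ Z ⊓ K₁ (k + e), ∃ w ∈ Z ⊓ K₁ k, z - x ^ e • w ∈ (K₂ (k + e)).map D := by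
    intro e
    induction e with
    | zero =>
      intro z hz
      exact ⟨z, hz, by simp⟩
    | succ e ih =>
      intro z hz
      obtain ⟨w, hw, u, hu, hzw⟩ := hs (k + e) (by omega) z hz
      obtain ⟨w', hw', u', hu', hww'⟩ := ih w hw
      refine ⟨w', hw', u + x • u', add_mem hu (hx₂ _ _ hu'), ?_⟩
      rw [map_add, map_smul, hzw, hww', smul_sub, pow_succ', mul_smul]
      abel
  have hi' : ∀ e, ∀ w ∈ Z ⊓ K₁ k, x ^ e • w ∈ (K₂ (k + e)).map D → w ∈ (K₂ k).map D := by
    intro e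
    induction e with
    | zero =>
      intro w _ h
      simpa using h
    | succ e ih =>
      intro w hw h
      apply ih w hw
      refine hi (k + e) (by omega) _ ⟨Submodule.smul_mem _ _ hw.1, pow_smul_mem hx₁ hw.2 e⟩ ?_
      rw [← mul_smul, ← pow_succ']
      exact h
  let g : (Z ⊓ K₁ k : Submodule A C₁) →ₗ[A] Z₁ :=
    ((h₁.divMap k).comp (Submodule.inclusion inf_le_right)).codRestrict Z₁ (fun v =>
      zB _ k v.1 v.2.2 (h₁.divMap_spec k _) v.2.1)
  have hg : ∀ v, x ^ k • (g v).1 = ι₁ v.1 := fun v => h₁.divMap_spec k ⟨v.1, v.2.2⟩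
  let π : (Z ⊓ K₁ k : Submodule A C₁) →ₗ[A] (Z₁ ⧸ (LinearMap.range D₁).submoduleOf Z₁) :=
    (Submodule.mkQ _).comp g
  have hπ : Surjective π := by
    intro v
    obtain ⟨⟨v, hv⟩, rfl⟩ := Submodule.mkQ_surjective _ v
    obtain ⟨n, m, hm, hvm⟩ := h₁.surj v
    obtain ⟨e, he⟩ := zA v n m hm hvm hv
    have hz1 : x ^ (e + k) • m ∈ Z ⊓ K₁ (k + (n + e)) := by
      refine ⟨?_, ?_⟩
      · rw [add_comm, pow_add, mul_smul]
        exact Submodule.smul_mem _ _ he
      · have := pow_smul_mem hx₁ hm (e + k)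
        have e1 : n + (e + k) = k + (n + e) := by omega
        rwa [e1] at this
    obtain ⟨w, hw, u, hu, hzw⟩ := hs' (n + e) _ hz1
    obtain ⟨u₁, hu₁⟩ := h₂.div _ _ hu
    have key : v - D₁ u₁ = (g ⟨w, hw⟩).1 := by
      apply h₁.cancel (k + (n + e))
      rw [smul_sub, ← map_smul, hu₁, hD, hzw, map_sub, map_smul, map_smul, ← hvm, ← mul_smul,
        ← pow_add]
      have e2 : e + k + n = k + (n + e) := by omega
      have e3 : x ^ (k + (n + e)) • (g ⟨w, hw⟩).1 = x ^ (n + e) • ι₁ w := by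
        rw [← hg ⟨w, hw⟩, ← mul_smul, ← pow_add, add_comm]
      rw [e2, sub_sub_cancel, e3]
    refine ⟨⟨w, hw⟩, ?_⟩
    change (Submodule.Quotient.mk (g ⟨w, hw⟩) : Z₁ ⧸ (LinearMap.range D₁).submoduleOf Z₁) =
      Submodule.Quotient.mk ⟨v, hv⟩
    rw [eq_comm, Submodule.Quotient.eq]
    change v - (g ⟨w, hw⟩).1 ∈ LinearMap.range D₁
    rw [← key, sub_sub_cancel]
    exact ⟨u₁, rfl⟩
  have hk : LinearMap.ker π = ((K₂ k).map D).submoduleOf (Z ⊓ K₁ k) := by
    ext w
    constructor
    · intro hw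
      have hw' : (Submodule.Quotient.mk (g w) : Z₁ ⧸ (LinearMap.range D₁).submoduleOf Z₁) = 0 := hw
      rw [Submodule.Quotient.mk_eq_zero] at hw'
      obtain ⟨u₁, hu₁⟩ := hw'
      have hu₁' : D₁ u₁ = (g w).1 := hu₁
      obtain ⟨n, u, hu, hun⟩ := h₂.surj u₁
      have h3 : ι₁ (x ^ n • w.1 - x ^ k • D u) = 0 := by
        rw [map_sub, map_smul, map_smul, ← hg w, ← hD, ← hun, map_smul, hu₁', smul_comm, sub_self]
      obtain ⟨l, hl⟩ := h₁.ker _ h3
      rw [smul_sub, ← mul_smul, ← mul_smul, ← pow_add, ← pow_add, sub_eq_zero] at hl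
      refine hi' (l + n) w.1 w.2 ?_
      rw [hl, ← map_smul]
      refine ⟨_, ?_, rfl⟩
      have h4 := pow_smul_mem hx₂ hu (l + k)
      have e1 : n + (l + k) = k + (l + n) := by omega
      rwa [e1] at h4
    · rintro ⟨u, hu, huw⟩
      have huw' : D u = w.1 := huw
      obtain ⟨u₁, hu₁⟩ := h₂.div _ _ hu
      change (Submodule.Quotient.mk (g w) : Z₁ ⧸ (LinearMap.range D₁).submoduleOf Z₁) = 0
      rw [Submodule.Quotient.mk_eq_zero]
      refine ⟨u₁, ?_⟩
      change D₁ u₁ = (g w).1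
      apply h₁.cancel k
      rw [← map_smul, hu₁, hD, huw', hg]
  exact ⟨(Submodule.quotEquivOfEq _ _ hk.symm).trans (LinearMap.quotKerEquivOfSurjective π hπ)⟩

/-- Exactness of the strict transforms of a strict exact sequence. -/
theorem strict_exact (h₂ : IsStrict x K₂ ι₂) (h₁ : IsStrict x K₁ ι₁) {D : C₂ →ₗ[A] C₁}
    {D₁ : E₂ →ₗ[A] E₁} (hD : ∀ v, D₁ (ι₂ v) = ι₁ (D v))
    (hx₁ : ∀ n, ∀ m ∈ K₁ n, x • m ∈ K₁ (n + 1))
    {Z : Submodule A C₁} {Z₁ : Submodule A E₁}
    (zA : ∀ (v : E₁) (n : ℕ), ∀ m ∈ K₁ n, x ^ n • v = ι₁ m → v ∈ Z₁ → ∃ e, x ^ e • m ∈ Z)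
    (hex : ∀ n, (K₂ n).map D = Z ⊓ K₁ n) : Z₁ ≤ LinearMap.range D₁ := by
  intro v hv
  obtain ⟨n, m, hm, hvm⟩ := h₁.surj v
  obtain ⟨e, he⟩ := zA v n m hm hvm hv
  have hz1 : x ^ e • m ∈ (K₂ (n + e)).map D := by
    rw [hex]
    exact ⟨he, pow_smul_mem hx₁ hm e⟩
  obtain ⟨u, hu, hum⟩ := hz1
  obtain ⟨u₁, hu₁⟩ := h₂.div _ _ hu
  refine ⟨u₁, ?_⟩
  apply h₁.cancel (n + e)
  rw [← map_smul, hu₁, hD, hum, map_smul, ← hvm, ← mul_smul, ← pow_add, add_comm]

variable {C₀ E₀ : Type*} [AddCommGroup C₀] [Module A C₀] [AddCommGroup E₀] [Module A E₀]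
  {K₀ : ℕ → Submodule A C₀} {ι₀ : C₀ →ₗ[A] E₀}

theorem zA_ker (h₀ : IsStrict x K₀ ι₀) {D : C₁ →ₗ[A] C₀} {D₁ : E₁ →ₗ[A] E₀}
    (hD : ∀ v, D₁ (ι₁ v) = ι₀ (D v)) (v : E₁) (n : ℕ) (m : C₁)
    (hvm : x ^ n • v = ι₁ m) (hv : v ∈ LinearMap.ker D₁) : ∃ e, x ^ e • m ∈ LinearMap.ker D := by
  obtain ⟨l, hl⟩ := h₀.ker (D m) (by
    rw [← hD, ← hvm, map_smul]
    have : D₁ v = 0 := hv
    rw [this, smul_zero])
  exact ⟨l, by rw [LinearMap.mem_ker, map_smul, hl]⟩

theorem zB_ker (h₀ : IsStrict x K₀ ι₀) {D : C₁ →ₗ[A] C₀} {D₁ : E₁ →ₗ[A] E₀}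
    (hD : ∀ v, D₁ (ι₁ v) = ι₀ (D v)) (v : E₁) (n : ℕ) (m : C₁)
    (hvm : x ^ n • v = ι₁ m) (hm : m ∈ LinearMap.ker D) : v ∈ LinearMap.ker D₁ := by
  apply h₀.reg_pow n
  rw [← map_smul, hvm, hD]
  have : D m = 0 := hm
  rw [this, map_zero]

end compare

end Vale.Agent.P177
end
end

section

section

/-!
Quotients by the power torsion of an element.
-/

namespace Vale.Agent.P177

open IsLocalRing Function TensorProduct

universe u

section tors

variable {S : Type u} [CommRing S] (t : S) (W : Type u) [AddCommGroup W] [Module S W]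

/-- Elements killed by a power of `t`. -/
def tors : Submodule S W where
  carrier := {w | ∃ n : ℕ, t ^ n • w = 0}
  zero_mem' := ⟨0, by simp⟩
  add_mem' := by
    rintro v w ⟨n, hn⟩ ⟨m, hm⟩
    refine ⟨n + m, ?_⟩
    rw [smul_add, pow_add, mul_smul, mul_smul, hm, smul_zero, add_zero, smul_comm, hn, smul_zero]
  smul_mem' := by
    rintro c w ⟨n, hn⟩
    exact ⟨n, by rw [smul_comm, hn, smul_zero]⟩

theorem mem_tors {w : W} : w ∈ tors t W ↔ ∃ n : ℕ, t ^ n • w = 0 := Iff.rfl

/-- The quotient by the power torsion. -/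
abbrev St := W ⧸ tors t W

variable {t W}

theorem St_reg (v : St t W) (hv : t • v = 0) : v = 0 := by
  obtain ⟨w, rfl⟩ := Submodule.mkQ_surjective _ v
  have h1 : (Submodule.Quotient.mk (t • w) : St t W) = 0 := hv
  rw [Submodule.Quotient.mk_eq_zero] at h1
  obtain ⟨n, hn⟩ := h1
  refine (Submodule.Quotient.mk_eq_zero _).2 ⟨n + 1, ?_⟩
  rw [pow_succ, mul_smul]
  exact hn

theorem tors_unit_mul {t t' : S} (u : Sˣ) (h : t' = u * t) : tors t' W = tors t W := by
  ext w
  rw [mem_tors, mem_tors]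
  refine exists_congr fun n => ?_
  rw [h, mul_pow, mul_smul]
  have : IsUnit ((u : S) ^ n) := (u ^ n).isUnit
  constructor
  · intro h1
    have h2 : ((u⁻¹ : Sˣ) : S) ^ n • ((u : S) ^ n • t ^ n • w) = 0 := by rw [h1, smul_zero]
    rw [← mul_smul, ← mul_pow, Units.inv_mul, one_pow, one_smul] at h2
    exact h2
  · intro h1
    rw [h1, smul_zero]

theorem St_congr {W' : Type u} [AddCommGroup W'] [Module S W'] (e : W ≃ₗ[S] W') :
    Nonempty (St t W ≃ₗ[S] St t W') := by
  refine ⟨Submodule.Quotient.equiv _ _ e ?_⟩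
  ext w
  constructor
  · rintro ⟨v, ⟨n, hn⟩, rfl⟩
    refine ⟨n, ?_⟩
    have := congrArg e hn
    rw [map_smul, map_zero] at this
    exact this
  · rintro ⟨n, hn⟩
    refine ⟨e.symm w, ⟨n, ?_⟩, e.apply_symm_apply w⟩
    rw [← map_smul, hn, map_zero]

theorem St_unit {t' : S} (u : Sˣ) (h : t' = u * t) : Nonempty (St t' W ≃ₗ[S] St t W) :=
  ⟨Submodule.quotEquivOfEq _ _ (tors_unit_mul u h)⟩

/-- The power torsion commutes with flat base change. -/
theorem St_baseChange {S' : Type u} [CommRing S'] [Algebra S S'] [Module.Flat S S'] :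
    Nonempty ((S' ⊗[S] St t W) ≃ₗ[S'] St (algebraMap S S' t) (S' ⊗[S] W)) := by
  let π : (S' ⊗[S] W) →ₗ[S'] (S' ⊗[S] St t W) := (Submodule.mkQ (tors t W)).baseChange S'
  have hπ : Surjective π := by
    change Surjective ((Submodule.mkQ (tors t W)).lTensor S')
    exact LinearMap.lTensor_surjective _ (Submodule.mkQ_surjective _)
  have hk : LinearMap.ker π = tors (algebraMap S S' t) (S' ⊗[S] W) := by
    ext z
    constructor
    · intro hz
      have hex : Exact ((tors t W).subtype.lTensor S') ((Submodule.mkQ (tors t W)).lTensor S') :=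
        lTensor_exact S' (LinearMap.exact_subtype_mkQ _) (Submodule.mkQ_surjective _)
      obtain ⟨y, rfl⟩ := (hex z).1 hz
      induction y with
      | zero => rw [map_zero]; exact zero_mem _
      | add y y' hy hy' =>
        rw [map_add]
        refine add_mem (hy ?_) (hy' ?_)
        · exact (hex _).2 ⟨_, rfl⟩
        · exact (hex _).2 ⟨_, rfl⟩
      | tmul s w =>
        obtain ⟨n, hn⟩ := w.2
        refine ⟨n, ?_⟩
        rw [LinearMap.lTensor_tmul, ← map_pow, algebraMap_smul, ← TensorProduct.tmul_smul]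
        change s ⊗ₜ (t ^ n • (w : W)) = 0
        rw [hn, TensorProduct.tmul_zero]
    · rintro ⟨n, hn⟩
      let f : W →ₗ[S] W := LinearMap.lsmul S W (t ^ n)
      have hex : Exact ((LinearMap.ker f).subtype.lTensor S') (f.lTensor S') :=
        Module.Flat.lTensor_exact S' (LinearMap.exact_subtype_ker_map f)
      have hf : ∀ z : S' ⊗[S] W, f.lTensor S' z = (algebraMap S S' t) ^ n • z := by
        intro z
        induction z with
        | zero => rw [map_zero, smul_zero]
        | add y y' hy hy' => rw [map_add, smul_add, hy, hy']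
        | tmul s w =>
          rw [LinearMap.lTensor_tmul, ← map_pow, algebraMap_smul, ← TensorProduct.tmul_smul]
          rfl
      obtain ⟨y, rfl⟩ := (hex z).1 ((hf z).trans hn)
      clear hn
      induction y with
      | zero => rw [map_zero]; exact zero_mem _
      | add y y' hy hy' =>
        rw [map_add]
        exact add_mem hy hy'
      | tmul s w =>
        change (Submodule.mkQ (tors t W)).lTensor S' (s ⊗ₜ (w : W)) = 0
        rw [LinearMap.lTensor_tmul]
        have h1 : (Submodule.mkQ (tors t W)) (w : W) = 0 := by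
          rw [Submodule.mkQ_apply, Submodule.Quotient.mk_eq_zero]
          exact ⟨n, w.2⟩
        rw [h1, TensorProduct.tmul_zero]
  exact ⟨((Submodule.quotEquivOfEq _ _ hk.symm).trans
    (LinearMap.quotKerEquivOfSurjective π hπ)).symm⟩

end tors

section strict

variable {A S : Type u} [CommRing A] [CommRing S] [Algebra A S] (x : A) (M : Type u)
  [AddCommGroup M] [Module A M]

/-- The strict transform of a module on a chart. -/
abbrev StM := St (algebraMap A S x) (S ⊗[A] M)

variable (S) in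
/-- The canonical map to the strict transform. -/
noncomputable def stMap : M →ₗ[A] StM (S := S) x M :=
  ((tors (algebraMap A S x) (S ⊗[A] M)).mkQ.restrictScalars A).comp (TensorProduct.mk A S M 1)

variable {x M} {I : Ideal A}

theorem stMap_isStrict (hS : IsStrict x (fun k => (I ^ k : Ideal A)) (Algebra.linearMap A S))
    (hx : x ∈ I) (f : S →+* Localization.Away x)
    (hf : ∀ a, f (algebraMap A S a) = algebraMap A _ a) :
    IsStrict x (fun n => (I ^ n • ⊤ : Submodule A M)) (stMap S x M) := by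
  let q : (S ⊗[A] M) →ₗ[S] StM (S := S) x M := (tors (algebraMap A S x) (S ⊗[A] M)).mkQ
  have hq : ∀ m : M, stMap S x M m = q (1 ⊗ₜ m) := fun m => rfl
  have hmul : ∀ (n : ℕ) (v : StM (S := S) x M), x ^ n • v = (algebraMap A S x) ^ n • v := by
    intro n v
    rw [← map_pow, algebraMap_smul]
  constructor
  · intro v hv
    rw [← algebraMap_smul S x v] at hv
    exact St_reg v hv
  · intro n m hm
    refine Submodule.smul_induction_on hm ?_ ?_
    · intro a ha m _
      obtain ⟨v, hv⟩ := hS.div n a ha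
      refine ⟨v • stMap S x M m, ?_⟩
      rw [← smul_assoc, hv, map_smul]
      exact algebraMap_smul S a _
    · rintro m m' ⟨v, hv⟩ ⟨v', hv'⟩
      exact ⟨v + v', by rw [smul_add, hv, hv', map_add]⟩
  · intro v
    obtain ⟨w, rfl⟩ := Submodule.mkQ_surjective _ v
    change ∃ n, ∃ m ∈ _, x ^ n • q w = _
    induction w with
    | zero => exact ⟨0, 0, zero_mem _, by rw [map_zero, map_zero, smul_zero]⟩
    | add w w' hw hw' =>
      obtain ⟨n, m, hm, hwm⟩ := hw
      obtain ⟨n', m', hm', hwm'⟩ := hw'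
      refine ⟨n + n', x ^ n' • m + x ^ n • m', ?_, ?_⟩
      · refine add_mem ?_ ?_
        · rw [add_comm, pow_add, mul_smul]
          exact Submodule.smul_mem_smul (Ideal.pow_mem_pow hx n') hm
        · rw [pow_add, mul_smul]
          exact Submodule.smul_mem_smul (Ideal.pow_mem_pow hx n) hm'
      · rw [map_add, map_add, map_smul, map_smul, ← hwm, ← hwm', smul_add, ← mul_smul,
          ← mul_smul, ← pow_add, ← pow_add, add_comm n' n]
    | tmul s m =>
      obtain ⟨n, a, ha, hs⟩ := hS.surj s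
      refine ⟨n, a • m, Submodule.smul_mem_smul ha trivial, ?_⟩
      have h1 : x ^ n • q (s ⊗ₜ m) = q ((x ^ n • s) ⊗ₜ m) := by
        rw [hmul, ← map_smul, TensorProduct.smul_tmul', smul_eq_mul, Algebra.smul_def, map_pow]
      have h2 : (Algebra.linearMap A S) a = a • (1 : S) := by
        rw [Algebra.linearMap_apply, Algebra.algebraMap_eq_smul_one]
      rw [h1, hs, hq, TensorProduct.tmul_smul, TensorProduct.smul_tmul', h2]
  · intro m hm
    rw [hq] at hm
    have h1 : (Submodule.Quotient.mk ((1 : S) ⊗ₜ[A] m) : StM (S := S) x M) = 0 := hm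
    rw [Submodule.Quotient.mk_eq_zero] at h1
    obtain ⟨n, hn⟩ := h1
    rw [← map_pow, algebraMap_smul, ← TensorProduct.tmul_smul] at hn
    let L := Localization.Away x
    let fA : S →ₐ[A] L := { f with commutes' := hf }
    have h2 : (1 : L) ⊗ₜ[A] (x ^ n • m) = 0 := by
      have := congrArg (fA.toLinearMap.rTensor M) hn
      rw [LinearMap.rTensor_tmul, map_zero] at this
      change f 1 ⊗ₜ[A] (x ^ n • m) = 0 at this
      rwa [map_one] at this
    have h3 : IsLocalizedModule (Submonoid.powers x) (TensorProduct.mk A L M 1) :=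
      (isLocalizedModule_iff_isBaseChange (Submonoid.powers x) L _).2
        (TensorProduct.isBaseChange A M L)
    obtain ⟨⟨_, k, rfl⟩, hk⟩ := (IsLocalizedModule.eq_zero_iff (Submonoid.powers x)
      (TensorProduct.mk A L M 1)).1 h2
    refine ⟨k + n, ?_⟩
    rw [pow_add, mul_smul]
    exact hk

end strict

end Vale.Agent.P177
end
end

section

section

/-! Flatness of the inclusions of power series rings. -/

namespace Vale.Agent.P177

/-- Power series over a Noetherian ring are flat. -/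
theorem mvPowerSeries_flat (ι T : Type*) [Finite ι] [CommRing T] [IsNoetherianRing T] :
    Module.Flat T (MvPowerSeries ι T) := by
  have h1 : Module.Flat T (MvPolynomial ι T) := inferInstance
  have h2 : Module.Flat (MvPolynomial ι T) (MvPowerSeries ι T) :=
    Module.Flat.of_linearEquiv (MvPowerSeries.toAdicCompletionAlgEquiv ι T).toLinearEquiv
  have : IsScalarTower T (MvPolynomial ι T) (MvPowerSeries ι T) := inferInstance
  exact Module.Flat.trans T (MvPolynomial ι T) (MvPowerSeries ι T)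

theorem optionEquivLeft_rename_some {σ k : Type*} [Finite σ] [CommRing k]
    (p : MvPowerSeries σ k) :
    MvPowerSeries.optionEquivLeft σ k (MvPowerSeries.rename (some : σ → Option σ) p) =
      PowerSeries.C p := by
  ext n x
  rw [MvPowerSeries.coeff_coeff_optionEquivLeft, PowerSeries.coeff_C]
  split_ifs with hn
  · subst hn
    have h1 : x.optionElim 0 = Finsupp.embDomain Function.Embedding.some x := by
      rw [Finsupp.embDomain_eq_mapDomain]
      ext a
      cases a with
      | none =>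
        rw [Finsupp.mapDomain_of_notMem_range _ _ (by simp)]
        simp
      | some a =>
        rw [Finsupp.optionElim_apply_some]
        exact (Finsupp.mapDomain_apply (Option.some_injective σ) x a).symm
    rw [h1]
    exact MvPowerSeries.coeff_embDomain_rename Function.Embedding.some p x
  · rw [map_zero]
    apply MvPowerSeries.coeff_rename_eq_zero
    rintro ⟨y, hy⟩
    apply hn
    have h2 : Finsupp.mapDomain some y none = (x.optionElim n) none := by rw [hy]
    rw [Finsupp.mapDomain_of_notMem_range _ _ (by simp)] at h2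
    simpa using h2.symm

theorem flat_rename_some (σ k : Type*) [Finite σ] [CommRing k] [IsNoetherianRing k] :
    (MvPowerSeries.rename (R := k) (some : σ → Option σ)).toRingHom.Flat := by
  have h1 : (PowerSeries.C (R := MvPowerSeries σ k)).Flat := by
    have := mvPowerSeries_flat Unit (MvPowerSeries σ k)
    rw [← PowerSeries.algebraMap_eq, RingHom.flat_algebraMap_iff]
    exact this
  have h2 : (MvPowerSeries.rename (R := k) (some : σ → Option σ)).toRingHom =
      ((MvPowerSeries.optionEquivLeft σ k).symm.toRingEquiv.toRingHom).comp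
        (PowerSeries.C (R := MvPowerSeries σ k)) := by
    ext1 p
    apply (MvPowerSeries.optionEquivLeft σ k).injective
    exact (optionEquivLeft_rename_some p).trans
      ((MvPowerSeries.optionEquivLeft σ k).apply_symm_apply _).symm
  rw [h2]
  exact RingHom.Flat.comp h1 (RingHom.Flat.of_bijective
    (MvPowerSeries.optionEquivLeft σ k).symm.bijective)

theorem flat_rename_of_bijective {σ τ k : Type*} [Finite σ] [Finite τ] [CommRing k] (e : σ ≃ τ) :
    (MvPowerSeries.rename (R := k) e).toRingHom.Flat :=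
  RingHom.Flat.of_bijective (MvPowerSeries.renameEquiv k e).bijective

universe u v

theorem flat_rename_aux (k : Type*) [CommRing k] [IsNoetherianRing k] (σ : Type u) [Finite σ]
    (n : ℕ) : ∀ (τ : Type v) [Finite τ] (e : σ ↪ τ), Nat.card τ = Nat.card σ + n →
      (MvPowerSeries.rename (R := k) e).toRingHom.Flat := by
  induction n with
  | zero =>
    intro τ _ e h
    have hb : Function.Bijective e :=
      Function.Injective.bijective_of_nat_card_le e.injective (by omega)
    exact flat_rename_of_bijective (Equiv.ofBijective e hb)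
  | succ n ih =>
    intro τ _ e h
    classical
    obtain ⟨t, ht⟩ : ∃ t, t ∉ Set.range e := by
      by_contra hcon
      push Not at hcon
      have := Nat.card_congr (Equiv.ofBijective e ⟨e.injective, hcon⟩)
      omega
    let e' : σ ↪ {x : τ // x ≠ t} := ⟨fun s => ⟨e s, fun h => ht ⟨s, h⟩⟩, fun a b hab => by
      exact e.injective (congrArg Subtype.val hab)⟩
    have hcard : Nat.card {x : τ // x ≠ t} = Nat.card σ + n := by
      have h5 := Nat.card_congr (Equiv.optionSubtypeNe t)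
      rw [Finite.card_option] at h5
      omega
    have h1 := ih _ e' hcard
    have h2 := flat_rename_some {x : τ // x ≠ t} k
    have h3 := flat_rename_of_bijective (k := k) (Equiv.optionSubtypeNe t)
    have h4 : (MvPowerSeries.rename (R := k) e).toRingHom =
      ((MvPowerSeries.rename (R := k) (Equiv.optionSubtypeNe t)).toRingHom.comp
        (MvPowerSeries.rename (R := k)
          (some : {x : τ // x ≠ t} → Option {x : τ // x ≠ t})).toRingHom).comp
        (MvPowerSeries.rename (R := k) e').toRingHom := by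
      ext1 p
      change MvPowerSeries.rename e p = MvPowerSeries.rename (Equiv.optionSubtypeNe t)
        (MvPowerSeries.rename some (MvPowerSeries.rename e' p))
      rw [MvPowerSeries.rename_rename, MvPowerSeries.rename_rename]
      rfl
    rw [h4]
    exact h1.comp (h2.comp h3)

theorem flat_rename {σ τ k : Type*} [Finite σ] [Finite τ] [CommRing k] [IsNoetherianRing k]
    (e : σ ↪ τ) : (MvPowerSeries.rename (R := k) e).toRingHom.Flat := by
  obtain ⟨n, hn⟩ := Nat.exists_eq_add_of_le (Nat.card_le_card_of_injective e e.injective)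
  exact flat_rename_aux k σ n τ e hn

end Vale.Agent.P177
end
end

section

section

/-! Evaluation homomorphisms out of power series rings and the structure theorem surjection. -/

namespace Vale.Agent.P177

open IsLocalRing

/-- Evaluation of power series at elements of an ideal for which the target is complete. -/
theorem exists_evalHom {ι R A : Type*} [Finite ι] [CommRing R] [CommRing A] (J : Ideal A)
    [IsAdicComplete J A] (σ : R →+* A) (x : ι → A) (hx : ∀ i, x i ∈ J) :
    ∃ φ : MvPowerSeries ι R →+* A,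
      ∀ p : MvPolynomial ι R, φ (p : MvPowerSeries ι R) = MvPolynomial.eval₂Hom σ x p := by
  have hI : ∀ n, MvPolynomial.idealOfVars ι R ^ n ≤
      (J ^ n).comap (MvPolynomial.eval₂Hom σ x) := by
    intro n
    rw [← Ideal.map_le_iff_le_comap, Ideal.map_pow]
    apply Ideal.pow_right_mono
    rw [MvPolynomial.idealOfVars, Ideal.map_span, Ideal.span_le]
    rintro _ ⟨_, ⟨i, rfl⟩, rfl⟩
    simpa using hx i
  let f : (n : ℕ) → MvPowerSeries ι R →+* A ⧸ J ^ n := fun n =>
    (Ideal.quotientMap (J ^ n) (MvPolynomial.eval₂Hom σ x) (hI n)).comp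
      (MvPowerSeries.truncTotalAlgHom ι R n).toRingHom
  have hf : ∀ {m n : ℕ} (hle : m ≤ n), (Ideal.Quotient.factorPow J hle).comp (f n) = f m := by
    intro m n hle
    ext p
    have h1 := hI m (MvPowerSeries.truncTotal_sub_truncTotal_mem_pow_idealOfVars hle le_rfl p)
    rw [Ideal.mem_comap, map_sub, ← Ideal.Quotient.mk_eq_mk_iff_sub_mem] at h1
    exact h1
  refine ⟨IsAdicComplete.liftRingHom J f hf, fun p => ?_⟩
  rw [← sub_eq_zero]
  apply IsHausdorff.haus (I := J) inferInstance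
  intro n
  rw [SModEq.zero, smul_eq_mul, Ideal.mul_top, ← Ideal.Quotient.eq_zero_iff_mem, map_sub,
    IsAdicComplete.mk_liftRingHom, sub_eq_zero]
  have h2 := (MvPowerSeries.truncTotalAlgHom ι R n).commutes p
  change Ideal.quotientMap (J ^ n) (MvPolynomial.eval₂Hom σ x) (hI n)
    (MvPowerSeries.truncTotalAlgHom ι R n (p : MvPowerSeries ι R)) = _
  erw [h2]
  rfl

theorem exists_powerSeries_surjective' {ι A k : Type*} [Finite ι] [CommRing A] [IsLocalRing A]
    [IsAdicComplete (maximalIdeal A) A] [Field k] (σ : k →+* A)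
    (hσ : Function.Surjective (fun x => residue A (σ x))) (x : ι → A)
    (hx : Ideal.span (Set.range x) = maximalIdeal A) :
    ∃ φ : MvPowerSeries ι k →+* A, Function.Surjective φ ∧
      (∀ p : MvPolynomial ι k, φ (p : MvPowerSeries ι k) = MvPolynomial.eval₂Hom σ x p) := by
  obtain ⟨φ, hφ⟩ := exists_evalHom (maximalIdeal A) σ x
    (fun i => hx ▸ Ideal.subset_span ⟨i, rfl⟩)
  refine ⟨φ, ?_, hφ⟩
  have hX : ∀ i, φ (MvPowerSeries.X i) = x i := by
    intro i
    rw [← MvPolynomial.coe_X, hφ]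
    simp
  have hmap : (Ideal.span (Set.range MvPowerSeries.X) : Ideal (MvPowerSeries ι k)).map φ =
      maximalIdeal A := by
    rw [Ideal.map_span, ← Set.range_comp, ← hx]
    congr 2
    ext i
    exact hX i
  have hH : IsHausdorff ((Ideal.span (Set.range MvPowerSeries.X) :
      Ideal (MvPowerSeries ι k)).map φ) A := by
    rw [hmap]
    infer_instance
  apply surjective_of_mk_map_comp_surjective (I := Ideal.span (Set.range MvPowerSeries.X)) φ
  intro y
  obtain ⟨a, rfl⟩ := Ideal.Quotient.mk_surjective y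
  obtain ⟨c, hc⟩ := hσ (residue A a)
  refine ⟨MvPowerSeries.C c, ?_⟩
  rw [← MvPolynomial.coe_C, RingHom.comp_apply, hφ]
  simp only [MvPolynomial.coe_eval₂Hom, MvPolynomial.eval₂_C]
  rw [Ideal.Quotient.mk_eq_mk_iff_sub_mem, hmap]
  rw [← Ideal.Quotient.mk_eq_mk_iff_sub_mem]
  exact hc

theorem exists_powerSeries_surjective (A : Type*) [CommRing A] [IsLocalRing A]
    [IsAdicComplete (maximalIdeal A) A] (k : Type*) [Field k] (σ : k →+* A)
    (hσ : Function.Surjective (fun x => residue A (σ x))) (d : ℕ) (x : Fin d → A)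
    (hx : Ideal.span (Set.range x) = maximalIdeal A) :
    ∃ φ : MvPowerSeries (Fin d) k →+* A, Function.Surjective φ := by
  obtain ⟨φ, hφ, _⟩ := exists_powerSeries_surjective' σ hσ x hx
  exact ⟨φ, hφ⟩

end Vale.Agent.P177
end
end

section

section

/-!
Finite local subalgebras of an algebraically closed field with a prescribed maximal ideal, and
adjunction of roots to the residue field.
-/

namespace Vale.Agent.P177

open IsLocalRing Function

universe u

section mA

variable {R : Type u} [CommRing R] {Ω : Type u} [Field Ω] [Algebra R Ω] {d : ℕ}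
  (x : Fin d → R)

/-- The elements of the ideal generated by the elements `x` in a subalgebra. -/
def InM (A : Subalgebra R Ω) (y : Ω) : Prop :=
  ∃ a : Fin d → Ω, (∀ i, a i ∈ A) ∧ y = ∑ i, algebraMap R Ω (x i) * a i

variable {x}

theorem InM.mono {A B : Subalgebra R Ω} (h : A ≤ B) {y : Ω} (hy : InM x A y) : InM x B y := by
  obtain ⟨a, ha, hy⟩ := hy
  exact ⟨a, fun i => h (ha i), hy⟩

variable (x)

/-- Finite subalgebras in which the elements `x` generate a maximal ideal. -/
structure FinMax (A : Subalgebra R Ω) : Prop where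
  finite : Module.Finite R A
  inv : ∀ y ∈ A, ¬ InM x A y → ∃ z ∈ A, InM x A (y * z - 1)

/-- Directed unions of such subalgebras. -/
def LocUnion (A : Subalgebra R Ω) : Prop :=
  ∀ F : Finset Ω, (∀ y ∈ F, y ∈ A) → ∃ A₀ : Subalgebra R Ω, A₀ ≤ A ∧ (∀ y ∈ F, y ∈ A₀) ∧ FinMax x A₀

variable {x}

theorem mem_map_iff [IsLocalRing R] (hx : Ideal.span (Set.range x) = maximalIdeal R)
    (A : Subalgebra R Ω) (y : A) :
    y ∈ (maximalIdeal R).map (algebraMap R A) ↔ InM x A (y : Ω) := by
  have h1 : (maximalIdeal R).map (algebraMap R A) =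
      Ideal.span (Set.range fun i => algebraMap R A (x i)) := by
    rw [← hx, Ideal.map_span, ← Set.range_comp]
    rfl
  rw [h1, Ideal.mem_span_range_iff_exists_fun]
  constructor
  · rintro ⟨c, hc⟩
    refine ⟨fun i => (c i : Ω), fun i => (c i).2, ?_⟩
    rw [← hc, AddSubmonoidClass.coe_finsetSum]
    refine Finset.sum_congr rfl fun i _ => ?_
    rw [mul_comm]
    rfl
  · rintro ⟨a, ha, hy⟩
    refine ⟨fun i => ⟨a i, ha i⟩, ?_⟩
    apply Subtype.ext
    rw [hy, AddSubmonoidClass.coe_finsetSum]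
    refine Finset.sum_congr rfl fun i _ => ?_
    rw [mul_comm]
    rfl

theorem not_inM_one [IsLocalRing R] (hx : Ideal.span (Set.range x) = maximalIdeal R)
    (A : Subalgebra R Ω) (hA : Module.Finite R A) : ¬ InM x A 1 := by
  intro h
  have h1 : (1 : A) ∈ (maximalIdeal R).map (algebraMap R A) := (mem_map_iff hx A 1).2 h
  have h2 : (⊤ : Submodule R A) ≤ maximalIdeal R • ⊤ := by
    rw [Ideal.smul_top_eq_map]
    intro y _
    have h3 : (maximalIdeal R).map (algebraMap R A) = ⊤ := (Ideal.eq_top_iff_one _).2 h1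
    change y ∈ (maximalIdeal R).map (algebraMap R A)
    rw [h3]
    exact Submodule.mem_top
  have h4 : (⊤ : Submodule R A) = ⊥ :=
    Submodule.eq_bot_of_le_smul_of_le_jacobson_bot (maximalIdeal R) ⊤ Module.Finite.fg_top h2
      (IsLocalRing.maximalIdeal_le_jacobson ⊥)
  have h5 : (1 : A) ∈ (⊤ : Submodule R A) := Submodule.mem_top
  rw [h4, Submodule.mem_bot] at h5
  exact one_ne_zero h5

theorem isMaximal_iff_inv [IsLocalRing R] (hx : Ideal.span (Set.range x) = maximalIdeal R)
    (A : Subalgebra R Ω) : ((maximalIdeal R).map (algebraMap R A)).IsMaximal ↔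
      ¬ InM x A 1 ∧ ∀ y ∈ A, ¬ InM x A y → ∃ z ∈ A, InM x A (y * z - 1) := by
  constructor
  · intro h
    refine ⟨fun h1 => ?_, fun y hy hy' => ?_⟩
    · exact h.ne_top ((Ideal.eq_top_iff_one _).2 ((mem_map_iff hx A 1).2 h1))
    · obtain ⟨z, i, hi, hz⟩ := h.exists_inv (x := (⟨y, hy⟩ : A))
        (fun h2 => hy' ((mem_map_iff hx A _).1 h2))
      refine ⟨z, z.2, ?_⟩
      have h3 : (⟨y, hy⟩ : A) * z - 1 = - i := by
        rw [← hz]
        ring
      have h4 : (⟨y, hy⟩ : A) * z - 1 ∈ (maximalIdeal R).map (algebraMap R A) := by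
        rw [h3]
        exact neg_mem hi
      exact (mem_map_iff hx A _).1 h4
  · rintro ⟨h1, h2⟩
    rw [Ideal.isMaximal_iff]
    refine ⟨fun h3 => h1 ((mem_map_iff hx A 1).1 h3), fun J y hJ hy hyJ => ?_⟩
    obtain ⟨z, hz, h3⟩ := h2 y y.2 (fun h4 => hy ((mem_map_iff hx A _).2 h4))
    have h4 : y * ⟨z, hz⟩ - 1 ∈ J := hJ ((mem_map_iff hx A (y * ⟨z, hz⟩ - 1)).2 h3)
    have h5 : (1 : A) = y * ⟨z, hz⟩ - (y * ⟨z, hz⟩ - 1) := by ring
    rw [h5]
    exact J.sub_mem (J.mul_mem_right _ hyJ) h4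

theorem FinMax.isMaximal [IsLocalRing R] (hx : Ideal.span (Set.range x) = maximalIdeal R)
    {A : Subalgebra R Ω} (hA : FinMax x A) :
    ((maximalIdeal R).map (algebraMap R A)).IsMaximal :=
  (isMaximal_iff_inv hx A).2 ⟨not_inM_one hx A hA.finite, hA.inv⟩

theorem finMax_bot [IsLocalRing R] (hx : Ideal.span (Set.range x) = maximalIdeal R) :
    FinMax x (⊥ : Subalgebra R Ω) := by
  refine ⟨inferInstance, fun y hy hy' => ?_⟩
  obtain ⟨r, rfl⟩ := Algebra.mem_bot.1 hy
  have hr : r ∉ maximalIdeal R := by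
    intro hr
    rw [← hx, Ideal.mem_span_range_iff_exists_fun] at hr
    obtain ⟨c, rfl⟩ := hr
    apply hy'
    refine ⟨fun i => algebraMap R Ω (c i), fun i => Algebra.mem_bot.2 ⟨c i, rfl⟩, ?_⟩
    rw [map_sum]
    refine Finset.sum_congr rfl fun i _ => ?_
    rw [map_mul, mul_comm]
  rw [mem_maximalIdeal, mem_nonunits_iff, not_not] at hr
  obtain ⟨s, hs⟩ := hr.exists_right_inv
  refine ⟨algebraMap R Ω s, Algebra.mem_bot.2 ⟨s, rfl⟩, ?_⟩
  rw [← map_mul, hs, map_one, sub_self]
  exact ⟨fun _ => 0, fun _ => zero_mem _, by simp⟩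

theorem locUnion_bot [IsLocalRing R] (hx : Ideal.span (Set.range x) = maximalIdeal R) :
    LocUnion x (⊥ : Subalgebra R Ω) :=
  fun _ hF => ⟨⊥, le_rfl, hF, finMax_bot hx⟩

theorem LocUnion.exists_inM {A : Subalgebra R Ω} (hA : LocUnion x A) {y : Ω} (hy : InM x A y)
    (F : Finset Ω) (hF : ∀ y ∈ F, y ∈ A) :
    ∃ A₀ : Subalgebra R Ω, A₀ ≤ A ∧ (∀ y ∈ F, y ∈ A₀) ∧ FinMax x A₀ ∧ InM x A₀ y := by
  classical
  obtain ⟨a, ha, hy⟩ := hy
  obtain ⟨A₀, h1, h2, h3⟩ := hA (F ∪ Finset.univ.image a) (by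
    intro z hz
    rw [Finset.mem_union] at hz
    rcases hz with hz | hz
    · exact hF z hz
    · rw [Finset.mem_image] at hz
      obtain ⟨i, -, rfl⟩ := hz
      exact ha i)
  refine ⟨A₀, h1, fun z hz => h2 z (Finset.mem_union_left _ hz), h3, a, fun i => ?_, hy⟩
  exact h2 _ (Finset.mem_union_right _ (Finset.mem_image_of_mem a (Finset.mem_univ i)))

theorem LocUnion.isMaximal [IsLocalRing R] (hx : Ideal.span (Set.range x) = maximalIdeal R)
    {A : Subalgebra R Ω} (hA : LocUnion x A) :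
    ((maximalIdeal R).map (algebraMap R A)).IsMaximal := by
  rw [isMaximal_iff_inv hx A]
  constructor
  · intro h
    obtain ⟨A₀, -, -, h3, h4⟩ := hA.exists_inM h ∅ (by simp)
    exact not_inM_one hx A₀ h3.finite h4
  · intro y hy hy'
    obtain ⟨A₀, h1, h2, h3⟩ := hA {y} (by simpa using hy)
    obtain ⟨z, hz, h4⟩ := h3.inv y (h2 y (Finset.mem_singleton_self y))
      (fun h => hy' (h.mono h1))
    exact ⟨z, h1 hz, h4.mono h1⟩

theorem isField_quotient_of_surjective {K B : Type u} [Field K] [CommRing B] [Nontrivial B]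
    (ψ : Polynomial K →+* B) (hψ : Surjective ψ) (f : Polynomial K) (hf : Irreducible f)
    (h0 : ψ f = 0) : IsField B := by
  have h1 : (Ideal.span {f}).IsMaximal := PrincipalIdealRing.isMaximal_of_irreducible hf
  have h2 : Ideal.span {f} = RingHom.ker ψ := h1.eq_of_le (RingHom.ker_ne_top ψ) (by
    rw [Ideal.span_singleton_le_iff_mem]
    exact h0)
  rw [h2] at h1
  exact (RingHom.quotientKerEquivOfSurjective hψ).symm.toMulEquiv.isField
    ((Ideal.Quotient.maximal_ideal_iff_isField_quotient _).1 h1)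

theorem FinMax.adjoin [IsLocalRing R] (hx : Ideal.span (Set.range x) = maximalIdeal R)
    {A : Subalgebra R Ω} (hA : FinMax x A) (p : ℕ) (hp : p.Prime) (a β : Ω) (ha : a ∈ A)
    (hβ : β ^ p = a) (hr : ∀ b ∈ A, ¬ InM x A (b ^ p - a)) :
    FinMax x (A ⊔ Algebra.adjoin R {β}) := by
  have hAf : Module.Finite R A := hA.finite
  have hAint : Algebra.IsIntegral R A := inferInstance
  have hai : IsIntegral R a := by
    have := Algebra.IsIntegral.isIntegral (R := R) (⟨a, ha⟩ : A)
    exact this.map A.val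
  have hβi : IsIntegral R β := by
    apply IsIntegral.of_pow hp.pos
    rw [hβ]
    exact hai
  have hadj : Module.Finite R (Algebra.adjoin R {β}) :=
    Module.Finite.iff_fg.2 hβi.fg_adjoin_singleton
  have hfin : Module.Finite R ↥(A ⊔ Algebra.adjoin R {β}) :=
    Subalgebra.finite_sup A (Algebra.adjoin R {β})
  refine ⟨hfin, ?_⟩
  set B := A ⊔ Algebra.adjoin R {β} with hB
  have hβB : β ∈ B := (le_sup_right : Algebra.adjoin R {β} ≤ B)
    (Algebra.subset_adjoin (Set.mem_singleton β))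
  have hAB : A ≤ B := le_sup_left
  let 𝔫 : Ideal A := (maximalIdeal R).map (algebraMap R A)
  let 𝔫' : Ideal B := (maximalIdeal R).map (algebraMap R B)
  have hmax : 𝔫.IsMaximal := hA.isMaximal hx
  have hne : 𝔫' ≠ ⊤ := by
    intro h
    exact not_inM_one hx B hfin ((mem_map_iff hx B 1).1 ((Ideal.eq_top_iff_one _).1 h))
  have hle : 𝔫 ≤ 𝔫'.comap (Subalgebra.inclusion hAB : A →+* B) := by
    rw [← Ideal.map_le_iff_le_comap, Ideal.map_map]
    exact le_of_eq rfl
  let K := A ⧸ 𝔫
  let _ : Field K := Ideal.Quotient.field 𝔫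
  have hnt : Nontrivial (B ⧸ 𝔫') := Ideal.Quotient.nontrivial_iff.2 hne
  let f₀ : K →+* B ⧸ 𝔫' := Ideal.quotientMap 𝔫' (Subalgebra.inclusion hAB : A →+* B) hle
  let ψ : Polynomial K →+* B ⧸ 𝔫' := Polynomial.eval₂RingHom f₀ (Ideal.Quotient.mk 𝔫' ⟨β, hβB⟩)
  have hψC : ∀ y : A, ψ (Polynomial.C (Ideal.Quotient.mk 𝔫 y)) =
      Ideal.Quotient.mk 𝔫' ⟨y, hAB y.2⟩ := fun y => by
    simp only [ψ, Polynomial.coe_eval₂RingHom, Polynomial.eval₂_C]
    rfl
  have hψX : ψ Polynomial.X = Ideal.Quotient.mk 𝔫' ⟨β, hβB⟩ := by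
    simp only [ψ, Polynomial.coe_eval₂RingHom, Polynomial.eval₂_X]
  have hsurj : Surjective ψ := by
    let T : Subalgebra R B :=
      { carrier := {y | Ideal.Quotient.mk 𝔫' y ∈ ψ.range}
        mul_mem' := fun {a b} ha hb => by
          simp only [Set.mem_ofPred_eq, map_mul] at ha hb ⊢
          exact mul_mem ha hb
        add_mem' := fun {a b} ha hb => by
          simp only [Set.mem_ofPred_eq, map_add] at ha hb ⊢
          exact add_mem ha hb
        algebraMap_mem' := fun r => by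
          refine ⟨Polynomial.C (Ideal.Quotient.mk 𝔫 (algebraMap R A r)), ?_⟩
          rw [hψC]
          rfl }
    have hT : B ≤ T.map B.val := by
      refine sup_le ?_ ?_
      · intro y hy
        exact ⟨⟨y, hAB hy⟩, ⟨_, hψC ⟨y, hy⟩⟩, rfl⟩
      · rw [Algebra.adjoin_le_iff]
        rintro _ rfl
        exact ⟨⟨_, hβB⟩, ⟨_, hψX⟩, rfl⟩
    intro y
    obtain ⟨y, rfl⟩ := Ideal.Quotient.mk_surjective y
    obtain ⟨z, hz, hzy⟩ := hT y.2
    have : z = y := Subtype.ext hzy
    rw [← this]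
    exact hz
  have hirr : Irreducible (Polynomial.X ^ p - Polynomial.C (Ideal.Quotient.mk 𝔫 ⟨a, ha⟩) :
      Polynomial K) := by
    apply X_pow_sub_C_irreducible_of_prime hp
    intro b
    obtain ⟨b, rfl⟩ := Ideal.Quotient.mk_surjective b
    rw [← map_pow, Ne, Ideal.Quotient.mk_eq_mk_iff_sub_mem]
    intro h
    exact hr b b.2 ((mem_map_iff hx A _).1 h)
  have hF : IsField (B ⧸ 𝔫') := by
    refine isField_quotient_of_surjective ψ hsurj _ hirr ?_
    rw [map_sub, map_pow, hψX, hψC, ← map_pow, ← map_sub]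
    have : (⟨β, hβB⟩ : B) ^ p - ⟨a, hAB ha⟩ = 0 := by
      apply Subtype.ext
      change β ^ p - a = 0
      rw [hβ, sub_self]
    rw [this, map_zero]
  have hmax' : 𝔫'.IsMaximal := Ideal.Quotient.maximal_of_isField _ hF
  exact ((isMaximal_iff_inv hx B).1 hmax').2

theorem exists_finset_sup (A : Subalgebra R Ω) (β y : Ω) (hy : y ∈ A ⊔ Algebra.adjoin R {β}) :
    ∃ F : Finset Ω, (∀ z ∈ F, z ∈ A) ∧ ∀ A₀ : Subalgebra R Ω, (∀ z ∈ F, z ∈ A₀) →
      y ∈ A₀ ⊔ Algebra.adjoin R {β} := by
  classical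
  let T : Subalgebra R Ω :=
    { carrier := {y | ∃ F : Finset Ω, (∀ z ∈ F, z ∈ A) ∧
        ∀ A₀ : Subalgebra R Ω, (∀ z ∈ F, z ∈ A₀) → y ∈ A₀ ⊔ Algebra.adjoin R {β}}
      mul_mem' := by
        rintro a b ⟨F, hF, h1⟩ ⟨G, hG, h2⟩
        refine ⟨F ∪ G, fun z hz => ?_, fun A₀ hA₀ => ?_⟩
        · rcases Finset.mem_union.1 hz with h | h
          · exact hF z h
          · exact hG z h
        · exact mul_mem (h1 A₀ fun z hz => hA₀ z (Finset.mem_union_left _ hz))
            (h2 A₀ fun z hz => hA₀ z (Finset.mem_union_right _ hz))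
      add_mem' := by
        rintro a b ⟨F, hF, h1⟩ ⟨G, hG, h2⟩
        refine ⟨F ∪ G, fun z hz => ?_, fun A₀ hA₀ => ?_⟩
        · rcases Finset.mem_union.1 hz with h | h
          · exact hF z h
          · exact hG z h
        · exact add_mem (h1 A₀ fun z hz => hA₀ z (Finset.mem_union_left _ hz))
            (h2 A₀ fun z hz => hA₀ z (Finset.mem_union_right _ hz))
      algebraMap_mem' := fun r => ⟨∅, by simp, fun A₀ _ => Subalgebra.algebraMap_mem _ r⟩ }
  have hT : A ⊔ Algebra.adjoin R {β} ≤ T := by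
    refine sup_le ?_ ?_
    · intro z hz
      exact ⟨{z}, by simpa using hz, fun A₀ hA₀ =>
        (le_sup_left : A₀ ≤ A₀ ⊔ _) (hA₀ z (Finset.mem_singleton_self z))⟩
    · rw [Algebra.adjoin_le_iff]
      rintro _ rfl
      exact ⟨∅, by simp, fun A₀ _ => (le_sup_right : Algebra.adjoin R _ ≤ A₀ ⊔ _)
        (Algebra.subset_adjoin (Set.mem_singleton _))⟩
  exact hT hy

theorem LocUnion.adjoin [IsLocalRing R] (hx : Ideal.span (Set.range x) = maximalIdeal R)
    {A : Subalgebra R Ω} (hA : LocUnion x A) (p : ℕ) (hp : p.Prime) (a β : Ω) (ha : a ∈ A)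
    (hβ : β ^ p = a) (hr : ∀ b ∈ A, ¬ InM x A (b ^ p - a)) :
    LocUnion x (A ⊔ Algebra.adjoin R {β}) := by
  classical
  intro F hF
  have h1 : ∀ y : F, ∃ G : Finset Ω, (∀ z ∈ G, z ∈ A) ∧ ∀ A₀ : Subalgebra R Ω,
      (∀ z ∈ G, z ∈ A₀) → (y : Ω) ∈ A₀ ⊔ Algebra.adjoin R {β} := fun y =>
    exists_finset_sup A β y (hF y y.2)
  choose G hG hG' using h1
  obtain ⟨A₀, h2, h3, h4⟩ := hA (insert a (Finset.univ.biUnion G)) (by
    intro y hy
    rw [Finset.mem_insert, Finset.mem_biUnion] at hy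
    rcases hy with rfl | ⟨z, -, hz⟩
    · exact ha
    · exact hG z y hz)
  refine ⟨A₀ ⊔ Algebra.adjoin R {β}, sup_le_sup_right h2 _, fun y hy => ?_, ?_⟩
  · refine hG' ⟨y, hy⟩ A₀ fun z hz => h3 z ?_
    rw [Finset.mem_insert, Finset.mem_biUnion]
    exact Or.inr ⟨_, Finset.mem_univ _, hz⟩
  · exact h4.adjoin hx p hp a β (h3 a (Finset.mem_insert_self _ _)) hβ fun b hb h =>
      hr b (h2 hb) (h.mono h2)

theorem locUnion_sSup (c : Set (Subalgebra R Ω)) (hc : ∀ A ∈ c, LocUnion x A)
    (hch : IsChain (· ≤ ·) c) (hne : c.Nonempty) : LocUnion x (sSup c) := by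
  classical
  intro F hF
  have hdir : DirectedOn (· ≤ ·) c := hch.directedOn
  have h1 : ∃ A ∈ c, ∀ y ∈ F, y ∈ A := by
    induction F using Finset.induction with
    | empty =>
      obtain ⟨A, hA⟩ := hne
      exact ⟨A, hA, by simp⟩
    | insert z F _ ih =>
      obtain ⟨A, hA, h2⟩ := ih fun y hy => hF y (Finset.mem_insert_of_mem hy)
      have hne' : Nonempty c := hne.to_subtype
      have h4 : z ∈ ⨆ B : c, (B : Subalgebra R Ω) := by
        rw [← sSup_eq_iSup']
        exact hF z (Finset.mem_insert_self _ _)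
      rw [← SetLike.mem_coe, Subalgebra.coe_iSup_of_directed hdir.directed_val,
        Set.mem_iUnion] at h4
      obtain ⟨⟨B, hB⟩, h3⟩ := h4
      obtain ⟨C, hC, hAC, hBC⟩ := hdir A hA B hB
      refine ⟨C, hC, fun y hy => ?_⟩
      rcases Finset.mem_insert.1 hy with rfl | hy
      · exact hBC h3
      · exact hAC (h2 y hy)
  obtain ⟨A, hA, h2⟩ := h1
  obtain ⟨A₀, h3, h4, h5⟩ := hc A hA F h2
  exact ⟨A₀, h3.trans (le_sSup hA), h4, h5⟩

/-- A maximal directed union has a perfect residue ring. -/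
theorem exists_locUnion_perfect [IsLocalRing R] [IsAlgClosed Ω]
    (hx : Ideal.span (Set.range x) = maximalIdeal R) (p : ℕ) (hp : p.Prime) :
    ∃ A : Subalgebra R Ω, LocUnion x A ∧ ∀ a ∈ A, ∃ b ∈ A, InM x A (b ^ p - a) := by
  obtain ⟨A, -, hA⟩ := zorn_le_nonempty₀ {A : Subalgebra R Ω | LocUnion x A} (fun c hc hch y hy =>
    ⟨sSup c, locUnion_sSup c hc hch ⟨y, hy⟩, fun z hz => le_sSup hz⟩) ⊥ (locUnion_bot hx)
  refine ⟨A, hA.prop, fun a ha => ?_⟩
  by_contra hcon
  push Not at hcon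
  obtain ⟨β, hβ⟩ := IsAlgClosed.exists_pow_nat_eq a hp.pos
  have h1 : LocUnion x (A ⊔ Algebra.adjoin R {β}) := LocUnion.adjoin hx hA.prop p hp a β ha hβ hcon
  have h2 : A ⊔ Algebra.adjoin R {β} ≤ A := hA.le_of_ge h1 le_sup_left
  have h3 : β ∈ A := h2 ((le_sup_right : Algebra.adjoin R {β} ≤ A ⊔ _)
    (Algebra.subset_adjoin (Set.mem_singleton β)))
  apply hcon β h3
  rw [hβ, sub_self]
  exact ⟨fun _ => 0, fun _ => zero_mem _, by simp⟩

end mA

end Vale.Agent.P177
end
end

section

section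

/-! Coefficient fields of complete local rings of prime characteristic. -/

namespace Vale.Agent.P177

open IsLocalRing Polynomial

/-- A surjection from a ring of characteristic `p` onto a field with square-zero kernel
has a section. -/
theorem exists_section_of_sq_zero {B k : Type*} [CommRing B] [Field k] (p : ℕ) [Fact p.Prime]
    [CharP B p] (π : B →+* k) (hπ : Function.Surjective π) (hI : (RingHom.ker π) ^ 2 = ⊥) :
    ∃ s : k →+* B, π.comp s = RingHom.id k := by
  classical
  have hp : p.Prime := Fact.out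
  have hchar : CharP k p := by
    have h0 : (p : k) = 0 := by
      rw [← map_natCast π, CharP.cast_eq_zero, map_zero]
    exact (CharP.charP_iff_prime_eq_zero hp).mpr h0
  have hsq : ∀ b : B, π b = 0 → b ^ 2 = 0 := by
    intro b hb
    have : b ^ 2 ∈ (RingHom.ker π) ^ 2 := Ideal.pow_mem_pow (RingHom.mem_ker.mpr hb) 2
    rw [hI] at this
    simpa only [Submodule.mem_bot] using this
  have hpow : ∀ b : B, π b = 0 → b ^ p = 0 := by
    intro b hb
    obtain ⟨c, hc⟩ := Nat.exists_eq_add_of_le hp.two_le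
    rw [hc, pow_add, hsq b hb, zero_mul]
  have hunit : ∀ b : B, π b ≠ 0 → IsUnit b := by
    intro b hb
    obtain ⟨c, hc⟩ := hπ (π b)⁻¹
    have h1 : π (b * c - 1) = 0 := by
      rw [map_sub, map_mul, hc, mul_inv_cancel₀ hb, map_one, sub_self]
    have h2 := hsq _ h1
    have h3 : b * (c * (2 - b * c)) = 1 := by
      linear_combination -h2
    exact IsUnit.of_mul_eq_one _ h3
  let S : Set (Subring B) := {K | (frobenius B p).range ≤ K ∧ ∀ x ∈ K, π x = 0 → x = 0}
  have hne : (frobenius B p).range ∈ S := by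
    refine ⟨le_rfl, ?_⟩
    rintro x ⟨y, rfl⟩ hx
    rw [frobenius_def, map_pow] at hx
    have : π y = 0 := pow_eq_zero_iff hp.ne_zero |>.mp hx
    rw [frobenius_def]
    exact hpow y this
  obtain ⟨K, hKle, hKmax⟩ := zorn_le_nonempty₀ S (by
    intro c hcS hc y hy
    refine ⟨sSup c, ⟨?_, ?_⟩, fun z hz => le_sSup hz⟩
    · exact le_trans (hcS hy).1 (le_sSup hy)
    · intro x hx hx0
      rw [Subring.mem_sSup_of_directedOn ⟨y, hy⟩ hc.directedOn] at hx
      obtain ⟨z, hz, hxz⟩ := hx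
      exact (hcS hz).2 x hxz hx0) _ hne
  have hKS : K ∈ S := hKmax.prop
  have hfrob : ∀ x : B, x ^ p ∈ K := fun x => hKS.1 ⟨x, rfl⟩
  -- the image as a subfield
  let L : Subfield k :=
    { K.map π with
      inv_mem' := by
        rintro x ⟨y, hy, rfl⟩
        by_cases hy0 : π y = 0
        · rw [hy0, inv_zero]
          exact ⟨0, K.zero_mem, map_zero π⟩
        · obtain ⟨u, hu⟩ := hunit y hy0
          refine ⟨y ^ (p - 1) * ((u⁻¹ : Bˣ) : B) ^ p, K.mul_mem (K.pow_mem hy _) (hfrob _), ?_⟩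
          have h1 : π y * π ((u⁻¹ : Bˣ) : B) = 1 := by
            rw [← map_mul, ← hu, Units.mul_inv, map_one]
          have h2 : π ((u⁻¹ : Bˣ) : B) = (π y)⁻¹ := eq_inv_of_mul_eq_one_right h1
          rw [map_mul, map_pow, map_pow, h2]
          obtain ⟨q, hq⟩ := Nat.exists_eq_succ_of_ne_zero hp.ne_zero
          subst hq
          rw [Nat.succ_sub_one, pow_succ, ← mul_assoc, ← mul_pow, mul_inv_cancel₀ hy0, one_pow,
            one_mul] }
  have hL : ∀ x, x ∈ L ↔ ∃ y ∈ K, π y = x := fun x => Iff.rfl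
  have hsurj : ∀ b : k, b ∈ L := by
    by_contra hcon
    obtain ⟨b, hb⟩ := not_forall.mp hcon
    obtain ⟨β, rfl⟩ := hπ b
    -- the irreducible polynomial
    have hbp : (π β) ^ p ∈ L := ⟨β ^ p, hfrob β, map_pow π β p⟩
    have hirr : Irreducible (X ^ p - C (⟨(π β) ^ p, hbp⟩ : L)) := by
      apply X_pow_sub_C_irreducible_of_prime hp
      intro c hc
      have h1 : ((c : k)) ^ p = (π β) ^ p := by
        have := congrArg (Subtype.val) hc
        simpa only [SubmonoidClass.coe_pow] using this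
      have h2 : (c : k) = π β := frobenius_inj k p (by simpa only [frobenius_def] using h1)
      exact hb (h2 ▸ c.2)
    have hmin : minpoly L (π β) = X ^ p - C (⟨(π β) ^ p, hbp⟩ : L) := by
      symm
      apply minpoly.eq_of_irreducible_of_monic hirr
      · simp only [map_sub, map_pow, aeval_X, aeval_C]
        exact sub_self _
      · exact monic_X_pow_sub_C _ hp.ne_zero
    -- the adjoined ring
    let K' : Subring B := (Algebra.adjoin K {β}).toSubring
    have hKK' : K ≤ K' := by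
      intro x hx
      exact (Algebra.adjoin K {β}).algebraMap_mem ⟨x, hx⟩
    have hβK' : β ∈ K' := Algebra.subset_adjoin rfl
    have hK'S : K' ∈ S := by
      refine ⟨le_trans hKS.1 hKK', ?_⟩
      intro x hx hx0
      have hx' : x ∈ Algebra.adjoin K {β} := hx
      rw [Algebra.adjoin_singleton_eq_range_aeval] at hx'
      obtain ⟨P, rfl⟩ := hx'
      let Q : K[X] := X ^ p - C ⟨β ^ p, hfrob β⟩
      have hQ : Q.Monic := monic_X_pow_sub_C _ hp.ne_zero
      have hQβ : aeval β Q = 0 := by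
        simp only [Q, map_sub, map_pow, aeval_X, aeval_C]
        exact sub_self _
      have hdiv : aeval β (P %ₘ Q) = aeval β P := by
        conv_rhs => rw [← modByMonic_add_div P Q]
        rw [map_add, map_mul, hQβ, zero_mul, add_zero]
      have : Nontrivial K := by
        have hnt : Nontrivial B := π.domain_nontrivial
        infer_instance
      have hdeg : (P %ₘ Q).degree < p := by
        have := degree_modByMonic_lt P hQ
        rwa [degree_X_pow_sub_C hp.pos] at this
      let πK : K →+* L := (π.comp K.subtype).codRestrict L (fun x => ⟨x, x.2, rfl⟩)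
      have hπK : Function.Injective πK := by
        rw [injective_iff_map_eq_zero]
        intro y hy
        have : π y = 0 := congrArg Subtype.val hy
        exact Subtype.ext (hKS.2 y y.2 this)
      have hzero : aeval (π β) ((P %ₘ Q).map πK) = 0 := by
        have hx1 : π (aeval β P) = 0 := hx0
        rw [← hdiv] at hx1
        rw [← hx1, aeval_def, eval₂_map, aeval_def, hom_eval₂]
        rfl
      have hdvd := minpoly.dvd L (π β) hzero
      have hPz : (P %ₘ Q).map πK = 0 := by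
        apply eq_zero_of_dvd_of_degree_lt hdvd
        rw [hmin, degree_X_pow_sub_C hp.pos]
        exact lt_of_le_of_lt degree_map_le hdeg
      have hPz' : P %ₘ Q = 0 := (Polynomial.map_eq_zero_iff hπK).mp hPz
      change aeval β P = 0
      rw [← hdiv, hPz', map_zero]
    have hle : K' ≤ K := hKmax.le_of_ge hK'S hKK'
    exact hb ⟨β, hle hβK', rfl⟩
  have hbij : Function.Bijective (π.comp K.subtype) := by
    constructor
    · rw [injective_iff_map_eq_zero]
      intro y hy
      exact Subtype.ext (hKS.2 y y.2 hy)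
    · intro x
      obtain ⟨y, hy, hyx⟩ := hsurj x
      exact ⟨⟨y, hy⟩, hyx⟩
  let e : K ≃+* k := RingEquiv.ofBijective _ hbij
  refine ⟨K.subtype.comp (e.symm : k →+* K), ?_⟩
  ext x
  exact e.apply_symm_apply x

/-- Every field of characteristic `p` is formally smooth over its prime field. -/
theorem formallySmooth_zmod (k : Type*) [Field k] (p : ℕ) [Fact p.Prime] [Algebra (ZMod p) k] :
    Algebra.FormallySmooth (ZMod p) k := by
  let P := Algebra.Generators.self (ZMod p) k
  let f := IsScalarTower.toAlgHom (ZMod p) P.Ring k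
  have hf : Function.Surjective f := P.algebraMap_surjective
  rw [Algebra.FormallySmooth.iff_split_surjection f hf]
  have hs : Function.Surjective f.kerSquareLift :=
    Ideal.Quotient.lift_surjective_of_surjective _ _ P.algebraMap_surjective
  have hsq : RingHom.ker f.kerSquareLift.toRingHom ^ 2 = ⊥ := by
    rw [AlgHom.ker_kerSquareLift, Ideal.cotangentIdeal_square]
  have hk : CharP k p := (CharP.charP_iff_prime_eq_zero Fact.out).mpr (by
    rw [← map_natCast (algebraMap (ZMod p) k), ZMod.natCast_self, map_zero])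
  have hB : CharP (P.Ring ⧸ RingHom.ker f.toRingHom ^ 2) p := by
    have hnt : Nontrivial (P.Ring ⧸ RingHom.ker f.toRingHom ^ 2) :=
      (f.kerSquareLift.toRingHom).domain_nontrivial
    exact (CharP.charP_iff_prime_eq_zero Fact.out).mpr (by
      rw [← map_natCast (algebraMap (ZMod p) _), ZMod.natCast_self, map_zero])
  obtain ⟨s, hs'⟩ := exists_section_of_sq_zero p f.kerSquareLift.toRingHom hs hsq
  refine ⟨{ s with commutes' := fun r => ?_ }, ?_⟩
  · exact RingHom.congr_fun (Subsingleton.elim (s.comp (algebraMap (ZMod p) k))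
      (algebraMap (ZMod p) _)) r
  · ext x
    exact congr($hs' x)

theorem exists_coefficientField (A : Type*) [CommRing A] [IsLocalRing A]
    (p : ℕ) [Fact p.Prime] [CharP A p] [IsAdicComplete (maximalIdeal A) A] :
    ∃ σ : ResidueField A →+* A, ∀ x, residue A (σ x) = x := by
  let algA : Algebra (ZMod p) A := ZMod.algebra A p
  have hfs : Algebra.FormallySmooth (ZMod p) (ResidueField A) :=
    formallySmooth_zmod (ResidueField A) p
  obtain ⟨g, hg⟩ := @Algebra.FormallySmooth.exists_mkₐ_comp_eq_of_isAdicComplete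
    (ZMod p) (ResidueField A) _ _ _ A _ _ hfs (maximalIdeal A) _
    (AlgHom.id (ZMod p) (ResidueField A))
  exact ⟨g.toRingHom, fun x => congr($hg x)⟩

end Vale.Agent.P177
end
end

section

section

/-!
Minimal primes of `I₁ ⊗ R₂ + R₁ ⊗ I₂` contract to minimal primes in the fibre.
-/

namespace Vale.Agent.P177

open Function IsLocalRing TensorProduct

universe u

section

variable {A R₁ R₂ : Type u} [CommRing A] [CommRing R₁] [CommRing R₂] [Algebra A R₁]
  [Algebra A R₂]

theorem mem_fiber_iff {R S : Type u} [CommRing R] [CommRing S] [Algebra R S] (p : PrimeSpectrum R)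
    (P : PrimeSpectrum (p.asIdeal.Fiber S)) (x : S) :
    x ∈ (((PrimeSpectrum.preimageOrderIsoFiber R S p).symm P).1).asIdeal ↔
      ((1 : p.asIdeal.ResidueField) ⊗ₜ x) ∈ P.asIdeal := Iff.rfl

theorem comap_mem_minimalPrimes (I₁ : Ideal R₁) (I₂ : Ideal R₂) (Q : Ideal (R₁ ⊗[A] R₂))
    [Q.IsPrime] (hQ : Q ∈ (I₁.map (algebraMap R₁ (R₁ ⊗[A] R₂)) ⊔
      I₂.map (Algebra.TensorProduct.includeRight : R₂ →ₐ[A] R₁ ⊗[A] R₂)).minimalPrimes) :
    Q.comap (Algebra.TensorProduct.includeRight : R₂ →ₐ[A] R₁ ⊗[A] R₂) ∈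
      (I₂ ⊔ (Q.comap (algebraMap A (R₁ ⊗[A] R₂))).map (algebraMap A R₂)).minimalPrimes := by
  let P₁ : PrimeSpectrum R₁ := ⟨Q.comap (algebraMap R₁ (R₁ ⊗[A] R₂)), Ideal.IsPrime.comap _⟩
  let P₂ : PrimeSpectrum R₂ :=
    ⟨Q.comap (Algebra.TensorProduct.includeRight : R₂ →ₐ[A] R₁ ⊗[A] R₂), Ideal.IsPrime.comap _⟩
  let q : PrimeSpectrum A := ⟨Q.comap (algebraMap A (R₁ ⊗[A] R₂)), Ideal.IsPrime.comap _⟩
  have hP₁ : q = PrimeSpectrum.comap (algebraMap A R₁) P₁ := by
    apply PrimeSpectrum.ext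
    change Q.comap _ = (Q.comap _).comap _
    rw [Ideal.comap_comap, ← IsScalarTower.algebraMap_eq]
  have hP₂ : q = PrimeSpectrum.comap (algebraMap A R₂) P₂ := by
    apply PrimeSpectrum.ext
    ext x
    change algebraMap A (R₁ ⊗[A] R₂) x ∈ Q ↔
      (Algebra.TensorProduct.includeRight : R₂ →ₐ[A] R₁ ⊗[A] R₂) (algebraMap A R₂ x) ∈ Q
    rw [AlgHom.commutes]
  let φ₀ : q.asIdeal.ResidueField →ₐ[A] P₁.asIdeal.ResidueField :=
    Ideal.ResidueField.mapₐ q.asIdeal P₁.asIdeal (Algebra.ofId _ _)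
      (congrArg PrimeSpectrum.asIdeal hP₁)
  let _ : Algebra q.asIdeal.ResidueField P₁.asIdeal.ResidueField := φ₀.toRingHom.toAlgebra
  have htow : IsScalarTower A q.asIdeal.ResidueField P₁.asIdeal.ResidueField :=
    IsScalarTower.of_algebraMap_eq fun x => (φ₀.commutes x).symm
  obtain ⟨φ, hφflat, hφ⟩ := exists_flat_map A R₁ R₂ q.asIdeal.ResidueField
    P₁.asIdeal.ResidueField
  let _ : Algebra (q.asIdeal.Fiber R₂) (P₁.asIdeal.Fiber (R₁ ⊗[A] R₂)) := φ.toAlgebra
  have : Module.Flat (q.asIdeal.Fiber R₂) (P₁.asIdeal.Fiber (R₁ ⊗[A] R₂)) := hφflat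
  have : Algebra.HasGoingDown (q.asIdeal.Fiber R₂) (P₁.asIdeal.Fiber (R₁ ⊗[A] R₂)) :=
    Algebra.HasGoingDown.of_flat
  have m₂ : P₂ ∈ PrimeSpectrum.comap (algebraMap A R₂) ⁻¹' {q} := hP₂.symm
  have m₁ : (⟨Q, inferInstance⟩ : PrimeSpectrum (R₁ ⊗[A] R₂)) ∈
      PrimeSpectrum.comap (algebraMap R₁ (R₁ ⊗[A] R₂)) ⁻¹' {P₁} := rfl
  refine ⟨⟨P₂.isPrime, ?_⟩, ?_⟩
  · refine sup_le ?_ ?_
    · have h1 := le_sup_right.trans hQ.1.2
      rwa [Ideal.map_le_iff_le_comap] at h1
    · rw [Ideal.map_le_iff_le_comap]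
      exact (congrArg PrimeSpectrum.asIdeal hP₂).le
  · rintro P' ⟨hP'p, hP'⟩ hle
    have m' : (⟨P', hP'p⟩ : PrimeSpectrum R₂) ∈ PrimeSpectrum.comap (algebraMap A R₂) ⁻¹' {q} := by
      simp only [Set.mem_preimage, Set.mem_singleton_iff]
      apply PrimeSpectrum.ext
      apply le_antisymm
      · refine (Ideal.comap_mono hle).trans ?_
        exact (congrArg PrimeSpectrum.asIdeal hP₂).ge
      · rw [PrimeSpectrum.comap_asIdeal, ← Ideal.map_le_iff_le_comap]
        exact le_sup_right.trans hP'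
    let PF := PrimeSpectrum.preimageOrderIsoFiber A R₂ q ⟨P₂, m₂⟩
    let PF' := PrimeSpectrum.preimageOrderIsoFiber A R₂ q ⟨_, m'⟩
    let QG := PrimeSpectrum.preimageOrderIsoFiber R₁ (R₁ ⊗[A] R₂) P₁ ⟨_, m₁⟩
    have hPF : PF' ≤ PF := (PrimeSpectrum.preimageOrderIsoFiber A R₂ q).monotone hle
    have hsQG : ((PrimeSpectrum.preimageOrderIsoFiber R₁ (R₁ ⊗[A] R₂) P₁).symm QG) = ⟨_, m₁⟩ :=
      OrderIso.symm_apply_apply _ _
    have hcom : PrimeSpectrum.comap φ QG = PF := by
      apply (PrimeSpectrum.preimageOrderIsoFiber A R₂ q).symm.injective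
      rw [OrderIso.symm_apply_apply]
      apply Subtype.ext
      apply PrimeSpectrum.ext
      ext r
      have h1 : r ∈ (((PrimeSpectrum.preimageOrderIsoFiber A R₂ q).symm
          (PrimeSpectrum.comap φ QG)).1).asIdeal ↔ φ (1 ⊗ₜ r) ∈ QG.asIdeal := Iff.rfl
      have h3 : ∀ x : R₁ ⊗[A] R₂, x ∈ Q ↔ ((1 : P₁.asIdeal.ResidueField) ⊗ₜ x) ∈ QG.asIdeal := by
        intro x
        have h4 := mem_fiber_iff P₁ QG x
        rw [hsQG] at h4
        exact h4
      rw [h1, hφ, ← h3]
      rfl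
    have i3 : QG.asIdeal.LiesOver PF.asIdeal := ⟨(congrArg PrimeSpectrum.asIdeal hcom).symm⟩
    have hPF2 : PF'.asIdeal ≤ PF.asIdeal := hPF
    obtain ⟨Q'', hQ''le, hQ''p, hQ''l⟩ := Ideal.exists_ideal_le_liesOver_of_le
      (S := P₁.asIdeal.Fiber (R₁ ⊗[A] R₂)) QG.asIdeal hPF2
    let X := (PrimeSpectrum.preimageOrderIsoFiber R₁ (R₁ ⊗[A] R₂) P₁).symm ⟨Q'', hQ''p⟩
    have hX1 : X.1.asIdeal ≤ Q := by
      have h5 : X ≤ (PrimeSpectrum.preimageOrderIsoFiber R₁ (R₁ ⊗[A] R₂) P₁).symm QG :=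
        (PrimeSpectrum.preimageOrderIsoFiber R₁ (R₁ ⊗[A] R₂) P₁).symm.monotone hQ''le
      rw [hsQG] at h5
      exact h5
    have hX2 : ∀ r : R₂, (Algebra.TensorProduct.includeRight : R₂ →ₐ[A] R₁ ⊗[A] R₂) r ∈
        X.1.asIdeal ↔ r ∈ P' := by
      intro r
      have h1 : (Algebra.TensorProduct.includeRight : R₂ →ₐ[A] R₁ ⊗[A] R₂) r ∈
        X.1.asIdeal ↔ ((1 : P₁.asIdeal.ResidueField) ⊗ₜ ((1 : R₁) ⊗ₜ r)) ∈ Q'' := Iff.rfl
      rw [h1, ← hφ]
      have h2 : φ (1 ⊗ₜ r) ∈ Q'' ↔ (1 ⊗ₜ r) ∈ PF'.asIdeal := by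
        rw [hQ''l.over]
        rfl
      rw [h2]
      have h3 := mem_fiber_iff q PF' r
      have h4 : (PrimeSpectrum.preimageOrderIsoFiber A R₂ q).symm PF' = ⟨_, m'⟩ :=
        OrderIso.symm_apply_apply _ _
      rw [h4] at h3
      exact h3.symm
    have hX3 : PrimeSpectrum.comap (algebraMap R₁ (R₁ ⊗[A] R₂)) X.1 = P₁ := X.2
    have hX4 : I₁.map (algebraMap R₁ (R₁ ⊗[A] R₂)) ⊔
        I₂.map (Algebra.TensorProduct.includeRight : R₂ →ₐ[A] R₁ ⊗[A] R₂) ≤ X.1.asIdeal := by
      refine sup_le ?_ ?_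
      · rw [Ideal.map_le_iff_le_comap]
        have h1 := le_sup_left.trans hQ.1.2
        rw [Ideal.map_le_iff_le_comap] at h1
        exact h1.trans (congrArg PrimeSpectrum.asIdeal hX3).ge
      · rw [Ideal.map_le_iff_le_comap]
        intro r hr
        exact (hX2 r).2 (hP' (Ideal.mem_sup_left hr))
    have hX5 : Q ≤ X.1.asIdeal := hQ.2 ⟨X.1.isPrime, hX4⟩ hX1
    intro r hr
    exact (hX2 r).1 (hX5 hr)

end

end Vale.Agent.P177
end
end
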