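import Vale.Agent.P177.MathlibUsed
import Vale.Agent.P177.Bdl.B2
import Vale.Agent.P177.Bdl.B1

set_option linter.all false

section

section

/-!
Comparison of strict transforms under flat base change.
-/

namespace Vale.Agent.P177

open Function TensorProduct

universe u

theorem st_compare {R₁ A S S' Λ Ω : Type u} [CommRing R₁] [CommRing A] [CommRing S] [CommRing S']
    [CommRing Λ] [CommRing Ω] [Algebra R₁ A] [Algebra A S] [Algebra S S'] [Algebra S' Ω]
    [Algebra S Ω] [IsScalarTower S S' Ω] [Algebra A Ω] [IsScalarTower A S Ω] [Algebra R₁ Ω]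
    [IsScalarTower R₁ A Ω] [Algebra R₁ Λ] [Algebra Λ Ω] [IsScalarTower R₁ Λ Ω] [Module.Flat S Ω]
    [Module.Flat Λ Ω] (t : S) (t' : Λ) (u : Ωˣ) (h : algebraMap S Ω t = u * algebraMap Λ Ω t')
    (M : Type u) [AddCommGroup M] [Module R₁ M] :
    Nonempty ((Ω ⊗[S'] (S' ⊗[S] St t (S ⊗[A] (A ⊗[R₁] M)))) ≃ₗ[Ω]
      (Ω ⊗[Λ] St t' (Λ ⊗[R₁] M))) := by
  have e1 := TensorProduct.AlgebraTensorModule.cancelBaseChange S S' Ω Ω
    (St t (S ⊗[A] (A ⊗[R₁] M)))
  obtain ⟨e2⟩ := St_baseChange (S' := Ω) (t := t) (W := S ⊗[A] (A ⊗[R₁] M))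
  obtain ⟨e3⟩ := St_congr (t := algebraMap S Ω t)
    (TensorProduct.AlgebraTensorModule.cancelBaseChange A S Ω Ω (A ⊗[R₁] M))
  obtain ⟨e4⟩ := St_congr (t := algebraMap S Ω t)
    (TensorProduct.AlgebraTensorModule.cancelBaseChange R₁ A Ω Ω M)
  obtain ⟨e5⟩ := St_unit (W := Ω ⊗[R₁] M) u h
  obtain ⟨e6⟩ := St_congr (t := algebraMap Λ Ω t')
    (TensorProduct.AlgebraTensorModule.cancelBaseChange R₁ Λ Ω Ω M)
  obtain ⟨e7⟩ := St_baseChange (S' := Ω) (t := t') (W := Λ ⊗[R₁] M)
  exact ⟨e1 ≪≫ₗ e2 ≪≫ₗ e3 ≪≫ₗ e4 ≪≫ₗ e5 ≪≫ₗ e6.symm ≪≫ₗ e7.symm⟩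

end Vale.Agent.P177
end
end

section

section

/-!
The extended Rees algebra of the maximal ideal of a regular local ring.
-/

namespace Vale.Agent.P177

open MvPolynomial IsLocalRing RingTheory.Sequence Function

universe u

section defs

variable {A : Type u} [CommRing A] {d : ℕ} (x : Fin d → A)

/-- Equations of the extended Rees algebra of the ideal generated by `x`. -/
noncomputable def reesIdeal : Ideal (MvPolynomial (Option (Fin d)) A) :=
  Ideal.span (Set.range fun i : Fin d => C (x i) - X none * X (some i))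

/-- The extended Rees algebra (for a regular system of parameters `x`). -/
abbrev ERees := MvPolynomial (Option (Fin d)) A ⧸ reesIdeal x

/-- The inverse `τ` of the Rees variable. -/
noncomputable def eT : ERees x := Ideal.Quotient.mk _ (X none)

/-- The element `x i * t` of the extended Rees algebra. -/
noncomputable def eY (i : Fin d) : ERees x := Ideal.Quotient.mk _ (X (some i))

theorem algebraMap_rees (i : Fin d) : algebraMap A (ERees x) (x i) = eT x * eY x i := by
  have h : (C (x i) - X none * X (some i) : MvPolynomial (Option (Fin d)) A) ∈ reesIdeal x :=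
    Ideal.subset_span ⟨i, rfl⟩
  rw [eT, eY, ← map_mul, ← sub_eq_zero]
  change Ideal.Quotient.mk _ (C (x i)) - _ = _
  rw [← map_sub]
  exact Ideal.Quotient.eq_zero_iff_mem.2 h

/-- A ring homomorphism out of the extended Rees algebra. -/
noncomputable def eLift {B : Type*} [CommRing B] (f : A →+* B) (t : B) (y : Fin d → B)
    (h : ∀ i, f (x i) = t * y i) : ERees x →+* B :=
  Ideal.Quotient.lift _ (eval₂Hom f (fun o : Option (Fin d) => o.elim t y)) (by
    intro a ha
    have h1 : reesIdeal x ≤ RingHom.ker (eval₂Hom f (fun o : Option (Fin d) => o.elim t y)) := by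
      refine Ideal.span_le.2 ?_
      rintro _ ⟨i, rfl⟩
      simp [h i]
    exact h1 ha)

variable {x}

@[simp]
theorem eLift_algebraMap {B : Type*} [CommRing B] (f : A →+* B) (t : B) (y : Fin d → B)
    (h : ∀ i, f (x i) = t * y i) (a : A) : eLift x f t y h (algebraMap A _ a) = f a := by
  change eval₂Hom f (fun o : Option (Fin d) => o.elim t y) (C a) = _
  simp

@[simp]
theorem eLift_eT {B : Type*} [CommRing B] (f : A →+* B) (t : B) (y : Fin d → B)
    (h : ∀ i, f (x i) = t * y i) : eLift x f t y h (eT x) = t := by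
  change eval₂Hom f (fun o : Option (Fin d) => o.elim t y) (X none) = _
  simp

@[simp]
theorem eLift_eY {B : Type*} [CommRing B] (f : A →+* B) (t : B) (y : Fin d → B)
    (h : ∀ i, f (x i) = t * y i) (i : Fin d) : eLift x f t y h (eY x i) = y i := by
  change eval₂Hom f (fun o : Option (Fin d) => o.elim t y) (X (some i)) = _
  simp

theorem eRees_hom_ext {B : Type*} [CommRing B] {f g : ERees x →+* B}
    (h : ∀ a, f (algebraMap A _ a) = g (algebraMap A _ a)) (hT : f (eT x) = g (eT x))
    (hY : ∀ i, f (eY x i) = g (eY x i)) : f = g := by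
  refine Ideal.Quotient.ringHom_ext (MvPolynomial.ringHom_ext (fun a => h a) ?_)
  rintro (_ | i)
  · exact hT
  · exact hY i

end defs

section res

variable {A : Type u} [CommRing A] [IsLocalRing A] {d : ℕ} {x : Fin d → A}
  (hx : Ideal.span (Set.range x) = maximalIdeal A)

/-- Reduction of the extended Rees algebra modulo `τ`. -/
noncomputable def eRes : ERees x →+* MvPolynomial (Fin d) (ResidueField A) :=
  eLift x (C.comp (residue A)) 0 X (fun i => by
    have : x i ∈ maximalIdeal A := by rw [← hx]; exact Ideal.subset_span ⟨i, rfl⟩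
    rw [zero_mul, RingHom.comp_apply, (residue_eq_zero_iff _).2 this, map_zero])

@[simp]
theorem eRes_algebraMap (a : A) : eRes hx (algebraMap A _ a) = C (residue A a) := by
  simp [eRes]

@[simp]
theorem eRes_eT : eRes hx (eT x) = 0 := by simp [eRes]

@[simp]
theorem eRes_eY (i : Fin d) : eRes hx (eY x i) = X i := by simp [eRes]

theorem eRes_surjective : Surjective (eRes hx) := by
  intro p
  induction p using MvPolynomial.induction_on with
  | C a =>
    obtain ⟨a, rfl⟩ := residue_surjective a
    exact ⟨algebraMap A _ a, eRes_algebraMap hx a⟩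
  | add p q hp hq =>
    obtain ⟨p, rfl⟩ := hp
    obtain ⟨q, rfl⟩ := hq
    exact ⟨p + q, map_add _ _ _⟩
  | mul_X p i hp =>
    obtain ⟨p, rfl⟩ := hp
    exact ⟨p * eY x i, by rw [map_mul, eRes_eY]⟩

theorem eRes_lift {B : Type*} [CommRing B] (q : ERees x →+* B) (hq0 : q (eT x) = 0)
    (F : ERees x) (hF : eRes hx F = 0) : q F = 0 := by
  have hq : ∀ a ∈ maximalIdeal A, (q.comp (algebraMap A _)) a = 0 := by
    intro a ha
    rw [← hx] at ha
    have : Ideal.span (Set.range x) ≤ RingHom.ker (q.comp (algebraMap A _)) := by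
      refine Ideal.span_le.2 ?_
      rintro _ ⟨i, rfl⟩
      change q (algebraMap A _ (x i)) = 0
      rw [algebraMap_rees, map_mul, hq0, zero_mul]
    exact this ha
  let s₀ : ResidueField A →+* B := Ideal.Quotient.lift _ (q.comp (algebraMap A _)) hq
  let s : MvPolynomial (Fin d) (ResidueField A) →+* B := eval₂Hom s₀ (fun i => q (eY x i))
  have hs : s.comp (eRes hx) = q := by
    refine eRees_hom_ext (fun a => ?_) ?_ (fun i => ?_)
    · rw [RingHom.comp_apply, eRes_algebraMap, coe_eval₂Hom, eval₂_C]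
      rfl
    · rw [RingHom.comp_apply, eRes_eT, map_zero, hq0]
    · rw [RingHom.comp_apply, eRes_eY, coe_eval₂Hom, eval₂_X]
  rw [← hs, RingHom.comp_apply, hF, map_zero]

theorem ker_eRes : RingHom.ker (eRes hx) = Ideal.span {eT x} := by
  refine le_antisymm ?_ ?_
  · intro a ha
    rw [← Ideal.Quotient.eq_zero_iff_mem]
    have h0 : Ideal.Quotient.mk (Ideal.span {eT x}) (eT x) = 0 :=
      Ideal.Quotient.eq_zero_iff_mem.2 (Ideal.mem_span_singleton_self _)
    exact eRes_lift (B := ERees x ⧸ Ideal.span {eT x}) hx (Ideal.Quotient.mk _) h0 a ha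
  · rw [Ideal.span_le]
    rintro _ rfl
    exact eRes_eT hx

theorem eRes_aeval (F : MvPolynomial (Fin d) A) :
    eRes hx (aeval (eY x) F) = F.map (residue A) := by
  induction F using MvPolynomial.induction_on with
  | C a => rw [aeval_C, eRes_algebraMap, map_C]
  | add p q hp hq => rw [map_add, map_add, hp, hq, map_add]
  | mul_X p i hp => rw [map_mul, aeval_X, map_mul, hp, eRes_eY, map_mul, map_X]

end res

section loc

/-- The map of localizations induced by a surjective ring homomorphism. -/
theorem exists_localization_surjective {R S : Type*} [CommRing R] [CommRing S] (g : R →+* S)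
    (hg : Surjective g) (q : Ideal S) [q.IsPrime] :
    ∃ G : Localization.AtPrime (q.comap g) →+* Localization.AtPrime q,
      (∀ r, G (algebraMap R _ r) = algebraMap S _ (g r)) ∧ Surjective G ∧
      RingHom.ker G = (RingHom.ker g).map (algebraMap R (Localization.AtPrime (q.comap g))) := by
  have hT : Submonoid.map g (q.comap g).primeCompl = q.primeCompl := by
    ext y
    constructor
    · rintro ⟨r, hr, rfl⟩
      exact hr
    · intro hy
      obtain ⟨r, rfl⟩ := hg y
      exact ⟨r, hy, rfl⟩
  have hle : (q.comap g).primeCompl ≤ Submonoid.comap g q.primeCompl := fun r hr => hr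
  refine ⟨IsLocalization.map (Localization.AtPrime q) g hle, fun r => IsLocalization.map_eq hle r,
    ?_, IsLocalization.ker_map _ g hT⟩
  intro y
  obtain ⟨a, s, rfl⟩ := IsLocalization.exists_mk'_eq q.primeCompl y
  obtain ⟨r, rfl⟩ := hg a
  obtain ⟨t, ht⟩ := hg s
  have ht' : t ∈ (q.comap g).primeCompl := by
    change g t ∉ q
    rw [ht]
    exact s.2
  refine ⟨IsLocalization.mk' _ r ⟨t, ht'⟩, ?_⟩
  rw [IsLocalization.map_mk']
  congr 1
  exact Subtype.ext ht

end loc

section regular

variable {A : Type u} [CommRing A] [IsRegularLocalRing A] {d : ℕ} (hd : ringKrullDim A = d)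
  {x : Fin d → A} (hx : Ideal.span (Set.range x) = maximalIdeal A)

include hd hx in
theorem ofFn_regular : IsWeaklyRegular A (List.ofFn x) := by
  have h1 : Ideal.ofList (List.ofFn x) = maximalIdeal A := by
    rw [← hx, Ideal.ofList]
    congr 1
    ext y
    simp [List.mem_ofFn]
  refine (isRegular_of_ofList_eq_maximalIdeal A (List.ofFn x) h1 ?_).toIsWeaklyRegular
  rw [List.length_ofFn, hd]

/-- The kernel of the reduction map from the polynomial ring. -/
theorem ker_eRes_comp (hx : Ideal.span (Set.range x) = maximalIdeal A) :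
    RingHom.ker ((eRes hx).comp (Ideal.Quotient.mk (reesIdeal x))) =
      Ideal.ofList ((List.ofFn x).map (algebraMap A (MvPolynomial (Option (Fin d)) A)) ++
        [X none]) := by
  refine le_antisymm ?_ ?_
  · intro p hp
    have h1 : Ideal.Quotient.mk (reesIdeal x) p ∈ RingHom.ker (eRes hx) := hp
    rw [ker_eRes, Ideal.mem_span_singleton'] at h1
    obtain ⟨F, hF⟩ := h1
    obtain ⟨f, rfl⟩ := Ideal.Quotient.mk_surjective F
    have h2 : p - f * X none ∈ reesIdeal x := by
      rw [← Ideal.Quotient.eq_zero_iff_mem, map_sub, map_mul, ← hF]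
      exact sub_self _
    have h3 : (X none : MvPolynomial (Option (Fin d)) A) ∈ Ideal.ofList
        ((List.ofFn x).map (algebraMap A (MvPolynomial (Option (Fin d)) A)) ++ [X none]) :=
      Ideal.subset_span (by simp)
    have h4 : reesIdeal x ≤ Ideal.ofList
        ((List.ofFn x).map (algebraMap A (MvPolynomial (Option (Fin d)) A)) ++ [X none]) := by
      refine Ideal.span_le.2 ?_
      rintro _ ⟨i, rfl⟩
      refine sub_mem (Ideal.subset_span ?_) (Ideal.mul_mem_right _ _ h3)
      simp only [List.mem_append, List.mem_map, List.mem_ofFn, Set.mem_ofPred_eq]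
      exact Or.inl ⟨x i, ⟨i, rfl⟩, rfl⟩
    have h5 := add_mem (h4 h2) (Ideal.mul_mem_left _ f h3)
    rwa [sub_add_cancel] at h5
  · refine Ideal.span_le.2 ?_
    intro p hp
    simp only [List.mem_append, List.mem_map, List.mem_ofFn, Set.mem_ofPred_eq,
      List.mem_singleton] at hp
    rcases hp with ⟨_, ⟨i, rfl⟩, rfl⟩ | rfl
    · change eRes hx (algebraMap A _ (x i)) = 0
      have : x i ∈ maximalIdeal A := by rw [← hx]; exact Ideal.subset_span ⟨i, rfl⟩
      rw [eRes_algebraMap, (residue_eq_zero_iff _).2 this, map_zero]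
    · exact eRes_eT hx

include hd in
/-- Localizations of the extended Rees algebra at primes containing `τ` are regular. -/
theorem eRees_regular_aux (hx : Ideal.span (Set.range x) = maximalIdeal A)
    (q : Ideal (MvPolynomial (Fin d) (ResidueField A))) [q.IsPrime] :
    IsRegularLocalRing (Localization.AtPrime (q.comap (eRes hx))) ∧
      (q.comap (eRes hx)).height = q.height + 1 ∧
      algebraMap (ERees x) (Localization.AtPrime (q.comap (eRes hx))) (eT x) ≠ 0 := by
  have hregA : IsRegularRing A := isRegularRing_of_isRegularLocalRing A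
  obtain ⟨G, hG, hGs, hGk⟩ := exists_localization_surjective
    ((eRes hx).comp (Ideal.Quotient.mk (reesIdeal x)))
    ((eRes_surjective hx).comp Ideal.Quotient.mk_surjective) q
  obtain ⟨H, hH, hHs, hHk⟩ := exists_localization_surjective (eRes hx) (eRes_surjective hx) q
  let Pt : Ideal (MvPolynomial (Option (Fin d)) A) :=
    q.comap ((eRes hx).comp (Ideal.Quotient.mk (reesIdeal x)))
  let P : Ideal (ERees x) := q.comap (eRes hx)
  have hB : IsRegularLocalRing (Localization.AtPrime Pt) := inferInstance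
  have hκ : IsRegularLocalRing (Localization.AtPrime q) := inferInstance
  -- a regular sequence
  have hreg : IsWeaklyRegular (Localization.AtPrime Pt)
      (((List.ofFn x).map (algebraMap A (MvPolynomial (Option (Fin d)) A)) ++
        [X none]).map (algebraMap _ (Localization.AtPrime Pt))) := by
    rw [List.map_append, List.map_map, isWeaklyRegular_append_iff]
    have hfl : Module.Flat A (Localization.AtPrime Pt) :=
      Module.Flat.trans A (MvPolynomial (Option (Fin d)) A) _
    have e1 : (algebraMap (MvPolynomial (Option (Fin d)) A) (Localization.AtPrime Pt)) ∘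
        (algebraMap A (MvPolynomial (Option (Fin d)) A)) =
        algebraMap A (Localization.AtPrime Pt) := by
      rw [IsScalarTower.algebraMap_eq A (MvPolynomial (Option (Fin d)) A)
        (Localization.AtPrime Pt)]
      rfl
    rw [e1]
    refine ⟨(ofFn_regular hd hx).of_flat, ?_⟩
    have e2 : Ideal.ofList ((List.ofFn x).map (algebraMap A (Localization.AtPrime Pt))) =
        (maximalIdeal A).map (algebraMap A (Localization.AtPrime Pt)) := by
      rw [← Ideal.map_ofList, ← hx]
      congr 1
      rw [Ideal.ofList]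
      congr 1
      ext y
      simp [List.mem_ofFn]
    rw [List.map_singleton, isWeaklyRegular_singleton_iff, e2]
    -- the extension of the maximal ideal is prime and does not contain `τ`
    let I0 : Ideal (MvPolynomial (Option (Fin d)) A) :=
      (maximalIdeal A).map (algebraMap A (MvPolynomial (Option (Fin d)) A))
    have hI0 : I0 = RingHom.ker (MvPolynomial.map (σ := Option (Fin d)) (residue A)) := by
      rw [MvPolynomial.ker_map, ker_residue]
      rfl
    have hI0p : I0.IsPrime := by
      rw [hI0]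
      exact RingHom.ker_isPrime _
    have hI0le : I0 ≤ Pt := by
      refine Ideal.map_le_iff_le_comap.2 fun a ha => ?_
      change eRes hx (algebraMap A _ a) ∈ q
      rw [eRes_algebraMap, (residue_eq_zero_iff _).2 ha, map_zero]
      exact zero_mem _
    have hdisj : Disjoint (Pt.primeCompl : Set (MvPolynomial (Option (Fin d)) A)) I0 := by
      rw [Set.disjoint_left]
      intro a ha ha'
      exact ha (hI0le ha')
    have hmap : (maximalIdeal A).map (algebraMap A (Localization.AtPrime Pt)) =
        I0.map (algebraMap _ (Localization.AtPrime Pt)) := by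
      rw [Ideal.map_map, ← IsScalarTower.algebraMap_eq]
    have hprime : (I0.map (algebraMap _ (Localization.AtPrime Pt))).IsPrime :=
      IsLocalization.isPrime_of_isPrime_disjoint Pt.primeCompl _ _ hI0p hdisj
    have hτ : algebraMap _ (Localization.AtPrime Pt) (X none : MvPolynomial (Option (Fin d)) A) ∉
        I0.map (algebraMap _ (Localization.AtPrime Pt)) := by
      intro hmem
      have h2 : (X none : MvPolynomial (Option (Fin d)) A) ∈ I0 := by
        rw [← IsLocalization.under_map_of_isPrime_disjoint Pt.primeCompl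
          (Localization.AtPrime Pt) hI0p hdisj]
        exact hmem
      rw [hI0, RingHom.mem_ker, map_X] at h2
      exact X_ne_zero _ h2
    rw [hmap, smul_eq_mul, Ideal.mul_top, isSMulRegular_iff_right_eq_zero_of_smul]
    intro y hy
    obtain ⟨b, rfl⟩ := Submodule.mkQ_surjective _ y
    change Submodule.Quotient.mk (_ • b) = 0 at hy
    rw [Submodule.Quotient.mk_eq_zero] at hy
    change Submodule.Quotient.mk b = 0
    rw [Submodule.Quotient.mk_eq_zero]
    exact (hprime.mem_or_mem hy).resolve_left hτ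
  -- dimension of `B`
  have hlen : ((((List.ofFn x).map (algebraMap A (MvPolynomial (Option (Fin d)) A)) ++
        [X none]).map (algebraMap _ (Localization.AtPrime Pt))).length) = d + 1 := by
    simp
  have hker : RingHom.ker G = Ideal.ofList
      (((List.ofFn x).map (algebraMap A (MvPolynomial (Option (Fin d)) A)) ++
        [X none]).map (algebraMap _ (Localization.AtPrime Pt))) := by
    rw [hGk, ker_eRes_comp hx, Ideal.map_ofList]
  have hreg' : IsRegular (Localization.AtPrime Pt)
      (((List.ofFn x).map (algebraMap A (MvPolynomial (Option (Fin d)) A)) ++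
        [X none]).map (algebraMap _ (Localization.AtPrime Pt))) := by
    refine ⟨hreg, ?_⟩
    rw [smul_eq_mul, Ideal.mul_top, ← hker]
    intro h
    have : (1 : Localization.AtPrime Pt) ∈ RingHom.ker G := h ▸ trivial
    rw [RingHom.mem_ker, map_one] at this
    exact one_ne_zero this
  obtain ⟨zs, hzs, hzslen⟩ := exists_list_maximalIdeal (Localization.AtPrime q)
  have hdimB : ringKrullDim (Localization.AtPrime Pt) = ((zs.length + (d + 1) : ℕ) :
      WithBot ℕ∞) := by
    rw [← ringKrullDim_add_length_eq_ringKrullDim_of_isRegular _ hreg', ← hker, hlen,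
      ringKrullDim_eq_of_ringEquiv (RingHom.quotientKerEquivOfSurjective hGs), ← hzslen]
    norm_cast
  have hqh : q.height = zs.length := by
    have := IsLocalization.AtPrime.ringKrullDim_eq_height q (Localization.AtPrime q)
    rw [← hzslen] at this
    exact_mod_cast this.symm
  have hPth : Pt.height = ((zs.length + (d + 1) : ℕ) : ℕ∞) := by
    have := IsLocalization.AtPrime.ringKrullDim_eq_height Pt (Localization.AtPrime Pt)
    rw [hdimB] at this
    exact_mod_cast this.symm
  -- lower bound for the height of `P`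
  have hle : reesIdeal x ≤ Pt := by
    intro p hp
    change (eRes hx) (Ideal.Quotient.mk _ p) ∈ q
    rw [Ideal.Quotient.eq_zero_iff_mem.2 hp, map_zero]
    exact zero_mem _
  have hPh : ((zs.length + 1 : ℕ) : ℕ∞) ≤ P.height := by
    have h1 := Ideal.height_le_height_add_spanFinrank_of_le hle
    have h2 : Pt.map (Ideal.Quotient.mk (reesIdeal x)) = P := by
      have : Pt = P.comap (Ideal.Quotient.mk (reesIdeal x)) := rfl
      rw [this, Ideal.map_comap_of_surjective _ Ideal.Quotient.mk_surjective]
    have h3 : (reesIdeal x).spanFinrank ≤ d := by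
      refine (Submodule.spanFinrank_span_le_ncard_of_finite (Set.finite_range _)).trans ?_
      rw [← Set.image_univ]
      refine (Set.ncard_image_le Set.finite_univ).trans ?_
      rw [Set.ncard_univ, Nat.card_eq_fintype_card, Fintype.card_fin]
    rw [h2, hPth] at h1
    have h4 : ((zs.length + (d + 1) : ℕ) : ℕ∞) ≤ P.height + d := h1.trans (by gcongr)
    by_cases hfin : P.height = ⊤
    · rw [hfin]; exact le_top
    · obtain ⟨h, hh⟩ := ENat.ne_top_iff_exists.mp hfin
      rw [← hh] at h4 ⊢
      have h5 : zs.length + (d + 1) ≤ h + d := by exact_mod_cast h4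
      have h6 : zs.length + 1 ≤ h := by omega
      exact_mod_cast h6
  -- generators of the maximal ideal of `L`
  have hex : ∃ ws : List (Localization.AtPrime P), ws.map H = zs := by
    obtain ⟨ws, hws⟩ := List.map_surjective_iff.2 hHs zs
    exact ⟨ws, hws⟩
  obtain ⟨ws, hws⟩ := hex
  have hmax : Ideal.ofList (algebraMap (ERees x) (Localization.AtPrime P) (eT x) :: ws) =
      maximalIdeal (Localization.AtPrime P) := by
    have h1 : maximalIdeal (Localization.AtPrime P) =
        (maximalIdeal (Localization.AtPrime q)).comap H := by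
      have : IsLocalHom H := IsLocalHom.of_surjective H hHs
      exact (IsLocalRing.maximalIdeal_comap H).symm
    rw [h1, ← hzs, ← hws, ← Ideal.map_ofList, Ideal.comap_map_of_surjective H hHs, Ideal.ofList_cons]
    rw [sup_comm]
    congr 1
    change _ = RingHom.ker H
    rw [hHk, ker_eRes, Ideal.map_span, Set.image_singleton]
  have hwl : ws.length = zs.length := by rw [← hws, List.length_map]
  have hdimL := IsLocalization.AtPrime.ringKrullDim_eq_height P (Localization.AtPrime P)
  obtain ⟨h1, h2⟩ := isRegularLocalRing_of_list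
    (algebraMap (ERees x) (Localization.AtPrime P) (eT x) :: ws) hmax (by
    rw [hdimL, List.length_cons, hwl]
    exact_mod_cast hPh)
  refine ⟨h1, ?_, ?_⟩
  · rw [hdimL, List.length_cons, hwl] at h2
    rw [hqh]
    exact_mod_cast h2
  · intro h0
    have h3 : RingHom.ker H = ⊥ := by
      rw [hHk, ker_eRes, Ideal.map_span, Set.image_singleton, h0]
      simp
    have h4 := ringKrullDim_eq_of_ringEquiv (RingEquiv.ofBijective H
      ⟨(RingHom.injective_iff_ker_eq_bot H).2 h3, hHs⟩)
    rw [h2, List.length_cons, hwl, ← hzslen] at h4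
    have h5 : zs.length + 1 = zs.length := by exact_mod_cast h4
    omega

include hx in
theorem exists_comap_eRes (P : Ideal (ERees x)) [P.IsPrime] (hP : eT x ∈ P) :
    ∃ q : Ideal (MvPolynomial (Fin d) (ResidueField A)), q.IsPrime ∧ P = q.comap (eRes hx) := by
  have hk : RingHom.ker (eRes hx) ≤ P := by
    rw [ker_eRes, Ideal.span_le]
    rintro _ rfl
    exact hP
  refine ⟨P.map (eRes hx), Ideal.map_isPrime_of_surjective (eRes_surjective hx) hk, ?_⟩
  rw [Ideal.comap_map_of_surjective _ (eRes_surjective hx)]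
  exact (sup_eq_left.2 hk).symm

include hd hx in
/-- The element `τ` is a nonzerodivisor in the extended Rees algebra. -/
theorem eT_regular (F : ERees x) (h : eT x * F = 0) : F = 0 := by
  by_contra hF
  have hne : Ideal.torsionOf (ERees x) (ERees x) F ≠ ⊤ := by
    rw [Ne, Ideal.eq_top_iff_one, Ideal.mem_torsionOf_iff, one_smul]
    exact hF
  obtain ⟨P, hP, hle⟩ := Ideal.exists_le_maximal _ hne
  have hPp : P.IsPrime := hP.isPrime
  have hτ : eT x ∈ P := hle (by rw [Ideal.mem_torsionOf_iff]; exact h)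
  obtain ⟨q, hq, rfl⟩ := exists_comap_eRes hx P hτ
  obtain ⟨hreg, -, h0⟩ := eRees_regular_aux hd hx q
  have hdom := regular_isDomain (Localization.AtPrime (q.comap (eRes hx)))
  have h1 : algebraMap (ERees x) (Localization.AtPrime (q.comap (eRes hx))) F = 0 := by
    have h2 := congrArg (algebraMap (ERees x) (Localization.AtPrime (q.comap (eRes hx)))) h
    rw [map_mul, map_zero] at h2
    exact (mul_eq_zero.1 h2).resolve_left h0
  obtain ⟨c, hc⟩ := (IsLocalization.map_eq_zero_iff (q.comap (eRes hx)).primeCompl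
    (Localization.AtPrime (q.comap (eRes hx))) F).1 h1
  exact c.2 (hle (by rw [Ideal.mem_torsionOf_iff]; exact hc))

omit [IsRegularLocalRing A] in
theorem aeval_mul_of_isHomogeneous {B : Type*} [CommRing B] [Algebra A B] (t : B) (y : Fin d → B)
    (F : MvPolynomial (Fin d) A) (n : ℕ) (hF : F.IsHomogeneous n) :
    aeval (fun i => t * y i) F = t ^ n * aeval y F := by
  rw [aeval_def, aeval_def, eval₂_eq', eval₂_eq', Finset.mul_sum]
  refine Finset.sum_congr rfl fun m hm => ?_
  have hdeg : ∑ i, m i = n := by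
    have := hF (mem_support_iff.1 hm)
    rw [← this, Finsupp.weight_apply, Finsupp.sum_fintype]
    · simp
    · simp
  simp only [mul_pow, Finset.prod_mul_distrib, Finset.prod_pow_eq_pow_sum, hdeg]
  ring

omit [IsRegularLocalRing A] in
theorem algebraMap_eval_of_isHomogeneous (F : MvPolynomial (Fin d) A) (n : ℕ)
    (hF : F.IsHomogeneous n) :
    algebraMap A (ERees x) (eval x F) = eT x ^ n * aeval (eY x) F := by
  have h1 : algebraMap A (ERees x) (eval x F) = aeval (fun i => eT x * eY x i) F := by
    have h2 : (fun i => eT x * eY x i) = fun i => algebraMap A (ERees x) (x i) :=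
      funext fun i => (algebraMap_rees x i).symm
    rw [h2]
    exact (MvPolynomial.aeval_algebraMap_apply (ERees x) x F).symm
  rw [h1, aeval_mul_of_isHomogeneous _ _ F n hF]

include hd hx in
/-- The initial form of an element of order `n` does not vanish. -/
theorem map_residue_eq_zero (F : MvPolynomial (Fin d) A) (n : ℕ) (hF : F.IsHomogeneous n)
    (h : eval x F ∈ maximalIdeal A ^ (n + 1)) : F.map (residue A) = 0 := by
  rw [← hx, Ideal.mem_span_pow_iff_exists_isHomogeneous] at h
  obtain ⟨G, hG, hGF⟩ := h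
  have h1 := congrArg (algebraMap A (ERees x)) hGF
  rw [algebraMap_eval_of_isHomogeneous G (n + 1) hG, algebraMap_eval_of_isHomogeneous F n hF,
    pow_succ, mul_assoc] at h1
  have h2 : ∀ m : ℕ, ∀ f g : ERees x, eT x ^ m * f = eT x ^ m * g → f = g := by
    intro m
    induction m with
    | zero => intro f g hfg; simpa using hfg
    | succ m ih =>
      intro f g hfg
      rw [pow_succ, mul_assoc, mul_assoc] at hfg
      have h3 := ih _ _ hfg
      rw [← sub_eq_zero, ← mul_sub] at h3
      exact sub_eq_zero.1 (eT_regular hd hx _ h3)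
  have h3 := congrArg (eRes hx) (h2 n _ _ h1)
  rw [map_mul, eRes_eT, zero_mul] at h3
  rw [← eRes_aeval hx, ← h3]

include hd hx in
/-- The associated graded ring is a domain. -/
theorem mul_notMem_pow {a b : A} {i j : ℕ} (ha : a ∈ maximalIdeal A ^ i)
    (ha' : a ∉ maximalIdeal A ^ (i + 1)) (hb : b ∈ maximalIdeal A ^ j)
    (hb' : b ∉ maximalIdeal A ^ (j + 1)) : a * b ∉ maximalIdeal A ^ (i + j + 1) := by
  have key : ∀ (a : A) (i : ℕ), a ∈ maximalIdeal A ^ i → a ∉ maximalIdeal A ^ (i + 1) →
      ∃ F : MvPolynomial (Fin d) A, F.IsHomogeneous i ∧ eval x F = a ∧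
        F.map (residue A) ≠ 0 := by
    intro a i ha ha'
    rw [← hx, Ideal.mem_span_pow_iff_exists_isHomogeneous] at ha
    obtain ⟨F, hF, hFa⟩ := ha
    refine ⟨F, hF, hFa, fun h0 => ha' ?_⟩
    rw [← hFa, eval_eq']
    refine Ideal.sum_mem _ fun m hm => ?_
    have hdeg : ∑ i, m i = i := by
      have := hF (mem_support_iff.1 hm)
      rw [← this, Finsupp.weight_apply, Finsupp.sum_fintype]
      · simp
      · simp
    have h1 : F.coeff m ∈ maximalIdeal A := by
      rw [← residue_eq_zero_iff, ← coeff_map, h0, coeff_zero]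
    have h2 : ∏ i, x i ^ m i ∈ maximalIdeal A ^ i := by
      rw [← hdeg, ← Finset.prod_pow_eq_pow_sum]
      refine Ideal.prod_mem_prod fun i _ => Ideal.pow_mem_pow ?_ _
      rw [← hx]
      exact Ideal.subset_span ⟨i, rfl⟩
    rw [pow_succ']
    exact Ideal.mul_mem_mul h1 h2
  obtain ⟨F, hF, rfl, hF0⟩ := key a i ha ha'
  obtain ⟨G, hG, rfl, hG0⟩ := key b j hb hb'
  intro h
  rw [← map_mul] at h
  have h1 := map_residue_eq_zero hd hx (F * G) (i + j) (hF.mul hG) h
  rw [map_mul] at h1
  rcases mul_eq_zero.1 h1 with h1 | h1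
  · exact hF0 h1
  · exact hG0 h1

end regular

/-- Multiplication by an element of order one is strict for the adic filtration. -/
theorem mem_pow_of_mul_mem {A : Type u} [CommRing A] [IsRegularLocalRing A] {y c : A}
    (hy : y ∈ maximalIdeal A) (hy2 : y ∉ maximalIdeal A ^ 2) {m : ℕ}
    (h : y * c ∈ maximalIdeal A ^ (m + 1)) : c ∈ maximalIdeal A ^ m := by
  obtain ⟨rs, hrs, hlen⟩ := exists_list_maximalIdeal A
  let x : Fin rs.length → A := rs.get
  have hx : Ideal.span (Set.range x) = maximalIdeal A := by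
    rw [← hrs, Ideal.ofList]
    congr 1
    ext y
    simp [x, List.mem_iff_get]
  by_contra hc
  have hex : ∃ j, c ∉ maximalIdeal A ^ (j + 1) := ⟨m, fun h => hc (Ideal.pow_le_pow_right
    (Nat.le_succ m) h)⟩
  classical
  let j := Nat.find hex
  have hj : c ∉ maximalIdeal A ^ (j + 1) := Nat.find_spec hex
  have hj' : c ∈ maximalIdeal A ^ j := by
    rcases Nat.eq_zero_or_pos j with h0 | h0
    · rw [h0]; simp
    · obtain ⟨k, hk⟩ : ∃ k, j = k + 1 := ⟨j - 1, by omega⟩
      have := Nat.find_min hex (m := k) (by change k < j; omega)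
      rw [not_not] at this
      rw [hk]
      exact this
  have hjm : j < m := by
    by_contra hle
    rw [not_lt] at hle
    exact hc (Ideal.pow_le_pow_right hle hj')
  have h1 := mul_notMem_pow hlen.symm hx (a := y) (i := 1) (by simpa using hy) hy2 hj' hj
  exact h1 (Ideal.pow_le_pow_right (by omega) h)


end Vale.Agent.P177
end
end

section

section

/-!
Transversality of the tangent cones to a linear subspace.
-/

namespace Vale.Agent.P177

open TensorProduct IsLocalRing MvPolynomial

universe u

/-- The tangent cones of `I` and `J` meet the linear subspace `U` only in the origin. -/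
def TransTo {R : Type u} [CommRing R] [IsLocalRing R] (I J U : Ideal R) : Prop :=
  ∃ n : ℕ, maximalIdeal R ^ (n + 1) ≤ (I ⊓ maximalIdeal R ^ (n + 1)) ⊔
    (J ⊓ maximalIdeal R ^ (n + 1)) ⊔ U * maximalIdeal R ^ n

theorem TransTo.mono {R : Type u} [CommRing R] [IsLocalRing R] {I J U I' J' U' : Ideal R}
    (h : TransTo I J U) (h1 : I ≤ I') (h2 : J ≤ J') (h3 : U ≤ U') : TransTo I' J' U' := by
  obtain ⟨n, hn⟩ := h
  exact ⟨n, hn.trans (sup_le_sup (sup_le_sup (inf_le_inf_right _ h1) (inf_le_inf_right _ h2))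
    (Ideal.mul_mono_left h3))⟩

theorem TransTo.symm {R : Type u} [CommRing R] [IsLocalRing R] {I J U : Ideal R}
    (h : TransTo I J U) : TransTo J I U := by
  obtain ⟨n, hn⟩ := h
  refine ⟨n, hn.trans ?_⟩
  rw [sup_comm (I ⊓ _)]

/-- Only the classes modulo the square of the maximal ideal matter. -/
theorem TransTo.of_sup {R : Type u} [CommRing R] [IsLocalRing R] [IsNoetherianRing R]
    {I J U : Ideal R} (h : TransTo I J (U ⊔ maximalIdeal R ^ 2)) : TransTo I J U := by
  obtain ⟨n, hn⟩ := h
  refine ⟨n, ?_⟩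
  have h1 : maximalIdeal R ^ (n + 1) ≤ ((I ⊓ maximalIdeal R ^ (n + 1)) ⊔
      (J ⊓ maximalIdeal R ^ (n + 1)) ⊔ U * maximalIdeal R ^ n) ⊔
        maximalIdeal R • maximalIdeal R ^ (n + 1) := by
    refine hn.trans ?_
    rw [Ideal.sup_mul, ← sup_assoc]
    refine sup_le_sup_left ?_ _
    rw [smul_eq_mul, ← pow_succ', ← pow_add]
    exact Ideal.pow_le_pow_right (by omega)
  refine Submodule.le_of_le_smul_of_le_jacobson_bot (N' := maximalIdeal R ^ (n + 1))
    (I := maximalIdeal R) ?_ ?_ h1
  · exact IsNoetherian.noetherian _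
  · exact (IsLocalRing.maximalIdeal_le_jacobson _)

/-- Extension of a transversality condition along a flat local map with trivial fibre. -/
theorem TransTo.map {R C : Type u} [CommRing R] [IsLocalRing R] [CommRing C] [IsLocalRing C]
    (φ : R →+* C) (hφ : (maximalIdeal R).map φ = maximalIdeal C) {I J U : Ideal R}
    (h : TransTo I J U) : TransTo (I.map φ) (J.map φ) (U.map φ) := by
  obtain ⟨n, hn⟩ := h
  refine ⟨n, ?_⟩
  have h1 := Ideal.map_mono (f := φ) hn
  rw [Ideal.map_pow, hφ] at h1
  refine h1.trans ?_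
  rw [Ideal.map_sup, Ideal.map_sup, Ideal.map_mul, Ideal.map_pow, hφ]
  refine sup_le_sup_right (sup_le_sup ?_ ?_) _
  · refine (Ideal.map_inf_le φ).trans ?_
    rw [Ideal.map_pow, hφ]
  · refine (Ideal.map_inf_le φ).trans ?_
    rw [Ideal.map_pow, hφ]

theorem X_mem_of_transTo {R : Type u} [CommRing R] [IsRegularLocalRing R] {d : ℕ}
    (hd : ringKrullDim R = d) {x : Fin d → R} (hx : Ideal.span (Set.range x) = maximalIdeal R)
    (I J : Ideal R) {ι : Type} [Fintype ι] (U : ι → Fin d → R)
    (h : TransTo I J (Ideal.span (Set.range fun l => ∑ m, U l m * x m)))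
    {P : Type*} [CommRing P] (j : MvPolynomial (Fin d) (ResidueField R) →+* P) (z : Ideal P)
    [z.IsPrime]
    (hI : ∀ (N : ℕ) (F : MvPolynomial (Fin d) R), F.IsHomogeneous N → eval x F ∈ I →
      j (F.map (residue R)) ∈ z)
    (hJ : ∀ (N : ℕ) (F : MvPolynomial (Fin d) R), F.IsHomogeneous N → eval x F ∈ J →
      j (F.map (residue R)) ∈ z)
    (hU : ∀ l, ∑ m, j (C (residue R (U l m))) * j (X m) ∈ z) (i : Fin d) : j (X i) ∈ z := by
  classical
  obtain ⟨n, hn⟩ := h
  have h1 : x i ^ (n + 1) ∈ maximalIdeal R ^ (n + 1) := by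
    refine Ideal.pow_mem_pow ?_ _
    rw [← hx]
    exact Ideal.subset_span ⟨i, rfl⟩
  obtain ⟨y, hy, w, hw, hyw⟩ := Submodule.mem_sup.1 (hn h1)
  obtain ⟨f, hf, g, hg, hfg⟩ := Submodule.mem_sup.1 hy
  obtain ⟨hf1, hf2⟩ := hf
  obtain ⟨hg1, hg2⟩ := hg
  rw [SetLike.mem_coe, ← hx, Ideal.mem_span_pow_iff_exists_isHomogeneous] at hf2 hg2
  obtain ⟨F, hF, hFf⟩ := hf2
  obtain ⟨G, hG, hGg⟩ := hg2
  -- the last term
  have hw' : ∃ V : ι → MvPolynomial (Fin d) R, (∀ l, (V l).IsHomogeneous n) ∧
      w = ∑ l, (∑ m, U l m * x m) * eval x (V l) := by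
    have h2 : ∃ v : ι → R, (∀ l, v l ∈ maximalIdeal R ^ n) ∧
        w = ∑ l, (∑ m, U l m * x m) * v l := by
      refine Submodule.mul_induction_on hw ?_ ?_
      · intro a ha b hb
        obtain ⟨c, hc⟩ := Ideal.mem_span_range_iff_exists_fun.1 ha
        refine ⟨fun l => c l * b, fun l => Ideal.mul_mem_left _ _ hb, ?_⟩
        rw [← hc, Finset.sum_mul]
        refine Finset.sum_congr rfl fun l _ => ?_
        ring
      · rintro a b ⟨v, hv, rfl⟩ ⟨v', hv', rfl⟩
        refine ⟨fun l => v l + v' l, fun l => Ideal.add_mem _ (hv l) (hv' l), ?_⟩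
        rw [← Finset.sum_add_distrib]
        refine Finset.sum_congr rfl fun l _ => ?_
        ring
    obtain ⟨v, hv, rfl⟩ := h2
    have h3 : ∀ l, ∃ V : MvPolynomial (Fin d) R, V.IsHomogeneous n ∧ eval x V = v l := by
      intro l
      have h4 := hv l
      rwa [← hx, Ideal.mem_span_pow_iff_exists_isHomogeneous] at h4
    choose V hV1 hV2 using h3
    exact ⟨V, hV1, by simp only [hV2]⟩
  obtain ⟨V, hV, rfl⟩ := hw'
  let L : ι → MvPolynomial (Fin d) R := fun l => ∑ m, C (U l m) * X m
  have hL : ∀ l, (L l).IsHomogeneous 1 := by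
    intro l
    refine IsHomogeneous.sum _ _ _ fun m _ => ?_
    have := (isHomogeneous_C (Fin d) (U l m)).mul (isHomogeneous_X R m)
    rwa [zero_add] at this
  have hLe : ∀ l, eval x (L l) = ∑ m, U l m * x m := by
    intro l
    simp [L]
  let Q : MvPolynomial (Fin d) R := X i ^ (n + 1) - F - G - ∑ l, L l * V l
  have hQ : Q.IsHomogeneous (n + 1) := by
    refine ((isHomogeneous_X_pow i (n + 1)).sub hF).sub hG |>.sub ?_
    refine IsHomogeneous.sum _ _ _ fun l _ => ?_
    have := (hL l).mul (hV l)
    rwa [add_comm] at this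
  have hQ0 : eval x Q ∈ maximalIdeal R ^ (n + 1 + 1) := by
    have : eval x Q = 0 := by
      simp only [Q, map_sub, map_pow, eval_X, map_sum, map_mul, hLe, hFf, hGg]
      rw [← hyw, ← hfg]
      ring
    rw [this]
    exact zero_mem _
  have h5 := map_residue_eq_zero hd hx Q (n + 1) hQ hQ0
  have h6 : (X i : MvPolynomial (Fin d) (ResidueField R)) ^ (n + 1) =
      F.map (residue R) + G.map (residue R) + ∑ l, (L l).map (residue R) *
        (V l).map (residue R) := by
    have h7 : (Q.map (residue R)) = X i ^ (n + 1) - F.map (residue R) - G.map (residue R) -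
        ∑ l, (L l).map (residue R) * (V l).map (residue R) := by
      simp only [Q, map_sub, map_pow, map_X, map_sum, map_mul]
    rw [h5] at h7
    linear_combination -h7
  have h8 : j (X i) ^ (n + 1) ∈ z := by
    rw [← map_pow, h6, map_add, map_add, map_sum]
    refine Ideal.add_mem _ (Ideal.add_mem _ (hI (n + 1) F hF ?_) (hJ (n + 1) G hG ?_)) ?_
    · rw [hFf]
      exact hf1
    · rw [hGg]
      exact hg1
    · refine Ideal.sum_mem _ fun l _ => ?_
      rw [map_mul]
      refine Ideal.mul_mem_right _ _ ?_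
      have : j ((L l).map (residue R)) = ∑ m, j (C (residue R (U l m))) * j (X m) := by
        simp only [L, map_sum, map_mul, map_C, map_X]
      rw [this]
      exact hU l
  exact Ideal.IsPrime.mem_of_pow_mem ‹_› _ h8

end Vale.Agent.P177
end
end

section

section

/-!
Heights of primes containing an ideal of initial forms.
-/

namespace Vale.Agent.P177

open IsLocalRing Function

universe u

section goingDown

theorem height_under_le {R S : Type*} [CommRing R] [CommRing S] [Algebra R S] [Module.Flat R S]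
    (P : Ideal S) [hP : P.IsPrime] : (P.under R).height ≤ P.height := by
  have h1 := PrimeSpectrum.height_eq_orderHeight (⟨P.under R, inferInstance⟩ : PrimeSpectrum R)
  have h2 := PrimeSpectrum.height_eq_orderHeight (⟨P, hP⟩ : PrimeSpectrum S)
  change (P.under R).height = _ at h1
  change P.height = _ at h2
  rw [h1, h2, Order.height_le_iff']
  intro l hl
  have hlo : P.LiesOver l.last.asIdeal := ⟨by rw [hl]⟩
  obtain ⟨L, hL1, hL2, -⟩ := Ideal.exists_ltSeries_of_hasGoingDown l P
  rw [← hL1, ← hL2]
  exact Order.length_le_height_last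

end goingDown

section psi

open LaurentPolynomial

variable {R : Type u} [CommRing R] {d : ℕ} (x : Fin d → R)

theorem T_neg_one_mul_T_one : (T (-1) * T 1 : LaurentPolynomial R) = 1 := by
  rw [← T_add]
  simp

/-- The embedding of the extended Rees algebra into Laurent polynomials. -/
noncomputable def ePsi : ERees x →+* LaurentPolynomial R :=
  eLift x (C : R →+* LaurentPolynomial R) (T (-1)) (fun i => C (x i) * T 1) (by
    intro i
    rw [mul_left_comm, T_neg_one_mul_T_one, mul_one])

@[simp]
theorem ePsi_algebraMap (a : R) : ePsi x (algebraMap R _ a) = C a := eLift_algebraMap _ _ _ _ _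

@[simp]
theorem ePsi_eT : ePsi x (eT x) = T (-1) := eLift_eT _ _ _ _

@[simp]
theorem ePsi_eY (i : Fin d) : ePsi x (eY x i) = C (x i) * T 1 := eLift_eY _ _ _ _ _

theorem ePsi_isLocalization :
    letI := (ePsi x).toAlgebra
    IsLocalization.Away (eT x) (LaurentPolynomial R) := by
  let _ := (ePsi x).toAlgebra
  have hT : ∀ n : ℕ, ePsi x (eT x ^ n) = T (-n) := by
    intro n
    rw [map_pow, ePsi_eT, T_pow]
    simp
  refine ⟨⟨?_, ?_, ?_⟩⟩
  · rintro ⟨_, n, rfl⟩
    change IsUnit (ePsi x (eT x ^ n))
    rw [hT]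
    exact isUnit_T _
  · have key : ∀ z : LaurentPolynomial R, ∃ (n : ℕ) (F : ERees x), z * T (-n) = ePsi x F := by
      intro z
      induction z using LaurentPolynomial.induction_on' with
      | add z w hz hw =>
        obtain ⟨n, F, hF⟩ := hz
        obtain ⟨m, G, hG⟩ := hw
        refine ⟨n + m, F * eT x ^ m + G * eT x ^ n, ?_⟩
        rw [map_add, map_mul, map_mul, hT, hT, ← hF, ← hG]
        push_cast
        rw [neg_add, T_add]
        ring
      | C_mul_T n a =>
        rcases n with n | n
        · refine ⟨n, algebraMap R _ a, ?_⟩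
          rw [mul_assoc, ← T_add, ePsi_algebraMap]
          simp
        · refine ⟨0, algebraMap R _ a * eT x ^ (n + 1), ?_⟩
          rw [map_mul, hT, ePsi_algebraMap]
          simp [Int.negSucc_eq]
    intro z
    obtain ⟨n, F, hF⟩ := key z
    refine ⟨(F, ⟨eT x ^ n, n, rfl⟩), ?_⟩
    change z * ePsi x (eT x ^ n) = ePsi x F
    rw [hT, hF]
  · intro F G h
    change ePsi x F = ePsi x G at h
    let L := Localization.Away (eT x)
    let g : ERees x →+* L := algebraMap (ERees x) L
    obtain ⟨u, hu⟩ := IsLocalization.Away.algebraMap_isUnit (S := L) (eT x)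
    have hu1 : g (eT x) = u := hu.symm
    let ψ : LaurentPolynomial R →+* L := eval₂ (g.comp (algebraMap R _)) u⁻¹
    have hψ : ψ.comp (ePsi x) = g := by
      refine eRees_hom_ext (fun a => ?_) ?_ (fun i => ?_)
      · rw [RingHom.comp_apply, ePsi_algebraMap]
        exact eval₂_C _ _ _
      · rw [RingHom.comp_apply, ePsi_eT]
        refine (eval₂_T _ _ _).trans ?_
        simp [hu1]
      · rw [RingHom.comp_apply, ePsi_eY]
        refine (eval₂_C_mul_T _ _ _ _).trans ?_
        rw [RingHom.comp_apply, algebraMap_rees, map_mul, hu1, mul_comm (u : L), mul_assoc]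
        simp
    have h1 := congrArg ψ h
    rw [← RingHom.comp_apply, ← RingHom.comp_apply, hψ] at h1
    exact IsLocalization.exists_of_eq h1

end psi

section star

open LaurentPolynomial

variable {R : Type u} [CommRing R] {d : ℕ} (x : Fin d → R) (I : Ideal R)

/-- The saturated extension of an ideal to the extended Rees algebra. -/
noncomputable def eStar : Ideal (ERees x) :=
  (I.map (C : R →+* LaurentPolynomial R)).comap (ePsi x)

variable {x I}

theorem mem_eStar {z : ERees x} : z ∈ eStar x I ↔ ePsi x z ∈ I.map (C : R →+* LaurentPolynomial R) :=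
  Iff.rfl

theorem eStar_sat {z : ERees x} (h : eT x * z ∈ eStar x I) : z ∈ eStar x I := by
  rw [mem_eStar, map_mul, ePsi_eT] at h
  rw [mem_eStar]
  have h1 := Ideal.mul_mem_left _ (T 1) h
  rw [← mul_assoc, mul_comm (T 1), T_neg_one_mul_T_one, one_mul] at h1
  exact h1

theorem coeff_mem_of_mem_map {z : LaurentPolynomial R}
    (h : z ∈ I.map (C : R →+* LaurentPolynomial R)) (n : ℤ) : z.coeff n ∈ I := by
  let κ : LaurentPolynomial R →+* LaurentPolynomial (R ⧸ I) :=
    AddMonoidAlgebra.mapRingHom ℤ (Ideal.Quotient.mk I)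
  have hle : I.map (C : R →+* LaurentPolynomial R) ≤ RingHom.ker κ := by
    rw [Ideal.map_le_iff_le_comap]
    intro a ha
    change κ (C a) = 0
    have h1 : (C a : LaurentPolynomial R) = AddMonoidAlgebra.single 0 a := rfl
    rw [h1]
    refine (AddMonoidAlgebra.mapRingHom_single _ _ _).trans ?_
    rw [Ideal.Quotient.eq_zero_iff_mem.2 ha]
    exact AddMonoidAlgebra.single_zero _
  have h1 : κ z = 0 := hle h
  have h2 : (κ z).coeff n = Ideal.Quotient.mk I (z.coeff n) :=
    AddMonoidAlgebra.coeff_mapRingHom _ _ _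
  rw [h1] at h2
  exact Ideal.Quotient.eq_zero_iff_mem.1 h2.symm

/-- A prime above the special fibre of the saturated extension has large height. -/
theorem exists_prime_height_le [IsRegularLocalRing R] (hd : ringKrullDim R = d)
    (hx : Ideal.span (Set.range x) = maximalIdeal R)
    (q : Ideal (MvPolynomial (Fin d) (ResidueField R))) [q.IsPrime]
    (hq : eStar x I ≤ q.comap (eRes hx)) :
    ∃ P₀ : Ideal R, P₀.IsPrime ∧ I ≤ P₀ ∧ P₀.height ≤ q.height := by
  obtain ⟨𝔮₀, h𝔮₀, hle⟩ := Ideal.exists_minimalPrimes_le hq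
  have h𝔮₀p : 𝔮₀.IsPrime := h𝔮₀.1.1
  have hτ : eT x ∉ 𝔮₀ := by
    intro h
    obtain ⟨y, hy, hxy⟩ := Ideal.exists_mul_mem_of_mem_minimalPrimes h𝔮₀ h
    exact hy (eStar_sat hxy)
  have hτ' : eT x ∈ q.comap (eRes hx) := by
    change eRes hx (eT x) ∈ q
    rw [eRes_eT]
    exact zero_mem _
  have hlt : 𝔮₀ < q.comap (eRes hx) := lt_of_le_of_ne hle (fun h => hτ (h ▸ hτ'))
  let _ := (ePsi x).toAlgebra
  have hloc : IsLocalization.Away (eT x) (LaurentPolynomial R) := ePsi_isLocalization x
  have hdisj : Disjoint (Submonoid.powers (eT x) : Set (ERees x)) 𝔮₀ := by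
    rw [Set.disjoint_left]
    rintro _ ⟨n, rfl⟩ h
    exact hτ (h𝔮₀p.mem_of_pow_mem n h)
  let Q₀ : Ideal (LaurentPolynomial R) := 𝔮₀.map (algebraMap (ERees x) (LaurentPolynomial R))
  have hQ₀ : Q₀.IsPrime :=
    IsLocalization.isPrime_of_isPrime_disjoint (Submonoid.powers (eT x)) _ _ h𝔮₀p hdisj
  have hQ₀c : Q₀.under (ERees x) = 𝔮₀ :=
    IsLocalization.under_map_of_isPrime_disjoint (Submonoid.powers (eT x)) _ h𝔮₀p hdisj
  have hht : Q₀.height = 𝔮₀.height := by
    rw [← IsLocalization.height_under (Submonoid.powers (eT x)) Q₀, hQ₀c]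
  refine ⟨Q₀.under R, inferInstance, ?_, ?_⟩
  · intro a ha
    change C a ∈ Q₀
    have h1 : algebraMap R (ERees x) a ∈ 𝔮₀ := by
      apply h𝔮₀.1.2
      rw [mem_eStar, ePsi_algebraMap]
      exact Ideal.mem_map_of_mem _ ha
    have h2 := Ideal.mem_map_of_mem (algebraMap (ERees x) (LaurentPolynomial R)) h1
    have h3 : algebraMap (ERees x) (LaurentPolynomial R) (algebraMap R (ERees x) a) = C a :=
      ePsi_algebraMap x a
    rw [h3] at h2
    exact h2
  · have h1 := height_under_le (R := R) Q₀
    rw [hht] at h1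
    refine h1.trans ?_
    have h2 := Ideal.height_add_one_le_of_lt_of_isPrime hlt
    obtain ⟨-, h3, -⟩ := eRees_regular_aux hd hx q
    rw [h3] at h2
    exact (ENat.add_le_add_iff_right (by simp)).1 h2

end star

end Vale.Agent.P177
end
end

section

section

/-!
A chart of the blow-up and the extended Rees algebra.
-/

namespace Vale.Agent.P177

open IsLocalRing Function

universe u

section chart

variable {A : Type u} [CommRing A] {d : ℕ} (x c : Fin d → A)

/-- The linear form with coefficients `c`. -/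
noncomputable def eXi : ERees x := ∑ i, algebraMap A _ (c i) * eY x i

/-- The ideal defining the chart. -/
noncomputable def chartIdeal : Ideal (ERees x) := Ideal.span {eXi x c - 1}

/-- The chart of the blow-up given by the linear form with coefficients `c`. -/
def Chart := ERees x ⧸ chartIdeal x c

noncomputable instance chartCommRing : CommRing (Chart x c) :=
  inferInstanceAs (CommRing (ERees x ⧸ chartIdeal x c))

noncomputable instance chartAlgebra : Algebra A (Chart x c) :=
  inferInstanceAs (Algebra A (ERees x ⧸ chartIdeal x c))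

/-- The projection to the chart. -/
noncomputable def cMk : ERees x →+* Chart x c := Ideal.Quotient.mk (chartIdeal x c)

theorem cMk_surjective : Surjective (cMk x c) := Ideal.Quotient.mk_surjective

theorem cMk_algebraMap (a : A) : cMk x c (algebraMap A _ a) = algebraMap A (Chart x c) a := rfl

/-- The coordinates on the chart. -/
noncomputable def cY (i : Fin d) : Chart x c := cMk x c (eY x i)

/-- The equation of the exceptional divisor. -/
def x0 : A := ∑ i, c i * x i

theorem algebraMap_x0 : algebraMap A (ERees x) (x0 x c) = eT x * eXi x c := by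
  unfold x0 eXi
  rw [map_sum, Finset.mul_sum]
  refine Finset.sum_congr rfl fun i _ => ?_
  rw [map_mul, algebraMap_rees]
  ring

theorem mk_eXi : cMk x c (eXi x c) = 1 := by
  rw [← sub_eq_zero, ← map_one (cMk x c), ← map_sub]
  exact Ideal.Quotient.eq_zero_iff_mem.2 (Ideal.mem_span_singleton_self _)

theorem sum_cY : ∑ i, algebraMap A (Chart x c) (c i) * cY x c i = 1 := by
  rw [← mk_eXi]
  unfold eXi
  rw [map_sum]
  refine Finset.sum_congr rfl fun i _ => ?_
  rw [map_mul]
  rfl

theorem mk_eT : cMk x c (eT x) = algebraMap A (Chart x c) (x0 x c) := by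
  rw [← cMk_algebraMap, algebraMap_x0, map_mul, mk_eXi, mul_one]

theorem algebraMap_chart (i : Fin d) : algebraMap A (Chart x c) (x i) =
    algebraMap A (Chart x c) (x0 x c) * cY x c i := by
  rw [← cMk_algebraMap, algebraMap_rees, map_mul, mk_eT]
  rfl

/-- A ring homomorphism out of the chart. -/
noncomputable def cLift {B : Type*} [CommRing B] (f : A →+* B) (t : B) (y : Fin d → B)
    (h : ∀ i, f (x i) = t * y i) (h1 : ∑ i, f (c i) * y i = 1) : Chart x c →+* B :=
  Ideal.Quotient.lift (chartIdeal x c) (eLift x f t y h) (by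
    intro a ha
    have h2 : chartIdeal x c ≤ RingHom.ker (eLift x f t y h) := by
      unfold chartIdeal
      rw [Ideal.span_le]
      rintro _ rfl
      change eLift x f t y h (eXi x c - 1) = 0
      unfold eXi
      rw [map_sub, map_sum, map_one]
      simp [h1]
    exact h2 ha)

variable {x c}

@[simp]
theorem cLift_algebraMap {B : Type*} [CommRing B] (f : A →+* B) (t : B) (y : Fin d → B)
    (h : ∀ i, f (x i) = t * y i) (h1 : ∑ i, f (c i) * y i = 1) (a : A) :
    cLift x c f t y h h1 (algebraMap A _ a) = f a := eLift_algebraMap f t y h a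

@[simp]
theorem cLift_cY {B : Type*} [CommRing B] (f : A →+* B) (t : B) (y : Fin d → B)
    (h : ∀ i, f (x i) = t * y i) (h1 : ∑ i, f (c i) * y i = 1) (i : Fin d) :
    cLift x c f t y h h1 (cY x c i) = y i := eLift_eY f t y h i

/-- Every element of the chart is a polynomial in the coordinates. -/
theorem chart_induction {p : Chart x c → Prop} (hA : ∀ a, p (algebraMap A _ a))
    (hY : ∀ i, p (cY x c i)) (hadd : ∀ a b, p a → p b → p (a + b))
    (hmul : ∀ a b, p a → p b → p (a * b)) (z : Chart x c) : p z := by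
  obtain ⟨z, rfl⟩ := cMk_surjective x c z
  obtain ⟨z, rfl⟩ := Ideal.Quotient.mk_surjective z
  induction z using MvPolynomial.induction_on with
  | C a => exact hA a
  | add a b ha hb =>
    rw [map_add, map_add]
    exact hadd _ _ ha hb
  | mul_X a i ha =>
    rw [map_mul, map_mul]
    refine hmul _ _ ha ?_
    rcases i with _ | i
    · have := hA (x0 x c)
      rw [← mk_eT] at this
      exact this
    · exact hY i

variable (x c)

open LaurentPolynomial in
/-- The map from the extended Rees algebra to Laurent polynomials over the chart. -/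
noncomputable def chartPhi : ERees x →+* LaurentPolynomial (Chart x c) :=
  eLift x ((C : Chart x c →+* _).comp (algebraMap A (Chart x c)))
    (C (algebraMap A (Chart x c) (x0 x c)) * T (-1)) (fun i => C (cY x c i) * T 1) (by
    intro i
    have h : (T (-1) * T 1 : LaurentPolynomial (Chart x c)) = 1 := by
      rw [← T_add]
      simp
    rw [RingHom.comp_apply, algebraMap_chart, map_mul]
    calc C (algebraMap A (Chart x c) (x0 x c)) * C (cY x c i)
        = C (algebraMap A (Chart x c) (x0 x c)) * C (cY x c i) * (T (-1) * T 1) := by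
          rw [h, mul_one]
      _ = _ := by ring)

open LaurentPolynomial in
@[simp]
theorem chartPhi_algebraMap (a : A) : chartPhi x c (algebraMap A _ a) =
    C (algebraMap A (Chart x c) a) := eLift_algebraMap _ _ _ _ _

open LaurentPolynomial in
@[simp]
theorem chartPhi_eT : chartPhi x c (eT x) = C (algebraMap A (Chart x c) (x0 x c)) * T (-1) :=
  eLift_eT _ _ _ _

open LaurentPolynomial in
@[simp]
theorem chartPhi_eY (i : Fin d) : chartPhi x c (eY x i) = C (cY x c i) * T 1 :=
  eLift_eY _ _ _ _ _

open LaurentPolynomial in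
theorem chartPhi_eXi : chartPhi x c (eXi x c) = T 1 := by
  unfold eXi
  rw [map_sum]
  have h : ∀ i, chartPhi x c (algebraMap A _ (c i) * eY x i) =
      C (algebraMap A (Chart x c) (c i) * cY x c i) * T 1 := by
    intro i
    rw [map_mul, chartPhi_algebraMap, chartPhi_eY, map_mul, mul_assoc]
  rw [Finset.sum_congr rfl fun i _ => h i, ← Finset.sum_mul, ← map_sum, sum_cY, map_one, one_mul]

open LaurentPolynomial in
/-- A left inverse of `chartPhi` up to localization. -/
theorem exists_chartPsi {L : Type*} [CommRing L] (g : ERees x →+* L) (hg : IsUnit (g (eXi x c))) :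
    ∃ ψ : LaurentPolynomial (Chart x c) →+* L, ψ.comp (chartPhi x c) = g := by
  obtain ⟨u, hu⟩ := hg
  have hu1 : g (eXi x c) * (u⁻¹ : Lˣ) = 1 := by rw [← hu, Units.mul_inv]
  let ψ₀ : Chart x c →+* L := cLift x c (g.comp (algebraMap A _)) (g (algebraMap A _ (x0 x c)))
    (fun i => g (eY x i) * (u⁻¹ : Lˣ)) (by
      intro i
      rw [RingHom.comp_apply, algebraMap_rees, algebraMap_x0, map_mul, map_mul]
      calc g (eT x) * g (eY x i) = g (eT x) * g (eY x i) * (g (eXi x c) * (u⁻¹ : Lˣ)) := by
            rw [hu1, mul_one]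
        _ = _ := by ring) (by
      rw [← hu1]
      unfold eXi
      rw [map_sum, Finset.sum_mul]
      refine Finset.sum_congr rfl fun i _ => ?_
      rw [RingHom.comp_apply, map_mul]
      ring)
  have hA : ∀ a, ψ₀ (algebraMap A _ a) = g (algebraMap A _ a) := fun a =>
    cLift_algebraMap _ _ _ _ _ a
  have hY : ∀ i, ψ₀ (cY x c i) = g (eY x i) * (u⁻¹ : Lˣ) := fun i => cLift_cY _ _ _ _ _ i
  refine ⟨eval₂ ψ₀ u, eRees_hom_ext (fun a => ?_) ?_ (fun i => ?_)⟩
  · rw [RingHom.comp_apply, chartPhi_algebraMap, eval₂_C, hA]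
  · rw [RingHom.comp_apply, chartPhi_eT, eval₂_C_mul_T, hA, algebraMap_x0, map_mul, mul_assoc]
    simp [hu1]
  · rw [RingHom.comp_apply, chartPhi_eY, eval₂_C_mul_T, hY, mul_assoc]
    simp

open LaurentPolynomial in
/-- Laurent polynomials over the chart are the localization of the extended Rees algebra. -/
theorem chart_isLocalization :
    letI := (chartPhi x c).toAlgebra
    IsLocalization.Away (eXi x c) (LaurentPolynomial (Chart x c)) := by
  let _ := (chartPhi x c).toAlgebra
  have hT : ∀ n : ℕ, chartPhi x c (eXi x c ^ n) = T n := by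
    intro n
    rw [map_pow, chartPhi_eXi, T_pow]
    simp
  refine ⟨⟨?_, ?_, ?_⟩⟩
  · rintro ⟨_, n, rfl⟩
    change IsUnit (chartPhi x c (eXi x c ^ n))
    rw [hT]
    exact isUnit_T _
  · have key : ∀ z : LaurentPolynomial (Chart x c), ∃ (n : ℕ) (F : ERees x),
        z * T n = chartPhi x c F := by
      have hadd : ∀ z w : LaurentPolynomial (Chart x c),
          (∃ (n : ℕ) (F : ERees x), z * T n = chartPhi x c F) →
          (∃ (n : ℕ) (F : ERees x), w * T n = chartPhi x c F) →
          ∃ (n : ℕ) (F : ERees x), (z + w) * T n = chartPhi x c F := by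
        rintro z w ⟨n, F, hF⟩ ⟨m, G, hG⟩
        refine ⟨n + m, F * eXi x c ^ m + G * eXi x c ^ n, ?_⟩
        rw [map_add, map_mul, map_mul, hT, hT, ← hF, ← hG]
        push_cast
        rw [T_add]
        ring
      have hmul : ∀ z w : LaurentPolynomial (Chart x c),
          (∃ (n : ℕ) (F : ERees x), z * T n = chartPhi x c F) →
          (∃ (n : ℕ) (F : ERees x), w * T n = chartPhi x c F) →
          ∃ (n : ℕ) (F : ERees x), (z * w) * T n = chartPhi x c F := by
        rintro z w ⟨n, F, hF⟩ ⟨m, G, hG⟩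
        refine ⟨n + m, F * G, ?_⟩
        rw [map_mul, ← hF, ← hG]
        push_cast
        rw [T_add]
        ring
      have hC : ∀ s : Chart x c, ∃ (n : ℕ) (F : ERees x), (C s) * T n = chartPhi x c F := by
        intro s
        refine chart_induction (p := fun s => ∃ (n : ℕ) (F : ERees x), (C s) * T n =
          chartPhi x c F) ?_ ?_ ?_ ?_ s
        · intro a
          exact ⟨0, algebraMap A _ a, by simp⟩
        · intro i
          exact ⟨1, eY x i, by simp⟩
        · intro a b ha hb
          rw [map_add]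
          exact hadd _ _ ha hb
        · intro a b ha hb
          rw [map_mul]
          exact hmul _ _ ha hb
      intro z
      induction z using LaurentPolynomial.induction_on' with
      | add p q hp hq => exact hadd _ _ hp hq
      | C_mul_T n a =>
        refine hmul _ _ (hC a) ?_
        rcases n with n | n
        · exact ⟨0, eXi x c ^ n, by rw [hT]; simp⟩
        · refine ⟨n + 1, 1, ?_⟩
          rw [← T_add, map_one]
          have : Int.negSucc n + ((n + 1 : ℕ) : ℤ) = 0 := by omega
          rw [this, T_zero]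
    intro z
    obtain ⟨n, F, hF⟩ := key z
    refine ⟨(F, ⟨eXi x c ^ n, n, rfl⟩), ?_⟩
    change z * chartPhi x c (eXi x c ^ n) = chartPhi x c F
    rw [hT, hF]
  · intro F G h
    change chartPhi x c F = chartPhi x c G at h
    obtain ⟨ψ, hψ⟩ := exists_chartPsi x c
      (algebraMap (ERees x) (Localization.Away (eXi x c)))
      (IsLocalization.Away.algebraMap_isUnit (eXi x c))
    have h1 := congrArg ψ h
    rw [← RingHom.comp_apply, ← RingHom.comp_apply, hψ] at h1
    exact IsLocalization.exists_of_eq h1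

end chart

end Vale.Agent.P177
end
end

section

section

/-!
Every stably filtered module over a regular local ring has a finite strict free resolution.
-/

namespace Vale.Agent.P177

open IsLocalRing Function Pointwise

universe u

/-- Adapted bases of filtered vector spaces. -/
theorem exists_adapted_basis {K : Type u} [Field K] (N : ℕ) : ∀ (M : Type u) [AddCommGroup M]
    [Module K M] [Module.Finite K M] (F : ℕ → Submodule K M), F 0 = ⊤ → (∀ n, F (n + 1) ≤ F n) →
    F N = ⊥ → ∃ (ι : Type u) (_ : Fintype ι) (b : Module.Basis ι K M) (a : ι → ℕ),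
      ∀ n, F n = Submodule.span K (b '' {j | n ≤ a j}) := by
  induction N with
  | zero =>
    intro M _ _ _ F h0 hanti hN
    have hM : Subsingleton M := by
      rw [← Submodule.subsingleton_iff K, ← subsingleton_iff_bot_eq_top]
      rw [← hN, h0]
    refine ⟨PEmpty, inferInstance, Module.Basis.empty M, PEmpty.elim, fun n => ?_⟩
    exact Subsingleton.elim _ _
  | succ N ih =>
    intro M _ _ _ F h0 hanti hN
    obtain ⟨ι₁, _, b₁, a₁, h₁⟩ := ih (F 1) (fun n => (F (n + 1)).comap (F 1).subtype)
      (by simp) (fun n => Submodule.comap_mono (hanti _)) (by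
        rw [hN]
        exact Submodule.ker_subtype _)
    obtain ⟨C, hC⟩ := Submodule.exists_isCompl (F 1)
    let bC := Module.finBasis K C
    let b := (b₁.prod bC).map (Submodule.prodEquivOfIsCompl (F 1) C hC)
    let e : (ι₁ ⊕ Fin (Module.finrank K C)) → ι₁ ⊕ ULift.{u} (Fin (Module.finrank K C)) :=
      Sum.map id ULift.up
    let eq : (ι₁ ⊕ Fin (Module.finrank K C)) ≃ ι₁ ⊕ ULift.{u} (Fin (Module.finrank K C)) :=
      Equiv.sumCongr (Equiv.refl _) Equiv.ulift.symm
    refine ⟨ι₁ ⊕ ULift.{u} (Fin (Module.finrank K C)), inferInstance, b.reindex eq,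
      Sum.elim (fun j => a₁ j + 1) (fun _ => 0), fun n => ?_⟩
    cases n with
    | zero =>
      have : {j : ι₁ ⊕ ULift.{u} (Fin (Module.finrank K C)) |
          0 ≤ (Sum.elim (fun j => a₁ j + 1) (fun _ => 0) : _ → ℕ) j} = Set.univ := by
        ext j; simp
      rw [this, Set.image_univ, Module.Basis.span_eq, h0]
    | succ n =>
      have h2 : F (n + 1) = ((F (n + 1)).comap (F 1).subtype).map (F 1).subtype := by
        rw [Submodule.map_comap_subtype]
        refine (inf_eq_right.2 ?_).symm
        exact (antitone_nat_of_succ_le hanti) (by omega)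
      rw [h2, h₁ n, Submodule.map_span]
      congr 1
      ext v
      constructor
      · rintro ⟨_, ⟨j, hj, rfl⟩, rfl⟩
        refine ⟨Sum.inl j, ?_, ?_⟩
        · change n + 1 ≤ a₁ j + 1
          exact Nat.succ_le_succ hj
        · simp [b, eq]
      · rintro ⟨j | j, hj, rfl⟩
        · refine ⟨b₁ j, ⟨j, Nat.le_of_succ_le_succ hj, rfl⟩, ?_⟩
          simp [b, eq]
        · exact absurd hj (by simp)

theorem fpd_field {K : Type u} [Field K] (M : Type u) [AddCommGroup M]
    [Module K M] [Module.Finite K M] (F : ℕ → Submodule K M) (hF : GoodFil (⊥ : Ideal K) F) :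
    FPD (⊥ : Ideal K) 0 M F := by
  obtain ⟨n₀, hn₀⟩ := hF.stable
  have hN : F (n₀ + 1) = ⊥ := by rw [← hn₀ n₀ le_rfl, Submodule.bot_smul]
  obtain ⟨ι, _, b, a, hb⟩ := exists_adapted_basis (n₀ + 1) M F hF.top hF.anti hN
  let e := Fintype.equivFin ι
  let b' := b.reindex e
  refine ⟨Fintype.card ι, a ∘ e.symm, b'.equivFun.symm.toLinearMap, fun n => ?_, ?_⟩
  · rw [hb]
    refine le_antisymm ?_ ?_
    · rintro _ ⟨f, hf, rfl⟩
      rw [SetLike.mem_coe, mem_wfil] at hf
      change b'.equivFun.symm f ∈ _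
      rw [Module.Basis.equivFun_symm_apply]
      refine Submodule.sum_mem _ fun j _ => ?_
      by_cases hj : n ≤ a (e.symm j)
      · refine Submodule.smul_mem _ _ (Submodule.subset_span ⟨e.symm j, hj, ?_⟩)
        simp [b']
      · have h1 := hf j
        have h2 : ∃ k, n - (a ∘ e.symm) j = k + 1 := ⟨n - a (e.symm j) - 1, by
          simp only [Function.comp_apply]
          omega⟩
        obtain ⟨k, hk⟩ := h2
        rw [hk, pow_succ, Ideal.mul_bot] at h1
        rw [(Submodule.mem_bot K).1 h1, zero_smul]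
        exact zero_mem _
    · rw [Submodule.span_le]
      rintro _ ⟨j, hj, rfl⟩
      refine ⟨Pi.single (e j) 1, ?_, ?_⟩
      · rw [SetLike.mem_coe, mem_wfil]
        intro i
        by_cases hi : i = e j
        · subst hi
          have : n - (a ∘ e.symm) (e j) = 0 := by
            simp only [Function.comp_apply, Equiv.symm_apply_apply]
            have : n ≤ a j := hj
            omega
          rw [this]
          simp
        · simp [Pi.single_eq_of_ne hi]
      · change b'.equivFun.symm _ = _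
        rw [Module.Basis.equivFun_symm_apply, Finset.sum_eq_single (e j)]
        · simp [b']
        · intro i _ hi
          simp [Pi.single_eq_of_ne hi]
        · simp
  · exact LinearMap.ker_eq_bot.2 b'.equivFun.symm.injective

theorem fpd_of_maximalIdeal_eq_bot {A : Type u} [CommRing A] [IsLocalRing A]
    (h : maximalIdeal A = ⊥) (M : Type u) [AddCommGroup M] [Module A M] [Module.Finite A M]
    (F : ℕ → Submodule A M) (hF : GoodFil (maximalIdeal A) F) :
    FPD (maximalIdeal A) 0 M F := by
  rw [h] at hF ⊢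
  have hf : IsField A := (IsLocalRing.isField_iff_maximalIdeal_eq).2 h
  let _ : Field A := hf.toField
  exact fpd_field M F hF

theorem exists_notMem_sq {A : Type u} [CommRing A] [IsRegularLocalRing A] {d : ℕ}
    (hd : ringKrullDim A = ((d + 1 : ℕ) : WithBot ℕ∞)) :
    ∃ x ∈ maximalIdeal A, x ∉ maximalIdeal A ^ 2 := by
  by_contra hcon
  push Not at hcon
  have h1 : maximalIdeal A ≤ maximalIdeal A • maximalIdeal A := by
    rw [smul_eq_mul, ← pow_two]
    exact hcon
  have h2 : maximalIdeal A = ⊥ := by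
    refine Submodule.eq_bot_of_le_smul_of_le_jacobson_bot (maximalIdeal A) _
      (IsNoetherian.noetherian _) h1 ?_
    rw [IsLocalRing.jacobson_eq_maximalIdeal ⊥ bot_ne_top]
  have h3 : IsField A := (IsLocalRing.isField_iff_maximalIdeal_eq).2 h2
  rw [ringKrullDim_eq_zero_of_isField h3] at hd
  have : 0 = d + 1 := by exact_mod_cast hd
  omega

/-- Existence of finite strict free resolutions over regular local rings. -/
theorem fpd_of_regular (d : ℕ) : ∀ (A : Type u) [CommRing A] [IsRegularLocalRing A],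
    ringKrullDim A = d → ∀ (M : Type u) [AddCommGroup M] [Module A M] [Module.Finite A M]
    (F : ℕ → Submodule A M), GoodFil (maximalIdeal A) F → FPD (maximalIdeal A) d M F := by
  induction d with
  | zero =>
    intro A _ _ hd M _ _ _ F hF
    refine fpd_of_maximalIdeal_eq_bot ?_ M F hF
    obtain ⟨rs, hrs, hlen⟩ := exists_list_maximalIdeal A
    rw [hd] at hlen
    have : rs.length = 0 := by exact_mod_cast hlen
    rw [List.length_eq_zero_iff] at this
    rw [← hrs, this]
    simp [Ideal.ofList]
  | succ d ih =>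
    intro A _ _ hd M _ _ _ F hF
    have hdom : IsDomain A := regular_isDomain A
    obtain ⟨x, hx, hx2⟩ := exists_notMem_sq hd
    obtain ⟨hreg, hdim⟩ := regular_quotient A x hx hx2
    have hx0 : x ≠ 0 := by
      rintro rfl
      exact hx2 (zero_mem _)
    have hdim' : ringKrullDim (A ⧸ Ideal.span {x}) = d := by
      obtain ⟨e, he⟩ := exists_nat_eq_ringKrullDim (A ⧸ Ideal.span {x})
      rw [hd, he] at hdim
      have h1 : e + 1 = d + 1 := by exact_mod_cast hdim
      rw [he]
      have h2 : e = d := by omega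
      rw [h2]
    obtain ⟨b, a, φ, hφ⟩ := exists_strict_cover hF
    refine ⟨b, a, φ, hφ, ?_⟩
    have hmap : (maximalIdeal A).map (algebraMap A (A ⧸ Ideal.span {x})) =
        maximalIdeal (A ⧸ Ideal.span {x}) :=
      map_maximalIdeal_of_surjective _ Ideal.Quotient.mk_surjective
    -- the module modulo `x`
    let K := LinearMap.ker φ
    let FK : ℕ → Submodule A K :=
      fun n => (wfil (fun k => ((maximalIdeal A) ^ k : Ideal A)) a n).comap K.subtype
    have hFK : GoodFil (maximalIdeal A) FK := ((goodFil_self _).weighted a).comap_subtype K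
    let K' := K ⧸ (Ideal.span {x} • ⊤ : Submodule A K)
    let p : K →ₗ[A] K' := Submodule.mkQ _
    have hp : Surjective p := Submodule.mkQ_surjective _
    let F' : ℕ → Submodule (A ⧸ Ideal.span {x}) K' := fun n =>
      { carrier := p '' (FK n)
        add_mem' := by
          rintro _ _ ⟨v, hv, rfl⟩ ⟨w, hw, rfl⟩
          exact ⟨v + w, add_mem hv hw, map_add _ _ _⟩
        zero_mem' := ⟨0, zero_mem _, map_zero _⟩
        smul_mem' := by
          rintro c _ ⟨v, hv, rfl⟩
          obtain ⟨c, rfl⟩ := Ideal.Quotient.mk_surjective c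
          exact ⟨c • v, Submodule.smul_mem _ _ hv, rfl⟩ }
    have hF' : ∀ n y, y ∈ F' n ↔ ∃ v ∈ FK n, p v = y := fun n y => Iff.rfl
    have hgood : GoodFil (maximalIdeal (A ⧸ Ideal.span {x})) F' := by
      have hsm : ∀ n, maximalIdeal (A ⧸ Ideal.span {x}) • F' n ≤ F' (n + 1) := by
        intro n
        rw [Submodule.smul_le]
        rintro c hc _ ⟨v, hv, rfl⟩
        rw [← hmap] at hc
        obtain ⟨c', hc', rfl⟩ := (Ideal.mem_map_iff_of_surjective (algebraMap A _)
          Ideal.Quotient.mk_surjective).1 hc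
        exact ⟨c' • v, hFK.smul n (Submodule.smul_mem_smul hc' hv), rfl⟩
      refine ⟨?_, ?_, hsm, ?_⟩
      · rw [eq_top_iff]
        intro y _
        obtain ⟨v, rfl⟩ := hp y
        exact ⟨v, by rw [hFK.top]; trivial, rfl⟩
      · rintro n _ ⟨v, hv, rfl⟩
        exact ⟨v, hFK.anti n hv, rfl⟩
      · obtain ⟨n₀, hn₀⟩ := hFK.stable
        refine ⟨n₀, fun n hn => le_antisymm (hsm n) ?_⟩
        rintro _ ⟨v, hv, rfl⟩
        rw [← hn₀ n hn] at hv
        refine Submodule.smul_induction_on hv ?_ ?_
        · intro c hc v hv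
          have h1 : p (c • v) = (Ideal.Quotient.mk (Ideal.span {x}) c) • p v := rfl
          rw [h1]
          refine Submodule.smul_mem_smul ?_ ⟨v, hv, rfl⟩
          rw [← hmap]
          exact Ideal.mem_map_of_mem _ hc
        · intro v w hv hw
          rw [map_add]
          exact add_mem hv hw
    have hfin : Module.Finite (A ⧸ Ideal.span {x}) K' := by
      have : Module.Finite A K' := Module.Finite.of_surjective p hp
      exact Module.Finite.of_restrictScalars_finite A _ _
    have hrec := ih (A ⧸ Ideal.span {x}) hdim' K' F' hgood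
    refine FPD.lift (A' := A ⧸ Ideal.span {x}) Ideal.Quotient.mk_surjective x Ideal.mk_ker hx
      (maximalIdeal A) hx (fun c hc => (mul_eq_zero.1 hc).resolve_left hx0)
      (fun m c hc => mem_pow_of_mul_mem hx hx2 hc) d p hp ?_ FK F' hFK ?_ ?_ hF' ?_
    · intro v hv
      have h1 : v ∈ (Ideal.span {x} • ⊤ : Submodule A K) := by
        rwa [← Submodule.Quotient.mk_eq_zero]
      rw [Submodule.ideal_span_singleton_smul] at h1
      obtain ⟨w, -, hw⟩ := h1
      exact ⟨w, hw.symm⟩
    · rintro ⟨f, hf⟩ h0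
      have h1 : x • f = 0 := congrArg Subtype.val h0
      apply Subtype.ext
      funext j
      exact (mul_eq_zero.1 (congrFun h1 j)).resolve_left hx0
    · rintro n ⟨f, hf⟩ h0
      have h1 : x • f ∈ wfil (fun k => ((maximalIdeal A) ^ k : Ideal A)) a (n + 1) := h0
      change f ∈ wfil (fun k => ((maximalIdeal A) ^ k : Ideal A)) a n
      rw [mem_wfil] at h1 ⊢
      intro j
      have h2 := h1 j
      by_cases hj : a j ≤ n
      · have h3 : n + 1 - a j = (n - a j) + 1 := by omega
        rw [h3] at h2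
        exact mem_pow_of_mul_mem hx hx2 h2
      · have h3 : n - a j = 0 := by omega
        rw [h3]
        simp
    · rw [hmap]
      exact hrec

end Vale.Agent.P177
end
end

section

section

/-!
Strict free resolutions of filtered modules, indexed by the natural numbers.
-/

namespace Vale.Agent.P177

open Function IsLocalRing

universe u

/-- A strict resolution of a filtered module by finite free filtered modules, of length `r`. -/
structure FRes {A : Type u} [CommRing A] (I : Ideal A) {M : Type u} [AddCommGroup M] [Module A M]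
    (F : ℕ → Submodule A M) (r : ℕ) extends FR A M where
  /-- weights -/
  a : ∀ i, Fin (b i) → ℕ
  strict_ε : ∀ n, (wfil (fun k => (I ^ k : Ideal A)) (a 0) n).map ε = F n
  strict_zero : ∀ n, (wfil (fun k => (I ^ k : Ideal A)) (a 1) n).map (δ 0) =
    LinearMap.ker ε ⊓ wfil (fun k => (I ^ k : Ideal A)) (a 0) n
  strict_succ : ∀ i n, (wfil (fun k => (I ^ k : Ideal A)) (a (i + 2)) n).map (δ (i + 1)) =
    LinearMap.ker (δ i) ⊓ wfil (fun k => (I ^ k : Ideal A)) (a (i + 1)) n
  bound : ∀ i, r < i → b i = 0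

variable {A : Type u} [CommRing A] {I : Ideal A}

theorem eq_zero_of_fin_zero {N : Type*} [AddCommGroup N] {n : ℕ} (h : n = 0) (v : Fin n → N) :
    v = 0 := by
  subst h
  exact Subsingleton.elim _ _

theorem exists_fres_zero {M : Type u} [AddCommGroup M] [Module A M] {F : ℕ → Submodule A M}
    (hF : F 0 = ⊤) (b : ℕ) (a : Fin b → ℕ) (φ : (Fin b → A) →ₗ[A] M)
    (hφ : ∀ n, (wfil (fun k => (I ^ k : Ideal A)) a n).map φ = F n) (hker : LinearMap.ker φ = ⊥) :
    Nonempty (FRes I F 0) := by
  have hsurj : Surjective φ := by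
    rw [← LinearMap.range_eq_top, eq_top_iff, ← hF, ← hφ]
    exact LinearMap.map_le_range
  refine ⟨{
    b := fun
      | 0 => b
      | _ + 1 => 0
    ε := φ
    δ := fun _ => 0
    surj := hsurj
    exact_zero := ?_
    exact_succ := ?_
    a := fun
      | 0 => a
      | _ + 1 => fun _ => 0
    strict_ε := hφ
    strict_zero := ?_
    strict_succ := ?_
    bound := ?_ }⟩
  · intro v
    constructor
    · intro hv
      have : v ∈ LinearMap.ker φ := hv
      rw [hker] at this
      exact ⟨0, by rw [LinearMap.zero_apply]; exact ((Submodule.mem_bot A).1 this).symm⟩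
    · rintro ⟨w, rfl⟩
      rw [LinearMap.zero_apply, map_zero]
  · intro i v
    constructor
    · intro _
      exact ⟨0, (eq_zero_of_fin_zero rfl v).symm ▸ rfl⟩
    · intro _
      rw [LinearMap.zero_apply]
  · intro n
    rw [hker, bot_inf_eq, Submodule.map_zero]
  · intro i n
    rw [Submodule.map_zero]
    refine (eq_bot_iff.2 ?_).symm
    rintro v -
    exact (Submodule.mem_bot A).2 (eq_zero_of_fin_zero rfl v)
  · intro i hi
    obtain ⟨j, rfl⟩ : ∃ j, i = j + 1 := ⟨i - 1, by omega⟩
    rfl

theorem exists_fres_succ {M : Type u} [AddCommGroup M] [Module A M] {F : ℕ → Submodule A M}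
    (hF : F 0 = ⊤) (b : ℕ) (a : Fin b → ℕ) (φ : (Fin b → A) →ₗ[A] M)
    (hφ : ∀ n, (wfil (fun k => (I ^ k : Ideal A)) a n).map φ = F n) (r : ℕ)
    (Y : FRes I (fun n => (wfil (fun k => (I ^ k : Ideal A)) a n).comap
      (LinearMap.ker φ).subtype) r) :
    Nonempty (FRes I F (r + 1)) := by
  have hsurj : Surjective φ := by
    rw [← LinearMap.range_eq_top, eq_top_iff, ← hF, ← hφ]
    exact LinearMap.map_le_range
  refine ⟨{
    b := fun
      | 0 => b
      | i + 1 => Y.b i
    ε := φ
    δ := fun
      | 0 => (LinearMap.ker φ).subtype ∘ₗ Y.ε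
      | i + 1 => Y.δ i
    surj := hsurj
    exact_zero := ?_
    exact_succ := ?_
    a := fun
      | 0 => a
      | i + 1 => Y.a i
    strict_ε := hφ
    strict_zero := ?_
    strict_succ := ?_
    bound := ?_ }⟩
  · intro v
    constructor
    · intro hv
      obtain ⟨w, hw⟩ := Y.surj ⟨v, hv⟩
      exact ⟨w, congrArg Subtype.val hw⟩
    · rintro ⟨w, rfl⟩
      exact (Y.ε w).2
  · intro i
    cases i with
    | zero =>
      intro v
      rw [← Y.exact_zero v]
      exact ⟨fun h => Subtype.ext h, fun h => congrArg Subtype.val h⟩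
    | succ i => exact Y.exact_succ i
  · intro n
    change (wfil (fun k => (I ^ k : Ideal A)) (Y.a 0) n).map ((LinearMap.ker φ).subtype ∘ₗ Y.ε) = _
    rw [Submodule.map_comp, Y.strict_ε, Submodule.map_comap_subtype]
  · intro i n
    cases i with
    | zero =>
      change (wfil (fun k => (I ^ k : Ideal A)) (Y.a 1) n).map (Y.δ 0) =
        LinearMap.ker ((LinearMap.ker φ).subtype ∘ₗ Y.ε) ⊓ wfil (fun k => (I ^ k : Ideal A)) (Y.a 0) n
      rw [LinearMap.ker_comp_of_ker_eq_bot _ (Submodule.ker_subtype _), Y.strict_zero]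
    | succ i => exact Y.strict_succ i n
  · intro i hi
    obtain ⟨j, rfl⟩ : ∃ j, i = j + 1 := ⟨i - 1, by omega⟩
    exact Y.bound j (by omega)

theorem exists_fres (r : ℕ) : ∀ {M : Type u} [AddCommGroup M] [Module A M]
    {F : ℕ → Submodule A M}, F 0 = ⊤ → FPD I r M F → Nonempty (FRes I F r) := by
  induction r with
  | zero =>
    intro M _ _ F hF h
    obtain ⟨b, a, φ, hφ, hk⟩ := h
    exact exists_fres_zero hF b a φ hφ hk
  | succ r ih =>
    intro M _ _ F hF h
    obtain ⟨b, a, φ, hφ, hrec⟩ := h
    obtain ⟨Y⟩ := ih (by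
      rw [((goodFil_self I).weighted a).top]
      exact Submodule.comap_top _) hrec
    exact exists_fres_succ hF b a φ hφ r Y

/-- Strict free resolutions over regular local rings. -/
theorem exists_fres_of_regular {A : Type u} [CommRing A] [IsRegularLocalRing A] {d : ℕ}
    (hd : ringKrullDim A = d) {M : Type u} [AddCommGroup M] [Module A M] [Module.Finite A M]
    {F : ℕ → Submodule A M} (hF : GoodFil (maximalIdeal A) F) :
    Nonempty (FRes (maximalIdeal A) F d) :=
  exists_fres d hF.top (fpd_of_regular d A hd M F hF)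

end Vale.Agent.P177
end
end

section

section

/-!
Action of strict resolutions on filtered modules, and filtered homotopies.
-/

namespace Vale.Agent.P177

open Function IsLocalRing

universe u

section act

variable {A : Type*} [CommRing A] {I : Ideal A} {p q : ℕ} {N : Type*} [AddCommGroup N]
  [Module A N] {G : ℕ → Submodule A N}

theorem act_mem (hG : GoodFil I G) {δ : (Fin p → A) →ₗ[A] (Fin q → A)} {a : Fin p → ℕ}
    {a' : Fin q → ℕ} {r : ℕ} (hδ : ∀ j k, δ (Pi.single j 1) k ∈ I ^ (a j + r - a' k)) {n : ℕ}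
    {v : Fin p → N} (hv : v ∈ wfil G a n) : act N δ v ∈ wfil G a' (n + r) := by
  rw [mem_wfil] at hv ⊢
  intro k
  rw [act_apply]
  refine Submodule.sum_mem _ fun j _ => ?_
  exact hG.antitone (by omega) (hG.smul_mem (hδ j k) (hv j))

theorem act_add (δ δ' : (Fin p → A) →ₗ[A] (Fin q → A)) (v : Fin p → N) :
    act N (δ + δ') v = act N δ v + act N δ' v := by
  funext k
  simp only [act_apply, LinearMap.add_apply, Pi.add_apply, add_smul, Finset.sum_add_distrib]

theorem act_smul_id (c : A) (v : Fin p → N) :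
    act N (c • (LinearMap.id : (Fin p → A) →ₗ[A] (Fin p → A))) v = c • v := by
  funext k
  rw [act_apply, Finset.sum_eq_single k]
  · simp
  · intro j _ hj
    simp [Pi.single_eq_of_ne hj.symm]
  · simp

/-- Lifting through a linear map generator by generator. -/
theorem exists_lift_basis {q : ℕ} (δ : (Fin q → A) →ₗ[A] (Fin p → A))
    (g : (Fin p → A) →ₗ[A] (Fin p → A)) (a : Fin p → ℕ) (a' : Fin q → ℕ) (r : ℕ)
    (h : ∀ j, g (Pi.single j 1) ∈ (wfil (fun k => (I ^ k : Ideal A)) a' (a j + r)).map δ) :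
    ∃ s : (Fin p → A) →ₗ[A] (Fin q → A), (∀ j k, s (Pi.single j 1) k ∈ I ^ (a j + r - a' k)) ∧
      δ.comp s = g := by
  choose w hw hwg using h
  refine ⟨lc w, ?_, ?_⟩
  · intro j k
    have h1 : lc w (Pi.single j (1 : A)) = w j := by
      rw [lc_apply, Finset.sum_eq_single j]
      · rw [Pi.single_eq_same, one_smul]
      · intro i _ hi
        rw [Pi.single_eq_of_ne hi, zero_smul]
      · simp
    rw [h1]
    exact mem_wfil.1 (hw j) k
  · refine LinearMap.pi_ext' fun j => LinearMap.ext_ring ?_
    change δ (lc w (Pi.single j 1)) = g (Pi.single j 1)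
    have h1 : lc w (Pi.single j (1 : A)) = w j := by
      rw [lc_apply, Finset.sum_eq_single j]
      · rw [Pi.single_eq_same, one_smul]
      · intro i _ hi
        rw [Pi.single_eq_of_ne hi, zero_smul]
      · simp
    rw [h1, hwg]

theorem single_mem_wfil (a : Fin p → ℕ) (j : Fin p) :
    (Pi.single j 1 : Fin p → A) ∈ wfil (fun k => (I ^ k : Ideal A)) a (a j) := by
  rw [mem_wfil]
  intro k
  by_cases h : k = j
  · subst h
    simp
  · simp [Pi.single_eq_of_ne h]

end act

section fres

variable {A : Type u} [CommRing A] {I : Ideal A} {M : Type u} [AddCommGroup M] [Module A M]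
  {F : ℕ → Submodule A M} {r : ℕ} (X : FRes I F r)

theorem FRes.delta_mem (i : ℕ) (j : Fin (X.b (i + 1))) (k : Fin (X.b i)) :
    X.δ i (Pi.single j 1) k ∈ I ^ (X.a (i + 1) j + 0 - X.a i k) := by
  rw [add_zero]
  have h1 : X.δ i (Pi.single j 1) ∈ wfil (fun k => (I ^ k : Ideal A)) (X.a i) (X.a (i + 1) j) := by
    cases i with
    | zero =>
      have h2 : X.δ 0 (Pi.single j 1) ∈ (wfil (fun k => (I ^ k : Ideal A)) (X.a 1)
          (X.a 1 j)).map (X.δ 0) := ⟨_, single_mem_wfil _ _, rfl⟩
      rw [X.strict_zero] at h2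
      exact h2.2
    | succ i =>
      have h2 : X.δ (i + 1) (Pi.single j 1) ∈ (wfil (fun k => (I ^ k : Ideal A)) (X.a (i + 2))
          (X.a (i + 2) j)).map (X.δ (i + 1)) := ⟨_, single_mem_wfil _ _, rfl⟩
      rw [X.strict_succ] at h2
      exact h2.2
  exact mem_wfil.1 h1 k

theorem FRes.comp_eq_zero (i : ℕ) : (X.δ i).comp (X.δ (i + 1)) = 0 :=
  LinearMap.ext fun v => (X.exact_succ i).apply_apply_eq_zero v

variable (N : Type u) [AddCommGroup N] [Module A N]

/-- Multiplication by an element of `I ^ m` that kills `M` is homotopic to zero in a filtered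
way. -/
theorem FRes.homotopy {c : A} {m : ℕ} (hc : c ∈ I ^ m) (hcM : ∀ v : M, c • v = 0) (i : ℕ) :
    ∃ s : (Fin (X.b i) → A) →ₗ[A] (Fin (X.b (i + 1)) → A),
      (∀ j k, s (Pi.single j 1) k ∈ I ^ (X.a i j + m - X.a (i + 1) k)) ∧
      ((X.δ i).comp s).comp (X.δ i) = c • X.δ i ∧
      ∀ v ∈ X.Z N i, c • v = act N (X.δ i) (act N s v) := by
  have hcf : ∀ (i : ℕ) (j : Fin (X.b i)), c • (Pi.single j 1 : Fin (X.b i) → A) ∈
      wfil (fun k => (I ^ k : Ideal A)) (X.a i) (X.a i j + m) := fun i j =>
    ((goodFil_self I).weighted (X.a i)).smul_mem hc (single_mem_wfil _ _)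
  induction i with
  | zero =>
    obtain ⟨s, hs, hsc⟩ := exists_lift_basis (I := I) (X.δ 0) (c • LinearMap.id) (X.a 0) (X.a 1) m
      (by
        intro j
        rw [X.strict_zero]
        refine ⟨?_, hcf 0 j⟩
        change X.ε (c • Pi.single j 1) = 0
        rw [map_smul, hcM])
    refine ⟨s, hs, ?_, ?_⟩
    · rw [hsc, LinearMap.smul_comp, LinearMap.id_comp]
    · intro v _
      rw [← act_comp, hsc, act_smul_id]
  | succ i ih =>
    obtain ⟨s, hs, hsc, -⟩ := ih
    obtain ⟨s', hs', hsc'⟩ := exists_lift_basis (I := I) (X.δ (i + 1))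
      (c • LinearMap.id - s.comp (X.δ i)) (X.a (i + 1)) (X.a (i + 2)) m
      (by
        intro j
        rw [X.strict_succ]
        refine ⟨?_, ?_⟩
        · change X.δ i (c • Pi.single j 1 - s (X.δ i (Pi.single j 1))) = 0
          have := LinearMap.congr_fun hsc (Pi.single j 1)
          change X.δ i (s (X.δ i (Pi.single j 1))) = c • X.δ i (Pi.single j 1) at this
          rw [map_sub, map_smul, this, sub_self]
        · refine Submodule.sub_mem _ (hcf _ j) ?_
          rw [mem_wfil]
          intro k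
          change s (X.δ i (Pi.single j 1)) k ∈ _
          rw [apply_eq_sum]
          refine Submodule.sum_mem _ fun l _ => ?_
          have h1 := Ideal.mul_mem_mul (X.delta_mem i j l) (hs l k)
          rw [← pow_add] at h1
          exact Ideal.pow_le_pow_right (by omega) h1)
    have hz := X.comp_eq_zero i
    refine ⟨s', hs', ?_, ?_⟩
    · rw [hsc', LinearMap.sub_comp, LinearMap.smul_comp, LinearMap.id_comp, LinearMap.comp_assoc,
        hz, LinearMap.comp_zero, sub_zero]
    · intro v hv
      have hv' : act N (X.δ i) v = 0 := hv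
      rw [← act_comp, hsc', sub_eq_add_neg, act_add, act_smul_id]
      have h1 : act N (-(s.comp (X.δ i))) v = - act N (s.comp (X.δ i)) v := by
        funext k
        simp only [act_apply, LinearMap.neg_apply, Pi.neg_apply, neg_smul, Finset.sum_neg_distrib]
      rw [h1, act_comp, hv', map_zero, neg_zero, add_zero]

variable {N} {G : ℕ → Submodule A N}

theorem FRes.map_wfil_le (hG : GoodFil I G) (i n : ℕ) :
    (wfil G (X.a (i + 1)) n).map (act N (X.δ i)) ≤ wfil G (X.a i) n := by
  rintro _ ⟨v, hv, rfl⟩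
  exact act_mem hG (X.delta_mem i) hv

end fres

end Vale.Agent.P177
end
end

section

section

/-!
Hilbert functions of filtered modules over regular local rings.
-/

namespace Vale.Agent.P177

open Function IsLocalRing PowerSeries

universe u

section basic

variable {A : Type*} [CommRing A] {C : Type*} [AddCommGroup C] [Module A C]

theorem rl_top_eq (Y : Submodule A C) : rl ⊤ Y = Module.length A (C ⧸ Y) := by
  unfold rl
  refine LinearEquiv.length_eq (Submodule.Quotient.equiv _ _ Submodule.topEquiv ?_)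
  ext v
  constructor
  · rintro ⟨w, hw, rfl⟩
    exact hw
  · intro hv
    exact ⟨⟨v, trivial⟩, hv, rfl⟩

theorem rl_top_anti {Y Z : Submodule A C} (h : Y ≤ Z) : rl ⊤ Z ≤ rl ⊤ Y := by
  rw [rl_top_eq, rl_top_eq]
  exact Module.length_le_of_surjective (Submodule.factor h) (Submodule.factor_surjective h)

/-- The Hilbert function of a filtration. -/
noncomputable def lamF (G : ℕ → Submodule A C) (n : ℕ) : ℤ := ((rl ⊤ (G n)).toNat : ℤ)

theorem rl_pi {b : ℕ} (G : Fin b → Submodule A C) :
    rl ⊤ (Submodule.pi Set.univ G : Submodule A (Fin b → C)) = ∑ j, rl ⊤ (G j) := by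
  rw [rl_top_eq, LinearEquiv.length_eq (Submodule.quotientPi G), Module.length_pi_of_fintype]
  exact Finset.sum_congr rfl fun j _ => (rl_top_eq _).symm

theorem lamF_wfil (G : ℕ → Submodule A C) (hG : ∀ n, rl ⊤ (G n) ≠ ⊤) {b : ℕ} (a : Fin b → ℕ)
    (n : ℕ) : rl ⊤ (wfil G a n) ≠ ⊤ ∧ lamF (wfil G a) n = ∑ j, lamF G (n - a j) := by
  unfold lamF
  have h1 : rl ⊤ (wfil G a n) = ∑ j, rl ⊤ (G (n - a j)) := rl_pi _
  have h2 : ∀ j, rl ⊤ (G (n - a j)) = (((rl ⊤ (G (n - a j))).toNat : ℕ) : ℕ∞) := fun j =>
    (ENat.natCast_toNat (hG _)).symm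
  have h3 : rl ⊤ (wfil G a n) = ((∑ j, (rl ⊤ (G (n - a j))).toNat : ℕ) : ℕ∞) := by
    rw [h1, Nat.cast_sum]
    exact Finset.sum_congr rfl fun j _ => h2 j
  rw [h3]
  refine ⟨ENat.natCast_ne_top _, ?_⟩
  rw [ENat.toNat_natCast]
  push_cast
  rfl

end basic

section fin

variable {A : Type u} [CommRing A] [IsLocalRing A] [IsNoetherianRing A]
  {M : Type u} [AddCommGroup M] [Module A M] [Module.Finite A M]

theorem rl_pow_ne_top (n : ℕ) : rl ⊤ (maximalIdeal A ^ n • ⊤ : Submodule A M) ≠ ⊤ := by
  rw [rl_top_eq, Module.length_ne_top_iff]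
  refine isFiniteLength_of_pow_smul_eq_zero n ?_
  intro a ha x
  obtain ⟨x, rfl⟩ := Submodule.mkQ_surjective _ x
  rw [← map_smul]
  exact (Submodule.Quotient.mk_eq_zero _).2 (Submodule.smul_mem_smul ha trivial)

theorem GoodFil.rl_ne_top {F : ℕ → Submodule A M} (hF : GoodFil (maximalIdeal A) F) (n : ℕ) :
    rl ⊤ (F n) ≠ ⊤ := by
  have h1 : (maximalIdeal A ^ n • ⊤ : Submodule A M) ≤ F n := by
    have := hF.pow_smul n 0
    rwa [hF.top, zero_add] at this
  intro h
  have h2 := rl_top_anti h1
  rw [h, top_le_iff] at h2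
  exact rl_pow_ne_top n h2

theorem rl_self_ne_top (n : ℕ) : rl ⊤ (maximalIdeal A ^ n : Ideal A) ≠ ⊤ :=
  (goodFil_self (maximalIdeal A)).rl_ne_top n

variable (A M) in
/-- The Hilbert function of a module. -/
noncomputable def lam : ℕ → ℤ := lamF (fun n => (maximalIdeal A ^ n • ⊤ : Submodule A M))

variable (A) in
/-- The Hilbert function of the ring. -/
noncomputable def lamR : ℕ → ℤ := lamF (fun n => (maximalIdeal A ^ n : Ideal A))

omit [IsLocalRing A] [IsNoetherianRing A] [Module.Finite A M] in
theorem lamF_zero {F : ℕ → Submodule A M} (hF : F 0 = ⊤) : lamF F 0 = 0 := by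
  unfold lamF
  rw [hF, rl_eq_zero le_rfl]
  rfl

end fin

section regular

theorem rl_restrictScalars {A B : Type*} [CommRing A] [CommRing B] [Algebra A B] {C : Type*}
    [AddCommGroup C] [Module B C] [Module A C] [IsScalarTower A B C]
    (h : Surjective (algebraMap A B)) (Y : Submodule B C) :
    rl ⊤ (Y.restrictScalars A) = rl ⊤ Y := by
  rw [rl_top_eq, rl_top_eq, LinearEquiv.length_eq (Submodule.Quotient.restrictScalarsEquiv A Y)]
  exact Module.length_eq_of_surjective h

theorem lamR_succ {A : Type u} [CommRing A] [IsRegularLocalRing A] {x : A}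
    (hx : x ∈ maximalIdeal A) (hx2 : x ∉ maximalIdeal A ^ 2)
    [IsLocalRing (A ⧸ Ideal.span {x})] (n : ℕ) :
    rl ⊤ (maximalIdeal A ^ (n + 1) : Ideal A) = rl ⊤ (maximalIdeal A ^ n : Ideal A) +
      rl ⊤ (maximalIdeal (A ⧸ Ideal.span {x}) ^ (n + 1) : Ideal (A ⧸ Ideal.span {x})) := by
  have hdom : IsDomain A := regular_isDomain A
  have hx0 : x ≠ 0 := by
    rintro rfl
    exact hx2 (zero_mem _)
  have hmap : (maximalIdeal A).map (algebraMap A (A ⧸ Ideal.span {x})) =
      maximalIdeal (A ⧸ Ideal.span {x}) :=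
    map_maximalIdeal_of_surjective _ Ideal.Quotient.mk_surjective
  let f : A →ₗ[A] (A ⧸ Ideal.span {x}) := Algebra.linearMap A _
  let g : A →ₗ[A] A := LinearMap.mulLeft A x
  have hg : LinearMap.ker g = ⊥ := by
    rw [LinearMap.ker_eq_bot]
    exact mul_right_injective₀ hx0
  have h1 := rl_map f (X := ⊤) (Y := (maximalIdeal A ^ (n + 1) : Ideal A)) le_top
  have h2 := rl_map g (X := ⊤) (Y := (maximalIdeal A ^ n : Ideal A)) le_top
  rw [hg, bot_inf_eq, bot_inf_eq, rl_eq_zero le_rfl, zero_add] at h2
  have h3 : LinearMap.ker f ⊓ ⊤ = (⊤ : Submodule A A).map g := by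
    rw [inf_top_eq]
    ext v
    constructor
    · intro hv
      have hv' : (Ideal.Quotient.mk (Ideal.span {x})) v = 0 := hv
      rw [Ideal.Quotient.eq_zero_iff_mem, Ideal.mem_span_singleton'] at hv'
      obtain ⟨c, hc⟩ := hv'
      exact ⟨c, trivial, by change x * c = v; rw [← hc, mul_comm]⟩
    · rintro ⟨c, -, rfl⟩
      change (Ideal.Quotient.mk (Ideal.span {x})) (x * c) = 0
      rw [Ideal.Quotient.eq_zero_iff_mem]
      exact Ideal.mul_mem_right _ _ (Ideal.mem_span_singleton_self x)
  have h4 : LinearMap.ker f ⊓ (maximalIdeal A ^ (n + 1) : Ideal A) =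
      Submodule.map g (maximalIdeal A ^ n : Ideal A) := by
    ext v
    constructor
    · rintro ⟨hv, hv2⟩
      have hv' : (Ideal.Quotient.mk (Ideal.span {x})) v = 0 := hv
      rw [Ideal.Quotient.eq_zero_iff_mem, Ideal.mem_span_singleton'] at hv'
      obtain ⟨c, hc⟩ := hv'
      refine ⟨c, mem_pow_of_mul_mem hx hx2 ?_, by change x * c = v; rw [← hc, mul_comm]⟩
      rw [mul_comm, hc]
      exact hv2
    · rintro ⟨c, hc, rfl⟩
      refine ⟨?_, ?_⟩
      · change (Ideal.Quotient.mk (Ideal.span {x})) (x * c) = 0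
        rw [Ideal.Quotient.eq_zero_iff_mem]
        exact Ideal.mul_mem_right _ _ (Ideal.mem_span_singleton_self x)
      · change x * c ∈ maximalIdeal A ^ (n + 1)
        rw [pow_succ']
        exact Ideal.mul_mem_mul hx hc
  rw [h3, h4, ← h2] at h1
  rw [h1]
  congr 1
  have h5 : (⊤ : Submodule A A).map f = ⊤ := by
    rw [Submodule.map_top, LinearMap.range_eq_top]
    exact Ideal.Quotient.mk_surjective
  have h6 : Submodule.map f (maximalIdeal A ^ (n + 1) : Ideal A) =
      (maximalIdeal (A ⧸ Ideal.span {x}) ^ (n + 1) :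
        Ideal (A ⧸ Ideal.span {x})).restrictScalars A := by
    rw [← hmap, ← Ideal.map_pow]
    ext v
    constructor
    · rintro ⟨c, hc, rfl⟩
      exact Ideal.mem_map_of_mem _ hc
    · intro hv
      obtain ⟨c, hc, rfl⟩ := (Ideal.mem_map_iff_of_surjective (algebraMap A _)
        Ideal.Quotient.mk_surjective).1 hv
      exact ⟨c, hc, rfl⟩
  rw [h5, h6]
  exact rl_restrictScalars Ideal.Quotient.mk_surjective _

theorem mk_lamR (d : ℕ) : ∀ (A : Type u) [CommRing A] [IsRegularLocalRing A],
    ringKrullDim A = d → (1 - X) ^ (d + 1) * PowerSeries.mk (lamR A) = (X : ℤ⟦X⟧) := by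
  induction d with
  | zero =>
    intro A _ _ hd
    have hbot : maximalIdeal A = ⊥ := by
      obtain ⟨rs, hrs, hlen⟩ := exists_list_maximalIdeal A
      rw [hd] at hlen
      have : rs.length = 0 := by exact_mod_cast hlen
      rw [List.length_eq_zero_iff] at this
      rw [← hrs, this]
      simp [Ideal.ofList]
    have h0 : lamR A 0 = 0 := by
      unfold lamR
      exact lamF_zero (by simp)
    have h1 : ∀ n, lamR A (n + 1) = 1 := by
      intro n
      have h2 : rl ⊤ (maximalIdeal A ^ (n + 1) : Ideal A) = 1 := by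
        rw [hbot, Ideal.bot_pow (by omega), rl_top_eq]
        have e : (A ⧸ (⊥ : Ideal A)) ≃ₗ[A] (A ⧸ maximalIdeal A) :=
          Submodule.quotEquivOfEq _ _ hbot.symm
        have hs : IsSimpleModule A (A ⧸ maximalIdeal A) :=
          isSimpleModule_iff_isCoatom.2 (Ideal.IsMaximal.out (I := maximalIdeal A))
        exact e.length_eq.trans (Module.length_eq_one _ _)
      change ((rl ⊤ (maximalIdeal A ^ (n + 1) : Ideal A)).toNat : ℤ) = 1
      rw [h2]
      rfl
    rw [zero_add, pow_one, one_sub_X_mul_mk]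
    ext n
    rw [coeff_mk, coeff_X]
    match n with
    | 0 => exact h0
    | 1 =>
      change lamR A (0 + 1) - lamR A 0 = _
      rw [h0, h1]
      simp
    | n + 2 =>
      change lamR A (n + 1 + 1) - lamR A (n + 1) = _
      rw [h1, h1]
      simp
  | succ d ih =>
    intro A _ _ hd
    obtain ⟨x, hx, hx2⟩ := exists_notMem_sq hd
    obtain ⟨hreg, hdim⟩ := regular_quotient A x hx hx2
    have hdim' : ringKrullDim (A ⧸ Ideal.span {x}) = d := by
      obtain ⟨e, he⟩ := exists_nat_eq_ringKrullDim (A ⧸ Ideal.span {x})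
      rw [hd, he] at hdim
      have h1 : e + 1 = d + 1 := by exact_mod_cast hdim
      rw [he]
      have h2 : e = d := by omega
      rw [h2]
    have h1 : dif (lamR A) = lamR (A ⧸ Ideal.span {x}) := by
      funext n
      cases n with
      | zero =>
        change lamR A 0 = _
        unfold lamR
        rw [lamF_zero (by simp), lamF_zero (by simp)]
      | succ n =>
        change lamR A (n + 1) - lamR A n = _
        unfold lamR lamF
        rw [lamR_succ hx hx2 n, ENat.toNat_add (rl_self_ne_top n) (rl_self_ne_top (n + 1))]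
        push_cast
        ring
    rw [pow_succ, mul_assoc, one_sub_X_mul_mk, h1]
    exact ih (A ⧸ Ideal.span {x}) hdim'

end regular

end Vale.Agent.P177
end
end

section

section

/-!
Stabilization of the homology of the filtered pieces.
-/

namespace Vale.Agent.P177

open Function IsLocalRing

universe u

section stab

variable {A : Type u} [CommRing A] {I : Ideal A} {M : Type u} [AddCommGroup M] [Module A M]
  {F : ℕ → Submodule A M} {r : ℕ} (X : FRes I F r) {N : Type u} [AddCommGroup N] [Module A N]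
  (G : ℕ → Submodule A N)

/-- Cycles of filtration level `n`. -/
def FRes.ZK (n i : ℕ) : Submodule A (Fin (X.b i) → N) := X.Z N i ⊓ wfil G (X.a i) n

/-- Boundaries of filtration level `n`. -/
def FRes.BK (n i : ℕ) : Submodule A (Fin (X.b i) → N) :=
  (wfil G (X.a (i + 1)) n).map (act N (X.δ i))

variable {G}

theorem FRes.exists_stable [IsNoetherianRing A] [Module.Finite A N] (hG : GoodFil I G) (i : ℕ) :
    ∃ c, ∀ n, c ≤ n → ∀ m, X.ZK G (n + m) i = I ^ m • X.ZK G n i := by
  have h1 := (hG.weighted (X.a i)).comap_subtype (X.Z N i)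
  obtain ⟨c, hc⟩ := h1.stable
  have h2 : ∀ n, (((wfil G (X.a i) n).comap (X.Z N i).subtype).map (X.Z N i).subtype) =
      X.ZK G n i := fun n => Submodule.map_comap_subtype _ _
  have h3 : ∀ n, c ≤ n → X.ZK G (n + 1) i = I • X.ZK G n i := by
    intro n hn
    rw [← h2, ← h2, ← hc n hn, Submodule.map_smul'']
  refine ⟨c, fun n hn m => ?_⟩
  induction m with
  | zero => simp
  | succ m ih => rw [← add_assoc, h3 _ (by omega), ih, pow_succ', mul_smul]

theorem FRes.surj_stab [IsNoetherianRing A] [Module.Finite A N] (hG : GoodFil I G) {x : A}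
    {n₀ : ℕ} {I₁ J₁ : Ideal A} (hI : ∀ c ∈ I₁, ∀ v : M, c • v = 0)
    (hJ : ∀ c ∈ J₁, ∀ v : N, c • v = 0)
    (hC : I ^ (n₀ + 1) ≤ (I₁ ⊓ I ^ (n₀ + 1)) ⊔ (J₁ ⊓ I ^ (n₀ + 1)) ⊔
      Ideal.span {x} * I ^ n₀) (i : ℕ) :
    ∃ k₀, ∀ k, k₀ ≤ k → ∀ z ∈ X.ZK G (k + 1) i, ∃ w ∈ X.ZK G k i, z - x • w ∈
      X.BK G (k + 1) i := by
  obtain ⟨c, hc⟩ := X.exists_stable (N := N) hG i
  refine ⟨c + n₀, fun k hk z hz => ?_⟩
  obtain ⟨m, rfl⟩ : ∃ m, k = m + n₀ := ⟨k - n₀, by omega⟩
  rw [add_assoc, hc m (by omega)] at hz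
  refine Submodule.smul_induction_on hz ?_ ?_
  · intro e he w hw
    obtain ⟨ab, hab, y, hy, rfl⟩ := Submodule.mem_sup.1 (hC he)
    obtain ⟨a, ha, b, hb, rfl⟩ := Submodule.mem_sup.1 hab
    obtain ⟨y, hy', rfl⟩ := Ideal.mem_span_singleton_mul.1 hy
    refine ⟨y • w, ?_, ?_⟩
    · rw [hc m (by omega)]
      exact Submodule.smul_mem_smul hy' hw
    · have hbw : b • w = 0 := by
        funext k
        exact hJ b hb.1 _
      have h1 : (a + b + x * y) • w - x • y • w = a • w := by
        rw [add_smul, add_smul, hbw, mul_smul, add_zero, add_sub_cancel_right]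
      rw [h1]
      obtain ⟨s, hs, -, hs2⟩ := X.homotopy N ha.2 (hI a ha.1) i
      rw [hs2 w hw.1]
      exact ⟨_, act_mem hG hs hw.2, rfl⟩
  · rintro z₁ z₂ ⟨w₁, hw₁, h₁⟩ ⟨w₂, hw₂, h₂⟩
    refine ⟨w₁ + w₂, add_mem hw₁ hw₂, ?_⟩
    have : z₁ + z₂ - x • (w₁ + w₂) = (z₁ - x • w₁) + (z₂ - x • w₂) := by
      rw [smul_add]
      abel
    rw [this]
    exact add_mem h₁ h₂

theorem eventually_const (f : ℕ → ℕ) (k₀ : ℕ) (h : ∀ k, k₀ ≤ k → f (k + 1) ≤ f k) :
    ∃ k₁, k₀ ≤ k₁ ∧ ∀ k, k₁ ≤ k → f (k + 1) = f k := by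
  have hanti : ∀ k m, k₀ ≤ k → f (k + m) ≤ f k := by
    intro k m hk
    induction m with
    | zero => exact le_rfl
    | succ m ih => exact (h (k + m) (Nat.le_add_right_of_le hk)).trans ih
  obtain ⟨m, ⟨k₁, hk₁, rfl⟩, hmin⟩ :
      ∃ m, (∃ k, k₀ ≤ k ∧ f k = m) ∧ ∀ m', (∃ k, k₀ ≤ k ∧ f k = m') → m ≤ m' := by
    classical
    have hex : ∃ m, ∃ k, k₀ ≤ k ∧ f k = m := ⟨_, k₀, le_rfl, rfl⟩
    exact ⟨Nat.find hex, Nat.find_spec hex, fun m' hm' => Nat.find_min' hex hm'⟩
  refine ⟨k₁, hk₁, fun k hk => le_antisymm (h k (by omega)) ?_⟩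
  have h1 := hmin _ ⟨k + 1, by omega, rfl⟩
  obtain ⟨m, rfl⟩ : ∃ m, k = k₁ + m := ⟨k - k₁, by omega⟩
  exact (hanti k₁ m hk₁).trans h1

theorem FRes.inj_stab (hG : GoodFil I G) {x : A} (hx : x ∈ I) {i k₀ : ℕ}
    (hfin : ∀ n, rl (X.ZK G n i) (X.BK G n i) ≠ ⊤)
    (hsurj : ∀ k, k₀ ≤ k → ∀ z ∈ X.ZK G (k + 1) i, ∃ w ∈ X.ZK G k i, z - x • w ∈
      X.BK G (k + 1) i) :
    ∃ k₁, k₀ ≤ k₁ ∧ ∀ k, k₁ ≤ k → ∀ w ∈ X.ZK G k i, x • w ∈ X.BK G (k + 1) i →
      w ∈ X.BK G k i := by
  have hxK : ∀ (k : ℕ) (j : ℕ), ∀ w ∈ wfil G (X.a j) k, x • w ∈ wfil G (X.a j) (k + 1) :=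
    fun k j w hw => (hG.weighted (X.a j)).smul _ (Submodule.smul_mem_smul hx hw)
  have hxZ : ∀ k, ∀ w ∈ X.ZK G k i, x • w ∈ X.ZK G (k + 1) i := fun k w hw =>
    ⟨Submodule.smul_mem _ _ hw.1, hxK k i w hw.2⟩
  have hxB : ∀ k, ∀ w ∈ X.BK G k i, x • w ∈ X.BK G (k + 1) i := by
    rintro k _ ⟨v, hv, rfl⟩
    exact ⟨x • v, hxK k _ v hv, map_smul _ _ _⟩
  let μ : ∀ k, X.ZK G k i →ₗ[A] X.ZK G (k + 1) i := fun k =>
    (LinearMap.lsmul A _ x).restrict (hxZ k)
  let φ : ∀ k, (X.ZK G k i ⧸ (X.BK G k i).submoduleOf (X.ZK G k i)) →ₗ[A]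
      (X.ZK G (k + 1) i ⧸ (X.BK G (k + 1) i).submoduleOf (X.ZK G (k + 1) i)) := fun k =>
    Submodule.mapQ _ _ (μ k) (fun v hv => hxB k v.1 hv)
  have hφ : ∀ k, k₀ ≤ k → Surjective (φ k) := by
    intro k hk v
    obtain ⟨⟨v, hv⟩, rfl⟩ := Submodule.mkQ_surjective _ v
    obtain ⟨w, hw, hvw⟩ := hsurj k hk v hv
    refine ⟨Submodule.Quotient.mk ⟨w, hw⟩, ?_⟩
    change (Submodule.Quotient.mk (μ k ⟨w, hw⟩) : _ ⧸ _) = Submodule.Quotient.mk _
    rw [eq_comm, Submodule.Quotient.eq]
    exact hvw
  obtain ⟨k₁, hk₁, hconst⟩ := eventually_const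
    (fun k => (rl (X.ZK G k i) (X.BK G k i)).toNat) k₀ (fun k hk =>
      ENat.toNat_le_toNat (Module.length_le_of_surjective (φ k) (hφ k hk)) (hfin k))
  refine ⟨k₁, hk₁, fun k hk w hw hxw => ?_⟩
  have h1 := Module.length_eq_add_of_exact (LinearMap.ker (φ k)).subtype (φ k)
    (Submodule.injective_subtype _) (hφ k (by omega)) (LinearMap.exact_subtype_ker_map _)
  have h2 : rl (X.ZK G k i) (X.BK G k i) = rl (X.ZK G (k + 1) i) (X.BK G (k + 1) i) := by
    have := hconst k hk
    rw [← ENat.natCast_toNat (hfin k), ← ENat.natCast_toNat (hfin (k + 1))]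
    exact_mod_cast this.symm
  have h3 : Module.length A (LinearMap.ker (φ k)) = 0 := by
    change rl (X.ZK G k i) (X.BK G k i) = _ + rl (X.ZK G (k + 1) i) (X.BK G (k + 1) i) at h1
    rw [h2] at h1
    have h4 : (0 : ℕ∞) + rl (X.ZK G (k + 1) i) (X.BK G (k + 1) i) =
        Module.length A (LinearMap.ker (φ k)) + rl (X.ZK G (k + 1) i) (X.BK G (k + 1) i) := by
      rw [zero_add]
      exact h1
    exact (WithTop.add_right_cancel (hfin (k + 1)) h4).symm
  rw [Module.length_eq_zero_iff] at h3
  have h5 : (⟨Submodule.Quotient.mk ⟨w, hw⟩, by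
      rw [LinearMap.mem_ker]
      exact (Submodule.Quotient.mk_eq_zero _).2 hxw⟩ : LinearMap.ker (φ k)) = 0 :=
    Subsingleton.elim _ _
  have h6 : (Submodule.Quotient.mk ⟨w, hw⟩ :
      X.ZK G k i ⧸ (X.BK G k i).submoduleOf (X.ZK G k i)) = 0 := congrArg Subtype.val h5
  exact (Submodule.Quotient.mk_eq_zero ((X.BK G k i).submoduleOf (X.ZK G k i))).1 h6

/-- The stabilization statement for one homological degree. -/
def FRes.Stab (G : ℕ → Submodule A N) (x : A) (i k : ℕ) : Prop :=
  (∀ z ∈ X.ZK G (k + 1) i, ∃ w ∈ X.ZK G k i, z - x • w ∈ X.BK G (k + 1) i) ∧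
  ∀ w ∈ X.ZK G k i, x • w ∈ X.BK G (k + 1) i → w ∈ X.BK G k i

theorem FRes.exists_stab [IsNoetherianRing A] [Module.Finite A N] (hG : GoodFil I G) {x : A}
    (hx : x ∈ I) {n₀ : ℕ} {I₁ J₁ : Ideal A} (hI : ∀ c ∈ I₁, ∀ v : M, c • v = 0)
    (hJ : ∀ c ∈ J₁, ∀ v : N, c • v = 0)
    (hC : I ^ (n₀ + 1) ≤ (I₁ ⊓ I ^ (n₀ + 1)) ⊔ (J₁ ⊓ I ^ (n₀ + 1)) ⊔
      Ideal.span {x} * I ^ n₀)
    (hfin : ∀ i n, rl (X.ZK G n i) (X.BK G n i) ≠ ⊤) (t : ℕ) :
    ∃ k₁, ∀ i, i < t → ∀ k, k₁ ≤ k → X.Stab G x i k := by
  have h1 : ∀ i, ∃ k₁, ∀ k, k₁ ≤ k → X.Stab G x i k := by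
    intro i
    obtain ⟨k₀, hk₀⟩ := X.surj_stab hG hI hJ hC i
    obtain ⟨k₁, hk₁, h⟩ := X.inj_stab hG hx (hfin i) hk₀
    exact ⟨k₁, fun k hk => ⟨hk₀ k (by omega), h k hk⟩⟩
  choose k₁ hk₁ using h1
  refine ⟨∑ i ∈ Finset.range t, k₁ i, fun i hi k hk => hk₁ i k (le_trans ?_ hk)⟩
  exact Finset.single_le_sum (f := k₁) (fun _ _ => Nat.zero_le _) (Finset.mem_range.2 hi)

end stab

end Vale.Agent.P177
end
end

section

section

/-!
The chart as a strict transform, and strict transforms of modules.
-/

namespace Vale.Agent.P177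

open IsLocalRing Function TensorProduct

universe u

section inv

variable {A : Type u} [CommRing A] {d : ℕ} (x c : Fin d → A)

/-- The chart maps to the localization at the equation of the exceptional divisor. -/
theorem exists_chart_away (L : Type*) [CommRing L] [Algebra A L]
    (hL : IsUnit (algebraMap A L (x0 x c))) :
    ∃ f : Chart x c →+* L, ∀ a, f (algebraMap A _ a) = algebraMap A L a := by
  obtain ⟨u, hu⟩ := hL
  have hu1 : algebraMap A L (x0 x c) * (u⁻¹ : Lˣ) = 1 := by rw [← hu, Units.mul_inv]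
  refine ⟨cLift x c (algebraMap A L) (algebraMap A L (x0 x c))
    (fun i => algebraMap A L (x i) * (u⁻¹ : Lˣ)) ?_ ?_, fun a => cLift_algebraMap _ _ _ _ _ a⟩
  · intro i
    rw [mul_left_comm, hu1, mul_one]
  · rw [← hu1]
    unfold x0
    rw [map_sum, Finset.sum_mul]
    refine Finset.sum_congr rfl fun i _ => ?_
    rw [map_mul]
    ring

variable {x c}

open LaurentPolynomial in
theorem laurent_C_injective {R : Type*} [CommRing R] :
    Injective (C : R →+* LaurentPolynomial R) := by
  intro a b h
  have h1 := congrArg (fun p : LaurentPolynomial R => p.coeff 0) h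
  simpa using h1

end inv

section reg

variable {A : Type u} [CommRing A] [IsRegularLocalRing A] {d : ℕ} (hd : ringKrullDim A = d)
  {x : Fin d → A} (hx : Ideal.span (Set.range x) = maximalIdeal A) (c : Fin d → A)

include hd hx in
open LaurentPolynomial in
theorem chart_x0_regular (v : Chart x c) (hv : algebraMap A (Chart x c) (x0 x c) * v = 0) :
    v = 0 := by
  let _ := (chartPhi x c).toAlgebra
  have hloc : IsLocalization.Away (eXi x c) (LaurentPolynomial (Chart x c)) :=
    chart_isLocalization x c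
  obtain ⟨⟨F, ⟨_, n, rfl⟩⟩, hF⟩ := IsLocalization.surj (Submonoid.powers (eXi x c))
    (C v : LaurentPolynomial (Chart x c))
  change C v * chartPhi x c (eXi x c ^ n) = chartPhi x c F at hF
  have hTn : chartPhi x c (eXi x c ^ n) = T n := by
    rw [map_pow, chartPhi_eXi, T_pow]
    simp
  have h1 : chartPhi x c (eT x * F) = 0 := by
    rw [map_mul, ← hF, chartPhi_eT, mul_mul_mul_comm, ← map_mul, hv, map_zero, zero_mul]
  have h2 : algebraMap (ERees x) (LaurentPolynomial (Chart x c)) (eT x * F) =
      algebraMap (ERees x) (LaurentPolynomial (Chart x c)) 0 := by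
    rw [map_zero]
    exact h1
  obtain ⟨⟨_, m, rfl⟩, hm⟩ := IsLocalization.exists_of_eq (M := Submonoid.powers (eXi x c)) h2
  have h3 : eT x * (eXi x c ^ m * F) = 0 := by
    have : eXi x c ^ m * (eT x * F) = 0 := by rw [hm, mul_zero]
    rw [← this]
    ring
  have h4 := eT_regular hd hx _ h3
  have h5 : T m * (C v * T n) = (0 : LaurentPolynomial (Chart x c)) := by
    rw [← hTn, hF]
    have h6 := congrArg (chartPhi x c) h4
    rw [map_mul, map_pow, chartPhi_eXi, T_pow, map_zero] at h6
    simpa using h6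
  have h6 : C v * T n = (0 : LaurentPolynomial (Chart x c)) :=
    (isUnit_T _).mul_right_eq_zero.1 h5
  have h7 : (C v : LaurentPolynomial (Chart x c)) = 0 := (isUnit_T _).mul_left_eq_zero.1 h6
  apply laurent_C_injective
  rw [h7, map_zero]

include hx in
theorem chart_div (n : ℕ) (a : A) (ha : a ∈ maximalIdeal A ^ n) :
    ∃ v : Chart x c, (algebraMap A (Chart x c) (x0 x c)) ^ n * v = algebraMap A _ a := by
  rw [← hx, Ideal.mem_span_pow_iff_exists_isHomogeneous] at ha
  obtain ⟨F, hF, rfl⟩ := ha
  refine ⟨cMk x c (MvPolynomial.aeval (eY x) F), ?_⟩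
  rw [← mk_eT, ← map_pow, ← map_mul, ← algebraMap_eval_of_isHomogeneous F n hF]
  rfl

include hx in
theorem x0_mem : x0 x c ∈ maximalIdeal A := by
  unfold x0
  refine Ideal.sum_mem _ fun i _ => Ideal.mul_mem_left _ _ ?_
  rw [← hx]
  exact Ideal.subset_span ⟨i, rfl⟩

include hx in
theorem chart_surj (v : Chart x c) : ∃ n, ∃ a ∈ maximalIdeal A ^ n,
    (algebraMap A (Chart x c) (x0 x c)) ^ n * v = algebraMap A _ a := by
  have hx0 := x0_mem hx c
  refine chart_induction (p := fun v => ∃ n, ∃ a ∈ maximalIdeal A ^ n,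
    (algebraMap A (Chart x c) (x0 x c)) ^ n * v = algebraMap A _ a) ?_ ?_ ?_ ?_ v
  · intro a
    exact ⟨0, a, by simp, by simp⟩
  · intro i
    refine ⟨1, x i, ?_, ?_⟩
    · rw [pow_one, ← hx]
      exact Ideal.subset_span ⟨i, rfl⟩
    · rw [pow_one, algebraMap_chart]
  · rintro v w ⟨n, a, ha, hv⟩ ⟨m, b, hb, hw⟩
    refine ⟨n + m, x0 x c ^ m * a + x0 x c ^ n * b, ?_, ?_⟩
    · refine add_mem ?_ ?_
      · rw [pow_add, mul_comm (maximalIdeal A ^ n)]
        exact Ideal.mul_mem_mul (Ideal.pow_mem_pow hx0 m) ha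
      · rw [pow_add]
        exact Ideal.mul_mem_mul (Ideal.pow_mem_pow hx0 n) hb
    · rw [map_add, map_mul, map_mul, ← hv, ← hw, map_pow, map_pow]
      ring
  · rintro v w ⟨n, a, ha, hv⟩ ⟨m, b, hb, hw⟩
    refine ⟨n + m, a * b, ?_, ?_⟩
    · rw [pow_add]
      exact Ideal.mul_mem_mul ha hb
    · rw [map_mul, ← hv, ← hw]
      ring

include hd hx in
/-- The chart is the strict transform of the ring. -/
theorem chart_isStrict : IsStrict (x0 x c) (fun k => (maximalIdeal A ^ k : Ideal A))
    (Algebra.linearMap A (Chart x c)) where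
  reg v hv := by
    rw [Algebra.smul_def] at hv
    exact chart_x0_regular hd hx c v hv
  div n a ha := by
    obtain ⟨v, hv⟩ := chart_div hx c n a ha
    refine ⟨v, ?_⟩
    rw [Algebra.smul_def, map_pow, hv]
    rfl
  surj v := by
    obtain ⟨n, a, ha, hv⟩ := chart_surj hx c v
    refine ⟨n, a, ha, ?_⟩
    rw [Algebra.smul_def, map_pow, hv]
    rfl
  ker a ha := by
    obtain ⟨f, hf⟩ := exists_chart_away x c (Localization.Away (x0 x c))
      (IsLocalization.Away.algebraMap_isUnit (x0 x c))
    have h1 : algebraMap A (Localization.Away (x0 x c)) a = 0 := by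
      rw [← hf]
      change f (Algebra.linearMap A (Chart x c) a) = 0
      rw [ha, map_zero]
    obtain ⟨⟨_, n, rfl⟩, hn⟩ := (IsLocalization.map_eq_zero_iff (Submonoid.powers (x0 x c))
      (Localization.Away (x0 x c)) a).1 h1
    exact ⟨n, hn⟩

end reg

end Vale.Agent.P177
end
end

section

section

/-!
Localizations of the chart and of the extended Rees algebra.
-/

namespace Vale.Agent.P177

open IsLocalRing Function TensorProduct

universe u

section laurent

open LaurentPolynomial

variable {S : Type u} [CommRing S] (P : Ideal S)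

/-- Extension of an ideal to Laurent polynomials. -/
noncomputable def lExt : Ideal (LaurentPolynomial S) := P.map (C : S →+* LaurentPolynomial S)

theorem lExt_eq : lExt P = (P.map (Polynomial.C : S →+* Polynomial S)).map
    (algebraMap (Polynomial S) (LaurentPolynomial S)) := by
  rw [Ideal.map_map]
  unfold lExt
  congr 1
  ext a : 1
  rw [RingHom.comp_apply, LaurentPolynomial.algebraMap_eq_toLaurent, Polynomial.toLaurent_C]

instance lExt_isPrime [P.IsPrime] : (lExt P).IsPrime := by
  rw [lExt_eq]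
  refine IsLocalization.isPrime_of_isPrime_disjoint
    (Submonoid.powers (Polynomial.X : Polynomial S)) _ _ inferInstance ?_
  rw [Set.disjoint_left]
  rintro _ ⟨n, rfl⟩ h
  have h1 := Ideal.mem_map_C_iff.1 h n
  simp only [Polynomial.coeff_X_pow_self] at h1
  exact (Ideal.IsPrime.ne_top ‹P.IsPrime›) ((Ideal.eq_top_iff_one P).2 h1)

theorem lExt_comap [P.IsMaximal] : P = (lExt P).comap (C : S →+* LaurentPolynomial S) := by
  refine Ideal.IsMaximal.eq_of_le ‹_› ?_ Ideal.le_comap_map
  have h1 : P.IsPrime := Ideal.IsMaximal.isPrime ‹_›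
  exact (Ideal.comap_isPrime (C : S →+* LaurentPolynomial S) (lExt P)).ne_top

theorem coeff_mem_of_sum_mem (a : ℕ → S) (n : ℕ)
    (h : ∑ i ∈ Finset.range n, (C (a i) * T i : LaurentPolynomial S) ∈ lExt P) :
    ∀ i, i < n → a i ∈ P := by
  let u : (LaurentPolynomial (S ⧸ P))ˣ := (isUnit_T 1).unit
  let κ : LaurentPolynomial S →+* LaurentPolynomial (S ⧸ P) :=
    eval₂ ((C : (S ⧸ P) →+* LaurentPolynomial (S ⧸ P)).comp (Ideal.Quotient.mk P)) u
  have hκ : ∀ (r : S) (i : ℕ), κ (C r * T i) = C (Ideal.Quotient.mk P r) * T i := by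
    intro r i
    have h1 := eval₂_C_mul_T_n ((C : (S ⧸ P) →+* LaurentPolynomial (S ⧸ P)).comp
      (Ideal.Quotient.mk P)) u r i
    refine h1.trans ?_
    rw [RingHom.comp_apply]
    congr 1
    change (T 1 : LaurentPolynomial (S ⧸ P)) ^ i = T i
    rw [T_pow]
    simp
  have hle : lExt P ≤ RingHom.ker κ := by
    unfold lExt
    rw [Ideal.map_le_iff_le_comap]
    intro r hr
    have h1 := hκ r 0
    rw [Nat.cast_zero, T_zero, mul_one] at h1
    change κ (C r) = 0
    rw [h1, Ideal.Quotient.eq_zero_iff_mem.2 hr, map_zero, zero_mul]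
  have h1 : κ (∑ i ∈ Finset.range n, (C (a i) * T i : LaurentPolynomial S)) = 0 := hle h
  rw [map_sum, Finset.sum_congr rfl fun i _ => hκ (a i) i] at h1
  have h2 : Polynomial.toLaurent (∑ i ∈ Finset.range n,
      Polynomial.monomial i (Ideal.Quotient.mk P (a i))) = 0 := by
    rw [map_sum, ← h1]
    refine Finset.sum_congr rfl fun i _ => ?_
    rw [← Polynomial.C_mul_X_pow_eq_monomial, Polynomial.toLaurent_C_mul_X_pow]
  rw [Polynomial.toLaurent_eq_zero] at h2
  intro i hi
  have h3 := congrArg (fun p => Polynomial.coeff p i) h2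
  simp only [Polynomial.finsetSum_coeff, Polynomial.coeff_monomial, Polynomial.coeff_zero,
    Finset.sum_ite_eq', Finset.mem_range, hi, if_true] at h3
  exact Ideal.Quotient.eq_zero_iff_mem.1 h3

end laurent

section omega

open LaurentPolynomial

variable {A : Type u} [CommRing A] {d : ℕ} {x : Fin d → A} (c : Fin d → A)

theorem chartPhi_aeval (F : MvPolynomial (Fin d) A) (n : ℕ) (hF : F.IsHomogeneous n) :
    chartPhi x c (MvPolynomial.aeval (eY x) F) = C (MvPolynomial.aeval (cY x c) F) * T n := by
  have h1 : chartPhi x c (MvPolynomial.aeval (eY x) F) =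
      MvPolynomial.aeval (fun i => T 1 * C (cY x c i)) F := by
    have h2 : chartPhi x c (MvPolynomial.aeval (eY x) F) = MvPolynomial.eval₂
        ((chartPhi x c).comp (algebraMap A (ERees x))) (fun i => chartPhi x c (eY x i)) F := by
      rw [MvPolynomial.aeval_def]
      exact MvPolynomial.eval₂_comp_left _ _ _ _
    rw [h2, MvPolynomial.aeval_def]
    congr 1
    · ext a : 1
      rw [RingHom.comp_apply, chartPhi_algebraMap]
      rfl
    · funext i
      rw [chartPhi_eY, mul_comm]
  rw [h1, aeval_mul_of_isHomogeneous _ _ F n hF, T_pow, mul_one, mul_comm]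
  congr 1
  have h3 : (fun i => (C (cY x c i) : LaurentPolynomial (Chart x c))) =
      fun i => algebraMap (Chart x c) (LaurentPolynomial (Chart x c)) (cY x c i) := rfl
  rw [h3]
  exact MvPolynomial.aeval_algebraMap_apply (LaurentPolynomial (Chart x c)) (cY x c) F

variable [IsRegularLocalRing A] (hd : ringKrullDim A = d)
  (hx : Ideal.span (Set.range x) = maximalIdeal A)

include hd in
theorem exists_omega (P : Ideal (Chart x c)) [hP : P.IsMaximal]
    (hmP : ∀ a ∈ maximalIdeal A, algebraMap A (Chart x c) a ∈ P) :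
    ∃ (Ω : Type u) (_ : CommRing Ω) (_ : IsRegularLocalRing Ω)
      (_ : Algebra (Localization.AtPrime P) Ω) (_ : Module.Flat (Localization.AtPrime P) Ω)
      (ρ : ERees x →+* Ω) (q : Ideal (MvPolynomial (Fin d) (ResidueField A))) (_ : q.IsPrime),
      (maximalIdeal (Localization.AtPrime P)).map (algebraMap (Localization.AtPrime P) Ω) =
        maximalIdeal Ω ∧
      ringKrullDim Ω = ((q.height + 1 : ℕ∞) : WithBot ℕ∞) ∧
      (∀ f ∈ q, ∀ n, MvPolynomial.homogeneousComponent n f ∈ q) ∧
      (∃ i, MvPolynomial.X i ∉ q) ∧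
      (∀ a : A, algebraMap (Localization.AtPrime P) Ω
        (algebraMap (Chart x c) _ (algebraMap A _ a)) = ρ (algebraMap A _ a)) ∧
      (∃ u : Ωˣ, algebraMap (Localization.AtPrime P) Ω
        (algebraMap (Chart x c) _ (algebraMap A _ (x0 x c))) = u * ρ (eT x)) ∧
      ρ.Flat ∧ (maximalIdeal Ω).comap ρ = q.comap (eRes hx) := by
  have hPp : P.IsPrime := hP.isPrime
  let Q : Ideal (LaurentPolynomial (Chart x c)) := lExt P
  have hcomap : P = Q.comap (C : Chart x c →+* _) := lExt_comap P
  let Ω := Localization.AtPrime Q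
  let f : Localization.AtPrime P →+* Ω := Localization.localRingHom P Q C hcomap
  let _ : Algebra (Localization.AtPrime P) Ω := f.toAlgebra
  have hf : ∀ s : Chart x c, f (algebraMap _ _ s) = algebraMap _ Ω (C s) := fun s =>
    Localization.localRingHom_to_map P Q C hcomap s
  have htow : IsScalarTower (Chart x c) (Localization.AtPrime P) Ω :=
    IsScalarTower.of_algebraMap_eq fun s => (hf s).symm
  have hflat : Module.Flat (Localization.AtPrime P) Ω :=
    (Module.flat_iff_of_isLocalization (Localization.AtPrime P) P.primeCompl Ω).2 inferInstance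
  -- the extended Rees algebra
  let _ : Algebra (ERees x) (LaurentPolynomial (Chart x c)) := (chartPhi x c).toAlgebra
  have hloc : IsLocalization.Away (eXi x c) (LaurentPolynomial (Chart x c)) :=
    chart_isLocalization x c
  let ρ : ERees x →+* Ω := (algebraMap (LaurentPolynomial (Chart x c)) Ω).comp (chartPhi x c)
  have hρ : algebraMap (ERees x) Ω = ρ := IsScalarTower.algebraMap_eq _ _ _
  let 𝔓 : Ideal (ERees x) := Q.comap (chartPhi x c)
  have h𝔓 : 𝔓.IsPrime := inferInstance
  have hlocP : IsLocalization.AtPrime Ω 𝔓 :=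
    IsLocalization.isLocalization_isLocalization_atPrime_isLocalization
      (Submonoid.powers (eXi x c)) Ω Q
  have hT𝔓 : eT x ∈ 𝔓 := by
    change chartPhi x c (eT x) ∈ Q
    rw [chartPhi_eT]
    exact Ideal.mul_mem_right _ _ (Ideal.mem_map_of_mem _ (hmP _ (x0_mem hx c)))
  obtain ⟨q, hq, h𝔓q⟩ := exists_comap_eRes hx 𝔓 hT𝔓
  obtain ⟨hreg, hht, -⟩ := eRees_regular_aux hd hx q
  have hregΩ : IsRegularLocalRing Ω := by
    have : IsRegularLocalRing (Localization.AtPrime 𝔓) := by
      have : ∀ (J : Ideal (ERees x)) [J.IsPrime], J = q.comap (eRes hx) →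
          IsRegularLocalRing (Localization.AtPrime J) := by
        rintro J hJ rfl
        exact hreg
      exact this 𝔓 h𝔓q
    let e : Localization.AtPrime 𝔓 ≃+* Ω :=
      (IsLocalization.algEquiv 𝔓.primeCompl (Localization.AtPrime 𝔓) Ω).toRingEquiv
    exact IsRegularLocalRing.of_ringEquiv (R := Localization.AtPrime 𝔓) (R' := Ω) e
  have hmem : ∀ F : ERees x, F ∈ 𝔓 ↔ eRes hx F ∈ q := fun F => by rw [h𝔓q]; rfl
  have hξ : eXi x c ∉ 𝔓 := by
    intro h
    have h1 : chartPhi x c (eXi x c) ∈ Q := h
    rw [chartPhi_eXi] at h1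
    exact (inferInstance : Q.IsPrime).ne_top (Ideal.eq_top_of_isUnit_mem _ h1 (isUnit_T 1))
  refine ⟨Ω, inferInstance, hregΩ, inferInstance, hflat, ρ, q, hq, ?_, ?_, ?_, ?_, ?_, ?_, ?_, ?_⟩
  · rw [← Localization.AtPrime.map_eq_maximalIdeal, Ideal.map_map,
      ← Localization.AtPrime.map_eq_maximalIdeal]
    change _ = (lExt P).map _
    unfold lExt
    rw [Ideal.map_map]
    congr 1
    ext s : 1
    exact hf s
  · rw [← hht, ← h𝔓q]
    exact IsLocalization.AtPrime.ringKrullDim_eq_height 𝔓 Ω
  · intro g hg n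
    obtain ⟨G, hG⟩ := MvPolynomial.map_surjective (residue A) residue_surjective g
    have h1 : MvPolynomial.aeval (eY x) G ∈ 𝔓 := by
      rw [hmem, eRes_aeval, hG]
      exact hg
    have h2 : ∑ i ∈ Finset.range (G.totalDegree + 1), (C (MvPolynomial.aeval (cY x c)
        (MvPolynomial.homogeneousComponent i G)) * T i : LaurentPolynomial (Chart x c)) ∈ Q := by
      have h3 : ∑ i ∈ Finset.range (G.totalDegree + 1), (C (MvPolynomial.aeval (cY x c)
          (MvPolynomial.homogeneousComponent i G)) * T i : LaurentPolynomial (Chart x c)) =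
          chartPhi x c (MvPolynomial.aeval (eY x) G) := by
        conv_rhs => rw [← MvPolynomial.sum_homogeneousComponent G]
        rw [map_sum, map_sum]
        refine Finset.sum_congr rfl fun i _ => ?_
        rw [chartPhi_aeval c _ i (MvPolynomial.homogeneousComponent_isHomogeneous i G)]
      rw [h3]
      exact h1
    have h3 := coeff_mem_of_sum_mem P _ _ h2
    have h4 : MvPolynomial.homogeneousComponent n g =
        (MvPolynomial.homogeneousComponent n G).map (residue A) := by
      rw [← hG]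
      ext m
      rw [MvPolynomial.coeff_map, MvPolynomial.coeff_homogeneousComponent,
        MvPolynomial.coeff_homogeneousComponent]
      split_ifs
      · rw [MvPolynomial.coeff_map]
      · rw [map_zero]
    rw [h4, ← eRes_aeval hx, ← hmem]
    change chartPhi x c _ ∈ Q
    rw [chartPhi_aeval c _ n (MvPolynomial.homogeneousComponent_isHomogeneous n G)]
    refine Ideal.mul_mem_right _ _ (Ideal.mem_map_of_mem _ ?_)
    by_cases hn : n < G.totalDegree + 1
    · exact h3 n hn
    · rw [MvPolynomial.homogeneousComponent_eq_zero n G (by omega), map_zero]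
      exact zero_mem _
  · by_contra hcon
    push Not at hcon
    apply hξ
    rw [hmem]
    unfold eXi
    rw [map_sum]
    refine Ideal.sum_mem _ fun i _ => ?_
    rw [map_mul, eRes_eY]
    exact Ideal.mul_mem_left _ _ (hcon i)
  · intro a
    change f (algebraMap _ _ (algebraMap A (Chart x c) a)) = ρ (algebraMap A _ a)
    rw [hf, RingHom.comp_apply, chartPhi_algebraMap]
  · have hu : IsUnit (ρ (eXi x c)) := by
      rw [← hρ]
      exact IsLocalization.map_units Ω (⟨eXi x c, hξ⟩ : 𝔓.primeCompl)
    refine ⟨hu.unit, ?_⟩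
    change f (algebraMap _ _ (algebraMap A (Chart x c) (x0 x c))) = ρ (eXi x c) * ρ (eT x)
    rw [← map_mul, mul_comm, ← algebraMap_x0, RingHom.comp_apply, chartPhi_algebraMap, hf]
  · have h1 : Module.Flat (ERees x) (LaurentPolynomial (Chart x c)) :=
      IsLocalization.flat _ (Submonoid.powers (eXi x c))
    have h2 : Module.Flat (ERees x) Ω := Module.Flat.trans _ (LaurentPolynomial (Chart x c)) _
    rw [← hρ]
    exact RingHom.flat_algebraMap_iff.2 h2
  · rw [← h𝔓q]
    change (maximalIdeal Ω).comap ((algebraMap (LaurentPolynomial (Chart x c)) Ω).comp _) = _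
    rw [← Ideal.comap_comap]
    exact congrArg (Ideal.comap (chartPhi x c)) Localization.AtPrime.under_maximalIdeal

end omega

end Vale.Agent.P177
end
end

section

section

/-!
Base change of extended Rees algebras.
-/

namespace Vale.Agent.P177

open IsLocalRing Function TensorProduct

universe u

section gen

/-- A flatness criterion: a pushout of a flat map. -/
theorem flat_of_pushout {R A E' E : Type u} [CommRing R] [CommRing A] [CommRing E']
    [CommRing E] [Algebra R A] [Algebra R E'] [Module.Flat R A] (m : E' →+* E) (a : A →+* E)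
    (h : ∀ r, m (algebraMap R E' r) = a (algebraMap R A r))
    (hpush : ∀ (B : Type u) [CommRing B] (f : E' →+* B) (g : A →+* B),
      (∀ r, f (algebraMap R E' r) = g (algebraMap R A r)) →
      ∃ G : E →+* B, (∀ z, G (m z) = f z) ∧ ∀ z, G (a z) = g z)
    (hgen : ∀ f g : E →+* E, (∀ z, f (m z) = g (m z)) → (∀ z, f (a z) = g (a z)) → f = g) :
    m.Flat := by
  let iL : E' →+* E' ⊗[R] A := Algebra.TensorProduct.includeLeftRingHom
  let iR : A →+* E' ⊗[R] A := (Algebra.TensorProduct.includeRight : A →ₐ[R] E' ⊗[R] A).toRingHom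
  obtain ⟨G, hGm, hGa⟩ := hpush (E' ⊗[R] A) iL iR (fun r => by
    change (algebraMap R E' r) ⊗ₜ[R] (1 : A) = 1 ⊗ₜ[R] (algebraMap R A r)
    rw [Algebra.algebraMap_eq_smul_one, Algebra.algebraMap_eq_smul_one, TensorProduct.smul_tmul])
  let _ : Algebra R E := (m.comp (algebraMap R E')).toAlgebra
  let f : E' →ₐ[R] E := { m with commutes' := fun _ => rfl }
  let g : A →ₐ[R] E := { a with commutes' := fun r => (h r).symm }
  let F : E' ⊗[R] A →+* E := (Algebra.TensorProduct.productMap f g : E' ⊗[R] A →ₐ[R] E)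
  have hF : ∀ z w, F (z ⊗ₜ w) = m z * a w := fun z w =>
    Algebra.TensorProduct.productMap_apply_tmul f g z w
  have hF1 : ∀ z, F (iL z) = m z := fun z => (hF z 1).trans (by rw [map_one, mul_one])
  have hF2 : ∀ z, F (iR z) = a z := fun z => (hF 1 z).trans (by rw [map_one, one_mul])
  have hFG : F.comp G = RingHom.id _ := by
    refine hgen _ _ (fun z => ?_) (fun z => ?_)
    · rw [RingHom.comp_apply, hGm, hF1, RingHom.id_apply]
    · rw [RingHom.comp_apply, hGa, hF2, RingHom.id_apply]
  have hGF : G.comp F = RingHom.id _ := by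
    refine RingHom.ext fun z => ?_
    rw [RingHom.comp_apply, RingHom.id_apply]
    induction z with
    | zero => rw [map_zero, map_zero]
    | add z w hz hw => rw [map_add, map_add, hz, hw]
    | tmul z w =>
      rw [hF, map_mul, hGm, hGa]
      change (z ⊗ₜ[R] (1 : A)) * ((1 : E') ⊗ₜ[R] w) = _
      rw [Algebra.TensorProduct.tmul_mul_tmul, mul_one, one_mul]
  let e : E' ⊗[R] A ≃+* E := RingEquiv.ofRingHom F G hFG hGF
  have he : (e : E' ⊗[R] A →+* E).comp (algebraMap E' (E' ⊗[R] A)) = m := by
    ext z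
    exact hF1 z
  rw [← he]
  exact RingHom.Flat.comp (RingHom.flat_algebraMap_iff.2 inferInstance)
    (RingHom.Flat.of_bijective e.bijective)

end gen

section bc

variable {R A : Type u} [CommRing R] [CommRing A] [Algebra R A] {d : ℕ} {x' : Fin d → R}
  {x : Fin d → A} (θ : Fin d → Fin d → A)
  (hθ : ∀ i, algebraMap R A (x' i) = ∑ l, θ i l * x l)

/-- The map of extended Rees algebras given by a change of parameters. -/
noncomputable def eMap : ERees x' →+* ERees x :=
  eLift x' ((algebraMap A (ERees x)).comp (algebraMap R A)) (eT x)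
    (fun i => ∑ l, algebraMap A (ERees x) (θ i l) * eY x l) (by
    intro i
    rw [RingHom.comp_apply, hθ, map_sum, Finset.mul_sum]
    refine Finset.sum_congr rfl fun l _ => ?_
    rw [map_mul, algebraMap_rees]
    ring)

@[simp]
theorem eMap_algebraMap (r : R) : eMap θ hθ (algebraMap R _ r) =
    algebraMap A (ERees x) (algebraMap R A r) := eLift_algebraMap _ _ _ _ _

@[simp]
theorem eMap_eT : eMap θ hθ (eT x') = eT x := eLift_eT _ _ _ _

@[simp]
theorem eMap_eY (i : Fin d) : eMap θ hθ (eY x' i) = ∑ l, algebraMap A (ERees x) (θ i l) * eY x l :=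
  eLift_eY _ _ _ _ _

theorem sum_ite_mul {B : Type*} [CommRing B] (l : Fin d) (v : Fin d → B) :
    ∑ m, (if l = m then (1 : B) else 0) * v m = v l := by
  simp

theorem eMap_flat [Module.Flat R A] (θ' : Fin d → Fin d → A)
    (hθ' : ∀ l, x l = ∑ i, θ' l i * algebraMap R A (x' i))
    (h1 : ∀ i l, ∑ m, θ i m * θ' m l = if i = l then 1 else 0)
    (h2 : ∀ i l, ∑ m, θ' i m * θ m l = if i = l then 1 else 0) :
    (eMap θ hθ).Flat := by
  have hY : ∀ l, eY x l = ∑ i, algebraMap A (ERees x) (θ' l i) * eMap θ hθ (eY x' i) := by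
    intro l
    have h3 : ∀ i, algebraMap A (ERees x) (θ' l i) * eMap θ hθ (eY x' i) =
        ∑ m, algebraMap A (ERees x) (θ' l i * θ i m) * eY x m := by
      intro i
      rw [eMap_eY, Finset.mul_sum]
      refine Finset.sum_congr rfl fun m _ => ?_
      rw [map_mul]
      ring
    rw [Finset.sum_congr rfl fun i _ => h3 i, Finset.sum_comm]
    have h4 : ∀ m, ∑ i, algebraMap A (ERees x) (θ' l i * θ i m) * eY x m =
        (if l = m then 1 else 0) * eY x m := by
      intro m
      rw [← Finset.sum_mul, ← map_sum, h2]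
      split_ifs
      · rw [map_one]
      · rw [map_zero]
    rw [Finset.sum_congr rfl fun m _ => h4 m, sum_ite_mul]
  refine flat_of_pushout (eMap θ hθ) (algebraMap A (ERees x)) (fun r => eMap_algebraMap θ hθ r)
    ?_ ?_
  · intro B _ iL iR hLR
    let G : ERees x →+* B :=
      eLift x iR (iL (eT x')) (fun l => ∑ i, iR (θ' l i) * iL (eY x' i)) (by
        intro l
        rw [hθ', map_sum, Finset.mul_sum]
        refine Finset.sum_congr rfl fun i _ => ?_
        rw [map_mul, ← hLR, algebraMap_rees, map_mul]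
        ring)
    have hG1 : ∀ a, G (algebraMap A _ a) = iR a := fun a => eLift_algebraMap _ _ _ _ a
    have hG2 : G (eT x) = iL (eT x') := eLift_eT _ _ _ _
    have hG3 : ∀ l, G (eY x l) = ∑ i, iR (θ' l i) * iL (eY x' i) := fun l =>
      eLift_eY _ _ _ _ l
    refine ⟨G, ?_, hG1⟩
    have h3 : G.comp (eMap θ hθ) = iL := by
      refine eRees_hom_ext (fun a => ?_) ?_ (fun l => ?_)
      · rw [RingHom.comp_apply, eMap_algebraMap, hG1, hLR]
      · rw [RingHom.comp_apply, eMap_eT, hG2]
      · rw [RingHom.comp_apply, eMap_eY, map_sum]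
        have h4 : ∀ m, G (algebraMap A (ERees x) (θ l m) * eY x m) =
            ∑ i, iR (θ l m * θ' m i) * iL (eY x' i) := by
          intro m
          rw [map_mul, hG1, hG3, Finset.mul_sum]
          refine Finset.sum_congr rfl fun i _ => ?_
          rw [map_mul]
          ring
        rw [Finset.sum_congr rfl fun m _ => h4 m, Finset.sum_comm]
        have h5 : ∀ i, ∑ m, iR (θ l m * θ' m i) * iL (eY x' i) =
            (if l = i then 1 else 0) * iL (eY x' i) := by
          intro i
          rw [← Finset.sum_mul, ← map_sum, h1]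
          split_ifs
          · rw [map_one]
          · rw [map_zero]
        rw [Finset.sum_congr rfl fun i _ => h5 i, sum_ite_mul]
    exact fun z => RingHom.congr_fun h3 z
  · intro f g hf hg
    refine eRees_hom_ext hg ?_ (fun l => ?_)
    · have := hf (eT x')
      rwa [eMap_eT] at this
    · rw [hY, map_sum, map_sum]
      refine Finset.sum_congr rfl fun i _ => ?_
      rw [map_mul, map_mul, hf, hg]

end bc

section res

variable {R A : Type u} [CommRing R] [CommRing A] [Algebra R A] [IsLocalRing R] [IsLocalRing A]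
  [IsLocalHom (algebraMap R A)] {d : ℕ} {x' : Fin d → R}
  {x : Fin d → A} (θ : Fin d → Fin d → A)
  (hθ : ∀ i, algebraMap R A (x' i) = ∑ l, θ i l * x l)

variable (R) in
/-- The change of coordinates on the associated graded rings. -/
noncomputable def jMap : MvPolynomial (Fin d) (ResidueField R) →+*
    MvPolynomial (Fin d) (ResidueField A) :=
  MvPolynomial.eval₂Hom (MvPolynomial.C.comp (ResidueField.map (algebraMap R A)))
    (fun i => ∑ l, MvPolynomial.C (residue A (θ i l)) * MvPolynomial.X l)

@[simp]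
theorem jMap_C (r : ResidueField R) : jMap R θ (MvPolynomial.C r) =
    MvPolynomial.C (ResidueField.map (algebraMap R A) r) := by
  unfold jMap
  simp

@[simp]
theorem jMap_X (i : Fin d) : jMap R θ (MvPolynomial.X i) =
    ∑ l, MvPolynomial.C (residue A (θ i l)) * MvPolynomial.X l := by
  unfold jMap
  simp

theorem eRes_eMap (hx' : Ideal.span (Set.range x') = maximalIdeal R)
    (hx : Ideal.span (Set.range x) = maximalIdeal A) :
    (eRes hx).comp (eMap θ hθ) = (jMap R θ).comp (eRes hx') := by
  refine eRees_hom_ext (fun a => ?_) ?_ (fun l => ?_)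
  · rw [RingHom.comp_apply, RingHom.comp_apply, eMap_algebraMap, eRes_algebraMap, eRes_algebraMap,
      jMap_C, ResidueField.map_residue]
  · rw [RingHom.comp_apply, RingHom.comp_apply, eMap_eT, eRes_eT, eRes_eT, map_zero]
  · rw [RingHom.comp_apply, RingHom.comp_apply, eMap_eY, eRes_eY, jMap_X, map_sum]
    refine Finset.sum_congr rfl fun i _ => ?_
    rw [map_mul, eRes_algebraMap, eRes_eY]

end res

end Vale.Agent.P177
end
end

section

section

/-!
Homogeneous primes and a generic linear form.
-/

namespace Vale.Agent.P177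

open IsLocalRing Function

universe u

section graded

variable {K : Type u} [Field K] {d : ℕ}

attribute [local instance] MvPolynomial.gradedAlgebra

/-- Stability under taking homogeneous components. -/
def HomId (z : Ideal (MvPolynomial (Fin d) K)) : Prop :=
  ∀ f ∈ z, ∀ n, MvPolynomial.homogeneousComponent n f ∈ z

theorem homId_of_isHomogeneous {z : Ideal (MvPolynomial (Fin d) K)}
    (h : z.IsHomogeneous (MvPolynomial.homogeneousSubmodule (Fin d) K)) : HomId z := by
  intro f hf n
  have h1 := h n hf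
  have h2 := MvPolynomial.decomposition.decompose'_apply f n
  rw [← h2]
  exact h1

theorem minimal_homId {𝔞 z : Ideal (MvPolynomial (Fin d) K)} (s : Set (MvPolynomial (Fin d) K))
    (hs : ∀ f ∈ s, ∃ n : ℕ, f.IsHomogeneous n) (h𝔞 : 𝔞 = Ideal.span s)
    (hz : z ∈ 𝔞.minimalPrimes) : HomId z := by
  have h1 : 𝔞.IsHomogeneous (MvPolynomial.homogeneousSubmodule (Fin d) K) := by
    rw [h𝔞]
    refine Ideal.homogeneous_span _ _ fun f hf => ?_
    obtain ⟨n, hn⟩ := hs f hf
    exact ⟨n, hn⟩
  have hzp : z.IsPrime := hz.1.1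
  have h2 := hzp.homogeneousCore (𝒜 := MvPolynomial.homogeneousSubmodule (Fin d) K)
  have h3 : 𝔞 ≤ (z.homogeneousCore (MvPolynomial.homogeneousSubmodule (Fin d) K)).toIdeal := by
    have h4 := Ideal.homogeneousCore_mono (MvPolynomial.homogeneousSubmodule (Fin d) K) hz.1.2
    have h5 := h1.toIdeal_homogeneousCore_eq_self
    rw [← h5]
    exact h4
  have h4 := hz.2 ⟨h2, h3⟩ (Ideal.toIdeal_homogeneousCore_le _ _)
  apply homId_of_isHomogeneous
  rw [Ideal.IsHomogeneous.iff_eq]
  exact le_antisymm (Ideal.toIdeal_homogeneousCore_le _ _) h4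

/-- A generic linear form avoids finitely many relevant primes. -/
theorem exists_generic [Infinite K] (𝔞 : Ideal (MvPolynomial (Fin d) K)) :
    ∃ c : Fin d → K, ∀ z ∈ 𝔞.minimalPrimes, (∃ i, MvPolynomial.X i ∉ z) →
      ∑ i, MvPolynomial.C (c i) * MvPolynomial.X i ∉ z := by
  classical
  let L : (Fin d → K) →ₗ[K] MvPolynomial (Fin d) K :=
    ∑ i, (LinearMap.toSpanSingleton K _ (MvPolynomial.X i)).comp (LinearMap.proj i)
  have hL : ∀ c, L c = ∑ i, MvPolynomial.C (c i) * MvPolynomial.X i := by
    intro c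
    change (∑ i, (LinearMap.toSpanSingleton K _ (MvPolynomial.X i)).comp (LinearMap.proj i)) c = _
    rw [LinearMap.sum_apply]
    refine Finset.sum_congr rfl fun i _ => ?_
    rw [LinearMap.comp_apply, LinearMap.toSpanSingleton_apply, LinearMap.proj_apply,
      MvPolynomial.smul_eq_C_mul]
  let ι := {z : Ideal (MvPolynomial (Fin d) K) // z ∈ 𝔞.minimalPrimes ∧ ∃ i, MvPolynomial.X i ∉ z}
  have hfin : Finite ι := by
    have h1 := 𝔞.finite_minimalPrimes_of_isNoetherianRing
    exact (h1.subset (fun z hz => hz.1 :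
      {z | z ∈ 𝔞.minimalPrimes ∧ ∃ i, MvPolynomial.X i ∉ z} ⊆ 𝔞.minimalPrimes)).to_subtype
  let p : ι → Subspace K (Fin d → K) := fun z => (z.1.restrictScalars K).comap L
  by_contra hcon
  push Not at hcon
  have hcov : ⋃ i, (p i : Set (Fin d → K)) = Set.univ := by
    rw [Set.eq_univ_iff_forall]
    intro c
    obtain ⟨z, hz, hi, hc⟩ := hcon c
    rw [Set.mem_iUnion]
    refine ⟨⟨z, hz, hi⟩, ?_⟩
    change L c ∈ z
    rw [hL]
    exact hc
  obtain ⟨⟨z, hz, i, hi⟩, htop⟩ := Subspace.exists_eq_top_of_iUnion_eq_univ hcov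
  apply hi
  have h1 : (Pi.single i 1 : Fin d → K) ∈ p ⟨z, hz, i, hi⟩ := by
    rw [htop]
    trivial
  have h2 : L (Pi.single i 1) ∈ z := h1
  rw [hL, Finset.sum_eq_single i] at h2
  · simpa using h2
  · intro j _ hj
    rw [Pi.single_eq_of_ne hj, map_zero, zero_mul]
  · intro h
    exact absurd (Finset.mem_univ i) h

end graded

section tmap

variable {R A : Type u} [CommRing R] [CommRing A] [Algebra R A] {d : ℕ} {x' : Fin d → R}
  {x : Fin d → A} (θ : Fin d → Fin d → A)

variable (R) in
/-- The change of coordinates on polynomial rings. -/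
noncomputable def tMap : MvPolynomial (Fin d) R →+* MvPolynomial (Fin d) A :=
  MvPolynomial.eval₂Hom (MvPolynomial.C.comp (algebraMap R A))
    (fun i => ∑ l, MvPolynomial.C (θ i l) * MvPolynomial.X l)

theorem tMap_isHomogeneous {F : MvPolynomial (Fin d) R} {n : ℕ} (hF : F.IsHomogeneous n) :
    (tMap R θ F).IsHomogeneous n := by
  have h1 := hF.eval₂ (MvPolynomial.C.comp (algebraMap R A))
    (fun i => ∑ l, MvPolynomial.C (θ i l) * MvPolynomial.X l)
    (fun r => MvPolynomial.isHomogeneous_C _ _) (n := 1) (fun i => by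
      refine MvPolynomial.IsHomogeneous.sum _ _ _ fun l _ => ?_
      exact MvPolynomial.IsHomogeneous.C_mul (MvPolynomial.isHomogeneous_X _ _) _)
  rw [one_mul] at h1
  exact h1

theorem eval_tMap (hθ : ∀ i, algebraMap R A (x' i) = ∑ l, θ i l * x l)
    (F : MvPolynomial (Fin d) R) :
    MvPolynomial.eval x (tMap R θ F) = algebraMap R A (MvPolynomial.eval x' F) := by
  have h1 : (MvPolynomial.eval x).comp (tMap R θ) =
      (algebraMap R A).comp (MvPolynomial.eval x') := by
    refine MvPolynomial.ringHom_ext (fun a => ?_) (fun i => ?_)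
    · rw [RingHom.comp_apply, RingHom.comp_apply]
      unfold tMap
      simp
    · rw [RingHom.comp_apply, RingHom.comp_apply, MvPolynomial.eval_X, hθ]
      unfold tMap
      simp
  exact RingHom.congr_fun h1 F

theorem map_tMap [IsLocalRing R] [IsLocalRing A] [IsLocalHom (algebraMap R A)]
    (F : MvPolynomial (Fin d) R) :
    (tMap R θ F).map (residue A) = jMap R θ (F.map (residue R)) := by
  have h1 : (MvPolynomial.map (residue A)).comp (tMap R θ) =
      (jMap R θ).comp (MvPolynomial.map (residue R)) := by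
    refine MvPolynomial.ringHom_ext (fun a => ?_) (fun i => ?_)
    · rw [RingHom.comp_apply, RingHom.comp_apply, MvPolynomial.map_C, jMap_C]
      unfold tMap
      simp
    · rw [RingHom.comp_apply, RingHom.comp_apply, MvPolynomial.map_X, jMap_X]
      unfold tMap
      simp
  exact RingHom.congr_fun h1 F

end tmap

end Vale.Agent.P177
end
end

section

section

/-!
Initial forms and the saturated extension of an ideal.
-/

namespace Vale.Agent.P177

open IsLocalRing Function

universe u

section nf

variable {R : Type u} [CommRing R] {d : ℕ} (x : Fin d → R)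

/-- Normal forms of elements of the extended Rees algebra. -/
theorem exists_normal_form (z : ERees x) : ∃ (F : MvPolynomial (Fin d) R) (g : Polynomial R),
    z = MvPolynomial.aeval (eY x) F + eT x * Polynomial.aeval (eT x) g := by
  have hadd : ∀ z w : ERees x,
      (∃ (F : MvPolynomial (Fin d) R) (g : Polynomial R),
        z = MvPolynomial.aeval (eY x) F + eT x * Polynomial.aeval (eT x) g) →
      (∃ (F : MvPolynomial (Fin d) R) (g : Polynomial R),
        w = MvPolynomial.aeval (eY x) F + eT x * Polynomial.aeval (eT x) g) →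
      ∃ (F : MvPolynomial (Fin d) R) (g : Polynomial R),
        z + w = MvPolynomial.aeval (eY x) F + eT x * Polynomial.aeval (eT x) g := by
    rintro _ _ ⟨F, g, rfl⟩ ⟨F', g', rfl⟩
    exact ⟨F + F', g + g', by rw [map_add, map_add]; ring⟩
  have h1 : ∀ F : MvPolynomial (Fin d) R, ∃ (F' : MvPolynomial (Fin d) R) (g : Polynomial R),
      MvPolynomial.aeval (eY x) F * eT x =
        MvPolynomial.aeval (eY x) F' + eT x * Polynomial.aeval (eT x) g := by
    intro F
    induction F using MvPolynomial.induction_on with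
    | C a =>
      refine ⟨0, Polynomial.C a, ?_⟩
      rw [map_zero, zero_add, MvPolynomial.aeval_C, Polynomial.aeval_C, mul_comm]
    | add F F' hF hF' =>
      rw [map_add, add_mul]
      exact hadd _ _ hF hF'
    | mul_X F i _ =>
      refine ⟨F * MvPolynomial.C (x i), 0, ?_⟩
      rw [map_mul, map_mul, MvPolynomial.aeval_X, MvPolynomial.aeval_C, map_zero, mul_zero,
        add_zero, algebraMap_rees]
      ring
  have h2 : ∀ h : Polynomial R, ∃ (F' : MvPolynomial (Fin d) R) (g : Polynomial R),
      Polynomial.aeval (eT x) h =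
        MvPolynomial.aeval (eY x) F' + eT x * Polynomial.aeval (eT x) g := by
    intro h
    refine ⟨MvPolynomial.C (h.coeff 0), h.divX, ?_⟩
    conv_lhs => rw [← Polynomial.divX_mul_X_add h]
    rw [map_add, map_mul, Polynomial.aeval_X, Polynomial.aeval_C, MvPolynomial.aeval_C]
    ring
  obtain ⟨p, rfl⟩ := Ideal.Quotient.mk_surjective z
  induction p using MvPolynomial.induction_on with
  | C a =>
    refine ⟨MvPolynomial.C a, 0, ?_⟩
    rw [map_zero, mul_zero, add_zero, MvPolynomial.aeval_C]
    rfl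
  | add p p' hp hp' =>
    rw [map_add]
    exact hadd _ _ hp hp'
  | mul_X p o hp =>
    obtain ⟨F, g, hFg⟩ := hp
    rw [map_mul, hFg]
    rcases o with _ | i
    · change ∃ (F' : MvPolynomial (Fin d) R) (g' : Polynomial R), _ * eT x = _
      rw [add_mul]
      refine hadd _ _ (h1 F) ⟨0, g * Polynomial.X, ?_⟩
      rw [map_zero, zero_add, map_mul, Polynomial.aeval_X]
      ring
    · change ∃ (F' : MvPolynomial (Fin d) R) (g' : Polynomial R), _ * eY x i = _
      rw [add_mul]
      refine hadd _ _ ⟨F * MvPolynomial.X i, 0, ?_⟩ ?_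
      · rw [map_zero, mul_zero, add_zero, map_mul, MvPolynomial.aeval_X]
      · obtain ⟨F', g', h⟩ := h2 (Polynomial.C (x i) * g)
        refine ⟨F', g', ?_⟩
        rw [← h, map_mul, Polynomial.aeval_C, algebraMap_rees]
        ring

end nf

section coeff

open LaurentPolynomial

variable {R : Type u} [CommRing R] {d : ℕ} (x : Fin d → R)

theorem coeff_C_mul_T (a : R) (m n : ℤ) : (C a * T m : LaurentPolynomial R).coeff n =
    if m = n then a else 0 := by
  rw [← single_eq_C_mul_T]
  exact Finsupp.single_apply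

theorem ePsi_aeval (F : MvPolynomial (Fin d) R) (n : ℕ) (hF : F.IsHomogeneous n) :
    ePsi x (MvPolynomial.aeval (eY x) F) = C (MvPolynomial.eval x F) * T n := by
  have h1 : ePsi x (MvPolynomial.aeval (eY x) F) =
      MvPolynomial.aeval (fun i => T 1 * C (x i)) F := by
    have h2 : ePsi x (MvPolynomial.aeval (eY x) F) = MvPolynomial.eval₂
        ((ePsi x).comp (algebraMap R (ERees x))) (fun i => ePsi x (eY x i)) F := by
      rw [MvPolynomial.aeval_def]
      exact MvPolynomial.eval₂_comp_left _ _ _ _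
    rw [h2, MvPolynomial.aeval_def]
    congr 1
    · ext a : 1
      rw [RingHom.comp_apply, ePsi_algebraMap]
      rfl
    · funext i
      rw [ePsi_eY, mul_comm]
  rw [h1, aeval_mul_of_isHomogeneous _ _ F n hF, T_pow, mul_one, mul_comm]
  congr 1
  have h3 : (fun i => (C (x i) : LaurentPolynomial R)) =
      fun i => algebraMap R (LaurentPolynomial R) (x i) := rfl
  rw [h3]
  exact MvPolynomial.aeval_algebraMap_apply (LaurentPolynomial R) x F

theorem coeff_ePsi_aeval (F : MvPolynomial (Fin d) R) (n : ℕ) :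
    (ePsi x (MvPolynomial.aeval (eY x) F)).coeff n =
      MvPolynomial.eval x (MvPolynomial.homogeneousComponent n F) := by
  conv_lhs => rw [← MvPolynomial.sum_homogeneousComponent F]
  rw [map_sum, map_sum]
  have h1 : ∀ i, ePsi x (MvPolynomial.aeval (eY x) (MvPolynomial.homogeneousComponent i F)) =
      C (MvPolynomial.eval x (MvPolynomial.homogeneousComponent i F)) * T i := fun i =>
    ePsi_aeval x _ i (MvPolynomial.homogeneousComponent_isHomogeneous i F)
  rw [Finset.sum_congr rfl fun i _ => h1 i, AddMonoidAlgebra.coeff_sum, Finsupp.finsetSum_apply]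
  simp only [coeff_C_mul_T]
  by_cases hn : n < F.totalDegree + 1
  · rw [Finset.sum_eq_single n]
    · simp
    · intro i _ hi
      rw [if_neg (by exact_mod_cast hi)]
    · intro h
      exact absurd (Finset.mem_range.2 hn) h
  · rw [MvPolynomial.homogeneousComponent_eq_zero n F (by omega), map_zero]
    refine Finset.sum_eq_zero fun i hi => ?_
    rw [Finset.mem_range] at hi
    rw [if_neg]
    intro h
    have : i = n := by exact_mod_cast h
    omega

theorem coeff_ePsi_neg (g : Polynomial R) (n : ℕ) :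
    (ePsi x (eT x * Polynomial.aeval (eT x) g)).coeff n = 0 := by
  induction g using Polynomial.induction_on' with
  | add p q hp hq =>
    rw [map_add, mul_add, map_add, AddMonoidAlgebra.coeff_add, Finsupp.add_apply, hp, hq, add_zero]
  | monomial m a =>
    have h1 : ePsi x (eT x * Polynomial.aeval (eT x) (Polynomial.monomial m a)) =
        C a * T (-(m + 1 : ℤ)) := by
      rw [Polynomial.aeval_monomial, map_mul, map_mul, map_pow, ePsi_eT, ePsi_algebraMap, T_pow,
        mul_left_comm, ← T_add]
      congr 2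
      ring
    rw [h1, coeff_C_mul_T, if_neg]
    omega

end coeff

section crit

variable {R : Type u} [CommRing R] [IsLocalRing R] {d : ℕ} {x : Fin d → R} {I : Ideal R}

/-- Criterion for a prime to contain the special fibre of the saturated extension. -/
theorem eStar_le (hx : Ideal.span (Set.range x) = maximalIdeal R)
    (q : Ideal (MvPolynomial (Fin d) (ResidueField R)))
    (hq : ∀ (n : ℕ) (F : MvPolynomial (Fin d) R), F.IsHomogeneous n → MvPolynomial.eval x F ∈ I →
      F.map (residue R) ∈ q) : eStar x I ≤ q.comap (eRes hx) := by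
  intro z hz
  obtain ⟨F, g, rfl⟩ := exists_normal_form x z
  have h1 : ∀ n : ℕ, MvPolynomial.eval x (MvPolynomial.homogeneousComponent n F) ∈ I := by
    intro n
    have h2 := coeff_mem_of_mem_map hz n
    rw [map_add, AddMonoidAlgebra.coeff_add, Finsupp.add_apply, coeff_ePsi_aeval, coeff_ePsi_neg,
      add_zero] at h2
    exact h2
  change eRes hx _ ∈ q
  rw [map_add, map_mul, eRes_eT, zero_mul, add_zero, eRes_aeval]
  rw [← MvPolynomial.sum_homogeneousComponent F, map_sum]
  exact Ideal.sum_mem _ fun n _ => hq n _ (MvPolynomial.homogeneousComponent_isHomogeneous n F)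
    (h1 n)

end crit

end Vale.Agent.P177
end
end
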