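import Vale.Agent.P177.MathlibUsed
import Vale.Agent.P177.Bdl.B1
import Vale.Agent.P177.Bdl.B2

set_option linter.all false

section

section

/-!
The associativity formula for the Koszul Euler characteristic.
-/

namespace Vale.Agent.P177

open CategoryTheory TensorProduct Function IsLocalRing RingTheory.Sequence Pointwise

universe u

section vanish

variable {B : Type u} [CommRing B] [IsLocalRing B] [IsNoetherianRing B]

theorem eul_eq_zero_of_dim_lt (zs : List B) (hzs : ∀ z ∈ zs, z ∈ maximalIdeal B) (X : Type u)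
    [AddCommGroup X] [Module B X] [Module.Finite B X] (hX : FL zs X)
    (hd : Module.supportDim B X < (zs.length : WithBot ℕ∞)) : eul zs X = 0 := by
  induction zs generalizing X with
  | nil =>
    have h1 : Module.supportDim B X = ⊥ := by
      by_contra hne
      rw [← ne_eq, Module.supportDim_ne_bot_iff_nontrivial] at hne
      have h2 : (0 : WithBot ℕ∞) ≤ Module.supportDim B X := by
        have h3 := (Module.supportDim_ne_bot_iff_nontrivial B X).2 hne
        generalize Module.supportDim B X = c at h3 ⊢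
        induction c using WithBot.recBotCoe with
        | bot => exact absurd rfl h3
        | coe a => exact_mod_cast bot_le
      rw [List.length_nil] at hd
      exact absurd h2 (not_le.2 (by exact_mod_cast hd))
    rw [Module.supportDim_eq_bot_iff_subsingleton] at h1
    exact eul_subsingleton _ X
  | cons z zs ih =>
    obtain ⟨n, Γ, hΓ, hreg⟩ := exists_torsion_pow X z
    have hzs' : ∀ y ∈ zs, y ∈ maximalIdeal B := fun y hy => hzs y (List.mem_cons_of_mem _ hy)
    have hex : Exact Γ.subtype Γ.mkQ := LinearMap.exact_subtype_mkQ Γ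
    have hadd := eul_add (z :: zs) Γ.subtype Γ.mkQ (Submodule.injective_subtype _)
      (Submodule.mkQ_surjective _) hex hX
    have hFLΓ : FL (z :: zs) Γ := hX.of_injective Γ.subtype (Submodule.injective_subtype _)
    have hFLΓ' : FL zs Γ := hFLΓ.of_pow n hΓ
    have hFLQ : FL (z :: zs) (X ⧸ Γ) := hX.of_surjective Γ.mkQ (Submodule.mkQ_surjective _)
    rw [eul_cons_eq_zero z zs Γ hFLΓ', zero_add] at hadd
    have htors : Subsingleton (Submodule.torsionBy B (X ⧸ Γ) z) := by
      refine subsingleton_of_forall_eq 0 ?_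
      rintro ⟨x, hx⟩
      apply Subtype.ext
      rw [isSMulRegular_iff_right_eq_zero_of_smul] at hreg
      exact hreg x hx
    have h2 : eul (z :: zs) (X ⧸ Γ) = eul zs (QuotSMulTop z (X ⧸ Γ)) := by
      change eul zs (QuotSMulTop z (X ⧸ Γ)) - eul zs (Submodule.torsionBy B (X ⧸ Γ) z) = _
      rw [eul_subsingleton zs (Submodule.torsionBy B (X ⧸ Γ) z), sub_zero]
    rw [hadd, h2]
    apply ih hzs' _ hFLQ.quot
    have h3 := Module.supportDim_quotSMulTop_succ_eq_supportDim hreg (hzs z List.mem_cons_self)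
    have h4 : Module.supportDim B (X ⧸ Γ) < ((z :: zs).length : WithBot ℕ∞) :=
      lt_of_le_of_lt (Module.supportDim_le_of_surjective Γ.mkQ (Submodule.mkQ_surjective _)) hd
    rw [← h3, List.length_cons] at h4
    push_cast at h4
    generalize Module.supportDim B (QuotSMulTop z (X ⧸ Γ)) = a at h4 ⊢
    induction a using WithBot.recBotCoe with
    | bot => exact WithBot.bot_lt_coe _
    | coe a =>
      have h7 : a + 1 < ((zs.length : ℕ∞) + 1) := by exact_mod_cast h4
      have h8 : a < (zs.length : ℕ∞) := by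
        by_contra hcon
        rw [not_lt] at hcon
        exact absurd h7 (not_lt.2 (by gcongr))
      exact_mod_cast h8

end vanish

section locLen

variable {T : Type u} [CommRing T]

/-- Length of the localization at a prime. -/
noncomputable def locLen (Q : Ideal T) [Q.IsPrime] (X : Type u) [AddCommGroup X] [Module T X] :
    ℕ∞ :=
  Module.length (Localization.AtPrime Q) (Localization.AtPrime Q ⊗[T] X)

theorem locLen_add (Q : Ideal T) [Q.IsPrime] {X' X X'' : Type u} [AddCommGroup X'] [Module T X']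
    [AddCommGroup X] [Module T X] [AddCommGroup X''] [Module T X'']
    (f : X' →ₗ[T] X) (g : X →ₗ[T] X'') (hf : Injective f) (hg : Surjective g) (h : Exact f g) :
    locLen Q X = locLen Q X' + locLen Q X'' := by
  have hflat : Module.Flat T (Localization.AtPrime Q) := IsLocalization.flat _ Q.primeCompl
  obtain ⟨h1, h2, h3⟩ := baseChange_ses (B := Localization.AtPrime Q) f g hf hg h
  exact Module.length_eq_add_of_exact _ _ h1 h2 h3

theorem locLen_congr (Q : Ideal T) [Q.IsPrime] {X Y : Type u} [AddCommGroup X] [Module T X]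
    [AddCommGroup Y] [Module T Y] (e : X ≃ₗ[T] Y) : locLen Q X = locLen Q Y :=
  (e.baseChange T (Localization.AtPrime Q) _ _).length_eq

/-- an element outside `Q` killing `X` -/
theorem locLen_eq_zero (Q : Ideal T) [Q.IsPrime] (X : Type u) [AddCommGroup X] [Module T X]
    (a : T) (ha : a ∉ Q) (h : ∀ x : X, a • x = 0) : locLen Q X = 0 := by
  unfold locLen
  rw [Module.length_eq_zero_iff]
  have hu : IsUnit (algebraMap T (Localization.AtPrime Q) a) :=
    IsLocalization.map_units (Localization.AtPrime Q) (⟨a, ha⟩ : Q.primeCompl)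
  refine subsingleton_of_forall_eq 0 fun z => ?_
  have h1 : algebraMap T (Localization.AtPrime Q) a • z = 0 := by
    induction z using TensorProduct.induction_on with
    | zero => exact smul_zero _
    | tmul b x =>
      rw [TensorProduct.smul_tmul', smul_eq_mul, ← Algebra.smul_def, TensorProduct.smul_tmul, h,
        TensorProduct.tmul_zero]
    | add x y hx hy => rw [smul_add, hx, hy, add_zero]
  obtain ⟨v, hv⟩ := hu
  rw [← hv] at h1
  have h2 := congrArg (fun t => (v⁻¹ : (Localization.AtPrime Q)ˣ) • t) h1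
  simpa [Units.smul_def, smul_smul] using h2

theorem locLen_self (Q : Ideal T) [Q.IsPrime] : locLen Q (T ⧸ Q) = 1 := by
  unfold locLen
  have hm : Q.map (algebraMap T (Localization.AtPrime Q)) =
      maximalIdeal (Localization.AtPrime Q) :=
    IsLocalization.AtPrime.map_eq_maximalIdeal Q (Localization.AtPrime Q)
  have e : (Localization.AtPrime Q ⊗[T] (T ⧸ Q)) ≃ₗ[Localization.AtPrime Q]
      (Localization.AtPrime Q ⧸ maximalIdeal (Localization.AtPrime Q)) :=
    (Algebra.TensorProduct.quotIdealMapEquivTensorQuot _ Q).symm.toLinearEquiv ≪≫ₗ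
      Submodule.quotEquivOfEq _ _ hm
  rw [e.length_eq, Module.length_eq_one_iff]
  exact isSimpleModule_iff_quot_maximal.mpr ⟨_, inferInstance, ⟨LinearEquiv.refl _ _⟩⟩

end locLen

section assoc

variable {T : Type u} [CommRing T] [IsLocalRing T] [IsNoetherianRing T]

/-- The associativity formula. -/
theorem assoc_formula (zs : List T) (hzs : ∀ z ∈ zs, z ∈ maximalIdeal T)
    (W : Finset (PrimeSpectrum T))
    (hW : ∀ Q ∈ W, Module.supportDim T (T ⧸ Q.asIdeal) = (zs.length : WithBot ℕ∞))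
    (X : Type u) [AddCommGroup X] [Module T X] [Module.Finite T X] (hX : FL zs X)
    (hcov : ∀ Q ∈ Module.support T X, (zs.length : WithBot ℕ∞) ≤
      Module.supportDim T (T ⧸ Q.asIdeal) → Q ∈ W) :
    (∀ Q ∈ W, locLen Q.asIdeal X ≠ ⊤) ∧
      eul zs X = ∑ Q ∈ W, ((locLen Q.asIdeal X).toNat : ℤ) * eul zs (T ⧸ Q.asIdeal) := by
  classical
  suffices H : ∀ (X : Type u) [AddCommGroup X] [Module T X] (_ : Module.Finite T X), FL zs X →
      (∀ Q ∈ Module.support T X, (zs.length : WithBot ℕ∞) ≤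
        Module.supportDim T (T ⧸ Q.asIdeal) → Q ∈ W) →
      (∀ Q ∈ W, locLen Q.asIdeal X ≠ ⊤) ∧
      eul zs X = ∑ Q ∈ W, ((locLen Q.asIdeal X).toNat : ℤ) * eul zs (T ⧸ Q.asIdeal) from
    H X inferInstance hX hcov
  intro X _ _ hfin
  induction hfin using IsNoetherianRing.induction_on_isQuotientEquivQuotientPrime T with
  | subsingleton N =>
    intro _ _
    have h0 : ∀ Q : PrimeSpectrum T, locLen Q.asIdeal N = 0 := fun Q =>
      locLen_eq_zero Q.asIdeal N 1 (fun h => Q.2.ne_top ((Ideal.eq_top_iff_one _).2 h))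
        (fun x => Subsingleton.elim _ _)
    refine ⟨fun Q _ => by rw [h0]; simp, ?_⟩
    rw [eul_subsingleton]
    symm
    apply Finset.sum_eq_zero
    intro Q _
    rw [h0]
    simp
  | quotient N P e =>
    intro hFL hcov
    have hFL' : FL zs (T ⧸ P.1) := hFL.of_surjective e.toLinearMap e.surjective
    have hPmem : P ∈ Module.support T N := by
      rw [e.support_eq, support_quotient_prime]
    -- vanishing of the other local lengths
    have hzero : ∀ Q ∈ W, Q ≠ P → locLen Q.asIdeal N = 0 := by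
      intro Q hQ hne
      rw [locLen_congr Q.asIdeal e]
      have hnle : ¬ P.asIdeal ≤ Q.asIdeal := by
        intro hle
        have hlt : P.asIdeal < Q.asIdeal := lt_of_le_of_ne hle
          (fun h => hne (PrimeSpectrum.ext h.symm))
        have h1 := supportDim_quotient_strict hlt zs.length (hW Q hQ).ge
        have h2 := supportDim_le_length zs hzs (T ⧸ P.asIdeal) hFL'
        have h3 := h1.trans h2
        have h4 : zs.length + 1 ≤ zs.length := by exact_mod_cast h3
        omega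
      obtain ⟨a, haP, haQ⟩ := Set.not_subset.1 hnle
      refine locLen_eq_zero Q.asIdeal _ a haQ (fun x => ?_)
      obtain ⟨x, rfl⟩ := Ideal.Quotient.mk_surjective x
      change Ideal.Quotient.mk P.asIdeal (a * x) = 0
      exact Ideal.Quotient.eq_zero_iff_mem.2 (Ideal.mul_mem_right _ _ haP)
    have hone : locLen P.asIdeal N = 1 := by
      rw [locLen_congr P.asIdeal e, locLen_self]
    refine ⟨?_, ?_⟩
    · intro Q hQ
      by_cases hQP : Q = P
      · rw [hQP, hone]
        simp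
      · rw [hzero Q hQ hQP]
        simp
    · rw [eul_congr zs e]
      by_cases hP : P ∈ W
      · rw [Finset.sum_eq_single_of_mem P hP]
        · rw [hone]
          simp
        · intro Q hQ hne
          rw [hzero Q hQ hne]
          simp
      · have hd : Module.supportDim T (T ⧸ P.asIdeal) < (zs.length : WithBot ℕ∞) := by
          by_contra hcon
          exact hP (hcov P hPmem (not_lt.1 hcon))
        rw [eul_eq_zero_of_dim_lt zs hzs _ hFL' hd]
        symm
        apply Finset.sum_eq_zero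
        intro Q hQ
        rw [hzero Q hQ (fun h => hP (h ▸ hQ))]
        simp
  | exact N₁ N₂ N₃ f g hf hg h ih1 ih3 =>
    intro hFL hcov
    obtain ⟨a1, a2⟩ := ih1 (hFL.of_injective f hf)
      (fun Q hQ => hcov Q (Module.support_subset_of_injective f hf hQ))
    obtain ⟨b1, b2⟩ := ih3 (hFL.of_surjective g hg)
      (fun Q hQ => hcov Q (Module.support_subset_of_surjective g hg hQ))
    have hadd : ∀ Q ∈ W, locLen Q.asIdeal N₂ = locLen Q.asIdeal N₁ + locLen Q.asIdeal N₃ :=
      fun Q _ => locLen_add Q.asIdeal f g hf hg h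
    refine ⟨?_, ?_⟩
    · intro Q hQ
      rw [hadd Q hQ]
      exact WithTop.add_ne_top.2 ⟨a1 Q hQ, b1 Q hQ⟩
    · rw [eul_add zs f g hf hg h hFL, a2, b2, ← Finset.sum_add_distrib]
      refine Finset.sum_congr rfl fun Q hQ => ?_
      rw [hadd Q hQ, ENat.toNat_add (a1 Q hQ) (b1 Q hQ)]
      push_cast
      ring

end assoc

end Vale.Agent.P177
end
end

section

section

/-!
The local contributions.
-/

namespace Vale.Agent.P177

open CategoryTheory TensorProduct Function IsLocalRing RingTheory.Sequence Pointwise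

universe u

section

theorem ringKrullDim_le_add_of_radical (L₁ L₂ U : Type u) [CommRing L₁] [CommRing L₂] [CommRing U]
    [IsRegularLocalRing L₁] [IsRegularLocalRing L₂] [IsLocalRing U] [IsNoetherianRing U]
    [Algebra L₁ U]
    [Algebra L₂ U] [IsLocalHom (algebraMap L₁ U)] [IsLocalHom (algebraMap L₂ U)] (r₁ r₂ : ℕ)
    (h₁ : ringKrullDim L₁ = r₁) (h₂ : ringKrullDim L₂ = r₂)
    (h : maximalIdeal U ≤ ((maximalIdeal L₁).map (algebraMap L₁ U) ⊔
      (maximalIdeal L₂).map (algebraMap L₂ U)).radical) :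
    ringKrullDim U ≤ ((r₁ + r₂ : ℕ) : WithBot ℕ∞) := by
  obtain ⟨s₁, hs₁, hl₁⟩ := exists_list_maximalIdeal L₁
  obtain ⟨s₂, hs₂, hl₂⟩ := exists_list_maximalIdeal L₂
  have e₁ : s₁.length = r₁ := by rw [h₁] at hl₁; exact_mod_cast hl₁
  have e₂ : s₂.length = r₂ := by rw [h₂] at hl₂; exact_mod_cast hl₂
  have k₁ : (maximalIdeal L₁).map (algebraMap L₁ U) ≤ maximalIdeal U :=
    ((IsLocalRing.local_hom_TFAE (algebraMap L₁ U)).out 0 2).mp ‹_›
  have k₂ : (maximalIdeal L₂).map (algebraMap L₂ U) ≤ maximalIdeal U :=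
    ((IsLocalRing.local_hom_TFAE (algebraMap L₂ U)).out 0 2).mp ‹_›
  have hof : Ideal.ofList (s₁.map (algebraMap L₁ U) ++ s₂.map (algebraMap L₂ U)) =
      (maximalIdeal L₁).map (algebraMap L₁ U) ⊔ (maximalIdeal L₂).map (algebraMap L₂ U) := by
    rw [Ideal.ofList_append, ← hs₁, ← hs₂, Ideal.map_ofList, Ideal.map_ofList]
  have hmem : ∀ z ∈ s₁.map (algebraMap L₁ U) ++ s₂.map (algebraMap L₂ U),
      z ∈ maximalIdeal U := by
    intro z hz
    have h1 : z ∈ Ideal.ofList (s₁.map (algebraMap L₁ U) ++ s₂.map (algebraMap L₂ U)) :=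
      Ideal.subset_span hz
    rw [hof] at h1
    exact (sup_le k₁ k₂) h1
  have hFL : FL (s₁.map (algebraMap L₁ U) ++ s₂.map (algebraMap L₂ U)) U := by
    unfold FL
    rw [hof]
    exact h.trans (Ideal.radical_mono le_sup_right)
  have h5 := supportDim_le_length _ hmem U hFL
  rw [Module.supportDim_self_eq_ringKrullDim, List.length_append, List.length_map,
    List.length_map, e₁, e₂] at h5
  exact h5

theorem maximalIdeal_le_radical_of_minimal {T : Type u} [CommRing T] (I Q : Ideal T) [hQp : Q.IsPrime]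
    (hQ : Q ∈ I.minimalPrimes) :
    maximalIdeal (Localization.AtPrime Q) ≤
      (I.map (algebraMap T (Localization.AtPrime Q))).radical := by
  rw [Ideal.radical_eq_sInf]
  refine le_sInf ?_
  rintro q ⟨hq, hqp⟩
  have h1 : I ≤ q.comap (algebraMap T (Localization.AtPrime Q)) := Ideal.map_le_iff_le_comap.1 hq
  have h2 : q ≤ maximalIdeal (Localization.AtPrime Q) := le_maximalIdeal hqp.ne_top
  have h3 : q.comap (algebraMap T (Localization.AtPrime Q)) ≤ Q := by
    have h4 := Ideal.comap_mono (f := algebraMap T (Localization.AtPrime Q)) h2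
    have h5 : (maximalIdeal (Localization.AtPrime Q)).comap
        (algebraMap T (Localization.AtPrime Q)) = Q :=
      IsLocalization.AtPrime.comap_maximalIdeal (Localization.AtPrime Q) Q
    rwa [h5] at h4
  have hqc : (q.comap (algebraMap T (Localization.AtPrime Q))).IsPrime :=
    Ideal.IsPrime.comap _
  have h6 : Q ≤ q.comap (algebraMap T (Localization.AtPrime Q)) := hQ.2 ⟨hqc, h1⟩ h3
  rw [← IsLocalization.AtPrime.map_eq_maximalIdeal Q (Localization.AtPrime Q),
    Ideal.map_le_iff_le_comap]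
  exact h6

end

section

variable {R₁ R₂ T : Type u} [CommRing R₁] [CommRing R₂] [CommRing T]
    [IsRegularLocalRing R₁] [IsRegularLocalRing R₂] [IsRegularLocalRing T]
    [Algebra R₁ T] [Algebra R₂ T] [Module.Flat R₁ T] [Module.Flat R₂ T]

/-- The local Euler characteristic. -/
noncomputable def locEul (Q : Ideal T) [Q.IsPrime] (n : ℕ) (X Y : Type u) [AddCommGroup X]
    [Module T X] [AddCommGroup Y] [Module T Y] : ℤ :=
  ∑ j ∈ Finset.range n, (-1 : ℤ) ^ j * ((locLen Q (TorM T j X Y)).toNat : ℤ)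

omit [IsRegularLocalRing T] in
theorem locEul_eq (Q : Ideal T) [Q.IsPrime] (n : ℕ) (X Y : Type u) [AddCommGroup X]
    [Module T X] [AddCommGroup Y] [Module T Y] :
    locEul Q n X Y = eulerTor (Localization.AtPrime Q) n (Localization.AtPrime Q ⊗[T] X)
      (Localization.AtPrime Q ⊗[T] Y) := by
  have hflat : Module.Flat T (Localization.AtPrime Q) := IsLocalization.flat _ Q.primeCompl
  unfold locEul eulerTor
  refine Finset.sum_congr rfl fun j _ => ?_
  obtain ⟨e⟩ := exists_tor_flat_iso (C := Localization.AtPrime Q) j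
    (TensorProduct.isBaseChange T X (Localization.AtPrime Q))
    (TensorProduct.isBaseChange T Y (Localization.AtPrime Q))
  rw [e.length_eq]
  rfl

theorem local_value (a : ℕ) (hLoc : LocPos.{u} a) (N M : Type u) [AddCommGroup N] [Module R₁ N]
    [Module.Finite R₁ N] [AddCommGroup M] [Module R₂ M] [Module.Finite R₂ M]
    (Q : Ideal T) [hQp : Q.IsPrime]
    (hQ : Q ∈ ((Module.annihilator R₁ N).map (algebraMap R₁ T) ⊔
      (Module.annihilator R₂ M).map (algebraMap R₂ T)).minimalPrimes)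
    (r₁ r₂ q : ℕ) (h₁ : (Q.comap (algebraMap R₁ T)).height = r₁)
    (h₂ : (Q.comap (algebraMap R₂ T)).height = r₂) (hq : Q.height = q)
    (hb : r₁ + r₂ ≤ q + a) (n : ℕ) (hn : q + 1 ≤ n) :
    ∃ b : ℕ, r₁ + r₂ = q + b ∧ 0 ≤ locEul Q n (T ⊗[R₁] N) (T ⊗[R₂] M) ∧
      ∀ (P₁ P₂ : ℕ) (p₁ : PrimeSpectrum R₁) (p₂ : PrimeSpectrum R₂), p₁ ∈ Module.support R₁ N →
        p₂ ∈ Module.support R₂ M → p₁.asIdeal ≤ Q.comap (algebraMap R₁ T) →
        p₂.asIdeal ≤ Q.comap (algebraMap R₂ T) → p₁.asIdeal.height = P₁ →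
        p₂.asIdeal.height = P₂ →
        (r₁ - P₁) + (r₂ - P₂) ≤ b ∧ (b ≤ (r₁ - P₁) + (r₂ - P₂) →
          0 < locEul Q n (T ⊗[R₁] N) (T ⊗[R₂] M)) := by
  have hUreg : IsRegularLocalRing (Localization.AtPrime Q) :=
    isRegularLocalRing_localization T Q (Localization.AtPrime Q)
  obtain ⟨L₁, _, _, _, D₁⟩ := exists_locData R₁ T Q
  obtain ⟨L₂, _, _, _, D₂⟩ := exists_locData R₂ T Q
  have i1 := D₁.reg
  have i2 := D₂.reg
  have i3 := D₁.flat
  have i4 := D₂.flat
  have i5 := D₁.loc
  have i6 := D₂.loc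
  have i7 := D₁.isloc
  have i8 := D₂.isloc
  have i9 := D₁.tower
  have i10 := D₂.tower
  have d₁ : ringKrullDim L₁ = r₁ := by rw [D₁.dim, h₁]; rfl
  have d₂ : ringKrullDim L₂ = r₂ := by rw [D₂.dim, h₂]; rfl
  have dU : ringKrullDim (Localization.AtPrime Q) = q := by
    rw [IsLocalization.AtPrime.ringKrullDim_eq_height Q, hq]; rfl
  -- the radical condition
  have hrad := maximalIdeal_le_radical_of_minimal _ Q hQ
  have hmap₁ : ∀ I : Ideal R₁, (I.map (algebraMap R₁ T)).map
      (algebraMap T (Localization.AtPrime Q)) =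
      (I.map (algebraMap R₁ L₁)).map (algebraMap L₁ (Localization.AtPrime Q)) := by
    intro I
    rw [Ideal.map_map, Ideal.map_map, ← IsScalarTower.algebraMap_eq,
      ← IsScalarTower.algebraMap_eq]
  have hmap₂ : ∀ I : Ideal R₂, (I.map (algebraMap R₂ T)).map
      (algebraMap T (Localization.AtPrime Q)) =
      (I.map (algebraMap R₂ L₂)).map (algebraMap L₂ (Localization.AtPrime Q)) := by
    intro I
    rw [Ideal.map_map, Ideal.map_map, ← IsScalarTower.algebraMap_eq,
      ← IsScalarTower.algebraMap_eq]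
  rw [Ideal.map_sup, hmap₁, hmap₂] at hrad
  have hFP : FP L₁ L₂ (Localization.AtPrime Q) (L₁ ⊗[R₁] N) (L₂ ⊗[R₂] M) := by
    unfold FP
    refine hrad.trans (Ideal.radical_mono (sup_le_sup ?_ ?_))
    · exact Ideal.map_mono (map_annihilator_le N)
    · exact Ideal.map_mono (map_annihilator_le M)
  -- dimension bound
  have hle₁ : (Module.annihilator R₁ N).map (algebraMap R₁ L₁) ≤ maximalIdeal L₁ := by
    rw [← IsLocalization.AtPrime.map_eq_maximalIdeal (Q.comap (algebraMap R₁ T)) L₁]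
    apply Ideal.map_mono
    rw [← Ideal.map_le_iff_le_comap]
    exact le_sup_left.trans hQ.1.2
  have hle₂ : (Module.annihilator R₂ M).map (algebraMap R₂ L₂) ≤ maximalIdeal L₂ := by
    rw [← IsLocalization.AtPrime.map_eq_maximalIdeal (Q.comap (algebraMap R₂ T)) L₂]
    apply Ideal.map_mono
    rw [← Ideal.map_le_iff_le_comap]
    exact le_sup_right.trans hQ.1.2
  have hdim := ringKrullDim_le_add_of_radical L₁ L₂ (Localization.AtPrime Q) r₁ r₂ d₁ d₂
    (hrad.trans (Ideal.radical_mono (sup_le_sup (Ideal.map_mono hle₁) (Ideal.map_mono hle₂))))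
  rw [dU] at hdim
  have hqle : q ≤ r₁ + r₂ := by exact_mod_cast hdim
  obtain ⟨b, hbq⟩ := Nat.exists_eq_add_of_le hqle
  have hba : b ≤ a := by omega
  obtain ⟨c1, c2, c3⟩ := hLoc L₁ L₂ (Localization.AtPrime Q) r₁ r₂ q b d₁ d₂ dU hbq hba
    (L₁ ⊗[R₁] N) (L₂ ⊗[R₂] M) hFP
  -- comparison
  obtain ⟨e₁⟩ := exists_cancel_loc (R := R₁) (T := T) Q L₁ N
  obtain ⟨e₂⟩ := exists_cancel_loc (R := R₂) (T := T) Q L₂ M
  have hval : locEul Q n (T ⊗[R₁] N) (T ⊗[R₂] M) =
      eulerTor (Localization.AtPrime Q) (q + 1) (Localization.AtPrime Q ⊗[L₁] (L₁ ⊗[R₁] N))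
        (Localization.AtPrime Q ⊗[L₂] (L₂ ⊗[R₂] M)) := by
    rw [locEul_eq, eulerTor_congr e₁ e₂]
    apply eulerTor_shrink _ _ _ _ hn
    intro j hj
    exact regular_tor_vanish _ q dU _ _ j hj
  rw [hval]
  refine ⟨b, hbq, c2, ?_⟩
  intro P₁ P₂ p₁ p₂ hp₁ hp₂ hp₁Q hp₂Q hP₁ hP₂
  have k₁ := le_supportDim_localization R₁ (Q.comap (algebraMap R₁ T)) p₁.asIdeal hp₁Q L₁ N hp₁
    r₁ P₁ h₁ hP₁
  have k₂ := le_supportDim_localization R₂ (Q.comap (algebraMap R₂ T)) p₂.asIdeal hp₂Q L₂ M hp₂
    r₂ P₂ h₂ hP₂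
  exact ⟨c1 _ _ k₁ k₂, c3 _ _ k₁ k₂⟩

end

end Vale.Agent.P177
end
end

section

section

/-!
From local positivity to global positivity via reduction to the diagonal.
-/

namespace Vale.Agent.P177

open CategoryTheory TensorProduct Function IsLocalRing RingTheory.Sequence Pointwise

universe u

section

theorem exists_prime_of_le_supportDim {R : Type u} [CommRing R] [IsRegularLocalRing R] {d : ℕ}
    (hd : ringKrullDim R = d) (M : Type u) [AddCommGroup M] [Module R M] (m : ℕ)
    (hm : (m : WithBot ℕ∞) ≤ Module.supportDim R M) :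
    ∃ (p : PrimeSpectrum R) (P : ℕ), p ∈ Module.support R M ∧ p.asIdeal.height = P ∧
      P + m ≤ d := by
  unfold Module.supportDim at hm
  obtain ⟨l, hl⟩ := Order.le_krullDim_iff.1 hm
  have h1 : (m : WithBot ℕ∞) ≤ Module.supportDim R (R ⧸ l.head.1.asIdeal) := by
    unfold Module.supportDim
    rw [Order.le_krullDim_iff]
    exact ⟨{ length := l.length
             toFun := fun i => ⟨(l i).1, (support_quotient_prime _ _).2 (l.head_le i)⟩
             step := fun i => l.step i }, hl⟩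
  obtain ⟨zs, -, -, hz, h2, h3, -⟩ := exists_ci hd l.head.1.asIdeal
  rw [h3] at h1
  have h4 : m ≤ d - zs.length := by exact_mod_cast h1
  exact ⟨l.head.1, zs.length, l.head.2, h2, by omega⟩

theorem supportDim_prime_eq {R : Type u} [CommRing R] [IsRegularLocalRing R] {d : ℕ}
    (hd : ringKrullDim R = d) (P : Ideal R) [P.IsPrime] :
    ∃ h : ℕ, P.height = h ∧ h ≤ d ∧ Module.supportDim R (R ⧸ P) = ((d - h : ℕ) : WithBot ℕ∞) := by
  obtain ⟨zs, -, -, hz, h2, h3, -⟩ := exists_ci hd P
  exact ⟨zs.length, h2, hz, h3⟩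

end

theorem global_pos {R₁ R₂ T : Type u} [CommRing R₁] [CommRing R₂] [CommRing T]
    [IsRegularLocalRing R₁] [IsRegularLocalRing R₂] [IsRegularLocalRing T]
    [Algebra R₁ T] [Algebra R₂ T] [Module.Flat R₁ T] [Module.Flat R₂ T]
    (a : ℕ) (hLoc : LocPos.{u} a)
    (μ : T →+* R₁) (hμ : ∀ s, μ (algebraMap R₁ T s) = s) (z : List T)
    (hkerμ : RingHom.ker μ = Ideal.ofList z) (hz : IsWeaklyRegular T z)
    (θ : R₂ ≃+* R₁) (hθ : ∀ s, μ (algebraMap R₂ T s) = θ s)
    (d : ℕ) (hd : ringKrullDim R₁ = d)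
    (hb : ∀ (Q : Ideal T) [Q.IsPrime] (r₁ r₂ q : ℕ), (Q.comap (algebraMap R₁ T)).height = r₁ →
      (Q.comap (algebraMap R₂ T)).height = r₂ → Q.height = q → r₁ + r₂ ≤ q + a)
    (M N : Type u) [AddCommGroup M] [Module R₂ M] [Module.Finite R₂ M]
    [AddCommGroup N] [Module R₁ N] [Module R₂ N] [Module.Finite R₁ N]
    (hN : ∀ (s : R₂) (t : N), s • t = θ s • t)
    (hlen : Module.length R₂ (M ⊗[R₂] N) ≠ ⊤) :
    0 ≤ eulerTor R₂ (d + 1) M N ∧ ∀ m n : ℕ, (m : WithBot ℕ∞) ≤ Module.supportDim R₂ M →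
      (n : WithBot ℕ∞) ≤ Module.supportDim R₁ N →
      (m + n ≤ d) ∧ (d ≤ m + n → 0 < eulerTor R₂ (d + 1) M N) := by
  classical
  -- basic facts
  have hμs : Surjective μ := fun s => ⟨algebraMap R₁ T s, hμ s⟩
  have hμloc : IsLocalHom μ := IsLocalHom.of_surjective μ hμs
  have hl₁ : IsLocalHom (algebraMap R₁ T) := ⟨fun s hs => by
    have := hs.map μ
    rwa [hμ] at this⟩
  have hl₂ : IsLocalHom (algebraMap R₂ T) := ⟨fun s hs => by
    have h1 := (hs.map μ).map θ.symm
    rwa [hθ, RingEquiv.symm_apply_apply] at h1⟩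
  have hzm : ∀ y ∈ z, y ∈ maximalIdeal T := by
    intro y hy
    have h1 : y ∈ RingHom.ker μ := by
      rw [hkerμ]
      exact Ideal.subset_span hy
    rw [mem_maximalIdeal, mem_nonunits_iff]
    intro hu
    have h2 := hu.map μ
    rw [(RingHom.mem_ker).1 h1] at h2
    exact not_isUnit_zero h2
  have hd₂ : ringKrullDim R₂ = d := by rw [ringKrullDim_eq_of_ringEquiv θ, hd]
  have ht : ringKrullDim T = ((d + z.length : ℕ) : WithBot ℕ∞) := by
    have hreg : IsRegular T z := by
      refine ⟨hz, ?_⟩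
      intro h
      have h1 : (Ideal.ofList z • ⊤ : Ideal T) ≤ maximalIdeal T := by
        rw [smul_eq_mul, Ideal.mul_top]
        exact Ideal.span_le.2 hzm
      rw [← h] at h1
      exact (maximalIdeal.isMaximal T).ne_top (top_le_iff.1 h1)
    have h2 := ringKrullDim_add_length_eq_ringKrullDim_of_isRegular _ hreg
    rw [← h2]
    have e : (T ⧸ Ideal.ofList z) ≃+* R₁ :=
      (Ideal.quotEquivOfEq hkerμ.symm).trans (RingHom.quotientKerEquivOfSurjective hμs)
    rw [ringKrullDim_eq_of_ringEquiv e, hd]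
    push_cast
    rfl
  -- the ideal
  let I : Ideal T := (Module.annihilator R₁ N).map (algebraMap R₁ T) ⊔
    (Module.annihilator R₂ M).map (algebraMap R₂ T)
  -- Fact A
  have hann : ∀ v ∈ Module.annihilator R₂ N, θ v ∈ Module.annihilator R₁ N := by
    intro v hv
    rw [Module.mem_annihilator] at hv ⊢
    intro t
    rw [← hN, hv]
  have : Module.Finite R₂ N := by
    let _ : Algebra R₂ R₁ := (θ : R₂ →+* R₁).toAlgebra
    have : IsScalarTower R₂ R₁ N := IsScalarTower.of_algebraMap_smul fun s t => (hN s t).symm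
    have : Module.Finite R₂ R₁ := Module.Finite.of_surjective (Algebra.linearMap R₂ R₁)
      θ.surjective
    exact Module.Finite.trans R₁ N
  have hA : maximalIdeal T ≤ (I ⊔ Ideal.ofList z).radical := by
    obtain ⟨k, hk⟩ := exists_pow_le_sup_annihilator (R := R₂) M N hlen
    intro x hx
    refine ⟨k, ?_⟩
    have h1 : θ.symm (μ x) ∈ maximalIdeal R₂ := by
      rw [mem_maximalIdeal, mem_nonunits_iff] at hx ⊢
      intro hu
      apply hx
      have h2 := hu.map θ
      rw [RingEquiv.apply_symm_apply] at h2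
      exact isUnit_of_map_unit μ x h2
    obtain ⟨u, hu, v, hv, huv⟩ := Submodule.mem_sup.1 (hk (Ideal.pow_mem_pow h1 k))
    have h3 : x ^ k - algebraMap R₂ T u - algebraMap R₁ T (θ v) ∈ Ideal.ofList z := by
      rw [← hkerμ, RingHom.mem_ker, map_sub, map_sub, hθ, hμ, map_pow, sub_sub, ← map_add, huv,
        map_pow, RingEquiv.apply_symm_apply, sub_self]
    have h4 : x ^ k = (algebraMap R₁ T (θ v) + algebraMap R₂ T u) +
        (x ^ k - algebraMap R₂ T u - algebraMap R₁ T (θ v)) := by ring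
    rw [h4]
    exact Submodule.add_mem_sup (Submodule.add_mem_sup (Ideal.mem_map_of_mem _ (hann v hv))
      (Ideal.mem_map_of_mem _ hu)) h3
  -- Fact C
  have hC : ∀ Q : Ideal T, I ≤ Q → Module.supportDim T (T ⧸ Q) ≤ (z.length : WithBot ℕ∞) := by
    intro Q hQ
    apply supportDim_le_length z hzm
    unfold FL
    rw [Ideal.annihilator_quotient]
    exact hA.trans (Ideal.radical_mono (sup_le_sup_right hQ _))
  have hmin : ∀ Q : PrimeSpectrum T, I ≤ Q.asIdeal → (z.length : WithBot ℕ∞) ≤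
      Module.supportDim T (T ⧸ Q.asIdeal) → Q.asIdeal ∈ I.minimalPrimes := by
    intro Q hQ hQd
    refine ⟨⟨Q.isPrime, hQ⟩, ?_⟩
    rintro Q' ⟨hQ'p, hQ'⟩ hle
    by_contra hcon
    have hlt : Q' < Q.asIdeal := lt_of_le_not_ge hle hcon
    have h1 := (supportDim_quotient_strict hlt z.length hQd).trans (hC Q' hQ')
    have h2 : z.length + 1 ≤ z.length := by exact_mod_cast h1
    omega
  have hWfin : {Q : PrimeSpectrum T | I ≤ Q.asIdeal ∧ (z.length : WithBot ℕ∞) ≤
      Module.supportDim T (T ⧸ Q.asIdeal)}.Finite := by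
    refine Set.Finite.of_finite_image (f := PrimeSpectrum.asIdeal) ?_ ?_
    · refine (Ideal.finite_minimalPrimes_of_isNoetherianRing T I).subset ?_
      rintro _ ⟨Q, hQ, rfl⟩
      exact hmin Q hQ.1 hQ.2
    · intro Q _ Q' _ h
      exact PrimeSpectrum.ext h
  let W : Finset (PrimeSpectrum T) := hWfin.toFinset
  have hWmem : ∀ Q, Q ∈ W ↔ I ≤ Q.asIdeal ∧ (z.length : WithBot ℕ∞) ≤
      Module.supportDim T (T ⧸ Q.asIdeal) := fun Q => by
    rw [Set.Finite.mem_toFinset]; rfl
  have hWdim : ∀ Q ∈ W, Module.supportDim T (T ⧸ Q.asIdeal) = (z.length : WithBot ℕ∞) := by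
    intro Q hQ
    rw [hWmem] at hQ
    exact le_antisymm (hC _ hQ.1) hQ.2
  -- the main identity
  have hfin : ∀ j, Module.Finite T (TorM T j (T ⊗[R₁] N) (T ⊗[R₂] M)) := fun j =>
    tor_finite (R := T) j _ _
  have hIann : ∀ j, I ≤ Module.annihilator T (TorM T j (T ⊗[R₁] N) (T ⊗[R₂] M)) := by
    intro j
    refine sup_le ?_ ?_
    · refine (map_annihilator_le N).trans ?_
      intro x hx
      rw [Module.mem_annihilator]
      exact tor_smul_eq_zero_left x (fun m => Module.mem_annihilator.1 hx m) j _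
    · refine (map_annihilator_le M).trans ?_
      intro x hx
      rw [Module.mem_annihilator]
      exact tor_smul_eq_zero_right x (fun m => Module.mem_annihilator.1 hx m) j _
  have hv : ∀ j, d + z.length + 1 ≤ j →
      Subsingleton (TorM T j (T ⊗[R₁] N) (T ⊗[R₂] M)) := fun j hj =>
    regular_tor_vanish T _ ht _ _ j hj
  let n : ℕ := d + z.length + 1 + z.length
  obtain ⟨heq, hFL⟩ : eulerTor R₂ n M N = ∑ j ∈ Finset.range n,
        (-1 : ℤ) ^ j * eul z (TorM T j (T ⊗[R₁] N) (T ⊗[R₂] M)) ∧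
      FL2 z (T ⊗[R₁] N) (T ⊗[R₂] M) := by
    let _ : Module T N := Module.compHom N μ
    have hsN : ∀ (b : T) (t : N), b • t = μ b • t := fun b t => rfl
    have : IsScalarTower R₁ T N := ⟨fun s b t => by
      rw [hsN, hsN, Algebra.smul_def, map_mul, hμ, mul_smul]⟩
    have : IsScalarTower R₂ T N := ⟨fun s b t => by
      rw [hsN, hsN, Algebra.smul_def, map_mul, hθ, mul_smul, hN]⟩
    have hres : ∀ b : T, ∃ s : R₁, b - algebraMap R₁ T s ∈ Ideal.ofList z := by
      intro b
      refine ⟨μ b, ?_⟩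
      rw [← hkerμ, RingHom.mem_ker, map_sub, hμ, sub_self]
    have hkill : ∀ y ∈ Ideal.ofList z, ∀ t : N, y • t = 0 := by
      intro y hy t
      rw [← hkerμ, RingHom.mem_ker] at hy
      rw [hsN, hy, zero_smul]
    have hN2 : ∀ b : T, ∃ s : R₂, ∀ t : N, b • t = s • t := by
      intro b
      refine ⟨θ.symm (μ b), fun t => ?_⟩
      rw [hN, RingEquiv.apply_symm_apply, hsN]
    let _ : Module T R₁ := Module.compHom R₁ μ
    have hsm : ∀ (b : T) (t : R₁), b • t = μ b * t := fun b t => rfl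
    have : IsScalarTower R₁ T R₁ := ⟨fun s b t => by
      rw [hsm, hsm, Algebra.smul_def, map_mul, hμ, smul_eq_mul, mul_assoc]⟩
    let μl : T →ₗ[T] R₁ :=
      { toFun := μ
        map_add' := map_add μ
        map_smul' := fun b c => by
          rw [smul_eq_mul, map_mul, RingHom.id_apply, hsm] }
    have hker : LinearMap.ker μl = (Ideal.ofList z • ⊤ : Submodule T T) := by
      rw [smul_eq_mul, Ideal.mul_top, ← hkerμ]
      rfl
    have e : (T ⧸ (Ideal.ofList z • ⊤ : Submodule T T)) ≃ₗ[T] R₁ :=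
      Submodule.quotEquivOfEq _ _ hker.symm ≪≫ₗ μl.quotKerEquivOfSurjective hμs
    exact eulerTor_eq_sum_eul z hzm hz hres R₁ e N hkill hN2 M (d + z.length + 1) hv hlen n le_rfl
  have hassoc : ∀ j, eul z (TorM T j (T ⊗[R₁] N) (T ⊗[R₂] M)) =
      ∑ Q ∈ W, ((locLen Q.asIdeal (TorM T j (T ⊗[R₁] N) (T ⊗[R₂] M))).toNat : ℤ) *
        eul z (T ⧸ Q.asIdeal) := by
    intro j
    have := hfin j
    refine (assoc_formula z hzm W hWdim _ (hFL.tor j) ?_).2
    intro Q hQ hQd
    rw [hWmem]
    refine ⟨?_, hQd⟩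
    rw [Module.support_eq_zeroLocus] at hQ
    exact (hIann j).trans hQ
  have hsum : eulerTor R₂ n M N = ∑ Q ∈ W,
      locEul Q.asIdeal n (T ⊗[R₁] N) (T ⊗[R₂] M) * eul z (T ⧸ Q.asIdeal) := by
    rw [heq]
    simp only [hassoc, Finset.mul_sum]
    rw [Finset.sum_comm]
    refine Finset.sum_congr rfl fun Q _ => ?_
    unfold locEul
    rw [Finset.sum_mul]
    refine Finset.sum_congr rfl fun j _ => ?_
    ring
  have hshrink : eulerTor R₂ n M N = eulerTor R₂ (d + 1) M N := by
    have : Module.Finite R₂ N := ‹_›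
    exact eulerTor_shrink M N (d + 1) n (by omega) fun j hj =>
      regular_tor_vanish R₂ d hd₂ M N j hj
  rw [← hshrink, hsum]
  -- positivity of the second factor
  have heul : ∀ Q : Ideal T, I ≤ Q → 0 ≤ eul z (T ⧸ Q) ∧
      ((z.length : WithBot ℕ∞) ≤ Module.supportDim T (T ⧸ Q) → 0 < eul z (T ⧸ Q)) := by
    intro Q hQ
    apply eul_nonneg_pos z hzm
    unfold FL
    rw [Ideal.annihilator_quotient]
    exact hA.trans (Ideal.radical_mono (sup_le_sup_right hQ _))
  -- heights
  have hht : ∀ Q : Ideal T, Q.IsPrime → ∃ r₁ r₂ q : ℕ, (Q.comap (algebraMap R₁ T)).height = r₁ ∧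
      (Q.comap (algebraMap R₂ T)).height = r₂ ∧ Q.height = q ∧ r₁ + r₂ ≤ q + a ∧
      q ≤ d + z.length ∧ Module.supportDim T (T ⧸ Q) = ((d + z.length - q : ℕ) : WithBot ℕ∞) := by
    intro Q hQ
    have h1 : (Q.comap (algebraMap R₁ T)).IsPrime := Ideal.IsPrime.comap _
    have h2 : (Q.comap (algebraMap R₂ T)).IsPrime := Ideal.IsPrime.comap _
    obtain ⟨r₁, hr₁, -, -⟩ := supportDim_prime_eq hd (Q.comap (algebraMap R₁ T))
    obtain ⟨r₂, hr₂, -, -⟩ := supportDim_prime_eq hd₂ (Q.comap (algebraMap R₂ T))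
    obtain ⟨q, hq, hq', hq''⟩ := supportDim_prime_eq ht Q
    exact ⟨r₁, r₂, q, hr₁, hr₂, hq, hb Q r₁ r₂ q hr₁ hr₂ hq, hq', hq''⟩
  have hterm : ∀ Q ∈ W, 0 ≤ locEul Q.asIdeal n (T ⊗[R₁] N) (T ⊗[R₂] M) *
      eul z (T ⧸ Q.asIdeal) := by
    intro Q hQ
    have hQ' := (hWmem Q).1 hQ
    have hQp := Q.isPrime
    obtain ⟨r₁, r₂, q, hr₁, hr₂, hq, hbb, hqt, -⟩ := hht Q.asIdeal Q.isPrime
    obtain ⟨b, -, h1, -⟩ := local_value a hLoc N M Q.asIdeal (hmin Q hQ'.1 hQ'.2) r₁ r₂ q hr₁
      hr₂ hq hbb n (by omega)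
    exact mul_nonneg h1 (heul _ hQ'.1).1
  refine ⟨Finset.sum_nonneg hterm, ?_⟩
  intro m k hm hk
  obtain ⟨p₂, P₂, hp₂, hP₂, hm'⟩ := exists_prime_of_le_supportDim hd₂ M m hm
  obtain ⟨p₁, P₁, hp₁, hP₁, hk'⟩ := exists_prime_of_le_supportDim hd N k hk
  -- the minimal prime
  let J : Ideal T := p₁.asIdeal.map (algebraMap R₁ T) ⊔ p₂.asIdeal.map (algebraMap R₂ T)
  have hJ : J ≤ maximalIdeal T := by
    refine sup_le ?_ ?_
    · exact (Ideal.map_mono (le_maximalIdeal p₁.isPrime.ne_top)).trans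
        (((IsLocalRing.local_hom_TFAE (algebraMap R₁ T)).out 0 2).mp hl₁)
    · exact (Ideal.map_mono (le_maximalIdeal p₂.isPrime.ne_top)).trans
        (((IsLocalRing.local_hom_TFAE (algebraMap R₂ T)).out 0 2).mp hl₂)
  obtain ⟨Q, hQ, -⟩ := Ideal.exists_minimalPrimes_le hJ
  have hQp : Q.IsPrime := hQ.1.1
  have hIJ : I ≤ J := by
    rw [Module.support_eq_zeroLocus] at hp₁ hp₂
    exact sup_le_sup (Ideal.map_mono hp₁) (Ideal.map_mono hp₂)
  have hIQ : I ≤ Q := hIJ.trans hQ.1.2
  obtain ⟨r₁, r₂, q, hr₁, hr₂, hq, hbb, hqt, hQd⟩ := hht Q hQp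
  have hle₁ : p₁.asIdeal ≤ Q.comap (algebraMap R₁ T) := by
    rw [← Ideal.map_le_iff_le_comap]
    exact le_sup_left.trans hQ.1.2
  have hle₂ : p₂.asIdeal ≤ Q.comap (algebraMap R₂ T) := by
    rw [← Ideal.map_le_iff_le_comap]
    exact le_sup_right.trans hQ.1.2
  have hP₁r : P₁ ≤ r₁ := by
    have := Ideal.height_mono hle₁
    rw [hP₁, hr₁] at this
    exact_mod_cast this
  have hP₂r : P₂ ≤ r₂ := by
    have := Ideal.height_mono hle₂
    rw [hP₂, hr₂] at this
    exact_mod_cast this
  have hqP : q ≤ P₁ + P₂ := by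
    have hQ2 : Q ∈ ((Module.annihilator R₁ (R₁ ⧸ p₁.asIdeal)).map (algebraMap R₁ T) ⊔
        (Module.annihilator R₂ (R₂ ⧸ p₂.asIdeal)).map (algebraMap R₂ T)).minimalPrimes := by
      rw [Ideal.annihilator_quotient, Ideal.annihilator_quotient]
      exact hQ
    obtain ⟨b, hb1, -, hb2⟩ := local_value a hLoc (R₁ ⧸ p₁.asIdeal) (R₂ ⧸ p₂.asIdeal) Q hQ2
      r₁ r₂ q hr₁ hr₂ hq hbb n (by omega)
    have h5 := (hb2 P₁ P₂ p₁ p₂ ((support_quotient_prime _ _).2 le_rfl)
      ((support_quotient_prime _ _).2 le_rfl) hle₁ hle₂ hP₁ hP₂).1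
    omega
  have hCQ := hC Q hIQ
  rw [hQd] at hCQ
  have hCQ' : d + z.length - q ≤ z.length := by exact_mod_cast hCQ
  constructor
  · omega
  · intro hdm
    have hqd : q = d := by omega
    have hPP : P₁ + P₂ = d := by omega
    have hQz : (z.length : WithBot ℕ∞) ≤ Module.supportDim T (T ⧸ Q) := by
      rw [hQd]
      have : z.length ≤ d + z.length - q := by omega
      exact_mod_cast this
    have hQW : (⟨Q, hQp⟩ : PrimeSpectrum T) ∈ W := (hWmem _).2 ⟨hIQ, hQz⟩
    obtain ⟨b, hb1, -, hb2⟩ := local_value a hLoc N M Q (hmin ⟨Q, hQp⟩ hIQ hQz)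
      r₁ r₂ q hr₁ hr₂ hq hbb n (by omega)
    have h6 := (hb2 P₁ P₂ p₁ p₂ hp₁ hp₂ hle₁ hle₂ hP₁ hP₂).2 (by omega)
    exact Finset.sum_pos' hterm ⟨_, hQW, mul_pos h6 ((heul Q hIQ).2 hQz)⟩

end Vale.Agent.P177
end
end

section

section

/-!
Quotients of regular local rings with injective conormal map; smooth algebras.
-/

namespace Vale.Agent.P177

open Function IsLocalRing RingTheory.Sequence Pointwise

universe u

section lemK

theorem isWeaklyRegular_cons_of_quotient {P : Type u} [CommRing P] (y : P) (hy : IsSMulRegular P y)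
    (zs : List P) (h : IsWeaklyRegular (P ⧸ Ideal.span {y})
      (zs.map (Ideal.Quotient.mk (Ideal.span {y})))) : IsWeaklyRegular P (y :: zs) := by
  rw [isWeaklyRegular_cons_iff']
  refine ⟨hy, ?_⟩
  have heq : (Ideal.span {y} : Submodule P P) = y • ⊤ := by
    rw [← Submodule.ideal_span_singleton_smul, smul_eq_mul, Ideal.mul_top]
  refine (AddEquiv.isWeaklyRegular_congr
    (e := (Submodule.quotEquivOfEq _ _ heq).toAddEquiv) ?_).mp h
  refine List.forall₂_same.mpr fun t _ x => ?_
  obtain ⟨a, rfl⟩ := Ideal.Quotient.mk_surjective t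
  change Submodule.quotEquivOfEq _ _ heq (algebraMap P (P ⧸ Ideal.span {y}) a • x) =
    algebraMap P (P ⧸ Ideal.span {y}) a • Submodule.quotEquivOfEq _ _ heq x
  rw [algebraMap_smul, algebraMap_smul, map_smul]

theorem exists_regular_list (n : ℕ) (P : Type u) [CommRing P] [IsRegularLocalRing P]
    (hn : ringKrullDim P = n) (J : Ideal P) (hJm : J ≤ maximalIdeal P)
    (hJ : J ⊓ maximalIdeal P ^ 2 ≤ maximalIdeal P * J) :
    ∃ z : List P, Ideal.ofList z = J ∧ IsWeaklyRegular P z ∧ IsRegularLocalRing (P ⧸ J) := by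
  induction n using Nat.strong_induction_on generalizing P J with
  | _ n ih =>
    by_cases hJ0 : J = ⊥
    · subst hJ0
      refine ⟨[], Ideal.ofList_nil, IsWeaklyRegular.nil P P, ?_⟩
      exact IsRegularLocalRing.of_ringEquiv (RingEquiv.quotientBot P).symm
    · have h1 : ∃ y ∈ J, y ∉ maximalIdeal P * J := by
        by_contra hcon
        push Not at hcon
        apply hJ0
        refine Submodule.eq_bot_of_le_smul_of_le_jacobson_bot (maximalIdeal P) J
          (IsNoetherian.noetherian J) hcon ?_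
        rw [IsLocalRing.jacobson_eq_maximalIdeal _ bot_ne_top]
      obtain ⟨y, hyJ, hy⟩ := h1
      have hy2 : y ∉ maximalIdeal P ^ 2 := fun h => hy (hJ ⟨hyJ, h⟩)
      obtain ⟨hreg, hdim⟩ := regular_quotient P y (hJm hyJ) hy2
      have hdom : IsDomain P := regular_isDomain P
      have hy0 : y ≠ 0 := fun h => hy2 (h ▸ zero_mem _)
      obtain ⟨k, hk⟩ := exists_nat_eq_ringKrullDim (P ⧸ Ideal.span {y})
      have hkn : k + 1 = n := by
        rw [hk, hn] at hdim
        exact_mod_cast hdim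
      have hspan : Ideal.span {y} ≤ J := by
        rw [Ideal.span_singleton_le_iff_mem]
        exact hyJ
      have hmm : (maximalIdeal P).map (Ideal.Quotient.mk (Ideal.span {y})) =
          maximalIdeal (P ⧸ Ideal.span {y}) :=
        map_maximalIdeal_of_surjective _ Ideal.Quotient.mk_surjective
      obtain ⟨z', hz', hzr, hq⟩ := ih k (by omega) (P ⧸ Ideal.span {y}) hk
        (J.map (Ideal.Quotient.mk (Ideal.span {y}))) (by
          rw [← hmm]
          exact Ideal.map_mono hJm) (by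
          rintro x' ⟨hx1, hx2⟩
          obtain ⟨x, hx, rfl⟩ := (Ideal.mem_map_iff_of_surjective _
            Ideal.Quotient.mk_surjective).1 hx1
          rw [← hmm, ← Ideal.map_pow] at hx2
          obtain ⟨u, hu, hux⟩ := (Ideal.mem_map_iff_of_surjective _
            Ideal.Quotient.mk_surjective).1 hx2
          have h2 : u - x ∈ J := hspan ((Ideal.Quotient.mk_eq_mk_iff_sub_mem _ _).1 hux)
          have h3 : u ∈ J := by
            have := J.add_mem h2 hx
            rwa [sub_add_cancel] at this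
          rw [← hux, ← hmm, ← Ideal.map_mul]
          exact Ideal.mem_map_of_mem _ (hJ ⟨h3, hu⟩))
      obtain ⟨zs, rfl⟩ : ∃ zs : List P, zs.map (Ideal.Quotient.mk (Ideal.span {y})) = z' :=
        (List.map_surjective_iff.2 Ideal.Quotient.mk_surjective) z'
      refine ⟨y :: zs, ?_, isWeaklyRegular_cons_of_quotient y
        (IsRegular.of_ne_zero hy0).left.isSMulRegular zs hzr, ?_⟩
      · rw [← Ideal.map_ofList] at hz'
        have h4 := congrArg (Ideal.comap (Ideal.Quotient.mk (Ideal.span {y}))) hz'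
        rw [Ideal.comap_map_of_surjective' _ Ideal.Quotient.mk_surjective,
          Ideal.comap_map_of_surjective' _ Ideal.Quotient.mk_surjective, Ideal.mk_ker,
          sup_eq_left.2 hspan] at h4
        rw [Ideal.ofList_cons, sup_comm, h4]
      · exact IsRegularLocalRing.of_ringEquiv (DoubleQuot.quotQuotEquivQuotOfLE hspan)

end lemK

section lemS

/-- The conormal map of a surjection onto a formally smooth algebra is injective modulo the
maximal ideal. -/
theorem inf_sq_le_of_formallySmooth (A P S : Type u) [CommRing A] [CommRing P] [CommRing S]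
    [Algebra A P] [Algebra A S] [IsLocalRing P] [Algebra.FormallySmooth A S]
    (f : P →ₐ[A] S) (hf : Surjective f) (hJm : RingHom.ker f ≤ maximalIdeal P) :
    RingHom.ker f ⊓ maximalIdeal P ^ 2 ≤ maximalIdeal P * RingHom.ker f := by
  let J := RingHom.ker f
  let B := P ⧸ J ^ 2
  let g : B →ₐ[A] S := Ideal.Quotient.liftₐ (J ^ 2) f (by
    intro a ha
    have : a ∈ J := Ideal.pow_le_self two_ne_zero ha
    exact this)
  have hg : ∀ x : P, g (Ideal.Quotient.mk (J ^ 2) x) = f x := fun x => rfl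
  have hgs : Surjective g := fun s => by
    obtain ⟨x, rfl⟩ := hf s
    exact ⟨_, hg x⟩
  have hker : ∀ b : B, g b = 0 → b ∈ J.map (Ideal.Quotient.mk (J ^ 2)) := by
    intro b hb
    obtain ⟨x, rfl⟩ := Ideal.Quotient.mk_surjective b
    rw [hg] at hb
    exact Ideal.mem_map_of_mem _ hb
  have hnil : IsNilpotent (RingHom.ker (g : B →+* S)) := by
    refine ⟨2, ?_⟩
    rw [Ideal.zero_eq_bot, eq_bot_iff]
    have h1 : RingHom.ker (g : B →+* S) ≤ J.map (Ideal.Quotient.mk (J ^ 2)) := hker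
    refine (Ideal.pow_right_mono h1 2).trans ?_
    rw [← Ideal.map_pow, Ideal.map_quotient_self]
  let σ : S →ₐ[A] B := Algebra.FormallySmooth.liftOfSurjective (AlgHom.id A S) g hgs hnil
  have hσ : ∀ s, g (σ s) = s := fun s =>
    Algebra.FormallySmooth.liftOfSurjective_apply (AlgHom.id A S) g hgs hnil s
  have hδ : ∀ x : P, Ideal.Quotient.mk (J ^ 2) x - σ (f x) ∈
      J.map (Ideal.Quotient.mk (J ^ 2)) := by
    intro x
    apply hker
    rw [map_sub, hg, hσ, sub_self]
  have key : ∀ x ∈ maximalIdeal P ^ 2, Ideal.Quotient.mk (J ^ 2) x - σ (f x) ∈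
      (maximalIdeal P * J).map (Ideal.Quotient.mk (J ^ 2)) := by
    intro x hx
    rw [pow_two] at hx
    induction hx using Submodule.mul_induction_on' with
    | mem_mul_mem a ha b hb =>
      have h1 : Ideal.Quotient.mk (J ^ 2) (a * b) - σ (f (a * b)) =
          Ideal.Quotient.mk (J ^ 2) a * (Ideal.Quotient.mk (J ^ 2) b - σ (f b)) +
          σ (f b) * (Ideal.Quotient.mk (J ^ 2) a - σ (f a)) := by
        rw [map_mul, map_mul, map_mul]
        ring
      rw [h1, Ideal.map_mul]
      refine add_mem (Ideal.mul_mem_mul (Ideal.mem_map_of_mem _ ha) (hδ b))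
        (Ideal.mul_mem_mul ?_ (hδ a))
      have h2 : σ (f b) = Ideal.Quotient.mk (J ^ 2) b -
          (Ideal.Quotient.mk (J ^ 2) b - σ (f b)) := by ring
      rw [h2]
      exact sub_mem (Ideal.mem_map_of_mem _ hb) (Ideal.map_mono hJm (hδ b))
    | add x _ y _ hx hy =>
      have h1 : Ideal.Quotient.mk (J ^ 2) (x + y) - σ (f (x + y)) =
          (Ideal.Quotient.mk (J ^ 2) x - σ (f x)) +
          (Ideal.Quotient.mk (J ^ 2) y - σ (f y)) := by
        rw [map_add, map_add, map_add]
        ring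
      rw [h1]
      exact add_mem hx hy
  rintro x ⟨hx1, hx2⟩
  have h3 := key x hx2
  have h4 : f x = 0 := hx1
  rw [h4, map_zero, sub_zero] at h3
  have h5 := Ideal.mem_comap.2 h3
  rw [Ideal.comap_map_of_surjective' _ Ideal.Quotient.mk_surjective, Ideal.mk_ker] at h5
  have h6 : J ^ 2 ≤ maximalIdeal P * J := by
    rw [pow_two]
    exact Ideal.mul_mono_left hJm
  exact (sup_le le_rfl h6 : maximalIdeal P * J ⊔ J ^ 2 ≤ maximalIdeal P * J) h5

/-- A regular local algebra surjecting onto a formally smooth one. -/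
theorem exists_regular_list_of_formallySmooth (A P S : Type u) [CommRing A] [CommRing P]
    [CommRing S] [Algebra A P] [Algebra A S] [IsRegularLocalRing P] [Nontrivial S]
    [Algebra.FormallySmooth A S] (f : P →ₐ[A] S) (hf : Surjective f) :
    IsRegularLocalRing S ∧
      ∃ z : List P, Ideal.ofList z = RingHom.ker f ∧ IsWeaklyRegular P z := by
  have hJm : RingHom.ker f ≤ maximalIdeal P := by
    apply le_maximalIdeal
    intro h
    have h1 : (1 : P) ∈ RingHom.ker f := by rw [h]; trivial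
    have h2 : f 1 = 0 := h1
    rw [map_one] at h2
    exact one_ne_zero h2
  obtain ⟨n, hn⟩ := exists_nat_eq_ringKrullDim P
  obtain ⟨z, h1, h2, h3⟩ := exists_regular_list n P hn (RingHom.ker f) hJm
    (inf_sq_le_of_formallySmooth A P S f hf hJm)
  have h4 : IsRegularLocalRing (P ⧸ RingHom.ker (f : P →+* S)) := h3
  exact ⟨IsRegularLocalRing.of_ringEquiv (RingHom.quotientKerEquivOfSurjective (f := (f : P →+* S))
    hf), z, h1, h2⟩

end lemS

section ess

/-- A local algebra essentially of finite type is a quotient of a localization of a polynomial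
ring at a prime. -/
theorem exists_surjective_localization (A S : Type u) [CommRing A] [CommRing S] [Algebra A S]
    [IsLocalRing S] [Algebra.EssFiniteType A S] :
    ∃ (σ : Finset S) (𝔭 : Ideal (MvPolynomial σ A)) (_ : 𝔭.IsPrime)
      (f : Localization.AtPrime 𝔭 →ₐ[A] S), Surjective f := by
  obtain ⟨σ, hσ⟩ := (Algebra.essFiniteType_iff A S).1 inferInstance
  let g : MvPolynomial σ A →ₐ[A] S := MvPolynomial.aeval fun i : σ => (i : S)
  have hg : ∀ s ∈ Algebra.adjoin A (σ : Set S), ∃ x, g x = s := by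
    intro s hs
    have h1 : Algebra.adjoin A (σ : Set S) = g.range := by
      rw [Algebra.adjoin_eq_range]
      rfl
    rw [h1] at hs
    exact hs
  let 𝔭 : Ideal (MvPolynomial σ A) := (maximalIdeal S).comap g
  have h𝔭 : 𝔭.IsPrime := Ideal.IsPrime.comap _
  have hunit : ∀ y : 𝔭.primeCompl, IsUnit (g y) := by
    intro y
    by_contra hcon
    exact y.2 ((mem_maximalIdeal _).2 hcon)
  let f : Localization.AtPrime 𝔭 →ₐ[A] S := IsLocalization.liftAlgHom (M := 𝔭.primeCompl)
    (S := Localization.AtPrime 𝔭) (f := g) hunit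
  have hf : ∀ x, f (algebraMap _ _ x) = g x := by
    intro x
    exact IsLocalization.lift_eq (S := Localization.AtPrime 𝔭) (g := (g : _ →+* S)) hunit x
  refine ⟨σ, 𝔭, h𝔭, f, ?_⟩
  intro s
  obtain ⟨t, ht, htu, hst⟩ := hσ s
  obtain ⟨a, ha⟩ := hg _ hst
  obtain ⟨b, hb⟩ := hg t ht
  have hb' : b ∈ 𝔭.primeCompl := by
    intro hb2
    have : g b ∈ maximalIdeal S := hb2
    rw [hb] at this
    exact this htu
  refine ⟨IsLocalization.mk' _ a (⟨b, hb'⟩ : 𝔭.primeCompl), ?_⟩
  have h2 := congrArg f (IsLocalization.mk'_spec (Localization.AtPrime 𝔭) a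
    (⟨b, hb'⟩ : 𝔭.primeCompl))
  rw [map_mul, hf, hf] at h2
  change _ * g b = g a at h2
  rw [ha, hb] at h2
  exact htu.mul_right_cancel h2

/-- Essentially smooth local algebras over a regular local ring are regular and flat. -/
theorem regular_flat_of_essSmooth (A S : Type u) [CommRing A] [CommRing S] [Algebra A S]
    [IsRegularLocalRing A] [IsLocalRing S] [Algebra.EssFiniteType A S]
    [Algebra.FormallySmooth A S] : IsRegularLocalRing S ∧ Module.Flat A S := by
  obtain ⟨σ, 𝔭, h𝔭, f, hf⟩ := exists_surjective_localization A S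
  have h1 : IsRegularRing A := isRegularRing_of_isRegularLocalRing A
  have h2 : IsRegularRing (MvPolynomial σ A) := inferInstance
  have h3 : IsRegularLocalRing (Localization.AtPrime 𝔭) :=
    h2.isRegularLocalRing_localization 𝔭
  refine ⟨(exists_regular_list_of_formallySmooth A _ S f hf).1, ?_⟩
  exact Algebra.FormallySmooth.flat_of_algHom_of_isNoetherianRing f hf

end ess

end Vale.Agent.P177
end
end

section

section

/-!
Heights of primes in polynomial rings: upper bound and the product bound.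
-/

namespace Vale.Agent.P177

open TensorProduct

universe u

theorem height_le_comap_C_add {R : Type u} [CommRing R] [IsNoetherianRing R] {σ : Type}
    [Fintype σ] (P : Ideal (MvPolynomial σ R)) [P.IsPrime] :
    P.height ≤ (P.comap MvPolynomial.C).height + Fintype.card σ := by
  let p : PrimeSpectrum R := ⟨P.comap (algebraMap R (MvPolynomial σ R)), Ideal.IsPrime.comap _⟩
  have m₁ : (⟨P, inferInstance⟩ : PrimeSpectrum (MvPolynomial σ R)) ∈
      PrimeSpectrum.comap (algebraMap R (MvPolynomial σ R)) ⁻¹' {p} := rfl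
  have i2 : P.LiesOver p.asIdeal := ⟨rfl⟩
  have h1 := Ideal.height_le_height_add_of_liesOver p.asIdeal P
  have h5 := height_quot_eq_fiber p ⟨P, inferInstance⟩ m₁
  have hG : IsNoetherianRing (p.asIdeal.Fiber (MvPolynomial σ R)) := isNoetherianRing_fiber p.asIdeal
  let e : p.asIdeal.Fiber (MvPolynomial σ R) ≃ₐ[p.asIdeal.ResidueField]
      MvPolynomial σ p.asIdeal.ResidueField := MvPolynomial.algebraTensorAlgEquiv _ _
  have h6 : ringKrullDim (p.asIdeal.Fiber (MvPolynomial σ R)) = Fintype.card σ := by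
    rw [ringKrullDim_eq_of_ringEquiv e.toRingEquiv, MvPolynomial.ringKrullDim_of_isNoetherianRing,
      ringKrullDim_eq_zero_of_field, zero_add, Nat.card_eq_fintype_card]
  have h7 : ((PrimeSpectrum.preimageOrderIsoFiber R (MvPolynomial σ R) p
      ⟨⟨P, inferInstance⟩, m₁⟩).asIdeal.height : WithBot ℕ∞) ≤ Fintype.card σ := by
    rw [← h6]
    exact Ideal.height_le_ringKrullDim_of_isPrime
  rw [← h5] at h7
  have h8 : (P.map (Ideal.Quotient.mk (p.asIdeal.map (algebraMap R (MvPolynomial σ R))))).height ≤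
      (Fintype.card σ : ℕ∞) := by exact_mod_cast h7
  exact h1.trans (add_le_add_right h8 _)

/-- The product bound for primes in a polynomial ring over a field. -/
theorem height_add_le_sum {k : Type u} [Field k] {σ τ : Type} [Fintype σ] [Fintype τ]
    (P : Ideal (MvPolynomial (σ ⊕ τ) k)) [P.IsPrime] :
    (P.comap (MvPolynomial.rename (R := k) (Sum.inl : σ → σ ⊕ τ))).height +
      (P.comap (MvPolynomial.rename (R := k) (Sum.inr : τ → σ ⊕ τ))).height ≤ P.height := by
  let e : MvPolynomial σ k ⊗[k] MvPolynomial τ k ≃ₐ[k] MvPolynomial (σ ⊕ τ) k :=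
    MvPolynomial.tensorEquivSum k σ τ k
  have hN : IsNoetherianRing (MvPolynomial σ k ⊗[k] MvPolynomial τ k) :=
    isNoetherianRing_of_ringEquiv _ e.symm.toRingEquiv
  let Q : Ideal (MvPolynomial σ k ⊗[k] MvPolynomial τ k) := P.comap (e : _ →+* _)
  have hQ : Q.IsPrime := Ideal.IsPrime.comap _
  have hht : Q.height = P.height := RingEquiv.height_comap e.toRingEquiv P
  have h := height_bound (A := k) (R₁ := MvPolynomial σ k) (R₂ := MvPolynomial τ k) Q
  have h0 : (Q.comap (algebraMap k (MvPolynomial σ k ⊗[k] MvPolynomial τ k))).height = 0 := by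
    have : (Q.comap (algebraMap k (MvPolynomial σ k ⊗[k] MvPolynomial τ k))).IsPrime :=
      Ideal.IsPrime.comap _
    rw [Ideal.eq_bot_of_prime (Q.comap (algebraMap k (MvPolynomial σ k ⊗[k] MvPolynomial τ k)))]
    exact Ideal.height_bot
  have h1 : (e : MvPolynomial σ k ⊗[k] MvPolynomial τ k →ₐ[k] MvPolynomial (σ ⊕ τ) k).comp
      (Algebra.TensorProduct.includeLeft) = MvPolynomial.rename (R := k) Sum.inl := by
    ext i
    simp [e]
  have h2 : (e : MvPolynomial σ k ⊗[k] MvPolynomial τ k →ₐ[k] MvPolynomial (σ ⊕ τ) k).comp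
      (Algebra.TensorProduct.includeRight) = MvPolynomial.rename (R := k) Sum.inr := by
    ext i
    simp [e]
  rw [h0, add_zero, hht] at h
  refine le_trans (le_of_eq ?_) h
  congr 2
  · ext x
    rw [Ideal.mem_comap, ← h1]
    rfl
  · ext x
    rw [Ideal.mem_comap, ← h2]
    rfl

end Vale.Agent.P177
end
end

section

section

/-!
The height inequality for a generic orthogonal transformation.
-/

namespace Vale.Agent.P177

open MvPolynomial TensorProduct

universe u

theorem flat_map_mvPolynomial {P K : Type u} [CommRing P] [CommRing K] [Algebra P K]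
    [Module.Flat P K] (σ : Type) :
    (MvPolynomial.map (algebraMap P K) : MvPolynomial σ P →+* MvPolynomial σ K).Flat := by
  have h1 := flat_includeRight P K (MvPolynomial σ P)
  let e : K ⊗[P] MvPolynomial σ P ≃ₐ[K] MvPolynomial σ K := MvPolynomial.algebraTensorAlgEquiv P K
  have h2 : (e : K ⊗[P] MvPolynomial σ P →+* MvPolynomial σ K).Flat :=
    RingHom.Flat.of_bijective e.bijective
  have h3 := h1.comp h2
  convert h3 using 1
  ext x
  · simp [e]
  · simp [e]

theorem flat_of_injective_field {P K : Type u} [CommRing P] [IsDomain P] [Field K] [Algebra P K]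
    (h : Function.Injective (algebraMap P K)) : Module.Flat P K := by
  have : FaithfulSMul P K := (faithfulSMul_iff_algebraMap_injective P K).2 h
  let _ : Algebra (FractionRing P) K := FractionRing.liftAlgebra P K
  have : IsScalarTower P (FractionRing P) K := FractionRing.isScalarTower_liftAlgebra P K
  have : Module.Flat P (FractionRing P) := IsLocalization.flat (FractionRing P) (nonZeroDivisors P)
  exact Module.Flat.trans P (FractionRing P) K

theorem height_orthogonal {k K : Type u} [Field k] [Field K] [Algebra k K] {d : ℕ}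
    (α : Fin d × Fin d → K)
    (hα : Function.Injective (aeval α : MvPolynomial (Fin d × Fin d) k →ₐ[k] K))
    (b c : Fin d → Fin d → k)
    (θ : Fin d → Fin d → K)
    (hθ : ∀ i m, θ i m - (if i = m then 1 else 0) = ∑ l, (α (i, l) - α (l, i)) *
      (algebraMap k K (b l m) + ∑ j, algebraMap k K (c l j) *
        (θ j m - (if j = m then 1 else 0))))
    (z : Ideal (MvPolynomial (Fin d) K)) [z.IsPrime] (hz : ∃ l,
      ∑ m, C (algebraMap k K (b l m)) * (X m : MvPolynomial (Fin d) K) ∉ z) :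
    (z.comap (aeval X : MvPolynomial (Fin d) k →ₐ[k] MvPolynomial (Fin d) K)).height +
      (z.comap (aeval (fun i => ∑ l, C (θ i l) * X l) :
        MvPolynomial (Fin d) k →ₐ[k] MvPolynomial (Fin d) K)).height ≤ z.height + 1 := by
  classical
  let h : Fin d → MvPolynomial (Fin d ⊕ Fin d) k := fun i => X (Sum.inl i) - X (Sum.inr i)
  let u : Fin d → MvPolynomial (Fin d ⊕ Fin d) k := fun l =>
    ∑ m, C (b l m) * X (Sum.inr m) + ∑ m, C (c l m) * h m
  let ψ₀ : MvPolynomial (Fin d ⊕ Fin d) k →ₐ[k] MvPolynomial (Fin d) K :=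
    aeval (Sum.elim (fun i => ∑ l, C (θ i l) * X l) X)
  let ψ : MvPolynomial (Fin d × Fin d) (MvPolynomial (Fin d ⊕ Fin d) k) →+*
      MvPolynomial (Fin d) K :=
    eval₂Hom (ψ₀ : MvPolynomial (Fin d ⊕ Fin d) k →+* MvPolynomial (Fin d) K) (fun p => C (α p))
  let Φ : MvPolynomial (Fin d ⊕ Fin d) K →ₐ[K] MvPolynomial (Fin d) K :=
    aeval (Sum.elim (fun i => ∑ l, C (θ i l) * X l) X)
  have hψl : ∀ i, ψ₀ (X (Sum.inl i)) = ∑ l, C (θ i l) * X l := fun i => aeval_X _ _
  have hψr : ∀ i, ψ₀ (X (Sum.inr i)) = X i := fun i => aeval_X _ _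
  have hψC : ∀ a : k, ψ₀ (C a) = C (algebraMap k K a) := by
    intro a
    exact aeval_C _ _
  have hdelta : ∀ i : Fin d, (X i : MvPolynomial (Fin d) K) =
      ∑ m, C (if i = m then (1 : K) else 0) * X m := by
    intro i
    rw [Finset.sum_eq_single i]
    · simp
    · intro m _ hm
      simp [Ne.symm hm]
    · simp
  have hψh : ∀ i, ψ₀ (h i) = ∑ m, C (θ i m - if i = m then 1 else 0) * X m := by
    intro i
    simp only [h, map_sub, hψl, hψr]
    conv_lhs => rw [hdelta i]
    rw [← Finset.sum_sub_distrib]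
    refine Finset.sum_congr rfl fun m _ => ?_
    ring
  have hψu' : ∀ l, ψ₀ (u l) = ∑ m, C (algebraMap k K (b l m)) * X m +
        ∑ j, C (algebraMap k K (c l j)) * ψ₀ (h j) := by
    intro l
    simp only [u, map_add, map_sum, map_mul, hψC, hψr]
  have hψu : ∀ l, ψ₀ (u l) = ∑ m, C (algebraMap k K (b l m) + ∑ j, algebraMap k K (c l j) *
      (θ j m - if j = m then 1 else 0)) * X m := by
    intro l
    rw [hψu']
    simp only [hψh, map_add, map_sum, add_mul, Finset.sum_add_distrib, Finset.mul_sum,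
      Finset.sum_mul, map_mul]
    congr 1
    rw [Finset.sum_comm]
    refine Finset.sum_congr rfl fun m _ => Finset.sum_congr rfl fun j _ => ?_
    ring
  have hψE : ∀ i, ψ (altElt h u i) = ψ₀ (h i) - ∑ l, C (α (i, l) - α (l, i)) * ψ₀ (u l) := by
    intro i
    simp [ψ, altElt]
  have hE : ∀ i, ψ (altElt h u i) = 0 := by
    intro i
    rw [hψE, hψh, sub_eq_zero]
    simp only [hψu, Finset.mul_sum]
    rw [Finset.sum_comm]
    refine Finset.sum_congr rfl fun m _ => ?_
    rw [hθ, map_sum, Finset.sum_mul]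
    refine Finset.sum_congr rfl fun l _ => ?_
    rw [map_mul, mul_assoc]
  -- some `u_j` is not in `z`
  obtain ⟨j, hj⟩ : ∃ j, ψ₀ (u j) ∉ z := by
    by_contra hcon
    push Not at hcon
    obtain ⟨l, hl⟩ := hz
    apply hl
    have h1 : ∀ i, ψ₀ (h i) ∈ z := by
      intro i
      have h2 := hE i
      rw [hψE, sub_eq_zero] at h2
      rw [h2]
      exact Ideal.sum_mem _ fun l _ => Ideal.mul_mem_left _ _ (hcon l)
    have h3 := hψu' l
    rw [← sub_eq_iff_eq_add] at h3
    rw [← h3]
    exact Ideal.sub_mem _ (hcon l) (Ideal.sum_mem _ fun l _ => Ideal.mul_mem_left _ _ (h1 l))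
  -- elimination
  have hZp : (z.comap ψ).IsPrime := Ideal.IsPrime.comap _
  have hψCC : ∀ x, ψ (C x) = ψ₀ x := fun x => by simp [ψ]
  have e1 := elim_main h u (z.comap ψ) (fun i => by
    rw [Ideal.mem_comap, hE]
    exact z.zero_mem) j (by
    rw [Ideal.mem_comap, hψCC]
    exact hj)
  have hc0 : (z.comap ψ).comap C = z.comap ψ₀ := by
    ext x
    change ψ (C x) ∈ z ↔ ψ₀ x ∈ z
    rw [hψCC]
  rw [hc0] at e1
  have hz0 : (z.comap ψ₀).IsPrime := Ideal.IsPrime.comap _
  have e2 := height_add_le_sum (z.comap ψ₀)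
  have hl : (z.comap ψ₀).comap (rename (R := k) (Sum.inl : Fin d → Fin d ⊕ Fin d)) =
      z.comap (aeval (fun i => ∑ l, C (θ i l) * X l) :
        MvPolynomial (Fin d) k →ₐ[k] MvPolynomial (Fin d) K) := by
    ext x
    change ψ₀ (rename Sum.inl x) ∈ z ↔ aeval (fun i => ∑ l, C (θ i l) * X l) x ∈ z
    rw [show ψ₀ (rename Sum.inl x) = aeval (fun i => ∑ l, C (θ i l) * X l) x by
      simp only [ψ₀, aeval_rename]
      rfl]
  have hr : (z.comap ψ₀).comap (rename (R := k) (Sum.inr : Fin d → Fin d ⊕ Fin d)) =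
      z.comap (aeval X : MvPolynomial (Fin d) k →ₐ[k] MvPolynomial (Fin d) K) := by
    ext x
    change ψ₀ (rename Sum.inr x) ∈ z ↔ aeval X x ∈ z
    rw [show ψ₀ (rename Sum.inr x) = aeval X x by
      simp only [ψ₀, aeval_rename]
      rfl]
  rw [hl, hr] at e2
  -- the upper bound
  have hz' : (z.comap Φ).IsPrime := Ideal.IsPrime.comap _
  have e3 : (z.comap ψ).height ≤ (z.comap Φ).height := by
    let _ : Algebra (MvPolynomial (Fin d × Fin d) k) K :=
      (aeval α : MvPolynomial (Fin d × Fin d) k →ₐ[k] K).toRingHom.toAlgebra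
    have hf : Module.Flat (MvPolynomial (Fin d × Fin d) k) K := flat_of_injective_field hα
    have f1 := flat_map_mvPolynomial (P := MvPolynomial (Fin d × Fin d) k) (K := K)
      (Fin d ⊕ Fin d)
    have f2 : (commAlgEquiv k (Fin d × Fin d) (Fin d ⊕ Fin d) :
        MvPolynomial (Fin d × Fin d) (MvPolynomial (Fin d ⊕ Fin d) k) →+*
          MvPolynomial (Fin d ⊕ Fin d) (MvPolynomial (Fin d × Fin d) k)).Flat :=
      RingHom.Flat.of_bijective (commAlgEquiv k (Fin d × Fin d) (Fin d ⊕ Fin d)).bijective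
    have f3 := f2.comp f1
    let g := (MvPolynomial.map (algebraMap (MvPolynomial (Fin d × Fin d) k) K)).comp
      (commAlgEquiv k (Fin d × Fin d) (Fin d ⊕ Fin d) :
        MvPolynomial (Fin d × Fin d) (MvPolynomial (Fin d ⊕ Fin d) k) →+*
          MvPolynomial (Fin d ⊕ Fin d) (MvPolynomial (Fin d × Fin d) k))
    let _ : Algebra (MvPolynomial (Fin d × Fin d) (MvPolynomial (Fin d ⊕ Fin d) k))
      (MvPolynomial (Fin d ⊕ Fin d) K) := g.toAlgebra
    have hfl : Module.Flat (MvPolynomial (Fin d × Fin d) (MvPolynomial (Fin d ⊕ Fin d) k))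
      (MvPolynomial (Fin d ⊕ Fin d) K) := f3
    have h1 := height_comap_le_of_flat
      (R := MvPolynomial (Fin d × Fin d) (MvPolynomial (Fin d ⊕ Fin d) k))
      (S := MvPolynomial (Fin d ⊕ Fin d) K) (z.comap Φ)
    have hg : (Φ : MvPolynomial (Fin d ⊕ Fin d) K →+* MvPolynomial (Fin d) K).comp g = ψ := by
      apply MvPolynomial.ringHom_ext
      · intro r
        have h2 : ((Φ : MvPolynomial (Fin d ⊕ Fin d) K →+* MvPolynomial (Fin d) K).comp g).comp C =
            (ψ₀ : MvPolynomial (Fin d ⊕ Fin d) k →+* MvPolynomial (Fin d) K) := by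
          apply MvPolynomial.ringHom_ext
          · intro a
            change Φ (MvPolynomial.map _ (commAlgEquiv k _ _ (C (C a)))) = ψ₀ (C a)
            rw [hψC, commAlgEquiv_C, map_C, map_C]
            rw [show algebraMap (MvPolynomial (Fin d × Fin d) k) K (C a) =
              algebraMap k K a from aeval_C _ _]
            exact aeval_C _ _
          · intro i
            change Φ (MvPolynomial.map _ (commAlgEquiv k _ _ (C (X i)))) = ψ₀ (X i)
            rw [commAlgEquiv_C, map_X, map_X]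
            rcases i with i | i
            · rw [hψl]
              exact aeval_X _ _
            · rw [hψr]
              exact aeval_X _ _
        have h3 := RingHom.congr_fun h2 r
        rw [hψCC]
        exact h3
      · intro p
        change Φ (MvPolynomial.map _ (commAlgEquiv k _ _ (X p))) = ψ (X p)
        rw [commAlgEquiv_X, map_C]
        rw [show algebraMap (MvPolynomial (Fin d × Fin d) k) K (X p) = α p from aeval_X _ _]
        rw [show ψ (X p) = C (α p) by simp [ψ]]
        exact aeval_C _ _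
    have h2 : (z.comap Φ).comap (algebraMap
        (MvPolynomial (Fin d × Fin d) (MvPolynomial (Fin d ⊕ Fin d) k))
        (MvPolynomial (Fin d ⊕ Fin d) K)) = z.comap ψ := by
      ext x
      rw [← hg]
      rfl
    rwa [h2] at h1
  have e4 : (z.comap Φ).height ≤ z.height + d := by
    let e := sumRingEquiv K (Fin d) (Fin d)
    let e' : MvPolynomial (Fin d) (MvPolynomial (Fin d) K) →+* MvPolynomial (Fin d ⊕ Fin d) K :=
      e.symm
    have hP' : ((z.comap Φ).comap e').IsPrime := Ideal.IsPrime.comap _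
    have h1 := height_le_comap_C_add ((z.comap Φ).comap e')
    have h2 : ((z.comap Φ).comap e').height = (z.comap Φ).height :=
      RingEquiv.height_comap e.symm _
    have h3 : (Φ : MvPolynomial (Fin d ⊕ Fin d) K →+* MvPolynomial (Fin d) K).comp
        (e'.comp C) = RingHom.id _ := by
      apply MvPolynomial.ringHom_ext
      · intro a
        change Φ (e.symm (C (C a))) = C a
        rw [show e.symm (C (C a)) = C a from sumRingEquiv_symm_C_C ..]
        exact aeval_C _ _
      · intro i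
        change Φ (e.symm (C (X i))) = X i
        rw [show e.symm (C (X i)) = X (Sum.inr i) from sumRingEquiv_symm_C_X ..]
        exact aeval_X _ _
    have h4 : ((z.comap Φ).comap e').comap C = z := by
      ext x
      have := RingHom.congr_fun h3 x
      change Φ (e.symm (C x)) ∈ z ↔ x ∈ z
      change Φ (e.symm (C x)) = x at this
      rw [this]
    rwa [h2, h4, Fintype.card_fin] at h1
  have hd : (d : ℕ∞) ≠ ⊤ := ENat.natCast_ne_top d
  have e5 : (z.comap (aeval X : MvPolynomial (Fin d) k →ₐ[k] MvPolynomial (Fin d) K)).height +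
      (z.comap (aeval (fun i => ∑ l, C (θ i l) * X l) :
        MvPolynomial (Fin d) k →ₐ[k] MvPolynomial (Fin d) K)).height + d ≤
      z.height + 1 + d := by
    calc _ ≤ (z.comap ψ₀).height + d := by
          rw [add_comm (Ideal.height _) (Ideal.height _)]
          exact add_le_add_left e2 _
      _ ≤ (z.comap ψ).height + 1 := e1
      _ ≤ (z.height + d) + 1 := add_le_add_left (e3.trans e4) 1
      _ = _ := by ring
  exact (ENat.add_le_add_iff_right hd).1 e5

end Vale.Agent.P177
end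
end

section

section

/-!
The ring `T` attached to a quadratic hypersurface.
-/

namespace Vale.Agent.P177

open TensorProduct IsLocalRing MvPolynomial RingTheory.Sequence

universe u

/-- The data attached to a hypersurface `G` in a regular local ring `B`. -/
structure QData (d : ℕ) (B Γ : Type u) [CommRing B] [IsRegularLocalRing B] [CommRing Γ]
    [IsRegularLocalRing Γ] where
  a₁ : B →+* Γ
  a₂ : B →+* Γ
  μ : Γ →+* B
  μ₁ : ∀ b, μ (a₁ b) = b
  μ₂ : ∀ b, μ (a₂ b) = b
  x : Fin d → B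
  G : B
  u : Fin d → Γ
  β : Matrix (Fin d) (Fin d) Γ
  γ : Matrix (Fin d) (Fin d) Γ
  dimB : ringKrullDim B = ((d + 1 : ℕ) : WithBot ℕ∞)
  dimΓ : ringKrullDim Γ = ((2 * d + 1 : ℕ) : WithBot ℕ∞)
  maxB : maximalIdeal B = Ideal.span {G} ⊔ Ideal.span (Set.range x)
  maxΓ : maximalIdeal Γ = Ideal.span {a₁ G} ⊔ Ideal.span (Set.range fun i => a₁ (x i)) ⊔
    Ideal.span (Set.range fun i => a₂ (x i) - a₁ (x i))
  hG : a₂ G = a₁ G - ∑ i, (a₂ (x i) - a₁ (x i)) * u i
  hu : ∀ i, u i = ∑ m, β i m * a₁ (x m) + ∑ m, γ i m * (a₂ (x m) - a₁ (x m))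
  diag : ∀ b, a₂ b - a₁ b ∈ Ideal.span (Set.range fun i => a₂ (x i) - a₁ (x i))

namespace QData

variable {d : ℕ} {B Γ : Type u} [CommRing B] [IsRegularLocalRing B] [CommRing Γ]
  [IsRegularLocalRing Γ] (D : QData d B Γ)

/-- The elements generating the diagonal ideal. -/
def h (i : Fin d) : Γ := D.a₂ (D.x i) - D.a₁ (D.x i)

/-- The data of the ring `T`. -/
structure TD (T : Type u) [CommRing T] [IsRegularLocalRing T] where
  f : MvPolynomial (Fin d × Fin d) Γ →+* T
  hE : ∀ i, f (altElt D.h D.u i) = 0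
  hG : f (C (D.a₁ D.G)) = 0
  maxT : maximalIdeal T = Ideal.span (Set.range fun i => f (C (D.a₁ (D.x i)))) ⊔
    Ideal.span (Set.range fun p => f (X p))
  dimT : ringKrullDim T = ((d + d * d : ℕ) : WithBot ℕ∞)
  ht : ∀ Q : Ideal T, Q.IsPrime → (Q.comap f).height ≤ Q.height + ((d + 1 : ℕ) : ℕ∞)
  ν : T →+* B ⧸ Ideal.span {D.G}
  hν : ∀ y, ν (f (C y)) = Ideal.Quotient.mk _ (D.μ y)
  hνX : ∀ p, ν (f (X p)) = 0

theorem h_eq {T : Type*} [CommRing T] (f : MvPolynomial (Fin d × Fin d) Γ →+* T)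
    (hE : ∀ i, f (altElt D.h D.u i) = 0) (i : Fin d) :
    f (C (D.h i)) = ∑ l, (f (X (i, l)) - f (X (l, i))) * f (C (D.u l)) := by
  have h1 := hE i
  rw [altElt, map_sub, sub_eq_zero, map_sum] at h1
  rw [h1]
  refine Finset.sum_congr rfl fun l _ => ?_
  rw [map_mul, map_sub]

theorem exists_nat_ringKrullDim (T : Type*) [CommRing T] [IsLocalRing T] [IsNoetherianRing T] :
    ∃ t : ℕ, ringKrullDim T = (t : WithBot ℕ∞) := by
  have h1 := Ideal.height_ne_top_of_isPrime (I := maximalIdeal T)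
  lift (maximalIdeal T).height to ℕ using h1 with t ht
  refine ⟨t, ?_⟩
  rw [← IsLocalRing.maximalIdeal_height_eq_ringKrullDim, ← ht]
  rfl

theorem exists_TD : ∃ (T : Type u) (_ : CommRing T) (_ : IsRegularLocalRing T),
    Nonempty (D.TD T) := by
  let E : Fin (d + 1) → MvPolynomial (Fin d × Fin d) Γ :=
    Fin.cons (C (D.a₁ D.G)) (altElt D.h D.u)
  have hE0 : E 0 = C (D.a₁ D.G) := rfl
  have hEs : ∀ i : Fin d, E i.succ = altElt D.h D.u i := fun i => rfl
  have hh : ∀ i, D.h i ∈ maximalIdeal Γ := by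
    intro i
    rw [D.maxΓ]
    exact Ideal.mem_sup_right (Ideal.subset_span ⟨i, rfl⟩)
  have hcE : ∀ i, constantCoeff (altElt D.h D.u i) = D.h i := by
    intro i
    simp [altElt]
  obtain ⟨T, _, _, _, f, h1, h2, h3, h4, h5⟩ := exists_local_quotient (Γ := Γ) (Fin d × Fin d)
    (2 * d + 1) D.dimΓ (d + 1) E (by
      intro i
      refine Fin.cases ?_ (fun i => ?_) i
      · rw [hE0, constantCoeff_C, D.maxΓ]
        exact Ideal.mem_sup_left (Ideal.mem_sup_left (Ideal.subset_span rfl))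
      · rw [hEs, hcE]
        exact hh i)
  have fG : f (C (D.a₁ D.G)) = 0 := h1 0
  have fE : ∀ i, f (altElt D.h D.u i) = 0 := fun i => h1 i.succ
  have hmax : maximalIdeal T = Ideal.span (Set.range fun i => f (C (D.a₁ (D.x i)))) ⊔
      Ideal.span (Set.range fun p => f (X p)) := by
    rw [h2, D.maxΓ, Ideal.map_sup, Ideal.map_sup, Ideal.map_span, Ideal.map_span, Ideal.map_span,
      Set.image_singleton, RingHom.comp_apply, fG, Ideal.span_singleton_eq_bot.2 rfl, bot_sup_eq,
      ← Set.range_comp, ← Set.range_comp]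
    refine le_antisymm ?_ ?_
    · refine sup_le (sup_le ?_ ?_) le_sup_right
      · exact le_sup_left
      · refine le_sup_of_le_right ?_
        rw [Ideal.span_le]
        rintro _ ⟨i, rfl⟩
        change f (C (D.h i)) ∈ _
        rw [D.h_eq f fE i]
        exact Ideal.sum_mem _ fun l _ => Ideal.mul_mem_right _ _
          (Ideal.sub_mem _ (Ideal.subset_span ⟨_, rfl⟩) (Ideal.subset_span ⟨_, rfl⟩))
    · exact sup_le_sup_right le_sup_left _
  obtain ⟨t, ht⟩ := exists_nat_ringKrullDim T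
  have hcard : Fintype.card (Fin d × Fin d) = d * d := by simp
  rw [ht, hcard] at h3
  have h3' : 2 * d + 1 + d * d ≤ t + (d + 1) := by exact_mod_cast h3
  let rs : List T := List.ofFn (fun i => f (C (D.a₁ (D.x i)))) ++
    (Finset.univ : Finset (Fin d × Fin d)).toList.map (fun p => f (X p))
  have hrs : Ideal.ofList rs = maximalIdeal T := by
    rw [Ideal.ofList_append, hmax]
    congr 1
    · rw [Ideal.ofList]
      congr 1
      ext y
      simp [List.mem_ofFn]
    · rw [Ideal.ofList]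
      congr 1
      ext y
      simp
  have hrl : rs.length = d + d * d := by
    simp [rs]
  obtain ⟨hreg, hdim⟩ := isRegularLocalRing_of_list rs hrs (by
    rw [ht, hrl]
    exact_mod_cast (by omega : d + d * d ≤ t))
  let φ : MvPolynomial (Fin d × Fin d) Γ →+* B ⧸ Ideal.span {D.G} :=
    eval₂Hom ((Ideal.Quotient.mk _).comp D.μ) (fun _ => 0)
  have hφ : ∀ p, φ p = Ideal.Quotient.mk _ (D.μ (constantCoeff p)) := by
    intro p
    have h6 : φ = ((Ideal.Quotient.mk _).comp D.μ).comp constantCoeff := by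
      apply MvPolynomial.ringHom_ext
      · intro a
        simp [φ]
      · intro p
        simp [φ]
    rw [h6]
    rfl
  obtain ⟨ν, hν⟩ := h5 (B ⧸ Ideal.span {D.G}) φ (by
    intro i
    rw [hφ]
    refine Fin.cases ?_ (fun i => ?_) i
    · rw [hE0, constantCoeff_C, D.μ₁]
      exact Ideal.Quotient.eq_zero_iff_mem.2 (Ideal.subset_span rfl)
    · rw [hEs, hcE, QData.h, map_sub, D.μ₁, D.μ₂, sub_self, map_zero]) (by
    intro p hp
    rw [hφ]
    rw [mem_maximalIdeal, mem_nonunits_iff, not_not] at hp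
    exact (hp.map D.μ).map _)
  refine ⟨T, inferInstance, hreg, ⟨{
    f := f
    hE := fE
    hG := fG
    maxT := hmax
    dimT := by rw [hdim, hrl]
    ht := h4
    ν := ν
    hν := fun y => ?_
    hνX := fun p => ?_ }⟩⟩
  · have := RingHom.congr_fun hν (C y)
    rw [RingHom.comp_apply, hφ, constantCoeff_C] at this
    exact this
  · have := RingHom.congr_fun hν (X p)
    rw [RingHom.comp_apply, hφ, constantCoeff_X, map_zero, map_zero] at this
    exact this

end QData

end Vale.Agent.P177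
end
end

section

section

/-!
The local contributions, with a local hypothesis at one prime only.
-/

namespace Vale.Agent.P177

open CategoryTheory TensorProduct Function IsLocalRing RingTheory.Sequence Pointwise

universe u

section

variable {R₁ R₂ T : Type u} [CommRing R₁] [CommRing R₂] [CommRing T]
    [IsRegularLocalRing R₁] [IsRegularLocalRing R₂] [IsRegularLocalRing T]
    [Algebra R₁ T] [Algebra R₂ T] [Module.Flat R₁ T] [Module.Flat R₂ T]

variable (R₁ R₂) in
/-- Local positivity at the prime `Q`. -/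
def LocPosAt (N M : Type u) [AddCommGroup N] [Module R₁ N] [AddCommGroup M] [Module R₂ M]
    (Q : Ideal T) [Q.IsPrime] : Prop :=
  ∀ (L₁ L₂ : Type u) [CommRing L₁] [CommRing L₂] [Algebra R₁ L₁] [Algebra R₂ L₂]
    [Algebra L₁ (Localization.AtPrime Q)] [Algebra L₂ (Localization.AtPrime Q)],
    LocData R₁ T Q L₁ → LocData R₂ T Q L₂ →
    ∀ (r₁ r₂ q b : ℕ), ringKrullDim L₁ = r₁ → ringKrullDim L₂ = r₂ →
    ringKrullDim (Localization.AtPrime Q) = q → r₁ + r₂ = q + b →
    FP L₁ L₂ (Localization.AtPrime Q) (L₁ ⊗[R₁] N) (L₂ ⊗[R₂] M) →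
    (∀ e g : ℕ, (e : WithBot ℕ∞) ≤ Module.supportDim L₁ (L₁ ⊗[R₁] N) →
      (g : WithBot ℕ∞) ≤ Module.supportDim L₂ (L₂ ⊗[R₂] M) → e + g ≤ b) ∧
    0 ≤ eulerTor (Localization.AtPrime Q) (q + 1) (Localization.AtPrime Q ⊗[L₁] (L₁ ⊗[R₁] N))
      (Localization.AtPrime Q ⊗[L₂] (L₂ ⊗[R₂] M)) ∧
    (∀ e g : ℕ, (e : WithBot ℕ∞) ≤ Module.supportDim L₁ (L₁ ⊗[R₁] N) →
      (g : WithBot ℕ∞) ≤ Module.supportDim L₂ (L₂ ⊗[R₂] M) → b ≤ e + g →
      0 < eulerTor (Localization.AtPrime Q) (q + 1)
        (Localization.AtPrime Q ⊗[L₁] (L₁ ⊗[R₁] N)) (Localization.AtPrime Q ⊗[L₂] (L₂ ⊗[R₂] M)))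

theorem locPosAt_of_locPos (a : ℕ) (hLoc : LocPos.{u} a) (N M : Type u) [AddCommGroup N]
    [Module R₁ N] [Module.Finite R₁ N] [AddCommGroup M] [Module R₂ M] [Module.Finite R₂ M]
    (Q : Ideal T) [Q.IsPrime]
    (hb : ∀ (r₁ r₂ q : ℕ), (Q.comap (algebraMap R₁ T)).height = r₁ →
      (Q.comap (algebraMap R₂ T)).height = r₂ → Q.height = q → r₁ + r₂ ≤ q + a) :
    LocPosAt (T := T) R₁ R₂ N M Q := by
  intro L₁ L₂ _ _ _ _ _ _ D₁ D₂ r₁ r₂ q b h₁ h₂ hq hrb hFP
  have i0 : IsRegularLocalRing (Localization.AtPrime Q) :=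
    isRegularLocalRing_localization T Q (Localization.AtPrime Q)
  have i1 := D₁.reg
  have i2 := D₂.reg
  have i3 := D₁.flat
  have i4 := D₂.flat
  have i5 := D₁.loc
  have i6 := D₂.loc
  have k₁ : (Q.comap (algebraMap R₁ T)).height = r₁ := by
    have := D₁.dim
    rw [h₁] at this
    exact_mod_cast this.symm
  have k₂ : (Q.comap (algebraMap R₂ T)).height = r₂ := by
    have := D₂.dim
    rw [h₂] at this
    exact_mod_cast this.symm
  have kq : Q.height = q := by
    have := IsLocalization.AtPrime.ringKrullDim_eq_height Q (Localization.AtPrime Q)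
    rw [hq] at this
    exact_mod_cast this.symm
  have hb' := hb r₁ r₂ q k₁ k₂ kq
  exact hLoc L₁ L₂ (Localization.AtPrime Q) r₁ r₂ q b h₁ h₂ hq hrb (by omega)
    (L₁ ⊗[R₁] N) (L₂ ⊗[R₂] M) hFP

theorem local_value_of_loc (N M : Type u) [AddCommGroup N] [Module R₁ N]
    [Module.Finite R₁ N] [AddCommGroup M] [Module R₂ M] [Module.Finite R₂ M]
    (Q : Ideal T) [hQp : Q.IsPrime]
    (hQ : Q ∈ ((Module.annihilator R₁ N).map (algebraMap R₁ T) ⊔
      (Module.annihilator R₂ M).map (algebraMap R₂ T)).minimalPrimes)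
    (r₁ r₂ q : ℕ) (h₁ : (Q.comap (algebraMap R₁ T)).height = r₁)
    (h₂ : (Q.comap (algebraMap R₂ T)).height = r₂) (hq : Q.height = q)
    (H : LocPosAt (T := T) R₁ R₂ N M Q) (n : ℕ) (hn : q + 1 ≤ n) :
    ∃ b : ℕ, r₁ + r₂ = q + b ∧ 0 ≤ locEul Q n (T ⊗[R₁] N) (T ⊗[R₂] M) ∧
      ∀ (P₁ P₂ : ℕ) (p₁ : PrimeSpectrum R₁) (p₂ : PrimeSpectrum R₂), p₁ ∈ Module.support R₁ N →
        p₂ ∈ Module.support R₂ M → p₁.asIdeal ≤ Q.comap (algebraMap R₁ T) →
        p₂.asIdeal ≤ Q.comap (algebraMap R₂ T) → p₁.asIdeal.height = P₁ →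
        p₂.asIdeal.height = P₂ →
        (r₁ - P₁) + (r₂ - P₂) ≤ b ∧ (b ≤ (r₁ - P₁) + (r₂ - P₂) →
          0 < locEul Q n (T ⊗[R₁] N) (T ⊗[R₂] M)) := by
  have hUreg : IsRegularLocalRing (Localization.AtPrime Q) :=
    isRegularLocalRing_localization T Q (Localization.AtPrime Q)
  obtain ⟨L₁, _, _, _, D₁⟩ := exists_locData R₁ T Q
  obtain ⟨L₂, _, _, _, D₂⟩ := exists_locData R₂ T Q
  have i1 := D₁.reg
  have i2 := D₂.reg
  have i3 := D₁.flat
  have i4 := D₂.flat
  have i5 := D₁.loc
  have i6 := D₂.loc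
  have i7 := D₁.isloc
  have i8 := D₂.isloc
  have i9 := D₁.tower
  have i10 := D₂.tower
  have d₁ : ringKrullDim L₁ = r₁ := by rw [D₁.dim, h₁]; rfl
  have d₂ : ringKrullDim L₂ = r₂ := by rw [D₂.dim, h₂]; rfl
  have dU : ringKrullDim (Localization.AtPrime Q) = q := by
    rw [IsLocalization.AtPrime.ringKrullDim_eq_height Q, hq]; rfl
  -- the radical condition
  have hrad := maximalIdeal_le_radical_of_minimal _ Q hQ
  have hmap₁ : ∀ I : Ideal R₁, (I.map (algebraMap R₁ T)).map
      (algebraMap T (Localization.AtPrime Q)) =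
      (I.map (algebraMap R₁ L₁)).map (algebraMap L₁ (Localization.AtPrime Q)) := by
    intro I
    rw [Ideal.map_map, Ideal.map_map, ← IsScalarTower.algebraMap_eq,
      ← IsScalarTower.algebraMap_eq]
  have hmap₂ : ∀ I : Ideal R₂, (I.map (algebraMap R₂ T)).map
      (algebraMap T (Localization.AtPrime Q)) =
      (I.map (algebraMap R₂ L₂)).map (algebraMap L₂ (Localization.AtPrime Q)) := by
    intro I
    rw [Ideal.map_map, Ideal.map_map, ← IsScalarTower.algebraMap_eq,
      ← IsScalarTower.algebraMap_eq]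
  rw [Ideal.map_sup, hmap₁, hmap₂] at hrad
  have hFP : FP L₁ L₂ (Localization.AtPrime Q) (L₁ ⊗[R₁] N) (L₂ ⊗[R₂] M) := by
    unfold FP
    refine hrad.trans (Ideal.radical_mono (sup_le_sup ?_ ?_))
    · exact Ideal.map_mono (map_annihilator_le N)
    · exact Ideal.map_mono (map_annihilator_le M)
  -- dimension bound
  have hle₁ : (Module.annihilator R₁ N).map (algebraMap R₁ L₁) ≤ maximalIdeal L₁ := by
    rw [← IsLocalization.AtPrime.map_eq_maximalIdeal (Q.comap (algebraMap R₁ T)) L₁]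
    apply Ideal.map_mono
    rw [← Ideal.map_le_iff_le_comap]
    exact le_sup_left.trans hQ.1.2
  have hle₂ : (Module.annihilator R₂ M).map (algebraMap R₂ L₂) ≤ maximalIdeal L₂ := by
    rw [← IsLocalization.AtPrime.map_eq_maximalIdeal (Q.comap (algebraMap R₂ T)) L₂]
    apply Ideal.map_mono
    rw [← Ideal.map_le_iff_le_comap]
    exact le_sup_right.trans hQ.1.2
  have hdim := ringKrullDim_le_add_of_radical L₁ L₂ (Localization.AtPrime Q) r₁ r₂ d₁ d₂
    (hrad.trans (Ideal.radical_mono (sup_le_sup (Ideal.map_mono hle₁) (Ideal.map_mono hle₂))))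
  rw [dU] at hdim
  have hqle : q ≤ r₁ + r₂ := by exact_mod_cast hdim
  obtain ⟨b, hbq⟩ := Nat.exists_eq_add_of_le hqle
  obtain ⟨c1, c2, c3⟩ := H L₁ L₂ D₁ D₂ r₁ r₂ q b d₁ d₂ dU hbq hFP
  -- comparison
  obtain ⟨e₁⟩ := exists_cancel_loc (R := R₁) (T := T) Q L₁ N
  obtain ⟨e₂⟩ := exists_cancel_loc (R := R₂) (T := T) Q L₂ M
  have hval : locEul Q n (T ⊗[R₁] N) (T ⊗[R₂] M) =
      eulerTor (Localization.AtPrime Q) (q + 1) (Localization.AtPrime Q ⊗[L₁] (L₁ ⊗[R₁] N))
        (Localization.AtPrime Q ⊗[L₂] (L₂ ⊗[R₂] M)) := by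
    rw [locEul_eq, eulerTor_congr e₁ e₂]
    apply eulerTor_shrink _ _ _ _ hn
    intro j hj
    exact regular_tor_vanish _ q dU _ _ j hj
  rw [hval]
  refine ⟨b, hbq, c2, ?_⟩
  intro P₁ P₂ p₁ p₂ hp₁ hp₂ hp₁Q hp₂Q hP₁ hP₂
  have k₁ := le_supportDim_localization R₁ (Q.comap (algebraMap R₁ T)) p₁.asIdeal hp₁Q L₁ N hp₁
    r₁ P₁ h₁ hP₁
  have k₂ := le_supportDim_localization R₂ (Q.comap (algebraMap R₂ T)) p₂.asIdeal hp₂Q L₂ M hp₂
    r₂ P₂ h₂ hP₂
  exact ⟨c1 _ _ k₁ k₂, c3 _ _ k₁ k₂⟩

end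

end Vale.Agent.P177
end
end

section

section

/-!
Systems of parameters and the height inequality for a pair of maps of regular local rings whose
maximal ideals generate the maximal ideal of the target.
-/

namespace Vale.Agent.P177

open IsLocalRing RingTheory.Sequence Function

universe u

/-- Parameters for a quotient of a noetherian local ring. -/
theorem exists_parameters {R : Type u} [CommRing R] [IsLocalRing R] [IsNoetherianRing R]
    (P : Ideal R) (hP : P ≠ ⊤) (n : ℕ) (hn : Module.supportDim R (R ⧸ P) = (n : WithBot ℕ∞)) :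
    ∃ xs : List R, xs.length = n ∧ (∀ x ∈ xs, x ∈ maximalIdeal R) ∧
      maximalIdeal R ≤ (P ⊔ Ideal.ofList xs).radical := by
  have hnt : Nontrivial (R ⧸ P) := Ideal.Quotient.nontrivial_iff.2 hP
  have hloc : IsLocalRing (R ⧸ P) :=
    .of_surjective' (Ideal.Quotient.mk P) Ideal.Quotient.mk_surjective
  obtain ⟨s, hs, hcard⟩ :=
    Ideal.exists_finset_card_eq_height_of_isNoetherianRing (maximalIdeal (R ⧸ P))
  have hdim : ((maximalIdeal (R ⧸ P)).height : WithBot ℕ∞) = (n : WithBot ℕ∞) := by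
    rw [IsLocalRing.maximalIdeal_height_eq_ringKrullDim, ← hn,
      Module.supportDim_quotient_eq_ringKrullDim]
  have hcard' : s.card = n := by
    have h1 : ((s.card : ℕ∞) : WithBot ℕ∞) = (n : WithBot ℕ∞) := by rw [hcard, hdim]
    exact_mod_cast h1
  have hrad : maximalIdeal (R ⧸ P) ≤ (Ideal.span (s : Set (R ⧸ P))).radical := by
    rw [Ideal.radical_eq_sInf]
    refine le_sInf ?_
    rintro q ⟨hq1, hq⟩
    exact hs.2 ⟨hq, hq1⟩ (le_maximalIdeal hq.ne_top)
  refine ⟨s.toList.map (surjInv (Ideal.Quotient.mk_surjective (I := P))), by simpa using hcard',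
    ?_, ?_⟩
  · intro x hx
    rw [List.mem_map] at hx
    obtain ⟨y, hy, rfl⟩ := hx
    have hy' : y ∈ maximalIdeal (R ⧸ P) := hs.1.2 (Ideal.subset_span (by simpa using hy))
    rw [mem_maximalIdeal, mem_nonunits_iff]
    intro hu
    rw [mem_maximalIdeal, mem_nonunits_iff] at hy'
    apply hy'
    rw [← surjInv_eq (Ideal.Quotient.mk_surjective (I := P)) y]
    exact hu.map _
  intro x hx
  have h1 : Ideal.Quotient.mk P x ∈ maximalIdeal (R ⧸ P) := by
    have h2 : (maximalIdeal R).map (Ideal.Quotient.mk P) = maximalIdeal (R ⧸ P) :=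
      map_maximalIdeal_of_surjective _ Ideal.Quotient.mk_surjective
    rw [← h2]
    exact Ideal.mem_map_of_mem _ hx
  obtain ⟨k, hk⟩ := hrad h1
  refine ⟨k, ?_⟩
  have h3 : Ideal.span (s : Set (R ⧸ P)) ≤ (Ideal.ofList (s.toList.map
      (surjInv (Ideal.Quotient.mk_surjective (I := P))))).map (Ideal.Quotient.mk P) := by
    rw [Ideal.span_le]
    intro y hy
    rw [← surjInv_eq (Ideal.Quotient.mk_surjective (I := P)) y]
    apply Ideal.mem_map_of_mem
    apply Ideal.subset_span
    exact List.mem_map.2 ⟨y, by simpa using hy, rfl⟩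
  have h4 := h3 hk
  rw [← map_pow, Ideal.mem_map_iff_of_surjective _ Ideal.Quotient.mk_surjective] at h4
  obtain ⟨y, hy, hxy⟩ := h4
  rw [eq_comm, Ideal.Quotient.mk_eq_mk_iff_sub_mem] at hxy
  have h5 := Ideal.add_mem _ (Ideal.mem_sup_left hxy) (Ideal.mem_sup_right hy)
  rwa [sub_add_cancel] at h5

/-- Height inequality. -/
theorem height_le_of_sup {R T : Type u} [CommRing R] [CommRing T] [IsRegularLocalRing R]
    [IsRegularLocalRing T] (i₁ i₂ : R →+* T) {d t a : ℕ} (hd : ringKrullDim R = d)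
    (ht : ringKrullDim T = t)
    (hsup : (maximalIdeal R).map i₁ ⊔ (maximalIdeal R).map i₂ = maximalIdeal T)
    (ha : 2 * d ≤ t + a) (Q : Ideal T) [hQ : Q.IsPrime] (r₁ r₂ q : ℕ)
    (h1 : (Q.comap i₁).height = r₁) (h2 : (Q.comap i₂).height = r₂) (hq : Q.height = q) :
    r₁ + r₂ ≤ q + a := by
  obtain ⟨zs, -, -, hzl, hzh, hzd, -⟩ := exists_ci ht Q
  obtain ⟨ws, -, -, hwl, hwh, hwd, -⟩ := exists_ci hd (Q.comap i₁)
  obtain ⟨vs, -, -, hvl, hvh, hvd, -⟩ := exists_ci hd (Q.comap i₂)
  obtain ⟨xs, hxl, hxm, hx⟩ := exists_parameters (Q.comap i₁)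
    (Ideal.comap_ne_top i₁ hQ.ne_top) _ hwd
  obtain ⟨ys, hyl, hym, hy⟩ := exists_parameters (Q.comap i₂)
    (Ideal.comap_ne_top i₂ hQ.ne_top) _ hvd
  have hcov : ∀ (i : R →+* T) (us : List R),
      maximalIdeal R ≤ (Q.comap i ⊔ Ideal.ofList us).radical →
      (maximalIdeal R).map i ≤ (Q ⊔ Ideal.ofList (us.map i)).radical := by
    intro i us hus
    refine (Ideal.map_mono hus).trans ((Ideal.map_radical_le _).trans (Ideal.radical_mono ?_))
    rw [Ideal.map_sup]
    refine sup_le_sup Ideal.map_comap_le ?_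
    rw [Ideal.map_ofList]
  have hFL : FL (xs.map i₁ ++ ys.map i₂) (T ⧸ Q) := by
    unfold FL
    rw [Ideal.annihilator_quotient]
    refine hsup.ge.trans (sup_le ((hcov i₁ xs hx).trans (Ideal.radical_mono ?_))
      ((hcov i₂ ys hy).trans (Ideal.radical_mono ?_)))
    · rw [Ideal.ofList_append]
      exact sup_le_sup le_rfl le_sup_left
    · rw [Ideal.ofList_append]
      exact sup_le_sup le_rfl le_sup_right
  have hmem : ∀ z ∈ xs.map i₁ ++ ys.map i₂, z ∈ maximalIdeal T := by
    intro z hz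
    rw [List.mem_append, List.mem_map, List.mem_map] at hz
    rw [← hsup]
    rcases hz with ⟨x, hx, rfl⟩ | ⟨y, hy, rfl⟩
    · exact Ideal.mem_sup_left (Ideal.mem_map_of_mem _ (hxm x hx))
    · exact Ideal.mem_sup_right (Ideal.mem_map_of_mem _ (hym y hy))
  have hle := supportDim_le_length _ hmem _ hFL
  rw [hzd, List.length_append, List.length_map, List.length_map, hxl, hyl] at hle
  have hle' : t - zs.length ≤ (d - ws.length) + (d - vs.length) := by exact_mod_cast hle
  rw [h1] at hwh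
  rw [h2] at hvh
  rw [hq] at hzh
  have e1 : r₁ = ws.length := by exact_mod_cast hwh
  have e2 : r₂ = vs.length := by exact_mod_cast hvh
  have e3 : q = zs.length := by exact_mod_cast hzh
  omega

end Vale.Agent.P177
end
end

section

section

/-! Data for the reduction to the diagonal. -/

namespace Vale.Agent.P177

open IsLocalRing RingTheory.Sequence

universe u

/-- Data for the reduction to the diagonal. -/
structure DiagData (S B : Type u) [CommRing S] [IsLocalRing S] [CommRing B] (d : ℕ) where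
  i₁ : S →+* B
  i₂ : S →+* B
  flat₁ : i₁.Flat
  flat₂ : i₂.Flat
  μ : B →+* S
  μ_i₁ : μ.comp i₁ = RingHom.id S
  μ_i₂ : μ.comp i₂ = RingHom.id S
  ρ : B →+* S
  ρ_i₁ : ρ.comp i₁ = RingHom.id S
  ker_ρ : RingHom.ker ρ = (maximalIdeal S).map i₂
  δ : List B
  length_δ : δ.length = d
  ker_μ : RingHom.ker μ = Ideal.ofList δ
  regular_δ : IsRegular B δ

end Vale.Agent.P177
end
end

section

section

/-! Reduction to the diagonal for power series rings over a field. -/

namespace Vale.Agent.P177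

open IsLocalRing RingTheory.Sequence

/-- Kernel of a retraction of local rings. -/
theorem ker_le_of_retraction {S B : Type*} [CommRing S] [IsLocalRing S]
    [IsAdicComplete (maximalIdeal S) S] [CommRing B] [IsLocalRing B] [IsNoetherianRing B]
    (i : S →+* B) (π : B →+* S) (hπ : π.comp i = RingHom.id S) (J : Ideal B)
    (hJ : J ≤ RingHom.ker π) (hm : (maximalIdeal S).map i ⊔ J = maximalIdeal B)
    (hres : ∀ b : B, ∃ s : S, b - i s ∈ maximalIdeal B) : RingHom.ker π = J := by
  apply le_antisymm _ hJ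
  have hJm : J ≤ maximalIdeal B := hm ▸ le_sup_right
  have hnt : Nontrivial (B ⧸ J) :=
    Ideal.Quotient.nontrivial_iff.mpr (fun h => (maximalIdeal.isMaximal B).ne_top
      (top_le_iff.mp (h ▸ hJm)))
  have hloc : IsLocalRing (B ⧸ J) :=
    IsLocalRing.of_surjective' (Ideal.Quotient.mk J) Ideal.Quotient.mk_surjective
  let f : S →+* B ⧸ J := (Ideal.Quotient.mk J).comp i
  have hmap : (maximalIdeal S).map f = (maximalIdeal B).map (Ideal.Quotient.mk J) := by
    rw [← Ideal.map_map, ← hm, Ideal.map_sup, Ideal.map_quotient_self, sup_bot_eq]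
  have hle : (maximalIdeal B).map (Ideal.Quotient.mk J) ≤ maximalIdeal (B ⧸ J) := by
    rw [Ideal.map_le_iff_le_comap]
    intro b hb hu
    obtain ⟨u, hu⟩ := hu
    obtain ⟨c, hc⟩ := Ideal.Quotient.mk_surjective (u⁻¹ : (B ⧸ J)ˣ).val
    have h1 : b * c - 1 ∈ J := by
      rw [← Ideal.Quotient.mk_eq_mk_iff_sub_mem, map_mul, hc, ← hu, Units.mul_inv, map_one]
    have h2 : (1 : B) ∈ maximalIdeal B := by
      have h3 := Ideal.sub_mem _ (Ideal.mul_mem_right c _ hb) (hJm h1)
      rwa [sub_sub_cancel] at h3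
    exact (maximalIdeal.isMaximal B).ne_top (Ideal.eq_top_of_isUnit_mem _ h2 isUnit_one)
  have hH : IsHausdorff ((maximalIdeal S).map f) (B ⧸ J) := by
    rw [hmap]
    refine IsHausdorff.of_isLocalRing _ _ (fun h => ?_)
    rw [h] at hle
    exact (maximalIdeal.isMaximal (B ⧸ J)).ne_top (top_le_iff.mp hle)
  have hsurj : Function.Surjective f := by
    apply surjective_of_mk_map_comp_surjective (I := maximalIdeal S) f
    intro y
    obtain ⟨y, rfl⟩ := Ideal.Quotient.mk_surjective y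
    obtain ⟨b, rfl⟩ := Ideal.Quotient.mk_surjective y
    obtain ⟨s, hs⟩ := hres b
    refine ⟨s, ?_⟩
    rw [RingHom.comp_apply, Ideal.Quotient.mk_eq_mk_iff_sub_mem, hmap, ← neg_mem_iff, neg_sub]
    exact Ideal.mem_map_of_mem _ hs
  intro b hb
  obtain ⟨s, hs⟩ := hsurj (Ideal.Quotient.mk J b)
  have h1 : i s - b ∈ J := by
    rw [← Ideal.Quotient.mk_eq_mk_iff_sub_mem]
    exact hs
  have h2 : π (i s - b) = 0 := hJ h1
  have h3 : π (i s) = s := RingHom.congr_fun hπ s
  rw [map_sub, h3, RingHom.mem_ker.mp hb, sub_zero] at h2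
  rw [h2, map_zero, zero_sub, neg_mem_iff] at h1
  exact h1

section

variable (k : Type*) [Field k] (d : ℕ)

/-- The diagonal elements. -/
noncomputable def diagList : List (MvPowerSeries (Fin d ⊕ Fin d) k) :=
  List.ofFn (fun j : Fin d => MvPowerSeries.X (Sum.inl j) - MvPowerSeries.X (Sum.inr j))

theorem ofList_diagList : Ideal.ofList (diagList k d) =
    Ideal.span (Set.range (fun j : Fin d =>
      (MvPowerSeries.X (Sum.inl j) - MvPowerSeries.X (Sum.inr j) :
        MvPowerSeries (Fin d ⊕ Fin d) k))) := by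
  rw [Ideal.ofList, diagList]
  congr 1
  ext x
  simp only [List.mem_ofFn, Set.mem_ofPred_eq, Set.mem_range]

theorem map_maximalIdeal_rename (e : Fin d ↪ Fin d ⊕ Fin d)
    [IsLocalRing (MvPowerSeries (Fin d) k)] :
    (maximalIdeal (MvPowerSeries (Fin d) k)).map (MvPowerSeries.rename (R := k) e).toRingHom =
      Ideal.span (Set.range (fun j : Fin d => MvPowerSeries.X (e j))) := by
  rw [mvPowerSeries_maximalIdeal, Ideal.map_span, ← Set.range_comp]
  congr 2
  ext1 j
  exact MvPowerSeries.rename_X e j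

theorem sub_C_mem (σ : Type*) [Finite σ] [IsLocalRing (MvPowerSeries σ k)]
    (b : MvPowerSeries σ k) :
    b - MvPowerSeries.C (MvPowerSeries.constantCoeff b) ∈ maximalIdeal (MvPowerSeries σ k) := by
  rw [mvPowerSeries_maximalIdeal]
  apply mem_span_X_of_constantCoeff_eq_zero
  simp only [map_sub, MvPowerSeries.constantCoeff_C, sub_self]

theorem maximalIdeal_eq_sup :
    (maximalIdeal (MvPowerSeries (Fin d ⊕ Fin d) k)) =
      Ideal.span (Set.range (fun j : Fin d => MvPowerSeries.X (Sum.inl j))) ⊔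
      Ideal.span (Set.range (fun j : Fin d => MvPowerSeries.X (Sum.inr j))) := by
  rw [mvPowerSeries_maximalIdeal, ← Ideal.span_union]
  congr 1
  ext x
  simp only [Set.mem_range, Sum.exists, Set.mem_union]

theorem maximalIdeal_eq_sup' :
    (maximalIdeal (MvPowerSeries (Fin d ⊕ Fin d) k)) =
      Ideal.span (Set.range (fun j : Fin d => MvPowerSeries.X (Sum.inl j))) ⊔
      Ideal.ofList (diagList k d) := by
  rw [maximalIdeal_eq_sup, ofList_diagList]
  apply le_antisymm
  · refine sup_le le_sup_left ?_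
    rw [Ideal.span_le]
    rintro _ ⟨j, rfl⟩
    have h1 : (MvPowerSeries.X (Sum.inl j) : MvPowerSeries (Fin d ⊕ Fin d) k) ∈
        Ideal.span (Set.range (fun j : Fin d =>
          (MvPowerSeries.X (Sum.inl j) : MvPowerSeries (Fin d ⊕ Fin d) k))) :=
      Ideal.subset_span ⟨j, rfl⟩
    have h2 : (MvPowerSeries.X (Sum.inl j) - MvPowerSeries.X (Sum.inr j) :
        MvPowerSeries (Fin d ⊕ Fin d) k) ∈ Ideal.span (Set.range (fun j : Fin d =>
          (MvPowerSeries.X (Sum.inl j) - MvPowerSeries.X (Sum.inr j) :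
          MvPowerSeries (Fin d ⊕ Fin d) k))) :=
      Ideal.subset_span ⟨j, rfl⟩
    have h3 := Ideal.sub_mem _ (Ideal.mem_sup_left h1) (Ideal.mem_sup_right h2)
    rwa [sub_sub_cancel] at h3
  · refine sup_le le_sup_left ?_
    rw [Ideal.span_le]
    rintro _ ⟨j, rfl⟩
    exact Ideal.sub_mem _ (Ideal.mem_sup_left (Ideal.subset_span ⟨j, rfl⟩))
      (Ideal.mem_sup_right (Ideal.subset_span ⟨j, rfl⟩))

theorem isAdicComplete_mvPowerSeries (σ : Type*) [Finite σ] [IsLocalRing (MvPowerSeries σ k)] :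
    IsAdicComplete (maximalIdeal (MvPowerSeries σ k)) (MvPowerSeries σ k) := by
  rw [mvPowerSeries_maximalIdeal]
  infer_instance

theorem isRegular_diagList : IsRegular (MvPowerSeries (Fin d ⊕ Fin d) k) (diagList k d) := by
  have hreg := mvPowerSeries_isRegularLocalRing (Fin d ⊕ Fin d) k
  have h1 := isRegular_of_ofList_eq_maximalIdeal (MvPowerSeries (Fin d ⊕ Fin d) k)
    (diagList k d ++ List.ofFn (fun j : Fin d => MvPowerSeries.X (Sum.inl j))) (by
      rw [Ideal.ofList_append, maximalIdeal_eq_sup', sup_comm]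
      congr 1
      rw [Ideal.ofList]
      congr 1
      ext x
      simp only [List.mem_ofFn, Set.mem_ofPred_eq, Set.mem_range]) (by
      rw [mvPowerSeries_ringKrullDim]
      simp only [diagList, List.length_append, List.length_ofFn, Nat.cast_add, Nat.card_eq_fintype_card, Fintype.card_sum, Fintype.card_fin])
  have h2 := (isWeaklyRegular_append_iff _ _ _).mp h1.toIsWeaklyRegular
  refine ⟨h2.1, fun htop => ?_⟩
  apply h1.top_ne_smul
  refine le_antisymm (htop.le.trans (Submodule.smul_mono_left ?_)) le_top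
  rw [Ideal.ofList_append]
  exact le_sup_left

end

universe u

theorem exists_diagData (k : Type u) [Field k] (d : ℕ) [IsLocalRing (MvPowerSeries (Fin d) k)] :
    Nonempty (DiagData (MvPowerSeries (Fin d) k) (MvPowerSeries (Fin d ⊕ Fin d) k) d) := by
  have hS := isAdicComplete_mvPowerSeries k (Fin d)
  have hres : ∀ b : MvPowerSeries (Fin d ⊕ Fin d) k, ∃ s : MvPowerSeries (Fin d) k,
      b - (MvPowerSeries.rename (R := k) Function.Embedding.inl).toRingHom s ∈
        maximalIdeal (MvPowerSeries (Fin d ⊕ Fin d) k) := by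
    intro b
    refine ⟨MvPowerSeries.C (MvPowerSeries.constantCoeff b), ?_⟩
    have h1 : (MvPowerSeries.rename (R := k)
        (Function.Embedding.inl : Fin d ↪ Fin d ⊕ Fin d)).toRingHom
        (MvPowerSeries.C (MvPowerSeries.constantCoeff b)) =
        MvPowerSeries.C (MvPowerSeries.constantCoeff b) := MvPowerSeries.rename_C _ _
    rw [h1]
    exact sub_C_mem k _ b
  refine ⟨{
    i₁ := (MvPowerSeries.rename (R := k) Function.Embedding.inl).toRingHom
    i₂ := (MvPowerSeries.rename (R := k) Function.Embedding.inr).toRingHom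
    flat₁ := flat_rename _
    flat₂ := flat_rename _
    μ := (MvPowerSeries.rename (R := k) (Sum.elim id id)).toRingHom
    μ_i₁ := ?_
    μ_i₂ := ?_
    ρ := (MvPowerSeries.killCompl (R := k) Function.Embedding.inl).toRingHom
    ρ_i₁ := ?_
    ker_ρ := ?_
    δ := diagList k d
    length_δ := by simp [diagList]
    ker_μ := ?_
    regular_δ := isRegular_diagList k d }⟩
  · ext1 p
    change MvPowerSeries.rename (Sum.elim id id) (MvPowerSeries.rename
      (Function.Embedding.inl : Fin d ↪ Fin d ⊕ Fin d) p) = p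
    rw [MvPowerSeries.rename_rename]
    exact MvPowerSeries.rename_id_apply p
  · ext1 p
    change MvPowerSeries.rename (Sum.elim id id) (MvPowerSeries.rename
      (Function.Embedding.inr : Fin d ↪ Fin d ⊕ Fin d) p) = p
    rw [MvPowerSeries.rename_rename]
    exact MvPowerSeries.rename_id_apply p
  · ext1 p
    exact MvPowerSeries.killCompl_rename_app p
  · apply ker_le_of_retraction
      (i := (MvPowerSeries.rename (R := k) Function.Embedding.inl).toRingHom)
      (hres := hres)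
    · ext1 p
      exact MvPowerSeries.killCompl_rename_app p
    · rw [map_maximalIdeal_rename, Ideal.span_le]
      rintro _ ⟨j, rfl⟩
      exact MvPowerSeries.killCompl_X_eq_zero (by simp only [Function.Embedding.inr_apply, Set.mem_range, Function.Embedding.inl_apply, reduceCtorEq, exists_false, not_false_eq_true])
    · rw [map_maximalIdeal_rename, map_maximalIdeal_rename, maximalIdeal_eq_sup]
      rfl
  · apply ker_le_of_retraction
      (i := (MvPowerSeries.rename (R := k) Function.Embedding.inl).toRingHom)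
      (hres := hres)
    · ext1 p
      change MvPowerSeries.rename (Sum.elim id id) (MvPowerSeries.rename
        (Function.Embedding.inl : Fin d ↪ Fin d ⊕ Fin d) p) = p
      rw [MvPowerSeries.rename_rename]
      exact MvPowerSeries.rename_id_apply p
    · rw [ofList_diagList, Ideal.span_le]
      rintro _ ⟨j, rfl⟩
      change MvPowerSeries.rename (Sum.elim id id) _ = 0
      rw [map_sub, MvPowerSeries.rename_X, MvPowerSeries.rename_X]
      simp
    · rw [map_maximalIdeal_rename, maximalIdeal_eq_sup']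
      rfl

end Vale.Agent.P177
end
end

section

section

/-!
Serre positivity over power series rings over a field.
-/

namespace Vale.Agent.P177

open CategoryTheory TensorProduct Function IsLocalRing RingTheory.Sequence Pointwise

universe u

theorem serre_abstract {S₁ S₂ B : Type u} [CommRing S₁] [CommRing S₂] [CommRing B]
    [IsLocalRing S₁] [IsNoetherianRing S₁] [IsLocalRing S₂] [IsNoetherianRing S₂]
    [IsLocalRing B] [IsNoetherianRing B]
    (i₁ : S₁ →+* B) (i₂ : S₂ →+* B) (h₁ : i₁.Flat) (h₂ : i₂.Flat) [hl₁ : IsLocalHom i₁]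
    [hl₂ : IsLocalHom i₂]
    (ρ : B →+* S₁) (hρ : ρ.comp i₁ = RingHom.id S₁)
    (hkerρ : RingHom.ker ρ = (maximalIdeal S₂).map i₂)
    (μ : B →+* S₁) (hμ : μ.comp i₁ = RingHom.id S₁) (δ : List B)
    (hkerμ : RingHom.ker μ = Ideal.ofList δ) (hδreg : IsWeaklyRegular B δ)
    (hδm : ∀ z ∈ δ, z ∈ maximalIdeal B)
    (θ : S₂ ≃+* S₁) (hθ : ∀ s, μ (i₂ s) = θ s)
    (M N : Type u) [AddCommGroup M] [Module S₂ M] [Module.Finite S₂ M]
    [AddCommGroup N] [Module S₁ N] [Module S₂ N] [Module.Finite S₁ N]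
    (hN : ∀ (s : S₂) (t : N), s • t = θ s • t)
    (hlen : Module.length S₂ (M ⊗[S₂] N) ≠ ⊤) (n : ℕ) (hn : 1 + δ.length ≤ n) :
    0 ≤ eulerTor S₂ n M N ∧ ∀ a b : ℕ, (a : WithBot ℕ∞) ≤ Module.supportDim S₂ M →
      (b : WithBot ℕ∞) ≤ Module.supportDim S₁ N →
      (a + b ≤ δ.length) ∧ (δ.length ≤ a + b → 0 < eulerTor S₂ n M N) := by
  let _ : Algebra S₁ B := i₁.toAlgebra
  let _ : Algebra S₂ B := i₂.toAlgebra
  have a₁ : ∀ s, algebraMap S₁ B s = i₁ s := fun s => rfl
  have a₂ : ∀ s, algebraMap S₂ B s = i₂ s := fun s => rfl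
  have : Module.Flat S₁ B := h₁
  have : Module.Flat S₂ B := h₂
  have : IsLocalHom (algebraMap S₁ B) := hl₁
  have : IsLocalHom (algebraMap S₂ B) := hl₂
  have hμi : ∀ s, μ (i₁ s) = s := fun s => congrArg (fun f => f s) hμ
  have hρi : ∀ s, ρ (i₁ s) = s := fun s => congrArg (fun f => f s) hρ
  have hμs : Surjective μ := fun s => ⟨i₁ s, hμi s⟩
  have hρs : Surjective ρ := fun s => ⟨i₁ s, hρi s⟩
  -- Tor independence
  have hv : ∀ (N : Type u) [AddCommGroup N] [Module S₁ N] [Module.Finite S₁ N]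
      (M : Type u) [AddCommGroup M] [Module S₂ M] [Module.Finite S₂ M] (j : ℕ), 1 ≤ j →
      Subsingleton (TorM B j (B ⊗[S₂] M) (B ⊗[S₁] N)) := by
    let _ : Module B S₁ := Module.compHom S₁ ρ
    have hsm : ∀ (b : B) (t : S₁), b • t = ρ b * t := fun b t => rfl
    have : IsScalarTower S₁ B S₁ := ⟨fun s b t => by
      rw [hsm, hsm, Algebra.smul_def, map_mul, a₁, hρi, smul_eq_mul, mul_assoc]⟩
    let ρl : B →ₗ[B] S₁ :=
      { toFun := ρ
        map_add' := map_add ρ
        map_smul' := fun b c => by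
          rw [smul_eq_mul, map_mul, RingHom.id_apply, hsm] }
    have hker : LinearMap.ker ρl = (maximalIdeal S₂).map (algebraMap S₂ B) := by
      ext b
      have h1 : b ∈ RingHom.ker ρ ↔ b ∈ (maximalIdeal S₂).map i₂ := by rw [hkerρ]
      exact h1
    have e : (B ⊗[S₂] (S₂ ⧸ maximalIdeal S₂)) ≃ₗ[B] S₁ :=
      (Algebra.TensorProduct.quotIdealMapEquivTensorQuot B (maximalIdeal S₂)).symm.toLinearEquiv
        ≪≫ₗ Submodule.quotEquivOfEq _ _ hker.symm ≪≫ₗ ρl.quotKerEquivOfSurjective hρs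
    intro N _ _ _ M _ _ _ j hj
    exact tor_independent S₁ e N M j hj
  -- the module `N` over `B`
  let _ : Module B N := Module.compHom N μ
  have hsN : ∀ (b : B) (t : N), b • t = μ b • t := fun b t => rfl
  have : IsScalarTower S₁ B N := ⟨fun s b t => by
    rw [hsN, hsN, Algebra.smul_def, map_mul, a₁, hμi, mul_smul]⟩
  have : IsScalarTower S₂ B N := ⟨fun s b t => by
    rw [hsN, hsN, Algebra.smul_def, map_mul, a₂, hθ, mul_smul, hN]⟩
  have hres : ∀ b : B, ∃ s : S₁, b - algebraMap S₁ B s ∈ Ideal.ofList δ := by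
    intro b
    refine ⟨μ b, ?_⟩
    rw [← hkerμ, RingHom.mem_ker, map_sub, a₁, hμi, sub_self]
  have hkill : ∀ z ∈ Ideal.ofList δ, ∀ t : N, z • t = 0 := by
    intro z hz t
    rw [← hkerμ, RingHom.mem_ker] at hz
    rw [hsN, hz, zero_smul]
  have hN2 : ∀ b : B, ∃ s : S₂, ∀ t : N, b • t = s • t := by
    intro b
    refine ⟨θ.symm (μ b), fun t => ?_⟩
    rw [hN, RingEquiv.apply_symm_apply, hsN]
  obtain ⟨heq, hFL⟩ : eulerTor S₂ n M N = eul δ (TorM B 0 (B ⊗[S₁] N) (B ⊗[S₂] M)) ∧
      FL2 δ (B ⊗[S₁] N) (B ⊗[S₂] M) := by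
    let _ : Module B S₁ := Module.compHom S₁ μ
    have hsm : ∀ (b : B) (t : S₁), b • t = μ b * t := fun b t => rfl
    have : IsScalarTower S₁ B S₁ := ⟨fun s b t => by
      rw [hsm, hsm, Algebra.smul_def, map_mul, a₁, hμi, smul_eq_mul, mul_assoc]⟩
    let μl : B →ₗ[B] S₁ :=
      { toFun := μ
        map_add' := map_add μ
        map_smul' := fun b c => by
          rw [smul_eq_mul, map_mul, RingHom.id_apply, hsm] }
    have hker : LinearMap.ker μl = (Ideal.ofList δ • ⊤ : Submodule B B) := by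
      rw [smul_eq_mul, Ideal.mul_top, ← hkerμ]
      rfl
    have e : (B ⧸ (Ideal.ofList δ • ⊤ : Submodule B B)) ≃ₗ[B] S₁ :=
      Submodule.quotEquivOfEq _ _ hker.symm ≪≫ₗ μl.quotKerEquivOfSurjective hμs
    exact eulerTor_eq_eul δ hδm hδreg hres S₁ e N hkill hN2 M (hv N M) hlen n hn
  have hfin := tor_finite (R := B) 0 (B ⊗[S₁] N) (B ⊗[S₂] M)
  have hpos := eul_nonneg_pos δ hδm (TorM B 0 (B ⊗[S₁] N) (B ⊗[S₂] M)) (hFL.tor 0)
  rw [heq]
  refine ⟨hpos.1, ?_⟩
  intro a b ha hb
  have h5 := le_supportDim_external (S₁ := S₁) (S₂ := S₂) (B := B)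
    (fun N _ _ _ M _ _ _ => hv N M 1 le_rfl) N M a b ha hb
  obtain ⟨e⟩ := tor_symm (R := B) 0 (B ⊗[S₂] M) (B ⊗[S₁] N)
  rw [Module.supportDim_eq_of_equiv e] at h5
  constructor
  · have h6 := h5.trans (supportDim_le_length δ hδm _ (hFL.tor 0))
    exact_mod_cast h6
  · intro hab
    apply hpos.2
    refine le_trans ?_ h5
    exact_mod_cast hab

/-- Serre's theorem over a ring with diagonal data. -/
theorem serre_of_diagData {S B : Type u} [CommRing S] [IsLocalRing S] [IsNoetherianRing S]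
    [CommRing B] [IsLocalRing B] [IsNoetherianRing B] {d : ℕ} (D : DiagData S B d)
    (M N : Type u) [AddCommGroup M] [Module S M] [Module.Finite S M]
    [AddCommGroup N] [Module S N] [Module.Finite S N]
    (hlen : Module.length S (M ⊗[S] N) ≠ ⊤) (n : ℕ) (hn : 1 + d ≤ n) :
    0 ≤ eulerTor S n M N ∧ ∀ a b : ℕ, (a : WithBot ℕ∞) ≤ Module.supportDim S M →
      (b : WithBot ℕ∞) ≤ Module.supportDim S N →
      (a + b ≤ d) ∧ (d ≤ a + b → 0 < eulerTor S n M N) := by
  have hμ1 : ∀ s, D.μ (D.i₁ s) = s := fun s => congrArg (fun f => f s) D.μ_i₁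
  have hμ2 : ∀ s, D.μ (D.i₂ s) = s := fun s => congrArg (fun f => f s) D.μ_i₂
  have hμs : Surjective D.μ := fun s => ⟨D.i₁ s, hμ1 s⟩
  have hμloc : IsLocalHom D.μ := by
    have := IsLocalHom.of_surjective D.μ hμs
    exact this
  have hl₁ : IsLocalHom D.i₁ := ⟨fun s hs => by
    have := hs.map D.μ
    rwa [hμ1] at this⟩
  have hl₂ : IsLocalHom D.i₂ := ⟨fun s hs => by
    have := hs.map D.μ
    rwa [hμ2] at this⟩
  have hδm : ∀ z ∈ D.δ, z ∈ maximalIdeal B := by
    intro z hz
    have h1 : z ∈ RingHom.ker D.μ := by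
      rw [D.ker_μ]
      exact Ideal.subset_span hz
    rw [mem_maximalIdeal, mem_nonunits_iff]
    intro hu
    have h2 := hu.map D.μ
    rw [(RingHom.mem_ker).1 h1] at h2
    exact not_isUnit_zero h2
  have h := serre_abstract D.i₁ D.i₂ D.flat₁ D.flat₂ D.ρ D.ρ_i₁ D.ker_ρ D.μ D.μ_i₁ D.δ D.ker_μ
    D.regular_δ.toIsWeaklyRegular hδm (RingEquiv.refl S) hμ2 M N (fun s t => rfl) hlen n
    (by rw [D.length_δ]; exact hn)
  rw [D.length_δ] at h
  exact h

/-- Serre's theorem over `k[[x_1, …, x_d]]`. -/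
theorem serre_mvPowerSeries (k : Type u) [Field k] (d : ℕ)
    (M N : Type u) [AddCommGroup M] [Module (MvPowerSeries (Fin d) k) M]
    [Module.Finite (MvPowerSeries (Fin d) k) M]
    [AddCommGroup N] [Module (MvPowerSeries (Fin d) k) N]
    [Module.Finite (MvPowerSeries (Fin d) k) N]
    (hlen : Module.length (MvPowerSeries (Fin d) k) (M ⊗[MvPowerSeries (Fin d) k] N) ≠ ⊤)
    (n : ℕ) (hn : 1 + d ≤ n) :
    0 ≤ eulerTor (MvPowerSeries (Fin d) k) n M N ∧
      ∀ a b : ℕ, (a : WithBot ℕ∞) ≤ Module.supportDim (MvPowerSeries (Fin d) k) M →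
      (b : WithBot ℕ∞) ≤ Module.supportDim (MvPowerSeries (Fin d) k) N →
      (a + b ≤ d) ∧ (d ≤ a + b → 0 < eulerTor (MvPowerSeries (Fin d) k) n M N) := by
  have h1 : IsRegularLocalRing (MvPowerSeries (Fin d) k) := mvPowerSeries_isRegularLocalRing _ _
  have h2 : IsRegularLocalRing (MvPowerSeries (Fin d ⊕ Fin d) k) :=
    mvPowerSeries_isRegularLocalRing _ _
  obtain ⟨D⟩ := exists_diagData k d
  exact serre_of_diagData D M N hlen n hn

end Vale.Agent.P177
end
end

section

section

/-!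
Positivity for essentially smooth algebras over a regular local ring of small dimension, from the
local positivity statement.
-/

namespace Vale.Agent.P177

open CategoryTheory TensorProduct Function IsLocalRing RingTheory.Sequence Pointwise

universe u

/-- `global_pos` with explicit ring homomorphisms. -/
theorem global_pos_hom {R₁ R₂ T : Type u} [CommRing R₁] [CommRing R₂] [CommRing T]
    [IsRegularLocalRing R₁] [IsRegularLocalRing R₂] [IsRegularLocalRing T]
    (i₁ : R₁ →+* T) (i₂ : R₂ →+* T) (h₁ : i₁.Flat) (h₂ : i₂.Flat)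
    (a : ℕ) (hLoc : LocPos.{u} a)
    (μ : T →+* R₁) (hμ : ∀ s, μ (i₁ s) = s) (z : List T)
    (hkerμ : RingHom.ker μ = Ideal.ofList z) (hz : IsWeaklyRegular T z)
    (θ : R₂ ≃+* R₁) (hθ : ∀ s, μ (i₂ s) = θ s)
    (d : ℕ) (hd : ringKrullDim R₁ = d)
    (hb : ∀ (Q : Ideal T) [Q.IsPrime] (r₁ r₂ q : ℕ), (Q.comap i₁).height = r₁ →
      (Q.comap i₂).height = r₂ → Q.height = q → r₁ + r₂ ≤ q + a)
    (M N : Type u) [AddCommGroup M] [Module R₂ M] [Module.Finite R₂ M]
    [AddCommGroup N] [Module R₁ N] [Module R₂ N] [Module.Finite R₁ N]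
    (hN : ∀ (s : R₂) (t : N), s • t = θ s • t)
    (hlen : Module.length R₂ (M ⊗[R₂] N) ≠ ⊤) :
    0 ≤ eulerTor R₂ (d + 1) M N ∧ ∀ m n : ℕ, (m : WithBot ℕ∞) ≤ Module.supportDim R₂ M →
      (n : WithBot ℕ∞) ≤ Module.supportDim R₁ N →
      (m + n ≤ d) ∧ (d ≤ m + n → 0 < eulerTor R₂ (d + 1) M N) := by
  let _ : Algebra R₁ T := i₁.toAlgebra
  let _ : Algebra R₂ T := i₂.toAlgebra
  have : Module.Flat R₁ T := h₁
  have : Module.Flat R₂ T := h₂
  exact global_pos a hLoc μ hμ z hkerμ hz θ hθ d hd hb M N hN hlen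

theorem serre_essSmooth (a : ℕ) (hLoc : LocPos.{u} a) (A R : Type u) [CommRing A]
    [IsRegularLocalRing A] (hA : ringKrullDim A ≤ a) [CommRing R] [IsLocalRing R] [Algebra A R]
    [Algebra.EssFiniteType A R] [Algebra.FormallySmooth A R] (d : ℕ) (hd : ringKrullDim R = d)
    (M N : Type u) [AddCommGroup M] [Module R M] [Module.Finite R M]
    [AddCommGroup N] [Module R N] [Module.Finite R N]
    (hlen : Module.length R (M ⊗[R] N) ≠ ⊤) :
    0 ≤ eulerTor R (d + 1) M N ∧ ∀ m n : ℕ, (m : WithBot ℕ∞) ≤ Module.supportDim R M →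
      (n : WithBot ℕ∞) ≤ Module.supportDim R N →
      (m + n ≤ d) ∧ (d ≤ m + n → 0 < eulerTor R (d + 1) M N) := by
  obtain ⟨hR, hflat⟩ := regular_flat_of_essSmooth A R
  let μ₀ : R ⊗[A] R →ₐ[R] R := Algebra.TensorProduct.lift (AlgHom.id R R) (AlgHom.id A R)
    (fun x y => mul_comm _ _)
  have hμ₀ : ∀ x y, μ₀ (x ⊗ₜ y) = x * y := fun x y => Algebra.TensorProduct.lift_tmul _ _ _ _ _
  let 𝔐 : Ideal (R ⊗[A] R) := (maximalIdeal R).comap μ₀
  have h𝔐 : 𝔐.IsPrime := Ideal.IsPrime.comap _
  have hunit : ∀ y : 𝔐.primeCompl, IsUnit (μ₀ y) := by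
    intro y
    by_contra hcon
    exact y.2 ((mem_maximalIdeal _).2 hcon)
  let μ : Localization.AtPrime 𝔐 →ₐ[R] R := IsLocalization.liftAlgHom (M := 𝔐.primeCompl)
    (S := Localization.AtPrime 𝔐) (f := μ₀) hunit
  have hμ : ∀ x, μ (algebraMap _ _ x) = μ₀ x := by
    intro x
    exact IsLocalization.lift_eq (S := Localization.AtPrime 𝔐) (g := (μ₀ : _ →+* R)) hunit x
  have hμs : Surjective μ := fun s => ⟨algebraMap R _ s, μ.commutes s⟩
  have f1 : Algebra.FormallySmooth (R ⊗[A] R) (Localization.AtPrime 𝔐) :=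
    Algebra.FormallySmooth.of_isLocalization 𝔐.primeCompl
  have f2 : Algebra.FormallySmooth R (Localization.AtPrime 𝔐) :=
    Algebra.FormallySmooth.comp R (R ⊗[A] R) (Localization.AtPrime 𝔐)
  obtain ⟨hT, hTflat⟩ := regular_flat_of_essSmooth R (Localization.AtPrime 𝔐)
  obtain ⟨-, z, hz1, hz2⟩ := exists_regular_list_of_formallySmooth R (Localization.AtPrime 𝔐) R μ
    hμs
  have hN1 : IsNoetherianRing (R ⊗[A] R) := Algebra.EssFiniteType.isNoetherianRing R (R ⊗[A] R)
  have hflat1 : (algebraMap R (Localization.AtPrime 𝔐)).Flat := by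
    rw [RingHom.flat_algebraMap_iff]
    exact hTflat
  have hflat2 : ((algebraMap (R ⊗[A] R) (Localization.AtPrime 𝔐)).comp
      ((Algebra.TensorProduct.includeRight : R →ₐ[A] R ⊗[A] R) : R →+* R ⊗[A] R)).Flat := by
    refine (flat_includeRight A R R).comp ?_
    rw [RingHom.flat_algebraMap_iff]
    exact IsLocalization.flat _ 𝔐.primeCompl
  refine global_pos_hom (algebraMap R (Localization.AtPrime 𝔐))
    ((algebraMap (R ⊗[A] R) (Localization.AtPrime 𝔐)).comp
      ((Algebra.TensorProduct.includeRight : R →ₐ[A] R ⊗[A] R) : R →+* R ⊗[A] R))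
    hflat1 hflat2 a hLoc (μ : Localization.AtPrime 𝔐 →+* R) (fun s => μ.commutes s) z hz1.symm hz2
    (RingEquiv.refl R) ?_ d hd ?_ M N (fun s t => rfl) hlen
  · intro s
    change μ (algebraMap (R ⊗[A] R) _ (1 ⊗ₜ s)) = s
    rw [hμ, hμ₀, one_mul]
  · intro Q hQ r₁ r₂ q h₁ h₂ hq
    have hQ' : (Q.comap (algebraMap (R ⊗[A] R) (Localization.AtPrime 𝔐))).IsPrime :=
      Ideal.IsPrime.comap _
    have h5 := height_bound (Q.comap (algebraMap (R ⊗[A] R) (Localization.AtPrime 𝔐)))
    have h6 : (Q.comap (algebraMap (R ⊗[A] R) (Localization.AtPrime 𝔐))).height = q := by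
      rw [← hq]
      exact IsLocalization.height_under 𝔐.primeCompl Q
    have h7 : ((Q.comap (algebraMap (R ⊗[A] R) (Localization.AtPrime 𝔐))).comap
        (algebraMap R (R ⊗[A] R))).height = r₁ := by
      rw [← h₁, Ideal.comap_comap, ← IsScalarTower.algebraMap_eq]
    have h8 : ((Q.comap (algebraMap (R ⊗[A] R) (Localization.AtPrime 𝔐))).comap
        (Algebra.TensorProduct.includeRight : R →ₐ[A] R ⊗[A] R)).height = r₂ := by
      rw [← h₂]
      rfl
    have hq3 : ((Q.comap (algebraMap (R ⊗[A] R) (Localization.AtPrime 𝔐))).comap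
        (algebraMap A (R ⊗[A] R))).IsPrime := Ideal.IsPrime.comap _
    have h9 := Ideal.height_le_ringKrullDim_of_ne_top hq3.ne_top
    have h10 := h9.trans hA
    have h11 : ((Q.comap (algebraMap (R ⊗[A] R) (Localization.AtPrime 𝔐))).comap
        (algebraMap A (R ⊗[A] R))).height ≤ (a : ℕ∞) := by exact_mod_cast h10
    rw [h6, h7, h8] at h5
    have h12 : ((r₁ : ℕ∞) + r₂) ≤ q + a := h5.trans (by (clear * - h𝔐 h11; gcongr))
    exact_mod_cast h12

end Vale.Agent.P177
end
end

section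

section

/-!
Serre's statements for power series rings over a regular local ring of small dimension.
-/

namespace Vale.Agent.P177

open CategoryTheory TensorProduct Function IsLocalRing RingTheory.Sequence Pointwise

section

variable (A : Type*) [CommRing A] (n : ℕ)

theorem idealX_eq_sup :
    (Ideal.span (Set.range MvPowerSeries.X) : Ideal (MvPowerSeries (Fin n ⊕ Fin n) A)) =
      Ideal.span (Set.range (fun j : Fin n => MvPowerSeries.X (Sum.inl j))) ⊔
      Ideal.span (Set.range (fun j : Fin n => MvPowerSeries.X (Sum.inr j))) := by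
  rw [← Ideal.span_union]
  congr 1
  ext x
  simp only [Set.mem_range, Sum.exists, Set.mem_union]

/-- The diagonal elements. -/
noncomputable def diagListGen : List (MvPowerSeries (Fin n ⊕ Fin n) A) :=
  List.ofFn (fun j : Fin n => MvPowerSeries.X (Sum.inl j) - MvPowerSeries.X (Sum.inr j))

theorem ofList_diagListGen : Ideal.ofList (diagListGen A n) =
    Ideal.span (Set.range (fun j : Fin n =>
      (MvPowerSeries.X (Sum.inl j) - MvPowerSeries.X (Sum.inr j) :
        MvPowerSeries (Fin n ⊕ Fin n) A))) := by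
  rw [Ideal.ofList, diagListGen]
  congr 1
  ext x
  simp only [List.mem_ofFn, Set.mem_ofPred_eq, Set.mem_range]

theorem map_idealX_rename (e : Fin n ↪ Fin n ⊕ Fin n) :
    (Ideal.span (Set.range MvPowerSeries.X) : Ideal (MvPowerSeries (Fin n) A)).map
      (MvPowerSeries.rename (R := A) e).toRingHom =
      Ideal.span (Set.range (fun j : Fin n => MvPowerSeries.X (e j))) := by
  rw [Ideal.map_span, ← Set.range_comp]
  congr 2
  ext1 j
  exact MvPowerSeries.rename_X e j

theorem idealX_eq_sup' :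
    (Ideal.span (Set.range MvPowerSeries.X) : Ideal (MvPowerSeries (Fin n ⊕ Fin n) A)) =
      Ideal.span (Set.range (fun j : Fin n => MvPowerSeries.X (Sum.inl j))) ⊔
      Ideal.ofList (diagListGen A n) := by
  rw [idealX_eq_sup, ofList_diagListGen]
  apply le_antisymm
  · refine sup_le le_sup_left ?_
    rw [Ideal.span_le]
    rintro _ ⟨j, rfl⟩
    have h1 : (MvPowerSeries.X (Sum.inl j) : MvPowerSeries (Fin n ⊕ Fin n) A) ∈
        Ideal.span (Set.range (fun j : Fin n =>
          (MvPowerSeries.X (Sum.inl j) : MvPowerSeries (Fin n ⊕ Fin n) A))) :=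
      Ideal.subset_span ⟨j, rfl⟩
    have h2 : (MvPowerSeries.X (Sum.inl j) - MvPowerSeries.X (Sum.inr j) :
        MvPowerSeries (Fin n ⊕ Fin n) A) ∈ Ideal.span (Set.range (fun j : Fin n =>
          (MvPowerSeries.X (Sum.inl j) - MvPowerSeries.X (Sum.inr j) :
          MvPowerSeries (Fin n ⊕ Fin n) A))) :=
      Ideal.subset_span ⟨j, rfl⟩
    have h3 := Ideal.sub_mem _ (Ideal.mem_sup_left h1) (Ideal.mem_sup_right h2)
    rwa [sub_sub_cancel] at h3
  · refine sup_le le_sup_left ?_
    rw [Ideal.span_le]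
    rintro _ ⟨j, rfl⟩
    exact Ideal.sub_mem _ (Ideal.mem_sup_left (Ideal.subset_span ⟨j, rfl⟩))
      (Ideal.mem_sup_right (Ideal.subset_span ⟨j, rfl⟩))

theorem sub_C_mem_gen (σ : Type*) [Finite σ] (b : MvPowerSeries σ A) :
    b - MvPowerSeries.C (MvPowerSeries.constantCoeff b) ∈
      (Ideal.span (Set.range MvPowerSeries.X) : Ideal (MvPowerSeries σ A)) := by
  apply mem_span_X_of_constantCoeff_eq_zero
  simp

variable [IsRegularLocalRing A]

theorem isWeaklyRegular_diagListGen {a : ℕ} (ha : ringKrullDim A = a) :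
    IsWeaklyRegular (MvPowerSeries (Fin n ⊕ Fin n) A) (diagListGen A n) := by
  obtain ⟨hreg, hdim⟩ := mvPowerSeries_regular (A := A) (n + n) (finSumFinEquiv (m := n) (n := n)) ha
  obtain ⟨rs, hrs, hlen⟩ := exists_list_maximalIdeal A
  have hlen' : rs.length = a := by
    rw [ha] at hlen
    exact_mod_cast hlen
  have h1 := isRegular_of_ofList_eq_maximalIdeal (MvPowerSeries (Fin n ⊕ Fin n) A)
    (diagListGen A n ++ (List.ofFn (fun j : Fin n => MvPowerSeries.X (Sum.inl j)) ++
      rs.map (MvPowerSeries.C (σ := Fin n ⊕ Fin n)))) (by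
      rw [Ideal.ofList_append, Ideal.ofList_append, ← Ideal.map_ofList, hrs,
        mvPowerSeries_maximalIdeal_gen, idealX_eq_sup', ← sup_assoc, sup_comm,
        sup_comm (Ideal.ofList (diagListGen A n))]
      congr 2
      rw [Ideal.ofList]
      congr 1
      ext x
      simp only [List.mem_ofFn, Set.mem_ofPred_eq, Set.mem_range]) (by
      rw [hdim]
      simp only [List.length_append, List.length_ofFn, List.length_map, hlen', diagListGen]
      congr 1
      omega)
  exact ((isWeaklyRegular_append_iff _ _ _).mp h1.toIsWeaklyRegular).1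

end

universe u

/-- Serre's statements for power series rings over a regular local ring. -/
theorem serre_powerSeries (a : ℕ) (hLoc : LocPos.{u} a) (A : Type u) [CommRing A]
    [IsRegularLocalRing A] (hA : ringKrullDim A ≤ a) (n : ℕ) (d : ℕ)
    (hd : ringKrullDim (MvPowerSeries (Fin n) A) = d)
    (M N : Type u) [AddCommGroup M] [Module (MvPowerSeries (Fin n) A) M]
    [Module.Finite (MvPowerSeries (Fin n) A) M]
    [AddCommGroup N] [Module (MvPowerSeries (Fin n) A) N]
    [Module.Finite (MvPowerSeries (Fin n) A) N]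
    (hlen : Module.length (MvPowerSeries (Fin n) A) (M ⊗[MvPowerSeries (Fin n) A] N) ≠ ⊤) :
    0 ≤ eulerTor (MvPowerSeries (Fin n) A) (d + 1) M N ∧ ∀ m n' : ℕ,
      (m : WithBot ℕ∞) ≤ Module.supportDim (MvPowerSeries (Fin n) A) M →
      (n' : WithBot ℕ∞) ≤ Module.supportDim (MvPowerSeries (Fin n) A) N →
      (m + n' ≤ d) ∧ (d ≤ m + n' → 0 < eulerTor (MvPowerSeries (Fin n) A) (d + 1) M N) := by
  obtain ⟨a', ha'⟩ : ∃ a' : ℕ, ringKrullDim A = a' := by
    obtain ⟨rs, -, hlen⟩ := exists_list_maximalIdeal A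
    exact ⟨_, hlen.symm⟩
  have haa : a' ≤ a := by
    rw [ha'] at hA
    exact_mod_cast hA
  obtain ⟨hregR, hdimR⟩ := mvPowerSeries_regular (A := A) n (Equiv.refl (Fin n)) ha'
  obtain ⟨hregT, hdimT⟩ :=
    mvPowerSeries_regular (A := A) (n + n) (finSumFinEquiv (m := n) (n := n)) ha'
  have hcomp : IsAdicComplete (Ideal.span (Set.range MvPowerSeries.X) :
    Ideal (MvPowerSeries (Fin n) A)) (MvPowerSeries (Fin n) A) := inferInstance
  have hker : RingHom.ker (MvPowerSeries.rename (R := A)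
      (Sum.elim id id : Fin n ⊕ Fin n → Fin n)).toRingHom = Ideal.ofList (diagListGen A n) := by
    refine ker_le_of_retraction_ideal (Ideal.span (Set.range MvPowerSeries.X))
      (MvPowerSeries.rename (R := A) (Embedding.inl : Fin n ↪ Fin n ⊕ Fin n)).toRingHom
      _ ?_ (Ideal.ofList (diagListGen A n)) (Ideal.span (Set.range MvPowerSeries.X)) ?_ ?_ ?_ ?_
    · ext1 p
      change MvPowerSeries.rename (Sum.elim id id) (MvPowerSeries.rename
        (Function.Embedding.inl : Fin n ↪ Fin n ⊕ Fin n) p) = p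
      rw [MvPowerSeries.rename_rename]
      exact MvPowerSeries.rename_id_apply p
    · rw [ofList_diagListGen, Ideal.span_le]
      rintro _ ⟨j, rfl⟩
      change MvPowerSeries.rename (Sum.elim id id) _ = 0
      rw [map_sub, MvPowerSeries.rename_X, MvPowerSeries.rename_X]
      simp
    · rw [mvPowerSeries_maximalIdeal_gen]
      exact le_sup_right
    · rw [map_idealX_rename, idealX_eq_sup']
      rfl
    · intro b
      refine ⟨MvPowerSeries.C (MvPowerSeries.constantCoeff b), ?_⟩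
      have h1 : (MvPowerSeries.rename (R := A)
          (Function.Embedding.inl : Fin n ↪ Fin n ⊕ Fin n)).toRingHom
          (MvPowerSeries.C (MvPowerSeries.constantCoeff b)) =
          MvPowerSeries.C (MvPowerSeries.constantCoeff b) := MvPowerSeries.rename_C _ _
      rw [h1]
      exact sub_C_mem_gen A _ b
  have hsup : (maximalIdeal (MvPowerSeries (Fin n) A)).map (MvPowerSeries.rename (R := A)
      (Embedding.inl : Fin n ↪ Fin n ⊕ Fin n)).toRingHom ⊔
      (maximalIdeal (MvPowerSeries (Fin n) A)).map (MvPowerSeries.rename (R := A)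
      (Embedding.inr : Fin n ↪ Fin n ⊕ Fin n)).toRingHom =
      maximalIdeal (MvPowerSeries (Fin n ⊕ Fin n) A) := by
    have hC : ∀ e : Fin n ↪ Fin n ⊕ Fin n, ((maximalIdeal A).map
        (MvPowerSeries.C (σ := Fin n))).map (MvPowerSeries.rename (R := A) e).toRingHom =
        (maximalIdeal A).map (MvPowerSeries.C (σ := Fin n ⊕ Fin n)) := by
      intro e
      rw [Ideal.map_map]
      congr 1
      ext1 x
      exact MvPowerSeries.rename_C _ _
    rw [mvPowerSeries_maximalIdeal_gen, mvPowerSeries_maximalIdeal_gen, Ideal.map_sup,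
      Ideal.map_sup, map_idealX_rename, map_idealX_rename, hC, hC, ← sup_sup_distrib_left,
      idealX_eq_sup]
    rfl
  have hdd : d = a' + n := by
    rw [hd] at hdimR
    exact_mod_cast hdimR
  refine global_pos_hom
    (MvPowerSeries.rename (R := A) (Embedding.inl : Fin n ↪ Fin n ⊕ Fin n)).toRingHom
    (MvPowerSeries.rename (R := A) (Embedding.inr : Fin n ↪ Fin n ⊕ Fin n)).toRingHom
    (flat_rename _) (flat_rename _) a hLoc
    (MvPowerSeries.rename (R := A) (Sum.elim id id : Fin n ⊕ Fin n → Fin n)).toRingHom ?_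
    (diagListGen A n) hker (isWeaklyRegular_diagListGen A n ha')
    (RingEquiv.refl _) ?_ d hd ?_ M N (fun s t => rfl) hlen
  · intro p
    change MvPowerSeries.rename (Sum.elim id id) (MvPowerSeries.rename
      (Function.Embedding.inl : Fin n ↪ Fin n ⊕ Fin n) p) = p
    rw [MvPowerSeries.rename_rename]
    exact MvPowerSeries.rename_id_apply p
  · intro p
    change MvPowerSeries.rename (Sum.elim id id) (MvPowerSeries.rename
      (Function.Embedding.inr : Fin n ↪ Fin n ⊕ Fin n) p) = p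
    rw [MvPowerSeries.rename_rename]
    exact MvPowerSeries.rename_id_apply p
  · intro Q hQ r₁ r₂ q h₁ h₂ hq
    have h3 := height_le_of_sup _ _ hdimR hdimT hsup (a := a') (by omega) Q r₁ r₂ q h₁ h₂ hq
    omega

end Vale.Agent.P177
end
end

section

section

/-!
Descent of Serre's statements along flat local maps with trivial closed fibre.
-/

namespace Vale.Agent.P177

open CategoryTheory TensorProduct Function IsLocalRing RingTheory.Sequence Pointwise

universe u

/-- Serre's statements for all pairs of modules over a ring of dimension `d`. -/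
def SerreAll (R : Type u) [CommRing R] (d : ℕ) : Prop :=
  ∀ (M N : Type u) [AddCommGroup M] [Module R M] [Module.Finite R M]
    [AddCommGroup N] [Module R N] [Module.Finite R N],
    Module.length R (M ⊗[R] N) ≠ ⊤ →
    0 ≤ eulerTor R (d + 1) M N ∧ ∀ m n : ℕ, (m : WithBot ℕ∞) ≤ Module.supportDim R M →
      (n : WithBot ℕ∞) ≤ Module.supportDim R N →
      (m + n ≤ d) ∧ (d ≤ m + n → 0 < eulerTor R (d + 1) M N)

theorem serreAll_essSmooth (a : ℕ) (hLoc : LocPos.{u} a) (A R : Type u) [CommRing A]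
    [IsRegularLocalRing A] (hA : ringKrullDim A ≤ a) [CommRing R] [IsLocalRing R] [Algebra A R]
    [Algebra.EssFiniteType A R] [Algebra.FormallySmooth A R] (d : ℕ) (hd : ringKrullDim R = d) :
    SerreAll R d :=
  fun M N _ _ _ _ _ _ hlen => serre_essSmooth a hLoc A R hA d hd M N hlen

theorem serreAll_powerSeries (a : ℕ) (hLoc : LocPos.{u} a) (A : Type u) [CommRing A]
    [IsRegularLocalRing A] (hA : ringKrullDim A ≤ a) (n : ℕ) (d : ℕ)
    (hd : ringKrullDim (MvPowerSeries (Fin n) A) = d) : SerreAll (MvPowerSeries (Fin n) A) d :=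
  fun M N _ _ _ _ _ _ hlen => serre_powerSeries a hLoc A hA n d hd M N hlen

section

variable {R C : Type u} [CommRing R] [CommRing C] [IsLocalRing R] [IsNoetherianRing R]
  [IsLocalRing C] [IsNoetherianRing C] [Algebra R C] [Module.Flat R C]

theorem SerreAll.descend (hloc : (maximalIdeal R).map (algebraMap R C) = maximalIdeal C) {d : ℕ}
    (h : SerreAll C d) : SerreAll R d := by
  intro M N _ _ _ _ _ _ hlen
  have e : (C ⊗[R] M) ⊗[C] (C ⊗[R] N) ≃ₗ[C] C ⊗[R] (M ⊗[R] N) :=
    (AlgebraTensorModule.distribBaseChange R C M N).symm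
  have hlenC : Module.length C ((C ⊗[R] M) ⊗[C] (C ⊗[R] N)) ≠ ⊤ := by
    rw [e.length_eq, length_baseChange' R C hloc]
    exact hlen
  obtain ⟨h1, h2⟩ := h (C ⊗[R] M) (C ⊗[R] N) hlenC
  have heq : eulerTor C (d + 1) (C ⊗[R] M) (C ⊗[R] N) = eulerTor R (d + 1) M N := by
    unfold eulerTor
    refine Finset.sum_congr rfl fun j _ => ?_
    rw [length_tor_bc₂ (A := R) (C := C) hloc j (TensorProduct.isBaseChange R M C)
      (TensorProduct.isBaseChange R N C)]
  rw [heq] at h1 h2
  exact ⟨h1, fun m n hm hn => h2 m n (hm.trans (supportDim_le_baseChange R C hloc M))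
    (hn.trans (supportDim_le_baseChange R C hloc N))⟩

end

theorem ringKrullDim_eq_of_flat {R C : Type u} [CommRing R] [CommRing C] [IsRegularLocalRing R]
    [IsLocalRing C] [IsNoetherianRing C] [Algebra R C] [Module.Flat R C]
    (hloc : (maximalIdeal R).map (algebraMap R C) = maximalIdeal C) :
    ringKrullDim C = ringKrullDim R := by
  obtain ⟨rs, hrs, hlen⟩ := exists_list_maximalIdeal R
  have hreg := isRegular_of_ofList_eq_maximalIdeal R rs hrs hlen
  have h1 : IsWeaklyRegular C (rs.map (algebraMap R C)) := hreg.toIsWeaklyRegular.of_flat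
  have h2 := length_le_height (maximalIdeal C) _ (fun z hz => by
    rw [List.mem_map] at hz
    obtain ⟨y, hy, rfl⟩ := hz
    rw [← hloc]
    exact Ideal.mem_map_of_mem _ (by rw [← hrs]; exact Ideal.subset_span hy)) h1
  rw [List.length_map] at h2
  have h3 : (rs.length : WithBot ℕ∞) ≤ ringKrullDim C := by
    refine le_trans ?_ (Ideal.height_le_ringKrullDim_of_isPrime (I := maximalIdeal C))
    exact_mod_cast h2
  have h4 := isRegularLocalRing_of_list (B := C) (rs.map (algebraMap R C)) (by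
    rw [← Ideal.map_ofList, hrs, hloc]) (by rw [List.length_map]; exact h3)
  rw [h4.2, List.length_map, hlen]

end Vale.Agent.P177
end
end

section

section

/-!
The data attached to a quadratic hypersurface in a power series ring over a discrete valuation
ring.
-/

namespace Vale.Agent.P177

open TensorProduct IsLocalRing RingTheory.Sequence Function

universe u

theorem exists_polar {B Γ : Type*} [CommRing B] [CommRing Γ] {d : ℕ} (a₁ a₂ : B →+* Γ)
    (x : Fin d → B) (c : Fin d → Fin d → B)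
    (diag : ∀ b, a₂ b - a₁ b ∈ Ideal.span (Set.range fun i => a₂ (x i) - a₁ (x i))) :
    ∃ w : Fin d → Fin d → Γ, (∀ l m, w l m ∈ Ideal.span (Set.range fun i => a₁ (x i))) ∧
      a₂ (∑ i, ∑ j, x i * c i j * x j) - a₁ (∑ i, ∑ j, x i * c i j * x j) =
        ∑ l, (a₂ (x l) - a₁ (x l)) * (∑ m, (a₂ (c l m) + a₂ (c m l) + w l m) * a₁ (x m) +
          ∑ m, a₂ (c l m) * (a₂ (x m) - a₁ (x m))) := by
  have h1 : ∀ i j, ∃ e : Fin d → Γ, ∑ l, e l * (a₂ (x l) - a₁ (x l)) =
      a₂ (c i j) - a₁ (c i j) := fun i j =>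
    (Ideal.mem_span_range_iff_exists_fun).1 (diag (c i j))
  choose e he using h1
  refine ⟨fun l m => ∑ i, a₁ (x i) * e i m l, ?_, ?_⟩
  · intro l m
    exact Ideal.sum_mem _ fun i _ => Ideal.mul_mem_right _ _ (Ideal.subset_span ⟨i, rfl⟩)
  · simp only [map_sum, map_mul]
    set X : Fin d → Γ := fun i => a₁ (x i) with hX
    set Y : Fin d → Γ := fun i => a₂ (x i) with hY
    have hXi : ∀ i, a₁ (x i) = X i := fun i => rfl
    have hYi : ∀ i, a₂ (x i) = Y i := fun i => rfl
    simp only [hXi, hYi] at he ⊢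
    have e1 : ∀ i j, Y i * a₂ (c i j) * Y j - X i * a₁ (c i j) * X j =
        (Y i - X i) * a₂ (c i j) * X j + X i * a₂ (c i j) * (Y j - X j) +
        (Y i - X i) * a₂ (c i j) * (Y j - X j) +
          ∑ l, X i * e i j l * (Y l - X l) * X j := by
      intro i j
      have h2 : ∑ l, X i * e i j l * (Y l - X l) * X j =
          X i * (a₂ (c i j) - a₁ (c i j)) * X j := by
        rw [← he, Finset.mul_sum, Finset.sum_mul]
        refine Finset.sum_congr rfl fun l _ => ?_
        ring
      rw [h2]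
      ring
    have e2 : ∑ i, ∑ j, Y i * a₂ (c i j) * Y j - ∑ i, ∑ j, X i * a₁ (c i j) * X j =
        ∑ i, ∑ j, (Y i - X i) * a₂ (c i j) * X j + ∑ i, ∑ j, X i * a₂ (c i j) * (Y j - X j) +
        ∑ i, ∑ j, (Y i - X i) * a₂ (c i j) * (Y j - X j) +
          ∑ i, ∑ j, ∑ l, X i * e i j l * (Y l - X l) * X j := by
      simp only [← Finset.sum_sub_distrib, ← Finset.sum_add_distrib]
      exact Finset.sum_congr rfl fun i _ => Finset.sum_congr rfl fun j _ => e1 i j
    rw [e2]
    have e3 : ∑ l, (Y l - X l) * (∑ m, (a₂ (c l m) + a₂ (c m l) + ∑ i, X i * e i m l) * X m +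
        ∑ m, a₂ (c l m) * (Y m - X m)) =
        ∑ l, ∑ m, (Y l - X l) * a₂ (c l m) * X m + ∑ l, ∑ m, (Y l - X l) * a₂ (c m l) * X m +
        ∑ l, ∑ m, (Y l - X l) * a₂ (c l m) * (Y m - X m) +
          ∑ l, ∑ m, ∑ i, X i * e i m l * (Y l - X l) * X m := by
      simp only [← Finset.sum_add_distrib]
      refine Finset.sum_congr rfl fun l _ => ?_
      rw [Finset.mul_sum]
      refine Finset.sum_congr rfl fun m _ => ?_
      have h2 : ∑ i, X i * e i m l * (Y l - X l) * X m =
          (Y l - X l) * (∑ i, X i * e i m l) * X m := by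
        rw [Finset.mul_sum, Finset.sum_mul]
        refine Finset.sum_congr rfl fun i _ => ?_
        ring
      rw [h2]
      ring
    rw [e3]
    congr 1
    · congr 1
      congr 1
      rw [Finset.sum_comm]
      refine Finset.sum_congr rfl fun l _ => Finset.sum_congr rfl fun m _ => ?_
      ring
    · symm
      calc ∑ l, ∑ m, ∑ i, X i * e i m l * (Y l - X l) * X m =
          ∑ m, ∑ l, ∑ i, X i * e i m l * (Y l - X l) * X m := Finset.sum_comm
        _ = ∑ m, ∑ i, ∑ l, X i * e i m l * (Y l - X l) * X m :=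
          Finset.sum_congr rfl fun m _ => Finset.sum_comm
        _ = _ := Finset.sum_comm

theorem ker_rename_elim (A : Type*) [CommRing A] [IsRegularLocalRing A] (n : ℕ) :
    RingHom.ker (MvPowerSeries.rename (R := A)
      (Sum.elim id id : Fin n ⊕ Fin n → Fin n)).toRingHom = Ideal.ofList (diagListGen A n) := by
  obtain ⟨a', ha'⟩ := QData.exists_nat_ringKrullDim A
  obtain ⟨hregT, hdimT⟩ :=
    mvPowerSeries_regular (A := A) (n + n) (finSumFinEquiv (m := n) (n := n)) ha'
  have hcomp : IsAdicComplete (Ideal.span (Set.range MvPowerSeries.X) :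
    Ideal (MvPowerSeries (Fin n) A)) (MvPowerSeries (Fin n) A) := inferInstance
  refine ker_le_of_retraction_ideal (Ideal.span (Set.range MvPowerSeries.X))
    (MvPowerSeries.rename (R := A) (Embedding.inl : Fin n ↪ Fin n ⊕ Fin n)).toRingHom
    _ ?_ (Ideal.ofList (diagListGen A n)) (Ideal.span (Set.range MvPowerSeries.X)) ?_ ?_ ?_ ?_
  · ext1 p
    change MvPowerSeries.rename (Sum.elim id id) (MvPowerSeries.rename
      (Function.Embedding.inl : Fin n ↪ Fin n ⊕ Fin n) p) = p
    rw [MvPowerSeries.rename_rename]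
    exact MvPowerSeries.rename_id_apply p
  · rw [ofList_diagListGen, Ideal.span_le]
    rintro _ ⟨j, rfl⟩
    change MvPowerSeries.rename (Sum.elim id id) _ = 0
    rw [map_sub, MvPowerSeries.rename_X, MvPowerSeries.rename_X]
    simp
  · rw [mvPowerSeries_maximalIdeal_gen]
    exact le_sup_right
  · rw [map_idealX_rename, idealX_eq_sup']
    rfl
  · intro b
    refine ⟨MvPowerSeries.C (MvPowerSeries.constantCoeff b), ?_⟩
    have h1 : (MvPowerSeries.rename (R := A)
        (Function.Embedding.inl : Fin n ↪ Fin n ⊕ Fin n)).toRingHom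
        (MvPowerSeries.C (MvPowerSeries.constantCoeff b)) =
        MvPowerSeries.C (MvPowerSeries.constantCoeff b) := MvPowerSeries.rename_C _ _
    rw [h1]
    exact sub_C_mem_gen A _ b

section mk

variable (V : Type u) [CommRing V] [IsRegularLocalRing V] (ϖ : V)
  (hϖ : maximalIdeal V = Ideal.span {ϖ}) (hV : ringKrullDim V = (1 : ℕ)) (d : ℕ)
  (c : Fin d → Fin d → MvPowerSeries (Fin d) V)

/-- The equation `ϖ - ∑ x_i c_ij x_j`. -/
noncomputable def quadEq : MvPowerSeries (Fin d) V :=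
  MvPowerSeries.C ϖ - ∑ i, ∑ j, MvPowerSeries.X i * c i j * MvPowerSeries.X j

/-- The polar matrix. -/
noncomputable def polarMatrix : Matrix (Fin d) (Fin d) (MvPowerSeries (Fin d) V) :=
  fun i j => c i j + c j i

include hϖ hV in
theorem exists_QData :
    ∃ (_ : IsRegularLocalRing (MvPowerSeries (Fin d) V))
      (_ : IsRegularLocalRing (MvPowerSeries (Fin d ⊕ Fin d) V))
      (D : QData d (MvPowerSeries (Fin d) V) (MvPowerSeries (Fin d ⊕ Fin d) V)),
      D.G = quadEq V ϖ d c ∧ D.x = MvPowerSeries.X ∧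
      ∀ l m, D.μ (D.β l m) - polarMatrix V d c l m ∈
        maximalIdeal (MvPowerSeries (Fin d) V) := by
  obtain ⟨hregB, hdimB⟩ := mvPowerSeries_regular (A := V) d (Equiv.refl (Fin d)) hV
  obtain ⟨hregΓ, hdimΓ⟩ :=
    mvPowerSeries_regular (A := V) (d + d) (finSumFinEquiv (m := d) (n := d)) hV
  let a₁ : MvPowerSeries (Fin d) V →+* MvPowerSeries (Fin d ⊕ Fin d) V :=
    (MvPowerSeries.rename (R := V) (Embedding.inl : Fin d ↪ Fin d ⊕ Fin d)).toRingHom
  let a₂ : MvPowerSeries (Fin d) V →+* MvPowerSeries (Fin d ⊕ Fin d) V :=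
    (MvPowerSeries.rename (R := V) (Embedding.inr : Fin d ↪ Fin d ⊕ Fin d)).toRingHom
  let μ : MvPowerSeries (Fin d ⊕ Fin d) V →+* MvPowerSeries (Fin d) V :=
    (MvPowerSeries.rename (R := V) (Sum.elim id id : Fin d ⊕ Fin d → Fin d)).toRingHom
  have hμ₁ : ∀ b, μ (a₁ b) = b := by
    intro p
    change MvPowerSeries.rename (Sum.elim id id) (MvPowerSeries.rename
      (Function.Embedding.inl : Fin d ↪ Fin d ⊕ Fin d) p) = p
    rw [MvPowerSeries.rename_rename]
    exact MvPowerSeries.rename_id_apply p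
  have hμ₂ : ∀ b, μ (a₂ b) = b := by
    intro p
    change MvPowerSeries.rename (Sum.elim id id) (MvPowerSeries.rename
      (Function.Embedding.inr : Fin d ↪ Fin d ⊕ Fin d) p) = p
    rw [MvPowerSeries.rename_rename]
    exact MvPowerSeries.rename_id_apply p
  have hX₁ : ∀ i, a₁ (MvPowerSeries.X i) = MvPowerSeries.X (Sum.inl i) := fun i =>
    MvPowerSeries.rename_X _ _
  have hX₂ : ∀ i, a₂ (MvPowerSeries.X i) = MvPowerSeries.X (Sum.inr i) := fun i =>
    MvPowerSeries.rename_X _ _
  have hC₁ : ∀ v, a₁ (MvPowerSeries.C v) = MvPowerSeries.C v := fun v =>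
    MvPowerSeries.rename_C _ _
  have hC₂ : ∀ v, a₂ (MvPowerSeries.C v) = MvPowerSeries.C v := fun v =>
    MvPowerSeries.rename_C _ _
  have hdiag : ∀ b, a₂ b - a₁ b ∈ Ideal.span (Set.range fun i =>
      a₂ (MvPowerSeries.X i) - a₁ (MvPowerSeries.X i)) := by
    intro b
    have h1 : a₂ b - a₁ b ∈ RingHom.ker μ := by
      rw [RingHom.mem_ker, map_sub, hμ₁, hμ₂, sub_self]
    rw [ker_rename_elim, ofList_diagListGen] at h1
    have h2 : Ideal.span (Set.range (fun j : Fin d =>
        (MvPowerSeries.X (Sum.inl j) - MvPowerSeries.X (Sum.inr j) :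
        MvPowerSeries (Fin d ⊕ Fin d) V))) ≤ Ideal.span (Set.range fun i =>
          a₂ (MvPowerSeries.X i) - a₁ (MvPowerSeries.X i)) := by
      rw [Ideal.span_le]
      rintro _ ⟨i, rfl⟩
      rw [SetLike.mem_coe, ← neg_mem_iff, neg_sub, ← hX₁, ← hX₂]
      exact Ideal.subset_span ⟨i, rfl⟩
    exact h2 h1
  obtain ⟨w, hw1, hw2⟩ := exists_polar a₁ a₂ MvPowerSeries.X c hdiag
  have hmaxB : maximalIdeal (MvPowerSeries (Fin d) V) = Ideal.span {MvPowerSeries.C ϖ} ⊔
      Ideal.span (Set.range MvPowerSeries.X) := by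
    rw [mvPowerSeries_maximalIdeal_gen, hϖ, Ideal.map_span, Set.image_singleton]
  have hgX : ∑ i, ∑ j, MvPowerSeries.X i * c i j * MvPowerSeries.X j ∈
      (Ideal.span (Set.range MvPowerSeries.X) : Ideal (MvPowerSeries (Fin d) V)) :=
    Ideal.sum_mem _ fun i _ => Ideal.sum_mem _ fun j _ =>
      Ideal.mul_mem_left _ _ (Ideal.subset_span ⟨j, rfl⟩)
  let β : Matrix (Fin d) (Fin d) (MvPowerSeries (Fin d ⊕ Fin d) V) := fun l m =>
    a₂ (c l m) + a₂ (c m l) + w l m
  have hβ : ∀ l m, μ (β l m) - polarMatrix V d c l m ∈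
      maximalIdeal (MvPowerSeries (Fin d) V) := by
    intro l m
    have h1 : μ (β l m) - polarMatrix V d c l m = μ (w l m) := by
      change μ (a₂ (c l m) + a₂ (c m l) + w l m) - (c l m + c m l) = _
      rw [map_add μ, map_add μ, hμ₂, hμ₂]
      ring
    rw [h1, hmaxB]
    apply Ideal.mem_sup_right
    have h3 : Ideal.span (Set.range fun i => a₁ (MvPowerSeries.X i)) ≤
        (Ideal.span (Set.range MvPowerSeries.X) :
          Ideal (MvPowerSeries (Fin d) V)).comap μ := by
      rw [Ideal.span_le]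
      rintro _ ⟨i, rfl⟩
      rw [SetLike.mem_coe, Ideal.mem_comap, hμ₁]
      exact Ideal.subset_span ⟨i, rfl⟩
    exact h3 (hw1 l m)
  refine ⟨hregB, hregΓ, {
    a₁ := a₁
    a₂ := a₂
    μ := μ
    μ₁ := hμ₁
    μ₂ := hμ₂
    x := MvPowerSeries.X
    G := quadEq V ϖ d c
    u := fun l => ∑ m, (a₂ (c l m) + a₂ (c m l) + w l m) * a₁ (MvPowerSeries.X m) +
          ∑ m, a₂ (c l m) * (a₂ (MvPowerSeries.X m) - a₁ (MvPowerSeries.X m))
    β := β
    γ := fun l m => a₂ (c l m)
    dimB := by rw [hdimB]; congr 1; omega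
    dimΓ := by rw [hdimΓ]; congr 1; omega
    maxB := ?_
    maxΓ := ?_
    hG := ?_
    hu := fun i => rfl
    diag := hdiag }, rfl, rfl, hβ⟩
  · rw [hmaxB]
    apply le_antisymm
    · refine sup_le ?_ le_sup_right
      rw [Ideal.span_singleton_le_iff_mem]
      have h1 : MvPowerSeries.C ϖ = quadEq V ϖ d c +
          ∑ i, ∑ j, MvPowerSeries.X i * c i j * MvPowerSeries.X j := by
        rw [quadEq, sub_add_cancel]
      rw [h1]
      exact Ideal.add_mem _ (Ideal.mem_sup_left (Ideal.subset_span rfl))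
        (Ideal.mem_sup_right hgX)
    · refine sup_le ?_ le_sup_right
      rw [Ideal.span_singleton_le_iff_mem, quadEq]
      exact Ideal.sub_mem _ (Ideal.mem_sup_left (Ideal.subset_span rfl))
        (Ideal.mem_sup_right hgX)
  · have hg₁ : a₁ (∑ i, ∑ j, MvPowerSeries.X i * c i j * MvPowerSeries.X j) ∈
        Ideal.span (Set.range fun i => a₁ (MvPowerSeries.X i)) := by
      rw [map_sum]
      refine Ideal.sum_mem _ fun i _ => ?_
      rw [map_sum]
      refine Ideal.sum_mem _ fun j _ => ?_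
      rw [map_mul]
      exact Ideal.mul_mem_left _ _ (Ideal.subset_span ⟨j, rfl⟩)
    rw [mvPowerSeries_maximalIdeal_gen, hϖ, Ideal.map_span, Set.image_singleton]
    apply le_antisymm
    · refine sup_le ?_ ?_
      · rw [Ideal.span_singleton_le_iff_mem]
        have h1 : MvPowerSeries.C ϖ = a₁ (quadEq V ϖ d c) +
            a₁ (∑ i, ∑ j, MvPowerSeries.X i * c i j * MvPowerSeries.X j) := by
          rw [← map_add, quadEq, sub_add_cancel, hC₁]
        rw [h1]
        exact Ideal.mem_sup_left (Ideal.add_mem _ (Ideal.mem_sup_left (Ideal.subset_span rfl))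
          (Ideal.mem_sup_right hg₁))
      · rw [Ideal.span_le]
        rintro _ ⟨i | i, rfl⟩
        · rw [SetLike.mem_coe, ← hX₁]
          exact Ideal.mem_sup_left (Ideal.mem_sup_right (Ideal.subset_span ⟨i, rfl⟩))
        · rw [SetLike.mem_coe, ← hX₂]
          have h1 : a₂ (MvPowerSeries.X i) = a₁ (MvPowerSeries.X i) +
              (a₂ (MvPowerSeries.X i) - a₁ (MvPowerSeries.X i)) := by ring
          rw [h1]
          exact Ideal.add_mem _
            (Ideal.mem_sup_left (Ideal.mem_sup_right (Ideal.subset_span ⟨i, rfl⟩)))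
            (Ideal.mem_sup_right (Ideal.subset_span ⟨i, rfl⟩))
    · have hle : Ideal.span (Set.range fun i => a₁ (MvPowerSeries.X i)) ≤
          (Ideal.span {MvPowerSeries.C ϖ} ⊔ Ideal.span (Set.range MvPowerSeries.X) :
            Ideal (MvPowerSeries (Fin d ⊕ Fin d) V)) := by
        rw [Ideal.span_le]
        rintro _ ⟨i, rfl⟩
        simp only [hX₁]
        exact Ideal.mem_sup_right (Ideal.subset_span ⟨_, rfl⟩)
      refine sup_le (sup_le ?_ hle) ?_
      · rw [Ideal.span_singleton_le_iff_mem, quadEq, map_sub, hC₁]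
        exact Ideal.sub_mem _ (Ideal.mem_sup_left (Ideal.subset_span rfl)) (hle hg₁)
      · rw [Ideal.span_le]
        rintro _ ⟨i, rfl⟩
        simp only [hX₂, hX₁]
        exact Ideal.sub_mem _ (Ideal.mem_sup_right (Ideal.subset_span ⟨_, rfl⟩))
          (Ideal.mem_sup_right (Ideal.subset_span ⟨_, rfl⟩))
  · rw [quadEq, map_sub, map_sub, hC₁, hC₂]
    rw [← hw2]
    ring

end mk

end Vale.Agent.P177
end
end

section

section

/-!
Global positivity from local positivity at the relevant primes.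
-/

namespace Vale.Agent.P177

open CategoryTheory TensorProduct Function IsLocalRing RingTheory.Sequence Pointwise

universe u

theorem exists_minimalPrime_of_le_supportDim {R : Type u} [CommRing R] [IsRegularLocalRing R]
    {d : ℕ} (hd : ringKrullDim R = d) (M : Type u) [AddCommGroup M] [Module R M]
    [Module.Finite R M] (m : ℕ) (hm : (m : WithBot ℕ∞) ≤ Module.supportDim R M) :
    ∃ (p : PrimeSpectrum R) (P : ℕ), p ∈ Module.support R M ∧
      p.asIdeal ∈ (Module.annihilator R M).minimalPrimes ∧ p.asIdeal.height = P ∧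
      P + m ≤ d := by
  obtain ⟨p, P, hp, hP, hPm⟩ := exists_prime_of_le_supportDim hd M m hm
  rw [Module.support_eq_zeroLocus] at hp
  have hp' : Module.annihilator R M ≤ p.asIdeal := hp
  obtain ⟨p', hp', hle⟩ := Ideal.exists_minimalPrimes_le hp'
  have hpp : p'.IsPrime := hp'.1.1
  obtain ⟨P', hP', -, -⟩ := supportDim_prime_eq hd p'
  have h1 := Ideal.height_mono hle
  rw [hP, hP'] at h1
  have h2 : P' ≤ P := by exact_mod_cast h1
  refine ⟨⟨p', hpp⟩, P', ?_, hp', hP', by omega⟩
  rw [Module.support_eq_zeroLocus]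
  exact hp'.1.2

theorem global_pos_of_loc {R₁ R₂ T : Type u} [CommRing R₁] [CommRing R₂] [CommRing T]
    [IsRegularLocalRing R₁] [IsRegularLocalRing R₂] [IsRegularLocalRing T]
    [Algebra R₁ T] [Algebra R₂ T] [Module.Flat R₁ T] [Module.Flat R₂ T]
    (μ : T →+* R₁) (hμ : ∀ s, μ (algebraMap R₁ T s) = s) (z : List T)
    (hkerμ : RingHom.ker μ = Ideal.ofList z) (hz : IsWeaklyRegular T z)
    (θ : R₂ ≃+* R₁) (hθ : ∀ s, μ (algebraMap R₂ T s) = θ s)
    (d : ℕ) (hd : ringKrullDim R₁ = d)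
    (M N : Type u) [AddCommGroup M] [Module R₂ M] [Module.Finite R₂ M]
    [AddCommGroup N] [Module R₁ N] [Module R₂ N] [Module.Finite R₁ N]
    (H : ∀ (Q : Ideal T) [Q.IsPrime], Q ∈ ((Module.annihilator R₁ N).map (algebraMap R₁ T) ⊔
      (Module.annihilator R₂ M).map (algebraMap R₂ T)).minimalPrimes → LocPosAt (T := T) R₁ R₂ N M Q)
    (H' : ∀ (p₁ : PrimeSpectrum R₁) (p₂ : PrimeSpectrum R₂),
      p₁.asIdeal ∈ (Module.annihilator R₁ N).minimalPrimes →
      p₂.asIdeal ∈ (Module.annihilator R₂ M).minimalPrimes → ∀ (Q : Ideal T) [Q.IsPrime],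
      Q ∈ (p₁.asIdeal.map (algebraMap R₁ T) ⊔ p₂.asIdeal.map (algebraMap R₂ T)).minimalPrimes →
      LocPosAt (T := T) R₁ R₂ (R₁ ⧸ p₁.asIdeal) (R₂ ⧸ p₂.asIdeal) Q)
    (hN : ∀ (s : R₂) (t : N), s • t = θ s • t)
    (hlen : Module.length R₂ (M ⊗[R₂] N) ≠ ⊤) :
    0 ≤ eulerTor R₂ (d + 1) M N ∧ ∀ m n : ℕ, (m : WithBot ℕ∞) ≤ Module.supportDim R₂ M →
      (n : WithBot ℕ∞) ≤ Module.supportDim R₁ N →
      (m + n ≤ d) ∧ (d ≤ m + n → 0 < eulerTor R₂ (d + 1) M N) := by
  classical
  -- basic facts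
  have hμs : Surjective μ := fun s => ⟨algebraMap R₁ T s, hμ s⟩
  have hμloc : IsLocalHom μ := IsLocalHom.of_surjective μ hμs
  have hl₁ : IsLocalHom (algebraMap R₁ T) := ⟨fun s hs => by
    have := hs.map μ
    rwa [hμ] at this⟩
  have hl₂ : IsLocalHom (algebraMap R₂ T) := ⟨fun s hs => by
    have h1 := (hs.map μ).map θ.symm
    rwa [hθ, RingEquiv.symm_apply_apply] at h1⟩
  have hzm : ∀ y ∈ z, y ∈ maximalIdeal T := by
    intro y hy
    have h1 : y ∈ RingHom.ker μ := by
      rw [hkerμ]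
      exact Ideal.subset_span hy
    rw [mem_maximalIdeal, mem_nonunits_iff]
    intro hu
    have h2 := hu.map μ
    rw [(RingHom.mem_ker).1 h1] at h2
    exact not_isUnit_zero h2
  have hd₂ : ringKrullDim R₂ = d := by rw [ringKrullDim_eq_of_ringEquiv θ, hd]
  have ht : ringKrullDim T = ((d + z.length : ℕ) : WithBot ℕ∞) := by
    have hreg : IsRegular T z := by
      refine ⟨hz, ?_⟩
      intro h
      have h1 : (Ideal.ofList z • ⊤ : Ideal T) ≤ maximalIdeal T := by
        rw [smul_eq_mul, Ideal.mul_top]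
        exact Ideal.span_le.2 hzm
      rw [← h] at h1
      exact (maximalIdeal.isMaximal T).ne_top (top_le_iff.1 h1)
    have h2 := ringKrullDim_add_length_eq_ringKrullDim_of_isRegular _ hreg
    rw [← h2]
    have e : (T ⧸ Ideal.ofList z) ≃+* R₁ :=
      (Ideal.quotEquivOfEq hkerμ.symm).trans (RingHom.quotientKerEquivOfSurjective hμs)
    rw [ringKrullDim_eq_of_ringEquiv e, hd]
    push_cast
    rfl
  -- the ideal
  let I : Ideal T := (Module.annihilator R₁ N).map (algebraMap R₁ T) ⊔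
    (Module.annihilator R₂ M).map (algebraMap R₂ T)
  -- Fact A
  have hann : ∀ v ∈ Module.annihilator R₂ N, θ v ∈ Module.annihilator R₁ N := by
    intro v hv
    rw [Module.mem_annihilator] at hv ⊢
    intro t
    rw [← hN, hv]
  have : Module.Finite R₂ N := by
    let _ : Algebra R₂ R₁ := (θ : R₂ →+* R₁).toAlgebra
    have : IsScalarTower R₂ R₁ N := IsScalarTower.of_algebraMap_smul fun s t => (hN s t).symm
    have : Module.Finite R₂ R₁ := Module.Finite.of_surjective (Algebra.linearMap R₂ R₁)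
      θ.surjective
    exact Module.Finite.trans R₁ N
  have hA : maximalIdeal T ≤ (I ⊔ Ideal.ofList z).radical := by
    obtain ⟨k, hk⟩ := exists_pow_le_sup_annihilator (R := R₂) M N hlen
    intro x hx
    refine ⟨k, ?_⟩
    have h1 : θ.symm (μ x) ∈ maximalIdeal R₂ := by
      rw [mem_maximalIdeal, mem_nonunits_iff] at hx ⊢
      intro hu
      apply hx
      have h2 := hu.map θ
      rw [RingEquiv.apply_symm_apply] at h2
      exact isUnit_of_map_unit μ x h2
    obtain ⟨u, hu, v, hv, huv⟩ := Submodule.mem_sup.1 (hk (Ideal.pow_mem_pow h1 k))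
    have h3 : x ^ k - algebraMap R₂ T u - algebraMap R₁ T (θ v) ∈ Ideal.ofList z := by
      rw [← hkerμ, RingHom.mem_ker, map_sub, map_sub, hθ, hμ, map_pow, sub_sub, ← map_add, huv,
        map_pow, RingEquiv.apply_symm_apply, sub_self]
    have h4 : x ^ k = (algebraMap R₁ T (θ v) + algebraMap R₂ T u) +
        (x ^ k - algebraMap R₂ T u - algebraMap R₁ T (θ v)) := by ring
    rw [h4]
    exact Submodule.add_mem_sup (Submodule.add_mem_sup (Ideal.mem_map_of_mem _ (hann v hv))
      (Ideal.mem_map_of_mem _ hu)) h3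
  -- Fact C
  have hC : ∀ Q : Ideal T, I ≤ Q → Module.supportDim T (T ⧸ Q) ≤ (z.length : WithBot ℕ∞) := by
    intro Q hQ
    apply supportDim_le_length z hzm
    unfold FL
    rw [Ideal.annihilator_quotient]
    exact hA.trans (Ideal.radical_mono (sup_le_sup_right hQ _))
  have hmin : ∀ Q : PrimeSpectrum T, I ≤ Q.asIdeal → (z.length : WithBot ℕ∞) ≤
      Module.supportDim T (T ⧸ Q.asIdeal) → Q.asIdeal ∈ I.minimalPrimes := by
    intro Q hQ hQd
    refine ⟨⟨Q.isPrime, hQ⟩, ?_⟩
    rintro Q' ⟨hQ'p, hQ'⟩ hle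
    by_contra hcon
    have hlt : Q' < Q.asIdeal := lt_of_le_not_ge hle hcon
    have h1 := (supportDim_quotient_strict hlt z.length hQd).trans (hC Q' hQ')
    have h2 : z.length + 1 ≤ z.length := by exact_mod_cast h1
    omega
  have hWfin : {Q : PrimeSpectrum T | I ≤ Q.asIdeal ∧ (z.length : WithBot ℕ∞) ≤
      Module.supportDim T (T ⧸ Q.asIdeal)}.Finite := by
    refine Set.Finite.of_finite_image (f := PrimeSpectrum.asIdeal) ?_ ?_
    · refine (Ideal.finite_minimalPrimes_of_isNoetherianRing T I).subset ?_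
      rintro _ ⟨Q, hQ, rfl⟩
      exact hmin Q hQ.1 hQ.2
    · intro Q _ Q' _ h
      exact PrimeSpectrum.ext h
  let W : Finset (PrimeSpectrum T) := hWfin.toFinset
  have hWmem : ∀ Q, Q ∈ W ↔ I ≤ Q.asIdeal ∧ (z.length : WithBot ℕ∞) ≤
      Module.supportDim T (T ⧸ Q.asIdeal) := fun Q => by
    rw [Set.Finite.mem_toFinset]; rfl
  have hWdim : ∀ Q ∈ W, Module.supportDim T (T ⧸ Q.asIdeal) = (z.length : WithBot ℕ∞) := by
    intro Q hQ
    rw [hWmem] at hQ
    exact le_antisymm (hC _ hQ.1) hQ.2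
  -- the main identity
  have hfin : ∀ j, Module.Finite T (TorM T j (T ⊗[R₁] N) (T ⊗[R₂] M)) := fun j =>
    tor_finite (R := T) j _ _
  have hIann : ∀ j, I ≤ Module.annihilator T (TorM T j (T ⊗[R₁] N) (T ⊗[R₂] M)) := by
    intro j
    refine sup_le ?_ ?_
    · refine (map_annihilator_le N).trans ?_
      intro x hx
      rw [Module.mem_annihilator]
      exact tor_smul_eq_zero_left x (fun m => Module.mem_annihilator.1 hx m) j _
    · refine (map_annihilator_le M).trans ?_
      intro x hx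
      rw [Module.mem_annihilator]
      exact tor_smul_eq_zero_right x (fun m => Module.mem_annihilator.1 hx m) j _
  have hv : ∀ j, d + z.length + 1 ≤ j →
      Subsingleton (TorM T j (T ⊗[R₁] N) (T ⊗[R₂] M)) := fun j hj =>
    regular_tor_vanish T _ ht _ _ j hj
  let n : ℕ := d + z.length + 1 + z.length
  obtain ⟨heq, hFL⟩ : eulerTor R₂ n M N = ∑ j ∈ Finset.range n,
        (-1 : ℤ) ^ j * eul z (TorM T j (T ⊗[R₁] N) (T ⊗[R₂] M)) ∧
      FL2 z (T ⊗[R₁] N) (T ⊗[R₂] M) := by
    let _ : Module T N := Module.compHom N μ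
    have hsN : ∀ (b : T) (t : N), b • t = μ b • t := fun b t => rfl
    have : IsScalarTower R₁ T N := ⟨fun s b t => by
      rw [hsN, hsN, Algebra.smul_def, map_mul, hμ, mul_smul]⟩
    have : IsScalarTower R₂ T N := ⟨fun s b t => by
      rw [hsN, hsN, Algebra.smul_def, map_mul, hθ, mul_smul, hN]⟩
    have hres : ∀ b : T, ∃ s : R₁, b - algebraMap R₁ T s ∈ Ideal.ofList z := by
      intro b
      refine ⟨μ b, ?_⟩
      rw [← hkerμ, RingHom.mem_ker, map_sub, hμ, sub_self]
    have hkill : ∀ y ∈ Ideal.ofList z, ∀ t : N, y • t = 0 := by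
      intro y hy t
      rw [← hkerμ, RingHom.mem_ker] at hy
      rw [hsN, hy, zero_smul]
    have hN2 : ∀ b : T, ∃ s : R₂, ∀ t : N, b • t = s • t := by
      intro b
      refine ⟨θ.symm (μ b), fun t => ?_⟩
      rw [hN, RingEquiv.apply_symm_apply, hsN]
    let _ : Module T R₁ := Module.compHom R₁ μ
    have hsm : ∀ (b : T) (t : R₁), b • t = μ b * t := fun b t => rfl
    have : IsScalarTower R₁ T R₁ := ⟨fun s b t => by
      rw [hsm, hsm, Algebra.smul_def, map_mul, hμ, smul_eq_mul, mul_assoc]⟩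
    let μl : T →ₗ[T] R₁ :=
      { toFun := μ
        map_add' := map_add μ
        map_smul' := fun b c => by
          rw [smul_eq_mul, map_mul, RingHom.id_apply, hsm] }
    have hker : LinearMap.ker μl = (Ideal.ofList z • ⊤ : Submodule T T) := by
      rw [smul_eq_mul, Ideal.mul_top, ← hkerμ]
      rfl
    have e : (T ⧸ (Ideal.ofList z • ⊤ : Submodule T T)) ≃ₗ[T] R₁ :=
      Submodule.quotEquivOfEq _ _ hker.symm ≪≫ₗ μl.quotKerEquivOfSurjective hμs
    exact eulerTor_eq_sum_eul z hzm hz hres R₁ e N hkill hN2 M (d + z.length + 1) hv hlen n le_rfl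
  have hassoc : ∀ j, eul z (TorM T j (T ⊗[R₁] N) (T ⊗[R₂] M)) =
      ∑ Q ∈ W, ((locLen Q.asIdeal (TorM T j (T ⊗[R₁] N) (T ⊗[R₂] M))).toNat : ℤ) *
        eul z (T ⧸ Q.asIdeal) := by
    intro j
    have := hfin j
    refine (assoc_formula z hzm W hWdim _ (hFL.tor j) ?_).2
    intro Q hQ hQd
    rw [hWmem]
    refine ⟨?_, hQd⟩
    rw [Module.support_eq_zeroLocus] at hQ
    exact (hIann j).trans hQ
  have hsum : eulerTor R₂ n M N = ∑ Q ∈ W,
      locEul Q.asIdeal n (T ⊗[R₁] N) (T ⊗[R₂] M) * eul z (T ⧸ Q.asIdeal) := by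
    rw [heq]
    simp only [hassoc, Finset.mul_sum]
    rw [Finset.sum_comm]
    refine Finset.sum_congr rfl fun Q _ => ?_
    unfold locEul
    rw [Finset.sum_mul]
    refine Finset.sum_congr rfl fun j _ => ?_
    ring
  have hshrink : eulerTor R₂ n M N = eulerTor R₂ (d + 1) M N := by
    have : Module.Finite R₂ N := ‹_›
    exact eulerTor_shrink M N (d + 1) n (by (clear * - hWfin; omega)) fun j hj =>
      regular_tor_vanish R₂ d hd₂ M N j hj
  rw [← hshrink, hsum]
  -- positivity of the second factor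
  have heul : ∀ Q : Ideal T, I ≤ Q → 0 ≤ eul z (T ⧸ Q) ∧
      ((z.length : WithBot ℕ∞) ≤ Module.supportDim T (T ⧸ Q) → 0 < eul z (T ⧸ Q)) := by
    intro Q hQ
    apply eul_nonneg_pos z hzm
    unfold FL
    rw [Ideal.annihilator_quotient]
    exact hA.trans (Ideal.radical_mono (sup_le_sup_right hQ _))
  -- heights
  have hht : ∀ Q : Ideal T, Q.IsPrime → ∃ r₁ r₂ q : ℕ, (Q.comap (algebraMap R₁ T)).height = r₁ ∧
      (Q.comap (algebraMap R₂ T)).height = r₂ ∧ Q.height = q ∧
      q ≤ d + z.length ∧ Module.supportDim T (T ⧸ Q) = ((d + z.length - q : ℕ) : WithBot ℕ∞) := by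
    intro Q hQ
    have h1 : (Q.comap (algebraMap R₁ T)).IsPrime := Ideal.IsPrime.comap _
    have h2 : (Q.comap (algebraMap R₂ T)).IsPrime := Ideal.IsPrime.comap _
    obtain ⟨r₁, hr₁, -, -⟩ := supportDim_prime_eq hd (Q.comap (algebraMap R₁ T))
    obtain ⟨r₂, hr₂, -, -⟩ := supportDim_prime_eq hd₂ (Q.comap (algebraMap R₂ T))
    obtain ⟨q, hq, hq', hq''⟩ := supportDim_prime_eq ht Q
    exact ⟨r₁, r₂, q, hr₁, hr₂, hq, hq', hq''⟩
  have hterm : ∀ Q ∈ W, 0 ≤ locEul Q.asIdeal n (T ⊗[R₁] N) (T ⊗[R₂] M) *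
      eul z (T ⧸ Q.asIdeal) := by
    intro Q hQ
    have hQ' := (hWmem Q).1 hQ
    have hQp := Q.isPrime
    obtain ⟨r₁, r₂, q, hr₁, hr₂, hq, hqt, -⟩ := hht Q.asIdeal Q.isPrime
    obtain ⟨b, -, h1, -⟩ := local_value_of_loc N M Q.asIdeal (hmin Q hQ'.1 hQ'.2) r₁ r₂ q hr₁
      hr₂ hq (H Q.asIdeal (hmin Q hQ'.1 hQ'.2)) n (by omega)
    exact mul_nonneg h1 (heul _ hQ'.1).1
  refine ⟨Finset.sum_nonneg hterm, ?_⟩
  intro m k hm hk
  obtain ⟨p₂, P₂, hp₂, hp₂m, hP₂, hm'⟩ := exists_minimalPrime_of_le_supportDim hd₂ M m hm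
  obtain ⟨p₁, P₁, hp₁, hp₁m, hP₁, hk'⟩ := exists_minimalPrime_of_le_supportDim hd N k hk
  -- the minimal prime
  let J : Ideal T := p₁.asIdeal.map (algebraMap R₁ T) ⊔ p₂.asIdeal.map (algebraMap R₂ T)
  have hJ : J ≤ maximalIdeal T := by
    refine sup_le ?_ ?_
    · exact (Ideal.map_mono (le_maximalIdeal p₁.isPrime.ne_top)).trans
        (((IsLocalRing.local_hom_TFAE (algebraMap R₁ T)).out 0 2).mp hl₁)
    · exact (Ideal.map_mono (le_maximalIdeal p₂.isPrime.ne_top)).trans
        (((IsLocalRing.local_hom_TFAE (algebraMap R₂ T)).out 0 2).mp hl₂)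
  obtain ⟨Q, hQ, -⟩ := Ideal.exists_minimalPrimes_le hJ
  have hQp : Q.IsPrime := hQ.1.1
  have hIJ : I ≤ J := by
    rw [Module.support_eq_zeroLocus] at hp₁ hp₂
    exact sup_le_sup (Ideal.map_mono hp₁) (Ideal.map_mono hp₂)
  have hIQ : I ≤ Q := hIJ.trans hQ.1.2
  obtain ⟨r₁, r₂, q, hr₁, hr₂, hq, hqt, hQd⟩ := hht Q hQp
  have hle₁ : p₁.asIdeal ≤ Q.comap (algebraMap R₁ T) := by
    rw [← Ideal.map_le_iff_le_comap]
    exact le_sup_left.trans hQ.1.2
  have hle₂ : p₂.asIdeal ≤ Q.comap (algebraMap R₂ T) := by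
    rw [← Ideal.map_le_iff_le_comap]
    exact le_sup_right.trans hQ.1.2
  have hP₁r : P₁ ≤ r₁ := by
    have := Ideal.height_mono hle₁
    rw [hP₁, hr₁] at this
    exact_mod_cast this
  have hP₂r : P₂ ≤ r₂ := by
    have := Ideal.height_mono hle₂
    rw [hP₂, hr₂] at this
    exact_mod_cast this
  have hqP : q ≤ P₁ + P₂ := by
    have hQ2 : Q ∈ ((Module.annihilator R₁ (R₁ ⧸ p₁.asIdeal)).map (algebraMap R₁ T) ⊔
        (Module.annihilator R₂ (R₂ ⧸ p₂.asIdeal)).map (algebraMap R₂ T)).minimalPrimes := by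
      rw [Ideal.annihilator_quotient, Ideal.annihilator_quotient]
      exact hQ
    obtain ⟨b, hb1, -, hb2⟩ := local_value_of_loc (R₁ ⧸ p₁.asIdeal) (R₂ ⧸ p₂.asIdeal) Q hQ2
      r₁ r₂ q hr₁ hr₂ hq (H' p₁ p₂ hp₁m hp₂m Q hQ) n (by omega)
    have h5 := (hb2 P₁ P₂ p₁ p₂ ((support_quotient_prime _ _).2 le_rfl)
      ((support_quotient_prime _ _).2 le_rfl) hle₁ hle₂ hP₁ hP₂).1
    omega
  have hCQ := hC Q hIQ
  rw [hQd] at hCQ
  have hCQ' : d + z.length - q ≤ z.length := by exact_mod_cast hCQ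
  constructor
  · omega
  · intro hdm
    have hqd : q = d := by omega
    have hPP : P₁ + P₂ = d := by omega
    have hQz : (z.length : WithBot ℕ∞) ≤ Module.supportDim T (T ⧸ Q) := by
      rw [hQd]
      have : z.length ≤ d + z.length - q := by omega
      exact_mod_cast this
    have hQW : (⟨Q, hQp⟩ : PrimeSpectrum T) ∈ W := (hWmem _).2 ⟨hIQ, hQz⟩
    obtain ⟨b, hb1, -, hb2⟩ := local_value_of_loc N M Q (hmin ⟨Q, hQp⟩ hIQ hQz)
      r₁ r₂ q hr₁ hr₂ hq (H Q (hmin ⟨Q, hQp⟩ hIQ hQz)) n (by omega)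
    have h6 := (hb2 P₁ P₂ p₁ p₂ hp₁ hp₂ hle₁ hle₂ hP₁ hP₂).2 (by omega)
    exact Finset.sum_pos' hterm ⟨_, hQW, mul_pos h6 ((heul Q hIQ).2 hQz)⟩

end Vale.Agent.P177
end
end

section

section

/-!
Properties of the ring `T` attached to a quadratic hypersurface.
-/

namespace Vale.Agent.P177

open TensorProduct IsLocalRing MvPolynomial RingTheory.Sequence

universe u

namespace QData

variable {d : ℕ} {B Γ : Type u} [CommRing B] [IsRegularLocalRing B] [CommRing Γ]
  [IsRegularLocalRing Γ] (D : QData d B Γ)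

theorem G_mem : D.G ∈ maximalIdeal B := by
  rw [D.maxB]
  exact Ideal.mem_sup_left (Ideal.subset_span rfl)

/-- The list of parameters of `B/G`. -/
noncomputable def xs : List (B ⧸ Ideal.span {D.G}) :=
  List.ofFn (fun i => Ideal.Quotient.mk (Ideal.span {D.G}) (D.x i))

theorem nontrivial_quot : Nontrivial (B ⧸ Ideal.span {D.G}) := by
  apply Ideal.Quotient.nontrivial_iff.2
  rw [Ne, Ideal.span_singleton_eq_top]
  exact D.G_mem

theorem isLocal_quot : IsLocalRing (B ⧸ Ideal.span {D.G}) :=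
  have := D.nontrivial_quot
  .of_surjective' (Ideal.Quotient.mk _) Ideal.Quotient.mk_surjective

theorem quot_regular : ∃ (_ : IsRegularLocalRing (B ⧸ Ideal.span {D.G})),
    Ideal.ofList D.xs = maximalIdeal (B ⧸ Ideal.span {D.G}) ∧
    ringKrullDim (B ⧸ Ideal.span {D.G}) = (d : WithBot ℕ∞) := by
  have h0 := D.nontrivial_quot
  have h1 := D.isLocal_quot
  have hm : (maximalIdeal B).map (Ideal.Quotient.mk (Ideal.span {D.G})) =
      maximalIdeal (B ⧸ Ideal.span {D.G}) :=
    map_maximalIdeal_of_surjective _ Ideal.Quotient.mk_surjective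
  have h2 : Ideal.ofList D.xs = maximalIdeal (B ⧸ Ideal.span {D.G}) := by
    rw [← hm, D.maxB, Ideal.map_sup, Ideal.map_quotient_self, bot_sup_eq, Ideal.map_span,
      ← Set.range_comp, Ideal.ofList]
    congr 1
    ext y
    simp only [xs, List.mem_ofFn, Set.mem_ofPred_eq, Set.mem_range, Function.comp_apply]
  obtain ⟨t, ht⟩ := exists_nat_ringKrullDim (B ⧸ Ideal.span {D.G})
  have h3 := ringKrullDim_le_ringKrullDim_quotient_add_card ({D.G} : Finset B) (by
    rw [IsLocalRing.ringJacobson_eq_maximalIdeal]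
    simpa only [Finset.coe_singleton, Set.singleton_subset_iff, SetLike.mem_coe, mem_maximalIdeal,     mem_nonunits_iff] using D.G_mem)
  rw [Finset.coe_singleton, D.dimB, ht, Finset.card_singleton] at h3
  have h4 : d + 1 ≤ t + 1 := by exact_mod_cast h3
  have hlen : D.xs.length = d := by simp only [xs, List.length_ofFn]
  obtain ⟨h5, h6⟩ := isRegularLocalRing_of_list D.xs h2 (by
    rw [ht, hlen]
    exact_mod_cast (by omega : d ≤ t))
  refine ⟨h5, h2, ?_⟩
  rw [h6, hlen]

theorem height_comap_mk (p : Ideal (B ⧸ Ideal.span {D.G})) [p.IsPrime] (r s : ℕ)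
    (hr : p.height = r) (hs : (p.comap (Ideal.Quotient.mk (Ideal.span {D.G}))).height = s) :
    r + 1 ≤ s := by
  obtain ⟨h1, -, h2⟩ := D.quot_regular
  obtain ⟨r', hr', hle, h3⟩ := supportDim_prime_eq h2 p
  obtain ⟨s', hs', hle', h4⟩ := supportDim_prime_eq D.dimB
    (p.comap (Ideal.Quotient.mk (Ideal.span {D.G})))
  rw [hr] at hr'
  rw [hs] at hs'
  have e1 : r = r' := by exact_mod_cast hr'
  have e2 : s = s' := by exact_mod_cast hs'
  rw [Module.supportDim_quotient_eq_ringKrullDim] at h3 h4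
  have h5 : ringKrullDim (B ⧸ p.comap (Ideal.Quotient.mk (Ideal.span {D.G}))) =
      ringKrullDim ((B ⧸ Ideal.span {D.G}) ⧸ p) := by
    apply ringKrullDim_eq_of_ringEquiv
    have hs : Function.Surjective ((Ideal.Quotient.mk p).comp
        (Ideal.Quotient.mk (Ideal.span {D.G}))) :=
      Ideal.Quotient.mk_surjective.comp Ideal.Quotient.mk_surjective
    refine (Ideal.quotEquivOfEq ?_).trans (RingHom.quotientKerEquivOfSurjective hs)
    ext y
    rw [RingHom.mem_ker, RingHom.comp_apply, Ideal.Quotient.eq_zero_iff_mem, Ideal.mem_comap]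
  rw [h3, h4] at h5
  have h6 : d + 1 - s' = d - r' := by exact_mod_cast h5
  omega

section TD

variable {D} {T : Type u} [CommRing T] [IsRegularLocalRing T] (t : D.TD T)

theorem TD.f_a₂G : t.f (C (D.a₂ D.G)) = 0 := by
  rw [D.hG, map_sub, map_sub, t.hG, zero_sub, neg_eq_zero, map_sum, map_sum]
  have h1 : ∀ i, t.f (C ((D.a₂ (D.x i) - D.a₁ (D.x i)) * D.u i)) =
      t.f (C (D.u i)) * ∑ l, (t.f (X (i, l)) - t.f (X (l, i))) * t.f (C (D.u l)) := by
    intro i
    rw [map_mul, map_mul, ← D.h_eq t.f t.hE i, mul_comm]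
    rfl
  rw [Finset.sum_congr rfl fun i _ => h1 i]
  exact sum_alt_eq_zero (fun p => t.f (X p)) (fun i => t.f (C (D.u i)))

/-- The first map. -/
noncomputable def TD.i₁ : B ⧸ Ideal.span {D.G} →+* T :=
  Ideal.Quotient.lift _ ((t.f.comp C).comp D.a₁) (fun a ha => by
    have h1 : Ideal.span {D.G} ≤ RingHom.ker ((t.f.comp C).comp D.a₁) := by
      rw [Ideal.span_singleton_le_iff_mem, RingHom.mem_ker]
      exact t.hG
    exact h1 ha)

/-- The second map. -/
noncomputable def TD.i₂ : B ⧸ Ideal.span {D.G} →+* T :=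
  Ideal.Quotient.lift _ ((t.f.comp C).comp D.a₂) (fun a ha => by
    have h1 : Ideal.span {D.G} ≤ RingHom.ker ((t.f.comp C).comp D.a₂) := by
      rw [Ideal.span_singleton_le_iff_mem, RingHom.mem_ker]
      exact t.f_a₂G
    exact h1 ha)

theorem TD.i₁_mk (b : B) : t.i₁ (Ideal.Quotient.mk _ b) = t.f (C (D.a₁ b)) :=
  Ideal.Quotient.lift_mk _ _ _

theorem TD.i₂_mk (b : B) : t.i₂ (Ideal.Quotient.mk _ b) = t.f (C (D.a₂ b)) :=
  Ideal.Quotient.lift_mk _ _ _

theorem TD.ν_i₁ (r : B ⧸ Ideal.span {D.G}) : t.ν (t.i₁ r) = r := by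
  obtain ⟨b, rfl⟩ := Ideal.Quotient.mk_surjective r
  rw [t.i₁_mk, t.hν, D.μ₁]

theorem TD.ν_i₂ (r : B ⧸ Ideal.span {D.G}) : t.ν (t.i₂ r) = r := by
  obtain ⟨b, rfl⟩ := Ideal.Quotient.mk_surjective r
  rw [t.i₂_mk, t.hν, D.μ₂]

theorem TD.isLocalHom₁ : IsLocalHom t.i₁ := ⟨fun s hs => by
    have := hs.map t.ν
    rwa [t.ν_i₁] at this⟩

theorem TD.isLocalHom₂ : IsLocalHom t.i₂ := ⟨fun s hs => by
    have := hs.map t.ν
    rwa [t.ν_i₂] at this⟩

/-- The list of the variables. -/
noncomputable def TD.z : List T :=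
  (Finset.univ : Finset (Fin d × Fin d)).toList.map (fun p => t.f (X p))

theorem TD.length_z : t.z.length = d * d := by simp only [z, List.length_map, Finset.length_toList, Finset.card_univ, Fintype.card_prod, Fintype.card_fin]

theorem TD.ofList_z : Ideal.ofList t.z = Ideal.span (Set.range fun p => t.f (X p)) := by
  rw [Ideal.ofList]
  congr 1
  ext y
  simp only [z, List.mem_map, Finset.mem_toList, Finset.mem_univ, true_and, Prod.exists, Set.mem_ofPred_eq, Set.mem_range]

theorem TD.h_mem (i : Fin d) : t.f (C (D.h i)) ∈ Ideal.ofList t.z := by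
  rw [D.h_eq t.f t.hE i, t.ofList_z]
  exact Ideal.sum_mem _ fun l _ => Ideal.mul_mem_right _ _
    (Ideal.sub_mem _ (Ideal.subset_span ⟨_, rfl⟩) (Ideal.subset_span ⟨_, rfl⟩))

theorem TD.ofList_i₁ : Ideal.ofList (D.xs.map t.i₁) =
    Ideal.span (Set.range fun i => t.f (C (D.a₁ (D.x i)))) := by
  rw [Ideal.ofList]
  congr 1
  ext y
  simp only [xs, List.map_ofFn, List.mem_ofFn, Set.mem_ofPred_eq, Set.mem_range, Function.comp_apply,
    t.i₁_mk]

theorem TD.ofList_i₂ : Ideal.ofList (D.xs.map t.i₂) =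
    Ideal.span (Set.range fun i => t.f (C (D.a₂ (D.x i)))) := by
  rw [Ideal.ofList]
  congr 1
  ext y
  simp only [xs, List.map_ofFn, List.mem_ofFn, Function.comp_apply, t.i₂_mk, Set.mem_ofPred_eq, Set.mem_range]

theorem TD.max₁ : Ideal.ofList (D.xs.map t.i₁) ⊔ Ideal.ofList t.z = maximalIdeal T := by
  rw [t.maxT, t.ofList_z, t.ofList_i₁]

theorem TD.a₂_eq (i : Fin d) : t.f (C (D.a₂ (D.x i))) = t.f (C (D.a₁ (D.x i))) +
    t.f (C (D.h i)) := by
  rw [← map_add, ← map_add, QData.h, add_sub_cancel]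

theorem TD.max₂ : Ideal.ofList (D.xs.map t.i₂) ⊔ Ideal.ofList t.z = maximalIdeal T := by
  rw [← t.max₁, t.ofList_i₁, t.ofList_i₂]
  apply le_antisymm
  · refine sup_le (Ideal.span_le.2 ?_) le_sup_right
    rintro _ ⟨i, rfl⟩
    simp only [t.a₂_eq]
    exact Ideal.add_mem _ (Ideal.mem_sup_left (Ideal.subset_span ⟨i, rfl⟩))
      (Ideal.mem_sup_right (t.h_mem i))
  · refine sup_le (Ideal.span_le.2 ?_) le_sup_right
    rintro _ ⟨i, rfl⟩
    have h1 : t.f (C (D.a₁ (D.x i))) = t.f (C (D.a₂ (D.x i))) - t.f (C (D.h i)) := by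
      rw [t.a₂_eq, add_sub_cancel_right]
    simp only [h1]
    exact Ideal.sub_mem _ (Ideal.mem_sup_left (Ideal.subset_span ⟨i, rfl⟩))
      (Ideal.mem_sup_right (t.h_mem i))

theorem TD.isRegular_append (rs : List T) (hrs : Ideal.ofList rs ⊔ Ideal.ofList t.z =
    maximalIdeal T) (hlen : rs.length = d) :
    IsWeaklyRegular T (rs ++ t.z) ∧ IsWeaklyRegular T (t.z ++ rs) := by
  constructor
  · refine (isRegular_of_ofList_eq_maximalIdeal T (rs ++ t.z) ?_ ?_).toIsWeaklyRegular
    · rw [Ideal.ofList_append, hrs]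
    · rw [t.dimT, List.length_append, hlen, t.length_z]
  · refine (isRegular_of_ofList_eq_maximalIdeal T (t.z ++ rs) ?_ ?_).toIsWeaklyRegular
    · rw [Ideal.ofList_append, sup_comm, hrs]
    · rw [t.dimT, List.length_append, hlen, t.length_z, add_comm]

theorem TD.length_xs_map (i : B ⧸ Ideal.span {D.G} →+* T) : (D.xs.map i).length = d := by
  simp [xs]

theorem TD.z_regular : IsWeaklyRegular T t.z :=
  ((isWeaklyRegular_append_iff _ _ _).mp
    (t.isRegular_append _ t.max₁ (TD.length_xs_map _)).2).1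

theorem TD.flat₁ : t.i₁.Flat := by
  obtain ⟨h1, h2, h3⟩ := D.quot_regular
  let _ : Algebra (B ⧸ Ideal.span {D.G}) T := t.i₁.toAlgebra
  have hl : IsLocalHom (algebraMap (B ⧸ Ideal.span {D.G}) T) := t.isLocalHom₁
  refine flat_of_weaklyRegular D.xs h2 (isRegular_of_ofList_eq_maximalIdeal _ D.xs h2 ?_).toIsWeaklyRegular
    ((isWeaklyRegular_append_iff _ _ _).mp
      (t.isRegular_append _ t.max₁ (TD.length_xs_map _)).1).1
  rw [h3]
  simp only [xs, List.length_ofFn]

theorem TD.flat₂ : t.i₂.Flat := by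
  obtain ⟨h1, h2, h3⟩ := D.quot_regular
  let _ : Algebra (B ⧸ Ideal.span {D.G}) T := t.i₂.toAlgebra
  have hl : IsLocalHom (algebraMap (B ⧸ Ideal.span {D.G}) T) := t.isLocalHom₂
  refine flat_of_weaklyRegular D.xs h2 (isRegular_of_ofList_eq_maximalIdeal _ D.xs h2 ?_).toIsWeaklyRegular
    ((isWeaklyRegular_append_iff _ _ _).mp
      (t.isRegular_append _ t.max₂ (TD.length_xs_map _)).1).1
  rw [h3]
  simp only [xs, List.length_ofFn]

end TD

end QData

end Vale.Agent.P177
end
end

section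

section

/-!
The prime `mT` and the linear relation between the two maps.
-/

namespace Vale.Agent.P177

open TensorProduct IsLocalRing MvPolynomial RingTheory.Sequence

universe u

namespace QData

variable {d : ℕ} {B Γ : Type u} [CommRing B] [IsRegularLocalRing B] [CommRing Γ]
  [IsRegularLocalRing Γ] {D : QData d B Γ}

section TD

variable {T : Type u} [CommRing T] [IsRegularLocalRing T] (t : D.TD T)

/-- The prime ideal `mT`. -/
noncomputable def TD.m : Ideal T := Ideal.ofList (D.xs.map t.i₁)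

theorem TD.m_le : t.m ≤ maximalIdeal T := by
  rw [← t.max₁]
  exact le_sup_left

theorem TD.m_prime : t.m.IsPrime := by
  have hzm : t.m ≤ maximalIdeal T := t.m_le
  have h0 : Nontrivial (T ⧸ t.m) := Ideal.Quotient.nontrivial_iff.2
    (fun h => (maximalIdeal.isMaximal T).ne_top (top_le_iff.1 (h ▸ hzm)))
  have h1 : IsLocalRing (T ⧸ t.m) :=
    .of_surjective' (Ideal.Quotient.mk _) Ideal.Quotient.mk_surjective
  have hm : (maximalIdeal T).map (Ideal.Quotient.mk t.m) = maximalIdeal (T ⧸ t.m) :=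
    map_maximalIdeal_of_surjective _ Ideal.Quotient.mk_surjective
  have h2 : Ideal.ofList (t.z.map (Ideal.Quotient.mk t.m)) = maximalIdeal (T ⧸ t.m) := by
    rw [← hm, ← t.max₁, Ideal.map_sup, show Ideal.ofList (D.xs.map t.i₁) = t.m from rfl,
      Ideal.map_quotient_self, bot_sup_eq, Ideal.map_ofList]
  have h3 : ringKrullDim (T ⧸ t.m) = ((d * d : ℕ) : WithBot ℕ∞) := by
    have hreg : IsRegular T (D.xs.map t.i₁) := by
      refine ⟨((isWeaklyRegular_append_iff _ _ _).mp
        (t.isRegular_append _ t.max₁ (TD.length_xs_map _)).1).1, ?_⟩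
      intro h
      have h1 : (Ideal.ofList (D.xs.map t.i₁) • ⊤ : Ideal T) ≤ maximalIdeal T := by
        rw [smul_eq_mul, Ideal.mul_top]
        exact hzm
      rw [← h] at h1
      exact (maximalIdeal.isMaximal T).ne_top (top_le_iff.1 h1)
    have h2 := ringKrullDim_add_length_eq_ringKrullDim_of_isRegular _ hreg
    rw [t.dimT, TD.length_xs_map] at h2
    change ringKrullDim (T ⧸ t.m) + _ = _ at h2
    obtain ⟨e, he⟩ := exists_nat_ringKrullDim (T ⧸ t.m)
    rw [he] at h2 ⊢
    have h3 : e + d = d + d * d := by exact_mod_cast h2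
    have h4 : e = d * d := by omega
    rw [h4]
  obtain ⟨h5, h6⟩ := isRegularLocalRing_of_list _ h2 (by
    rw [h3, List.length_map, t.length_z])
  have h7 : IsDomain (T ⧸ t.m) := regular_isDomain _
  exact (Ideal.Quotient.isDomain_iff_prime _).1 h7

theorem TD.X_mem (p : Fin d × Fin d) : t.f (X p) ∈ maximalIdeal T := by
  rw [← t.max₁, t.ofList_z]
  exact Ideal.mem_sup_right (Ideal.subset_span ⟨p, rfl⟩)

theorem TD.exists_η : ∃ η : Matrix (Fin d) (Fin d) T,
    (∀ i, t.f (C (D.h i)) = ∑ m, η i m * t.f (C (D.a₁ (D.x m)))) ∧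
    (∀ i m, η i m = ∑ l, (t.f (X (i, l)) - t.f (X (l, i))) *
      (t.f (C (D.β l m)) + ∑ j, t.f (C (D.γ l j)) * η j m)) ∧
    ∃ ω : Fin d → Fin d → T, ∀ i m, η i m = ∑ l, ω i l * t.f (C (D.β l m)) := by
  classical
  let Λ : Matrix (Fin d) (Fin d) T := fun i l => t.f (X (i, l)) - t.f (X (l, i))
  let βT : Matrix (Fin d) (Fin d) T := fun i l => t.f (C (D.β i l))
  let γT : Matrix (Fin d) (Fin d) T := fun i l => t.f (C (D.γ i l))
  let hv : Fin d → T := fun i => t.f (C (D.h i))
  let Xv : Fin d → T := fun i => t.f (C (D.a₁ (D.x i)))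
  let uv : Fin d → T := fun i => t.f (C (D.u i))
  have e1 : hv = Λ.mulVec uv := by
    funext i
    exact D.h_eq t.f t.hE i
  have e2 : uv = βT.mulVec Xv + γT.mulVec hv := by
    funext i
    change t.f (C (D.u i)) = ∑ m, t.f (C (D.β i m)) * t.f (C (D.a₁ (D.x m))) +
      ∑ m, t.f (C (D.γ i m)) * t.f (C (D.h m))
    rw [D.hu, map_add, map_add, map_sum, map_sum, map_sum, map_sum]
    simp only [map_mul]
    rfl
  let M₁ : Matrix (Fin d) (Fin d) T := 1 - Λ * γT
  have hdet : IsUnit M₁.det := by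
    have h2 : ∀ p, residue T (t.f (X p)) = 0 := fun p => (residue_eq_zero_iff _).2 (t.X_mem p)
    have hΛ : (residue T).mapMatrix Λ = 0 := by
      ext i l
      change residue T (t.f (X (i, l)) - t.f (X (l, i))) = 0
      rw [map_sub, h2, h2, sub_zero]
    have h1 : (residue T).mapMatrix M₁ = 1 := by
      rw [show M₁ = 1 - Λ * γT from rfl, map_sub, map_one, map_mul, hΛ, zero_mul, sub_zero]
    have h2 : residue T M₁.det = 1 := by
      rw [RingHom.map_det, h1, Matrix.det_one]
    by_contra hcon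
    have h3 : residue T M₁.det = 0 := (residue_eq_zero_iff _).2 ((mem_maximalIdeal _).2 hcon)
    rw [h2] at h3
    exact one_ne_zero h3
  let η : Matrix (Fin d) (Fin d) T := M₁⁻¹ * (Λ * βT)
  have e3 : M₁ * η = Λ * βT := by
    rw [← Matrix.mul_assoc, Matrix.mul_nonsing_inv _ hdet, Matrix.one_mul]
  have e4 : η = Λ * (βT + γT * η) := by
    have h1 : η - Λ * γT * η = Λ * βT := by
      rw [← e3]
      simp only [M₁, Matrix.sub_mul, Matrix.one_mul]
    rw [Matrix.mul_add, ← Matrix.mul_assoc, ← h1]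
    abel
  have e5 : M₁.mulVec hv = (Λ * βT).mulVec Xv := by
    have h1 : hv = (Λ * βT).mulVec Xv + (Λ * γT).mulVec hv := by
      conv_lhs => rw [e1, e2]
      rw [Matrix.mulVec_add, Matrix.mulVec_mulVec, Matrix.mulVec_mulVec]
    rw [show M₁ = 1 - Λ * γT from rfl, Matrix.sub_mulVec, Matrix.one_mulVec, sub_eq_iff_eq_add]
    exact h1
  have e6 : hv = η.mulVec Xv := by
    have h1 : M₁⁻¹.mulVec (M₁.mulVec hv) = M₁⁻¹.mulVec ((Λ * βT).mulVec Xv) := by rw [e5]
    rw [Matrix.mulVec_mulVec, Matrix.mulVec_mulVec, Matrix.nonsing_inv_mul _ hdet,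
      Matrix.one_mulVec] at h1
    exact h1
  refine ⟨η, fun i => congrFun e6 i, fun i m => ?_, fun i l => (M₁⁻¹ * Λ) i l, fun i m => ?_⟩
  · have h1 := congrFun (congrFun e4 i) m
    rw [Matrix.mul_apply] at h1
    exact h1
  · have h1 : η = M₁⁻¹ * Λ * βT := by rw [Matrix.mul_assoc]
    have h2 := congrFun (congrFun h1 i) m
    rw [Matrix.mul_apply] at h2
    exact h2

end TD

end QData

end Vale.Agent.P177
end
end

section

section

/-!
The height inequality over the residue field of the prime `mT`.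
-/

namespace Vale.Agent.P177

open TensorProduct IsLocalRing MvPolynomial RingTheory.Sequence

universe u

namespace QData

variable {d : ℕ} {B Γ : Type u} [CommRing B] [IsRegularLocalRing B] [CommRing Γ]
  [IsRegularLocalRing Γ] {D : QData d B Γ}

section TD

variable {T : Type u} [CommRing T] [IsRegularLocalRing T] (t : D.TD T)

theorem TD.x_mem (i : Fin d) : t.f (C (D.a₁ (D.x i))) ∈ t.m := by
  rw [TD.m, t.ofList_i₁]
  exact Ideal.subset_span ⟨i, rfl⟩

theorem TD.h_mem_m (i : Fin d) : t.f (C (D.h i)) ∈ t.m := by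
  obtain ⟨η, h1, -, -⟩ := t.exists_η
  rw [h1]
  exact Ideal.sum_mem _ fun m _ => Ideal.mul_mem_left _ _ (t.x_mem m)

theorem TD.fC_mem (y : Γ) (hy : y ∈ maximalIdeal Γ) : t.f (C y) ∈ t.m := by
  have h1 : maximalIdeal Γ ≤ t.m.comap (t.f.comp C) := by
    rw [D.maxΓ]
    refine sup_le (sup_le ?_ ?_) ?_
    · rw [Ideal.span_singleton_le_iff_mem]
      change t.f (C (D.a₁ D.G)) ∈ t.m
      rw [t.hG]
      exact t.m.zero_mem
    · rw [Ideal.span_le]
      rintro _ ⟨i, rfl⟩
      exact t.x_mem i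
    · rw [Ideal.span_le]
      rintro _ ⟨i, rfl⟩
      exact t.h_mem_m i
  exact h1 hy

theorem TD.fC_sub_mem (y : Γ) : t.f (C y) - t.i₁ (Ideal.Quotient.mk _ (D.μ y)) ∈ t.m := by
  rw [t.i₁_mk, ← map_sub, ← map_sub]
  apply t.fC_mem
  rw [mem_maximalIdeal, mem_nonunits_iff]
  intro hu
  have h1 := hu.map D.μ
  rw [map_sub, D.μ₁, sub_self] at h1
  exact not_isUnit_zero h1

theorem TD.comap_m : t.m.comap t.f = (maximalIdeal Γ).map C := by
  classical
  have hm := t.m_prime
  have hp : ((maximalIdeal Γ).map (C : Γ →+* MvPolynomial (Fin d × Fin d) Γ)).IsPrime := by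
    have e := MvPolynomial.quotientEquivQuotientMvPolynomial (σ := Fin d × Fin d) (maximalIdeal Γ)
    have hdom : IsDomain (MvPolynomial (Fin d × Fin d) Γ ⧸ (maximalIdeal Γ).map C) :=
      e.symm.toMulEquiv.isDomain _
    exact (Ideal.Quotient.isDomain_iff_prime _).1 hdom
  have hQ : (t.m.comap t.f).IsPrime := Ideal.IsPrime.comap _
  have hle : (maximalIdeal Γ).map C ≤ t.m.comap t.f := by
    rw [Ideal.map_le_iff_le_comap]
    intro y hy
    exact t.fC_mem y hy
  have h1 : t.m.height ≤ d := by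
    have hs : t.m = Ideal.span
        (((Finset.univ : Finset (Fin d)).image (fun i => t.f (C (D.a₁ (D.x i))))) : Set T) := by
      rw [TD.m, t.ofList_i₁]
      congr 1
      simp only [Finset.coe_image, Finset.coe_univ, Set.image_univ]
    have h2 : t.m ∈ (Ideal.span
        ((((Finset.univ : Finset (Fin d)).image (fun i => t.f (C (D.a₁ (D.x i))))) :
          Finset T) : Set T)).minimalPrimes := by
      rw [← hs]
      exact ⟨⟨hm, le_rfl⟩, fun q hq _ => hq.2⟩
    refine (Ideal.height_le_card_of_mem_minimalPrimes_span_finset h2).trans ?_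
    have h3 := Finset.card_image_le (s := (Finset.univ : Finset (Fin d)))
      (f := fun i => t.f (C (D.a₁ (D.x i))))
    rw [Finset.card_univ, Fintype.card_fin] at h3
    exact_mod_cast h3
  have h2 := t.ht t.m hm
  by_contra hne
  have hlt : (maximalIdeal Γ).map C < t.m.comap t.f := lt_of_le_of_ne hle (Ne.symm hne)
  have h3 := Ideal.height_add_one_le_of_lt_of_isPrime hlt
  have h4 : (2 * d + 1 : ℕ) ≤ ((maximalIdeal Γ).map
      (C : Γ →+* MvPolynomial (Fin d × Fin d) Γ)).height := by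
    have h5 := height_comap_le_of_flat (R := Γ) (S := MvPolynomial (Fin d × Fin d) Γ)
      ((maximalIdeal Γ).map C)
    have h6 : ((maximalIdeal Γ).map C).comap (algebraMap Γ (MvPolynomial (Fin d × Fin d) Γ)) =
        maximalIdeal Γ := by
      apply le_antisymm
      · apply le_maximalIdeal
        exact Ideal.comap_ne_top _ hp.ne_top
      · exact Ideal.le_comap_map
    rw [h6] at h5
    have h7 : ((maximalIdeal Γ).height : WithBot ℕ∞) = ((2 * d + 1 : ℕ) : WithBot ℕ∞) := by
      rw [IsLocalRing.maximalIdeal_height_eq_ringKrullDim, D.dimΓ]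
    have h8 : (maximalIdeal Γ).height = ((2 * d + 1 : ℕ) : ℕ∞) := WithBot.coe_injective h7
    rwa [h8] at h5
  have h5 : ((2 * d + 1 : ℕ) : ℕ∞) + 1 ≤ (d : ℕ∞) + ((d + 1 : ℕ) : ℕ∞) :=
    (add_le_add_left h4 1).trans (h3.trans (h2.trans (add_le_add_left h1 _)))
  have h6 : 2 * d + 1 + 1 ≤ d + (d + 1) := by exact_mod_cast h5
  omega

theorem TD.height_K {k K : Type u} [Field k] [Field K] [Algebra k K] (κ : T →+* K)
    (hκ : RingHom.ker κ = t.m) (ρ : B ⧸ Ideal.span {D.G} →+* k) (hρs : Function.Surjective ρ)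
    (hρ : ∀ r, algebraMap k K (ρ r) = κ (t.i₁ r)) (η : Matrix (Fin d) (Fin d) T)
    (hη : ∀ i m, η i m = ∑ l, (t.f (X (i, l)) - t.f (X (l, i))) *
      (t.f (C (D.β l m)) + ∑ j, t.f (C (D.γ l j)) * η j m))
    (θ : Fin d → Fin d → K) (hθ : ∀ i m, θ i m = (if i = m then 1 else 0) + κ (η i m))
    (z : Ideal (MvPolynomial (Fin d) K)) [z.IsPrime] (hz : ∃ l,
      ∑ m, C (κ (t.f (C (D.β l m)))) * (X m : MvPolynomial (Fin d) K) ∉ z) :
    (z.comap (aeval X : MvPolynomial (Fin d) k →ₐ[k] MvPolynomial (Fin d) K)).height +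
      (z.comap (aeval (fun i => ∑ l, C (θ i l) * X l) :
        MvPolynomial (Fin d) k →ₐ[k] MvPolynomial (Fin d) K)).height ≤ z.height + 1 := by
  have hκm : ∀ y ∈ t.m, κ y = 0 := fun y hy => by
    rw [← hκ] at hy
    exact hy
  let τ : Γ →+* k := (ρ.comp (Ideal.Quotient.mk _)).comp D.μ
  have hκC : ∀ y : Γ, κ (t.f (C y)) = algebraMap k K (τ y) := by
    intro y
    have h1 := hκm _ (t.fC_sub_mem y)
    rw [map_sub, sub_eq_zero] at h1
    rw [h1, ← hρ]
    rfl
  have hτs : Function.Surjective τ := by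
    intro a
    obtain ⟨r, rfl⟩ := hρs a
    obtain ⟨b, rfl⟩ := Ideal.Quotient.mk_surjective r
    exact ⟨D.a₁ b, by simp only [RingHom.coe_comp, Function.comp_apply, D.μ₁, τ]⟩
  refine height_orthogonal (k := k) (K := K) (fun p => κ (t.f (X p))) ?_
    (fun l m => τ (D.β l m)) (fun l m => τ (D.γ l m)) θ ?_ z
    (by simpa only [hκC] using hz)
  · rw [injective_iff_map_eq_zero]
    intro p hp
    obtain ⟨q, rfl⟩ := MvPolynomial.map_surjective τ hτs p
    have h1 : κ (t.f q) = 0 := by
      have h2 : (κ.comp t.f) = ((aeval (fun p => κ (t.f (X p))) :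
          MvPolynomial (Fin d × Fin d) k →ₐ[k] K) : MvPolynomial (Fin d × Fin d) k →+* K).comp
            (MvPolynomial.map τ) := by
        apply MvPolynomial.ringHom_ext
        · intro y
          simp only [RingHom.coe_comp, Function.comp_apply, hκC, RingHom.coe_coe, map_C, algHom_C]
        · intro p
          simp only [RingHom.coe_comp, Function.comp_apply, RingHom.coe_coe, map_X, aeval_X]
      have h3 := RingHom.congr_fun h2 q
      rw [RingHom.comp_apply] at h3
      rw [h3]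
      exact hp
    have h2 : q ∈ t.m.comap t.f := by
      rw [Ideal.mem_comap, ← hκ]
      exact h1
    rw [t.comap_m, MvPolynomial.mem_map_C_iff] at h2
    ext m
    rw [MvPolynomial.coeff_map, MvPolynomial.coeff_zero]
    have h3 := h2 m
    by_contra hne
    -- `τ` kills the maximal ideal
    have h5 : ¬ IsUnit (coeff m q) := (mem_maximalIdeal _).1 h3
    apply h5
    have hμ : IsUnit (D.μ (coeff m q)) := by
      by_contra hcon
      apply hne
      have h6 : D.μ (coeff m q) ∈ maximalIdeal B := (mem_maximalIdeal _).2 hcon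
      have hkerρ : RingHom.ker (ρ.comp (Ideal.Quotient.mk (Ideal.span {D.G}))) =
          maximalIdeal B := by
        apply IsLocalRing.eq_maximalIdeal
        exact RingHom.ker_isMaximal_of_surjective _
          (hρs.comp Ideal.Quotient.mk_surjective)
      have h7 : D.μ (coeff m q) ∈ RingHom.ker (ρ.comp (Ideal.Quotient.mk (Ideal.span {D.G}))) := by
        rw [hkerρ]
        exact h6
      exact h7
    have hloc : IsLocalHom D.μ :=
      IsLocalHom.of_surjective D.μ (fun b => ⟨D.a₁ b, D.μ₁ b⟩)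
    exact isUnit_of_map_unit D.μ _ hμ
  · intro i m
    have h1 : ∀ i m, θ i m - (if i = m then 1 else 0) = κ (η i m) := by
      intro i m
      rw [hθ, add_sub_cancel_left]
    rw [h1, hη, map_sum]
    refine Finset.sum_congr rfl fun l _ => ?_
    rw [map_mul, map_sub, map_add, map_sum, hκC]
    simp only [h1, map_mul, hκC]

end TD

end QData

end Vale.Agent.P177
end
end

section

section

/-!
Flatness of a noetherian completion of a flat algebra.
-/

namespace Vale.Agent.P177

open IsLocalRing Function TensorProduct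

universe u

section approx

variable {R A S : Type u} [CommRing R] [IsLocalRing R] [IsNoetherianRing R] [CommRing A]
  [Algebra R A] [Module.Flat R A] [CommRing S] [IsLocalRing S] [IsNoetherianRing S]
  [Algebra A S] [Algebra R S] [IsScalarTower R A S] {d : ℕ} {x : Fin d → R}

omit [IsNoetherianRing R] in
theorem exists_sum_tmul (hx : ∀ i, x i ∈ maximalIdeal R)
    (hspan : Ideal.span (Set.range x) = maximalIdeal R) (N : Type u) [AddCommGroup N] [Module R N]
    (ξ : N ⊗[R] maximalIdeal R) :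
    ∃ s : Fin d → N, ξ = ∑ i, s i ⊗ₜ[R] (⟨x i, hx i⟩ : maximalIdeal R) := by
  induction ξ with
  | zero => exact ⟨0, by simp only [Pi.zero_apply, zero_tmul, Finset.sum_const_zero]⟩
  | add a b ha hb =>
    obtain ⟨s, rfl⟩ := ha
    obtain ⟨t, rfl⟩ := hb
    refine ⟨s + t, ?_⟩
    rw [← Finset.sum_add_distrib]
    exact Finset.sum_congr rfl fun i _ => by rw [Pi.add_apply, add_tmul]
  | tmul n m =>
    have hm : (m : R) ∈ Ideal.span (Set.range x) := by
      rw [hspan]
      exact m.2
    rw [Ideal.mem_span_range_iff_exists_fun] at hm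
    obtain ⟨c, hc⟩ := hm
    refine ⟨fun i => c i • n, ?_⟩
    have h1 : m = ∑ i, c i • (⟨x i, hx i⟩ : maximalIdeal R) := by
      apply Subtype.ext
      rw [← hc, AddSubmonoidClass.coe_finsetSum]
      rfl
    calc n ⊗ₜ[R] m = n ⊗ₜ[R] ∑ i, c i • (⟨x i, hx i⟩ : maximalIdeal R) := by rw [← h1]
      _ = _ := by
        rw [tmul_sum]
        refine Finset.sum_congr rfl fun i _ => ?_
        rw [tmul_smul, smul_tmul']

omit [IsNoetherianRing R] [Module.Flat R A] in
theorem sum_mem_pow_succ (hspan : Ideal.span (Set.range x) = maximalIdeal R) (n : ℕ) (y : A)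
    (hy : y ∈ ((maximalIdeal R) ^ (n + 1)).map (algebraMap R A)) :
    ∃ b : Fin d → A, (∀ i, b i ∈ ((maximalIdeal R) ^ n).map (algebraMap R A)) ∧
      y = ∑ i, x i • b i := by
  rw [pow_succ', Ideal.map_mul] at hy
  have h1 : (maximalIdeal R).map (algebraMap R A) =
      Ideal.span (Set.range fun i => algebraMap R A (x i)) := by
    rw [← hspan, Ideal.map_span, ← Set.range_comp]
    rfl
  rw [h1] at hy
  refine Submodule.mul_induction_on hy ?_ ?_
  · intro a ha b hb
    rw [Ideal.mem_span_range_iff_exists_fun] at ha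
    obtain ⟨c, rfl⟩ := ha
    refine ⟨fun i => c i * b, fun i => Ideal.mul_mem_left _ _ hb, ?_⟩
    rw [Finset.sum_mul]
    refine Finset.sum_congr rfl fun i _ => ?_
    rw [Algebra.smul_def]
    ring
  · rintro a b ⟨f, hf, rfl⟩ ⟨g, hg, rfl⟩
    refine ⟨f + g, fun i => add_mem (hf i) (hg i), ?_⟩
    rw [← Finset.sum_add_distrib]
    exact Finset.sum_congr rfl fun i _ => by rw [Pi.add_apply, smul_add]

theorem flat_of_approx (hspan : Ideal.span (Set.range x) = maximalIdeal R)
    (hm : (maximalIdeal R).map (algebraMap R S) = maximalIdeal S)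
    (happ : ∀ (n : ℕ) (s : S), ∃ a : A, s - algebraMap A S a ∈
      ((maximalIdeal R) ^ n).map (algebraMap R S))
    (hcl : ∀ (n : ℕ) (a : A), algebraMap A S a ∈ ((maximalIdeal R) ^ n).map (algebraMap R S) →
      a ∈ ((maximalIdeal R) ^ n).map (algebraMap R A)) : Module.Flat R S := by
  have hx : ∀ i, x i ∈ maximalIdeal R := fun i => hspan ▸ Ideal.subset_span ⟨i, rfl⟩
  have hl : IsLocalHom (algebraMap R S) :=
    ((IsLocalRing.local_hom_TFAE (algebraMap R S)).out 0 2).2 hm.le
  apply flat_of_tor_residue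
  have hex : Exact (maximalIdeal R).subtype (maximalIdeal R).mkQ := by
    intro y
    rw [Submodule.mkQ_apply, Submodule.Quotient.mk_eq_zero]
    simp only [mem_maximalIdeal, mem_nonunits_iff, Submodule.coe_subtype, Subtype.range_coe_subtype, Set.mem_ofPred_eq]
  obtain ⟨e1⟩ := tor_one (maximalIdeal R).subtype (maximalIdeal R).mkQ
    (Submodule.injective_subtype _) (Submodule.mkQ_surjective _) hex S
  obtain ⟨e2⟩ := ker_comm (N := S) (maximalIdeal R).subtype
  have hinj : ∀ ξ : S ⊗[R] maximalIdeal R,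
      (maximalIdeal R).subtype.lTensor S ξ = 0 → ξ = 0 := by
    intro ξ hξ
    obtain ⟨s, rfl⟩ := exists_sum_tmul hx hspan S ξ
    have h0 : ∑ i, x i • s i = 0 := by
      have h1 := congrArg (TensorProduct.rid R S) hξ
      rw [map_zero, map_sum, map_sum] at h1
      rw [← h1]
      refine Finset.sum_congr rfl fun i _ => ?_
      rw [LinearMap.lTensor_tmul, TensorProduct.rid_tmul]
      rfl
    have key : ∀ n : ℕ, (∑ i, s i ⊗ₜ[R] (⟨x i, hx i⟩ : maximalIdeal R)) ∈
        (maximalIdeal S ^ n • ⊤ : Submodule S (S ⊗[R] maximalIdeal R)) := by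
      intro n
      choose a ha using fun i => happ n (s i)
      have h1 : algebraMap A S (∑ i, x i • a i) ∈
          ((maximalIdeal R) ^ (n + 1)).map (algebraMap R S) := by
        have h2 : algebraMap A S (∑ i, x i • a i) =
            - ∑ i, algebraMap R S (x i) * (s i - algebraMap A S (a i)) := by
          have h3 : ∑ i, algebraMap R S (x i) * s i = 0 := by
            rw [← h0]
            exact Finset.sum_congr rfl fun i _ => by rw [Algebra.smul_def]
          simp only [mul_sub, Finset.sum_sub_distrib]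
          rw [h3, zero_sub, neg_neg, map_sum]
          refine Finset.sum_congr rfl fun i _ => ?_
          rw [Algebra.smul_def, map_mul, ← IsScalarTower.algebraMap_apply]
        rw [h2]
        refine neg_mem (Ideal.sum_mem _ fun i _ => ?_)
        rw [pow_succ', Ideal.map_mul]
        exact Ideal.mul_mem_mul (Ideal.mem_map_of_mem _ (hx i)) (ha i)
      obtain ⟨b, hb, h2⟩ := sum_mem_pow_succ hspan n _ (hcl (n + 1) _ h1)
      have h3 : ∑ i, (a i - b i) ⊗ₜ[R] (⟨x i, hx i⟩ : maximalIdeal R) = 0 := by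
        have h4 : Injective ((maximalIdeal R).subtype.lTensor A) :=
          Module.Flat.lTensor_preserves_injective_linearMap _ (Submodule.injective_subtype _)
        apply h4
        apply (TensorProduct.rid R A).injective
        rw [map_zero, map_zero, map_sum, map_sum]
        have h5 : ∑ i, x i • (a i - b i) = 0 := by
          simp only [smul_sub, Finset.sum_sub_distrib]
          rw [h2, sub_self]
        rw [← h5]
        refine Finset.sum_congr rfl fun i _ => ?_
        rw [LinearMap.lTensor_tmul, TensorProduct.rid_tmul]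
        rfl
      have h4 : ∑ i, algebraMap A S (a i - b i) ⊗ₜ[R] (⟨x i, hx i⟩ : maximalIdeal R) = 0 := by
        have h5 := congrArg ((Algebra.linearMap A S).restrictScalars R |>.rTensor
          (maximalIdeal R)) h3
        rw [map_zero, map_sum] at h5
        exact h5
      have h5 : (∑ i, s i ⊗ₜ[R] (⟨x i, hx i⟩ : maximalIdeal R)) =
          ∑ i, (s i - algebraMap A S (a i - b i)) ⊗ₜ[R] (⟨x i, hx i⟩ : maximalIdeal R) := by
        simp only [sub_tmul, Finset.sum_sub_distrib]
        rw [h4, sub_zero]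
      rw [h5]
      refine Submodule.sum_mem _ fun i _ => ?_
      have h6 : (s i - algebraMap A S (a i - b i)) ⊗ₜ[R] (⟨x i, hx i⟩ : maximalIdeal R) =
          (s i - algebraMap A S (a i - b i)) •
            ((1 : S) ⊗ₜ[R] (⟨x i, hx i⟩ : maximalIdeal R)) := by
        rw [smul_tmul', smul_eq_mul, mul_one]
      rw [h6]
      refine Submodule.smul_mem_smul ?_ Submodule.mem_top
      have h7 : s i - algebraMap A S (a i - b i) =
          (s i - algebraMap A S (a i)) + algebraMap A S (b i) := by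
        rw [map_sub]
        ring
      rw [h7, ← hm, ← Ideal.map_pow]
      refine add_mem (ha i) ?_
      have h8 := Ideal.mem_map_of_mem (algebraMap A S) (hb i)
      rw [Ideal.map_map, ← IsScalarTower.algebraMap_eq] at h8
      exact h8
    have hfin : Module.Finite S (S ⊗[R] maximalIdeal R) := inferInstance
    have hH : IsHausdorff (maximalIdeal S) (S ⊗[R] maximalIdeal R) := inferInstance
    apply hH.haus
    intro n
    rw [SModEq.zero]
    exact key n
  have hsub : Subsingleton (LinearMap.ker ((maximalIdeal R).subtype.lTensor S)) := by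
    refine ⟨fun u v => ?_⟩
    apply Subtype.ext
    rw [hinj u.1 u.2, hinj v.1 v.2]
  exact (e1 ≪≫ₗ e2).toEquiv.subsingleton

end approx

end Vale.Agent.P177
end
end

section

section

/-!
Height inequality and minimal primes for the ring `T` attached to a quadratic hypersurface.
-/

namespace Vale.Agent.P177

open TensorProduct IsLocalRing MvPolynomial RingTheory.Sequence

universe u

/-- A surjection between local rings of the same dimension, the source being a domain, is
injective. -/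
theorem injective_of_surjective_of_dim {S R : Type*} [CommRing S] [CommRing R] [IsDomain S]
    (g : S →+* R) (hg : Function.Surjective g) (n : ℕ) (hS : ringKrullDim S = n)
    (hR : ringKrullDim R = n) : Function.Injective g := by
  rw [injective_iff_map_eq_zero]
  intro a ha
  by_contra hne
  have h1 := ringKrullDim_quotient_succ_le_of_nonZeroDivisor
    (mem_nonZeroDivisors_of_ne_zero hne)
  let g' : S ⧸ Ideal.span {a} →+* R := Ideal.Quotient.lift _ g (by
    intro b hb
    have h2 : Ideal.span {a} ≤ RingHom.ker g := by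
      rw [Ideal.span_singleton_le_iff_mem, RingHom.mem_ker, ha]
    exact h2 hb)
  have hg' : Function.Surjective g' := Ideal.Quotient.lift_surjective_of_surjective _ _ hg
  have h2 := ringKrullDim_le_of_surjective g' hg'
  rw [hR] at h2
  rw [hS] at h1
  have h3 : ((n : ℕ) : WithBot ℕ∞) + 1 ≤ (n : ℕ) := le_trans (by (clear * - h2; gcongr)) h1
  have h4 : n + 1 ≤ n := by exact_mod_cast h3
  omega

namespace QData

variable {d : ℕ} {B Γ : Type u} [CommRing B] [IsRegularLocalRing B] [CommRing Γ]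
  [IsRegularLocalRing Γ] {D : QData d B Γ}

section TD

variable {T : Type u} [CommRing T] [IsRegularLocalRing T] (t : D.TD T)

theorem TD.quot_z : ∃ (_ : IsRegularLocalRing (T ⧸ Ideal.ofList t.z)),
    ringKrullDim (T ⧸ Ideal.ofList t.z) = (d : WithBot ℕ∞) := by
  have hzm : Ideal.ofList t.z ≤ maximalIdeal T := by
    rw [← t.max₁]
    exact le_sup_right
  have h0 : Nontrivial (T ⧸ Ideal.ofList t.z) := Ideal.Quotient.nontrivial_iff.2
    (fun h => (maximalIdeal.isMaximal T).ne_top (top_le_iff.1 (h ▸ hzm)))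
  have h1 : IsLocalRing (T ⧸ Ideal.ofList t.z) :=
    .of_surjective' (Ideal.Quotient.mk _) Ideal.Quotient.mk_surjective
  have hm : (maximalIdeal T).map (Ideal.Quotient.mk (Ideal.ofList t.z)) =
      maximalIdeal (T ⧸ Ideal.ofList t.z) :=
    map_maximalIdeal_of_surjective _ Ideal.Quotient.mk_surjective
  have h2 : Ideal.ofList ((D.xs.map t.i₁).map (Ideal.Quotient.mk (Ideal.ofList t.z))) =
      maximalIdeal (T ⧸ Ideal.ofList t.z) := by
    rw [← hm, ← t.max₁, Ideal.map_sup, Ideal.map_quotient_self, sup_bot_eq, Ideal.map_ofList]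
  have h3 : ringKrullDim (T ⧸ Ideal.ofList t.z) = (d : WithBot ℕ∞) := by
    have hreg : IsRegular T t.z := by
      refine ⟨t.z_regular, ?_⟩
      intro h
      have h1 : (Ideal.ofList t.z • ⊤ : Ideal T) ≤ maximalIdeal T := by
        rw [smul_eq_mul, Ideal.mul_top]
        exact hzm
      rw [← h] at h1
      exact (maximalIdeal.isMaximal T).ne_top (top_le_iff.1 h1)
    have h2 := ringKrullDim_add_length_eq_ringKrullDim_of_isRegular _ hreg
    rw [t.dimT, t.length_z] at h2
    obtain ⟨e, he⟩ := exists_nat_ringKrullDim (T ⧸ Ideal.ofList t.z)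
    rw [he] at h2 ⊢
    have h3 : e + d * d = d + d * d := by exact_mod_cast h2
    have h4 : e = d := by omega
    rw [h4]
  obtain ⟨h5, h6⟩ := isRegularLocalRing_of_list _ h2 (by
    rw [h3, List.length_map, TD.length_xs_map])
  exact ⟨h5, h3⟩

theorem TD.ker_ν : RingHom.ker t.ν = Ideal.ofList t.z := by
  have hz : Ideal.ofList t.z ≤ RingHom.ker t.ν := by
    rw [t.ofList_z, Ideal.span_le]
    rintro _ ⟨p, rfl⟩
    exact t.hνX p
  obtain ⟨h1, h2⟩ := t.quot_z
  have hdom : IsDomain (T ⧸ Ideal.ofList t.z) := regular_isDomain _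
  obtain ⟨-, -, h3⟩ := D.quot_regular
  let g : T ⧸ Ideal.ofList t.z →+* B ⧸ Ideal.span {D.G} :=
    Ideal.Quotient.lift _ t.ν (fun a ha => hz ha)
  have hg : Function.Surjective g := Ideal.Quotient.lift_surjective_of_surjective _ _
    (fun r => ⟨t.i₁ r, t.ν_i₁ r⟩)
  have hinj := injective_of_surjective_of_dim g hg d h2 h3
  refine le_antisymm ?_ hz
  intro a ha
  rw [← Ideal.Quotient.eq_zero_iff_mem]
  apply hinj
  rw [map_zero]
  exact ha

theorem TD.height_le (Q : Ideal T) [Q.IsPrime] (j : Fin d) (hj : t.f (C (D.u j)) ∉ Q)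
    (r₁ r₂ q : ℕ) (h₁ : (Q.comap t.i₁).height = r₁) (h₂ : (Q.comap t.i₂).height = r₂)
    (hq : Q.height = q) : r₁ + r₂ ≤ q + 1 := by
  have hQp : (Q.comap t.f).IsPrime := Ideal.IsPrime.comap _
  have hrp : ((Q.comap t.f).comap C).IsPrime := Ideal.IsPrime.comap _
  have e1 := elim_main D.h D.u (Q.comap t.f) (fun i => by
    rw [Ideal.mem_comap, t.hE]
    exact Q.zero_mem) j hj
  have e2 := t.ht Q inferInstance
  have hfin : ((Q.comap t.f).comap C).height ≠ ⊤ := Ideal.height_ne_top_of_isPrime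
  have hfin2 : (Q.comap t.f).height ≠ ⊤ := Ideal.height_ne_top_of_isPrime
  have hf1 : (((Q.comap t.f).comap C).comap D.a₁).IsPrime := Ideal.IsPrime.comap _
  have hf2 : (((Q.comap t.f).comap C).comap D.a₂).IsPrime := Ideal.IsPrime.comap _
  obtain ⟨s, hs⟩ := ENat.ne_top_iff_exists.1 hfin
  obtain ⟨v, hv⟩ := ENat.ne_top_iff_exists.1 hfin2
  obtain ⟨s₁, hs₁⟩ := ENat.ne_top_iff_exists.1
    (Ideal.height_ne_top_of_isPrime (I := ((Q.comap t.f).comap C).comap D.a₁))
  obtain ⟨s₂, hs₂⟩ := ENat.ne_top_iff_exists.1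
    (Ideal.height_ne_top_of_isPrime (I := ((Q.comap t.f).comap C).comap D.a₂))
  rw [← hs, ← hv] at e1
  rw [← hv, hq] at e2
  have e1' : s + d ≤ v + 1 := by exact_mod_cast e1
  have e2' : v ≤ q + (d + 1) := by exact_mod_cast e2
  have hsup : (maximalIdeal B).map D.a₁ ⊔ (maximalIdeal B).map D.a₂ = maximalIdeal Γ := by
    have hloc₁ : IsLocalHom D.a₁ := ⟨fun s hs => by
      have := hs.map D.μ
      rwa [D.μ₁] at this⟩
    have hloc₂ : IsLocalHom D.a₂ := ⟨fun s hs => by
      have := hs.map D.μ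
      rwa [D.μ₂] at this⟩
    apply le_antisymm
    · exact sup_le (((IsLocalRing.local_hom_TFAE D.a₁).out 0 2).mp hloc₁)
        (((IsLocalRing.local_hom_TFAE D.a₂).out 0 2).mp hloc₂)
    · rw [D.maxΓ]
      have hx : ∀ i, D.x i ∈ maximalIdeal B := fun i => by
        rw [D.maxB]
        exact Ideal.mem_sup_right (Ideal.subset_span ⟨i, rfl⟩)
      refine sup_le (sup_le ?_ ?_) ?_
      · rw [Ideal.span_singleton_le_iff_mem]
        exact Ideal.mem_sup_left (Ideal.mem_map_of_mem _ D.G_mem)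
      · rw [Ideal.span_le]
        rintro _ ⟨i, rfl⟩
        exact Ideal.mem_sup_left (Ideal.mem_map_of_mem _ (hx i))
      · rw [Ideal.span_le]
        rintro _ ⟨i, rfl⟩
        exact Ideal.sub_mem _ (Ideal.mem_sup_right (Ideal.mem_map_of_mem _ (hx i)))
          (Ideal.mem_sup_left (Ideal.mem_map_of_mem _ (hx i)))
  have e3 := height_le_of_sup D.a₁ D.a₂ D.dimB D.dimΓ hsup (a := 1) (by omega)
    ((Q.comap t.f).comap C) s₁ s₂ s hs₁.symm hs₂.symm hs.symm
  have k₁ : (Q.comap t.i₁).comap (Ideal.Quotient.mk (Ideal.span {D.G})) =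
      ((Q.comap t.f).comap C).comap D.a₁ := by
    ext b
    change t.i₁ (Ideal.Quotient.mk _ b) ∈ Q ↔ t.f (C (D.a₁ b)) ∈ Q
    rw [t.i₁_mk]
  have k₂ : (Q.comap t.i₂).comap (Ideal.Quotient.mk (Ideal.span {D.G})) =
      ((Q.comap t.f).comap C).comap D.a₂ := by
    ext b
    change t.i₂ (Ideal.Quotient.mk _ b) ∈ Q ↔ t.f (C (D.a₂ b)) ∈ Q
    rw [t.i₂_mk]
  have hq1 : (Q.comap t.i₁).IsPrime := Ideal.IsPrime.comap _
  have hq2 : (Q.comap t.i₂).IsPrime := Ideal.IsPrime.comap _
  have e4 := D.height_comap_mk (Q.comap t.i₁) r₁ s₁ h₁ (by rw [k₁, ← hs₁])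
  have e5 := D.height_comap_mk (Q.comap t.i₂) r₂ s₂ h₂ (by rw [k₂, ← hs₂])
  omega

/-- If all `u_j` are in `Q` then the two maps agree modulo `Q`. -/
theorem TD.sub_mem_of_u_mem (Q : Ideal T)
    (hu : ∀ j, t.f (C (D.u j)) ∈ Q) (r : B ⧸ Ideal.span {D.G}) : t.i₂ r - t.i₁ r ∈ Q := by
  have hh : ∀ i, t.f (C (D.h i)) ∈ Q := by
    intro i
    rw [D.h_eq t.f t.hE i]
    exact Ideal.sum_mem _ fun l _ => Ideal.mul_mem_left _ _ (hu l)
  obtain ⟨b, rfl⟩ := Ideal.Quotient.mk_surjective r
  rw [t.i₁_mk, t.i₂_mk, ← map_sub, ← map_sub]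
  have h1 : Ideal.span (Set.range fun i => D.a₂ (D.x i) - D.a₁ (D.x i)) ≤
      Q.comap (t.f.comp C) := by
    rw [Ideal.span_le]
    rintro _ ⟨i, rfl⟩
    exact hh i
  exact h1 (D.diag b)

end TD

end QData

end Vale.Agent.P177
end
end

section

section

/-!
The prime `mT`: height, contractions, and the primes containing the polar forms.
-/

namespace Vale.Agent.P177

open TensorProduct IsLocalRing MvPolynomial RingTheory.Sequence

universe u

namespace QData

variable {d : ℕ} {B Γ : Type u} [CommRing B] [IsRegularLocalRing B] [CommRing Γ]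
  [IsRegularLocalRing Γ] {D : QData d B Γ}

section TD

variable {T : Type u} [CommRing T] [IsRegularLocalRing T] (t : D.TD T)

theorem TD.height_m_le : t.m.height ≤ d := by
  classical
  have hm := t.m_prime
  have hs : t.m = Ideal.span
      (((Finset.univ : Finset (Fin d)).image (fun i => t.f (C (D.a₁ (D.x i))))) : Set T) := by
    rw [TD.m, t.ofList_i₁]
    congr 1
    simp only [Finset.coe_image, Finset.coe_univ, Set.image_univ]
  have h2 : t.m ∈ (Ideal.span
      ((((Finset.univ : Finset (Fin d)).image (fun i => t.f (C (D.a₁ (D.x i))))) :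
        Finset T) : Set T)).minimalPrimes := by
    rw [← hs]
    exact ⟨⟨hm, le_rfl⟩, fun q hq _ => hq.2⟩
  refine (Ideal.height_le_card_of_mem_minimalPrimes_span_finset h2).trans ?_
  have h3 := Finset.card_image_le (s := (Finset.univ : Finset (Fin d)))
    (f := fun i => t.f (C (D.a₁ (D.x i))))
  rw [Finset.card_univ, Fintype.card_fin] at h3
  exact_mod_cast h3

theorem TD.height_m : t.m.height = d := by
  have hm := t.m_prime
  refine le_antisymm t.height_m_le ?_
  have h2 := t.ht t.m hm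
  rw [t.comap_m] at h2
  have hp : ((maximalIdeal Γ).map (C : Γ →+* MvPolynomial (Fin d × Fin d) Γ)).IsPrime := by
    rw [← t.comap_m]
    exact Ideal.IsPrime.comap _
  have h4 : (2 * d + 1 : ℕ) ≤ ((maximalIdeal Γ).map
      (C : Γ →+* MvPolynomial (Fin d × Fin d) Γ)).height := by
    have h5 := height_comap_le_of_flat (R := Γ) (S := MvPolynomial (Fin d × Fin d) Γ)
      ((maximalIdeal Γ).map C)
    have h6 : ((maximalIdeal Γ).map C).comap (algebraMap Γ (MvPolynomial (Fin d × Fin d) Γ)) =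
        maximalIdeal Γ := by
      apply le_antisymm
      · apply le_maximalIdeal
        exact Ideal.comap_ne_top _ hp.ne_top
      · exact Ideal.le_comap_map
    rw [h6] at h5
    have h7 : ((maximalIdeal Γ).height : WithBot ℕ∞) = ((2 * d + 1 : ℕ) : WithBot ℕ∞) := by
      rw [IsLocalRing.maximalIdeal_height_eq_ringKrullDim, D.dimΓ]
    have h8 : (maximalIdeal Γ).height = ((2 * d + 1 : ℕ) : ℕ∞) := WithBot.coe_injective h7
    rwa [h8] at h5
  have h5 := h4.trans h2
  have hfin : t.m.height ≠ ⊤ := Ideal.height_ne_top_of_isPrime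
  obtain ⟨s, hs⟩ := ENat.ne_top_iff_exists.1 hfin
  rw [← hs] at h5 ⊢
  have h6 : 2 * d + 1 ≤ s + (d + 1) := by exact_mod_cast h5
  exact_mod_cast (by omega : d ≤ s)

theorem TD.sub_mem_m (r : B ⧸ Ideal.span {D.G}) : t.i₂ r - t.i₁ r ∈ t.m := by
  obtain ⟨b, rfl⟩ := Ideal.Quotient.mk_surjective r
  rw [t.i₁_mk, t.i₂_mk, ← map_sub, ← map_sub]
  have h1 : Ideal.span (Set.range fun i => D.a₂ (D.x i) - D.a₁ (D.x i)) ≤
      t.m.comap (t.f.comp C) := by
    rw [Ideal.span_le]
    rintro _ ⟨i, rfl⟩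
    exact t.h_mem_m i
  exact h1 (D.diag b)

theorem TD.comap_m₁ [IsLocalRing (B ⧸ Ideal.span {D.G})]
    (h : Ideal.ofList D.xs = maximalIdeal (B ⧸ Ideal.span {D.G})) :
    t.m.comap t.i₁ = maximalIdeal (B ⧸ Ideal.span {D.G}) := by
  have hm := t.m_prime
  have hp : (t.m.comap t.i₁).IsPrime := Ideal.IsPrime.comap _
  refine le_antisymm (le_maximalIdeal hp.ne_top) ?_
  rw [← Ideal.map_le_iff_le_comap, ← h, Ideal.map_ofList]
  rfl

theorem TD.comap_m₂ [IsLocalRing (B ⧸ Ideal.span {D.G})]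
    (h : Ideal.ofList D.xs = maximalIdeal (B ⧸ Ideal.span {D.G})) :
    t.m.comap t.i₂ = maximalIdeal (B ⧸ Ideal.span {D.G}) := by
  rw [← t.comap_m₁ h]
  ext r
  rw [Ideal.mem_comap, Ideal.mem_comap]
  have h1 := t.sub_mem_m r
  constructor
  · intro h2
    have := Ideal.sub_mem _ h2 h1
    rwa [sub_sub_cancel] at this
  · intro h2
    have := Ideal.add_mem _ h1 h2
    rwa [sub_add_cancel] at this

/-- A prime containing the polar forms and the extensions of two ideals whose sum is primary to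
the maximal ideal contains `mT`. -/
theorem TD.m_le_of_u_mem [IsLocalRing (B ⧸ Ideal.span {D.G})]
    (h : Ideal.ofList D.xs = maximalIdeal (B ⧸ Ideal.span {D.G}))
    (I J : Ideal (B ⧸ Ideal.span {D.G}))
    (hIJ : maximalIdeal (B ⧸ Ideal.span {D.G}) ≤ (I ⊔ J).radical)
    (Q : Ideal T) [hQ : Q.IsPrime] (h₁ : I.map t.i₁ ≤ Q) (h₂ : J.map t.i₂ ≤ Q)
    (hu : ∀ j, t.f (C (D.u j)) ∈ Q) : t.m ≤ Q := by
  have hJ : J ≤ Q.comap t.i₁ := by
    intro r hr
    have h1 : t.i₂ r ∈ Q := h₂ (Ideal.mem_map_of_mem _ hr)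
    have h2 := t.sub_mem_of_u_mem Q hu r
    have := Ideal.sub_mem _ h1 h2
    rwa [sub_sub_cancel] at this
  have hI : I ≤ Q.comap t.i₁ := Ideal.map_le_iff_le_comap.1 h₁
  have hle : maximalIdeal (B ⧸ Ideal.span {D.G}) ≤ Q.comap t.i₁ := by
    refine hIJ.trans ?_
    rw [← (hQ.comap t.i₁).radical]
    exact Ideal.radical_mono (sup_le hI hJ)
  rw [← h, ← Ideal.map_le_iff_le_comap, Ideal.map_ofList] at hle
  exact hle

end TD

end QData

end Vale.Agent.P177
end
end

section

section

/-!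
The dimension inequality over a regular hypersurface.
-/

namespace Vale.Agent.P177

open CategoryTheory TensorProduct Function IsLocalRing

universe u

theorem dimension_inequality_hypersurface {B A : Type u} [CommRing B] [IsRegularLocalRing B]
    [CommRing A] [IsRegularLocalRing A] [Algebra B A] {f : B} (H : IsHypersurface B A f) (d : ℕ)
    (hdB : ringKrullDim B = ((d + 1 : ℕ) : WithBot ℕ∞))
    (hdA : ringKrullDim A = (d : WithBot ℕ∞)) (hS : SerreAll B (d + 1))
    (M N : Type u) [AddCommGroup M] [Module A M] [Module.Finite A M]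
    [AddCommGroup N] [Module A N] [Module.Finite A N]
    (hlen : Module.length A (M ⊗[A] N) ≠ ⊤) (a b : ℕ)
    (ha : (a : WithBot ℕ∞) ≤ Module.supportDim A M)
    (hb : (b : WithBot ℕ∞) ≤ Module.supportDim A N) : a + b ≤ d := by
  let _ : Module B M := Module.compHom M (algebraMap B A)
  let _ : Module B N := Module.compHom N (algebraMap B A)
  have tM : IsScalarTower B A M := ⟨fun x y z => by
    rw [Algebra.smul_def, mul_smul]
    rfl⟩
  have tN : IsScalarTower B A N := ⟨fun x y z => by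
    rw [Algebra.smul_def, mul_smul]
    rfl⟩
  have fA : Module.Finite B A := Module.Finite.of_surjective (Algebra.linearMap B A) H.surj
  have fM : Module.Finite B M := Module.Finite.trans A M
  have fN : Module.Finite B N := Module.Finite.trans A N
  have hlenB : Module.length B (M ⊗[B] N) ≠ ⊤ := by
    rw [length_tensor_baseChange H.surj (isBaseChange_id_of_surjective H.surj M) N]
    exact hlen
  obtain ⟨-, h2⟩ := hS M N hlenB
  rw [← supportDim_eq_of_surjective H.surj M] at ha
  rw [← supportDim_eq_of_surjective H.surj N] at hb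
  obtain ⟨h3, h4⟩ := h2 a b ha hb
  by_contra hcon
  have h5 := h4 (by omega)
  have hBv : Module.length B (TorM B (d + 1 + 1) M N) = 0 := by
    have := regular_tor_vanish B (d + 1) hdB M N (d + 1 + 1) le_rfl
    exact Module.length_eq_zero
  have h6 := H.eulerTor_eq M N (fun n => tor_length_ne_top n M N hlen) (d + 1) hBv
  have h7 : Module.length A (TorM A (d + 1) M N) = 0 := by
    have := regular_tor_vanish A d hdA M N (d + 1) le_rfl
    exact Module.length_eq_zero
  have h8 : Module.length A (TorM A (d + 1 + 1) M N) = 0 := by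
    have := regular_tor_vanish A d hdA M N (d + 1 + 1) (by omega)
    exact Module.length_eq_zero
  rw [h7, h8, sub_self, mul_zero] at h6
  rw [h6] at h5
  exact lt_irrefl _ h5

end Vale.Agent.P177
end
end

section

section

/-!
Flat local base change with closed fibre of finite length.
-/

namespace Vale.Agent.P177

open CategoryTheory TensorProduct Function IsLocalRing RingTheory.Sequence Pointwise

universe u

section

variable {A C : Type u} [CommRing A] [CommRing C] [Algebra A C] [Module.Flat A C]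

theorem ker_baseChange_equiv {P Q : Type u} [AddCommGroup P] [Module A P] [AddCommGroup Q]
    [Module A Q] (f : P →ₗ[A] Q) :
    Nonempty (LinearMap.ker (f.baseChange C) ≃ₗ[C] C ⊗[A] LinearMap.ker f) := by
  have hex : Exact (LinearMap.ker f).subtype f := by
    intro x
    simp only [Submodule.coe_subtype, Subtype.range_coe_subtype, LinearMap.mem_ker, Set.mem_ofPred_eq]
  have h1 : Injective ((LinearMap.ker f).subtype.baseChange C) := by
    rw [LinearMap.baseChange_eq_ltensor]
    exact Module.Flat.lTensor_preserves_injective_linearMap _ (Submodule.injective_subtype _)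
  have h2 : Exact ((LinearMap.ker f).subtype.baseChange C) (f.baseChange C) := by
    rw [LinearMap.baseChange_eq_ltensor, LinearMap.baseChange_eq_ltensor]
    exact Module.Flat.lTensor_exact C hex
  have h3 := LinearEquiv.ofInjective _ h1
  rw [LinearMap.exact_iff.1 h2]
  exact ⟨h3.symm⟩

/-- Flat base change of Tor in both variables. -/
theorem exists_tor_baseChange (n : ℕ) {K X N Y : Type u}
    [AddCommGroup K] [Module A K] [AddCommGroup N] [Module A N]
    [AddCommGroup X] [Module A X] [Module C X] [IsScalarTower A C X]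
    [AddCommGroup Y] [Module A Y] [Module C Y] [IsScalarTower A C Y]
    {φ : K →ₗ[A] X} (hφ : IsBaseChange C φ) {ψ : N →ₗ[A] Y} (hψ : IsBaseChange C ψ) :
    Nonempty (TorM C n X Y ≃ₗ[C] C ⊗[A] TorM A n K N) := by
  induction n generalizing K X with
  | zero =>
    obtain ⟨e, -⟩ := exists_cancel₂ hφ hψ
    exact ⟨torZero X Y ≪≫ₗ e ≪≫ₗ (torZero K N).symm.baseChange A C _ _⟩
  | succ n ih =>
    obtain ⟨F, K1, _, _, _, _, i, g, hF, hi, hg, h⟩ := exists_cover A K
    obtain ⟨Y1, _, _, _, _, ψ1, hψ1⟩ := exists_baseChange (R := A) C F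
    obtain ⟨X1, _, _, _, _, φ1, hφ1⟩ := exists_baseChange (R := A) C K1
    let j : X1 →ₗ[C] Y1 := hφ1.lift (ψ1 ∘ₗ i)
    have hj : ∀ k, j (φ1 k) = ψ1 (i k) := fun k => hφ1.lift_eq _ k
    let q : Y1 →ₗ[C] X := hψ1.lift (φ ∘ₗ g)
    have hq : ∀ y, q (ψ1 y) = φ (g y) := fun y => hψ1.lift_eq _ y
    have hjinj : Injective j := bc_injective hφ1 hψ1 i j hj hi
    have hqs : Surjective q := bc_surjective hψ1 hφ g q hq hg
    have hex : Exact j q := bc_exact hφ1 hψ1 hφ i j hj g q hq hg h
    have hYflat : Module.Flat C Y1 := Module.Flat.isBaseChange A C F Y1 hψ1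
    cases n with
    | zero =>
      obtain ⟨e1⟩ := tor_one i g hi hg h N
      obtain ⟨e2⟩ := tor_one j q hjinj hqs hex Y
      obtain ⟨eX, heX⟩ := exists_cancel₂ hφ1 hψ
      obtain ⟨eY, heY⟩ := exists_cancel₂ hψ1 hψ
      have key : ∀ z : C ⊗[A] (K1 ⊗[A] N), j.rTensor Y (eX.symm z) =
          eY.symm ((i.rTensor N).baseChange C z) := by
        intro z
        induction z using TensorProduct.induction_on with
        | zero => simp only [map_zero]
        | tmul c w =>
          induction w using TensorProduct.induction_on with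
          | zero => simp only [tmul_zero, map_zero]
          | tmul k n =>
            rw [heX, map_smul, LinearMap.rTensor_tmul, hj, LinearMap.baseChange_tmul,
              LinearMap.rTensor_tmul, heY]
          | add a b ha hb => rw [TensorProduct.tmul_add, map_add, map_add, ha, hb, map_add, map_add]
        | add a b ha hb => rw [map_add, map_add, ha, hb, map_add, map_add]
      obtain ⟨e3⟩ := ker_equiv eX.symm eY.symm ((i.rTensor N).baseChange C) (j.rTensor Y) key
      obtain ⟨e4⟩ := ker_baseChange_equiv (C := C) (i.rTensor N)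
      exact ⟨e2 ≪≫ₗ e3.symm ≪≫ₗ e4 ≪≫ₗ e1.symm.baseChange A C _ _⟩
    | succ n =>
      obtain ⟨e1⟩ := tor_shift i g hi hg h N n
      obtain ⟨e2⟩ := tor_shift j q hjinj hqs hex Y n
      obtain ⟨e3⟩ := ih hφ1
      exact ⟨e2 ≪≫ₗ e3 ≪≫ₗ e1.symm.baseChange A C _ _⟩

end

section descend

variable {R C : Type u} [CommRing R] [CommRing C] [IsLocalRing R] [IsNoetherianRing R]
  [IsLocalRing C] [IsNoetherianRing C] [Algebra R C] [Module.Flat R C]
  [IsLocalHom (algebraMap R C)]

omit [IsNoetherianRing R] [IsNoetherianRing C] in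
theorem eulerTor_baseChange
    {K X N Y : Type u}
    [AddCommGroup K] [Module R K] [AddCommGroup N] [Module R N]
    [AddCommGroup X] [Module R X] [Module C X] [IsScalarTower R C X]
    [AddCommGroup Y] [Module R Y] [Module C Y] [IsScalarTower R C Y]
    {φ : K →ₗ[R] X} (hφ : IsBaseChange C φ) {ψ : N →ₗ[R] Y} (hψ : IsBaseChange C ψ) (n : ℕ) :
    eulerTor C n X Y = ((Module.length C (C ⧸ (maximalIdeal R).map (algebraMap R C))).toNat : ℤ) *
      eulerTor R n K N := by
  unfold eulerTor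
  rw [Finset.mul_sum]
  refine Finset.sum_congr rfl fun i _ => ?_
  obtain ⟨e⟩ := exists_tor_baseChange (A := R) i hφ hψ
  rw [e.length_eq, IsLocalRing.length_baseChange, ENat.toNat_mul]
  push_cast
  ring

omit [IsNoetherianRing R] [IsNoetherianRing C] [Module.Flat R C] in
theorem length_fibre_pos : 0 < (Module.length C (C ⧸ (maximalIdeal R).map (algebraMap R C))) := by
  rw [pos_iff_ne_zero, Ne, Module.length_eq_zero_iff, ← not_nontrivial_iff_subsingleton, not_not,
    Ideal.Quotient.nontrivial_iff]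
  intro h
  have h1 := ((local_hom_TFAE (algebraMap R C)).out 0 2).1 ‹_›
  rw [h, top_le_iff] at h1
  exact (maximalIdeal.isMaximal C).ne_top h1

/-- Descent of Serre's statements for a pair. -/
theorem serrePair_descend_finite
    (hfin : Module.length C (C ⧸ (maximalIdeal R).map (algebraMap R C)) ≠ ⊤) {d : ℕ}
    (M N : Type u) [AddCommGroup M] [Module R M] [Module.Finite R M]
    [AddCommGroup N] [Module R N] [Module.Finite R N]
    (h : 0 ≤ eulerTor C (d + 1) (C ⊗[R] M) (C ⊗[R] N) ∧ ∀ m n : ℕ,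
      (m : WithBot ℕ∞) ≤ Module.supportDim C (C ⊗[R] M) →
      (n : WithBot ℕ∞) ≤ Module.supportDim C (C ⊗[R] N) →
      (m + n ≤ d) ∧ (d ≤ m + n → 0 < eulerTor C (d + 1) (C ⊗[R] M) (C ⊗[R] N))) :
    0 ≤ eulerTor R (d + 1) M N ∧ ∀ m n : ℕ, (m : WithBot ℕ∞) ≤ Module.supportDim R M →
      (n : WithBot ℕ∞) ≤ Module.supportDim R N →
      (m + n ≤ d) ∧ (d ≤ m + n → 0 < eulerTor R (d + 1) M N) := by
  obtain ⟨h1, h2⟩ := h
  have hff : Module.FaithfullyFlat R C := Module.FaithfullyFlat.of_flat_of_isLocalHom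
  have heq := eulerTor_baseChange (R := R) (C := C) (TensorProduct.isBaseChange R M C)
    (TensorProduct.isBaseChange R N C) (d + 1)
  have hpos : 0 < ((Module.length C (C ⧸ (maximalIdeal R).map (algebraMap R C))).toNat : ℤ) := by
    have := length_fibre_pos (R := R) (C := C)
    have h3 := ENat.toNat_pos this.ne' hfin
    exact_mod_cast h3
  rw [heq] at h1 h2
  refine ⟨nonneg_of_mul_nonneg_right h1 hpos, fun m n hm hn => ?_⟩
  obtain ⟨h4, h5⟩ := h2 m n (hm.trans (supportDim_le_baseChange_of_faithfullyFlat M))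
    (hn.trans (supportDim_le_baseChange_of_faithfullyFlat N))
  exact ⟨h4, fun hd => (mul_pos_iff_of_pos_left hpos).1 (h5 hd)⟩

theorem length_tensor_ne_top_of_fibre
    (hfin : Module.length C (C ⧸ (maximalIdeal R).map (algebraMap R C)) ≠ ⊤)
    (M N : Type u) [AddCommGroup M] [Module R M]
    [AddCommGroup N] [Module R N]
    (hlen : Module.length R (M ⊗[R] N) ≠ ⊤) :
    Module.length C ((C ⊗[R] M) ⊗[C] (C ⊗[R] N)) ≠ ⊤ := by
  have e : (C ⊗[R] M) ⊗[C] (C ⊗[R] N) ≃ₗ[C] C ⊗[R] (M ⊗[R] N) :=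
    (AlgebraTensorModule.distribBaseChange R C M N).symm
  rw [e.length_eq, IsLocalRing.length_baseChange]
  exact WithTop.mul_ne_top hlen hfin

theorem SerreAll.descend_finite
    (hfin : Module.length C (C ⧸ (maximalIdeal R).map (algebraMap R C)) ≠ ⊤) {d : ℕ}
    (h : SerreAll C d) : SerreAll R d := by
  intro M N _ _ _ _ _ _ hlen
  exact serrePair_descend_finite hfin M N (h _ _ (length_tensor_ne_top_of_fibre hfin M N hlen))

end descend

end Vale.Agent.P177
end
end
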