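import Vale.Agent.P177.MathlibUsed
import Vale.Agent.P177.Bdl.B1
import Vale.Agent.P177.Bdl.B2

set_option linter.all false

section

section

/-!
The kernel of a surjection from a regular local ring onto a discrete valuation ring is generated
by a regular sequence.
-/

namespace Vale.Agent.P177

open CategoryTheory TensorProduct Function IsLocalRing RingTheory.Sequence Pointwise

universe u v

theorem exists_regular_ker (V : Type v) [CommRing V] [IsDomain V] [IsDiscreteValuationRing V]
    (r : ℕ) : ∀ (R : Type u) [CommRing R] [IsRegularLocalRing R] (φ : R →+* V),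
    Surjective φ → ringKrullDim R = r →
    ∃ zs : List R, (∀ z ∈ zs, z ∈ maximalIdeal R) ∧ IsWeaklyRegular R zs ∧
      Ideal.ofList zs = RingHom.ker φ := by
  induction r with
  | zero =>
    intro R _ _ φ hφ hr
    have hD : IsDomain R := regular_isDomain R
    have hker : RingHom.ker φ ≤ maximalIdeal R := le_maximalIdeal (RingHom.ker_ne_top φ)
    have h0 : (maximalIdeal R).spanFinrank = 0 := by
      have := exists_nat_ringKrullDim R
      rw [hr] at this
      exact_mod_cast this.symm
    have h1 : maximalIdeal R = ⊥ := by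
      rwa [Submodule.spanFinrank_eq_zero_iff_eq_bot ((maximalIdeal R).fg_of_isNoetherianRing)]
        at h0
    refine ⟨[], by simp, IsWeaklyRegular.nil _ _, ?_⟩
    rw [Ideal.ofList_nil]
    exact (le_bot_iff.1 (h1 ▸ hker)).symm
  | succ r ih =>
    intro R _ _ φ hφ hr
    have hD : IsDomain R := regular_isDomain R
    have hker : RingHom.ker φ ≤ maximalIdeal R := le_maximalIdeal (RingHom.ker_ne_top φ)
    have hkp : (RingHom.ker φ).IsPrime := RingHom.ker_isPrime φ
    by_cases hle : RingHom.ker φ ≤ maximalIdeal R ^ 2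
    · -- the maximal ideal is principal and the kernel vanishes
      obtain ⟨ϖ, hϖ⟩ := IsDiscreteValuationRing.exists_irreducible V
      obtain ⟨π, rfl⟩ := hφ ϖ
      have hmV : maximalIdeal V = Ideal.span {φ π} := hϖ.maximalIdeal_eq
      have hmap : (maximalIdeal R).map φ = maximalIdeal V := map_maximalIdeal_of_surjective _ hφ
      have hle2 : maximalIdeal R ≤ Ideal.span {π} ⊔ maximalIdeal R • maximalIdeal R := by
        intro x hx
        have h1 : φ x ∈ maximalIdeal V := hmap ▸ Ideal.mem_map_of_mem φ hx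
        rw [hmV, Ideal.mem_span_singleton'] at h1
        obtain ⟨c, hc⟩ := h1
        obtain ⟨c, rfl⟩ := hφ c
        have h2 : x - c * π ∈ RingHom.ker φ := by
          rw [RingHom.mem_ker, map_sub, map_mul, hc, sub_self]
        have h3 : x = c * π + (x - c * π) := by ring
        rw [h3]
        refine Submodule.add_mem_sup (Ideal.mul_mem_left _ _ (Ideal.mem_span_singleton_self π)) ?_
        rw [smul_eq_mul, ← pow_two]
        exact hle h2
      have hπm : π ∈ maximalIdeal R := by
        by_contra hcon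
        rw [mem_maximalIdeal, mem_nonunits_iff, not_not] at hcon
        exact hϖ.not_isUnit (hcon.map φ)
      have h4 : maximalIdeal R ≤ Ideal.span {π} := by
        apply Submodule.le_of_le_smul_of_le_jacobson_bot (I := maximalIdeal R)
          ((maximalIdeal R).fg_of_isNoetherianRing)
        · rw [IsLocalRing.jacobson_eq_maximalIdeal _ bot_ne_top]
        · exact hle2
      have hπk : π ∉ RingHom.ker φ := by
        rw [RingHom.mem_ker]
        exact hϖ.ne_zero
      have h5 : RingHom.ker φ = ⊥ := by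
        apply Submodule.eq_bot_of_le_smul_of_le_jacobson_bot (maximalIdeal R) _
          ((RingHom.ker φ).fg_of_isNoetherianRing)
        · intro x hx
          have h6 := h4 (hker hx)
          rw [Ideal.mem_span_singleton'] at h6
          obtain ⟨c, rfl⟩ := h6
          have h7 : c ∈ RingHom.ker φ := (hkp.mem_or_mem hx).resolve_right hπk
          rw [mul_comm]
          exact Submodule.smul_mem_smul hπm h7
        · rw [IsLocalRing.jacobson_eq_maximalIdeal _ bot_ne_top]
      refine ⟨[], by simp, IsWeaklyRegular.nil _ _, ?_⟩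
      rw [Ideal.ofList_nil, h5]
    · rw [SetLike.not_le_iff_exists] at hle
      obtain ⟨f, hf, hf2⟩ := hle
      have hfm : f ∈ maximalIdeal R := hker hf
      have hf0 : f ≠ 0 := fun h0 => hf2 (h0 ▸ zero_mem _)
      obtain ⟨hreg, hdim⟩ := regular_quotient R f hfm hf2
      let φ' : R ⧸ Ideal.span {f} →+* V := Ideal.Quotient.lift _ φ (by
        intro x hx
        rw [Ideal.mem_span_singleton'] at hx
        obtain ⟨c, rfl⟩ := hx
        rw [map_mul, (RingHom.mem_ker).1 hf, mul_zero])
      have hφ' : Surjective φ' := by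
        intro x
        obtain ⟨y, rfl⟩ := hφ x
        exact ⟨Ideal.Quotient.mk _ y, Ideal.Quotient.lift_mk _ _ _⟩
      have hd : ringKrullDim (R ⧸ Ideal.span {f}) = r := by
        obtain ⟨k, hk⟩ := exists_nat_eq_ringKrullDim (R ⧸ Ideal.span {f})
        rw [hk, hr] at hdim
        rw [hk]
        norm_cast at hdim ⊢
        omega
      obtain ⟨zs, hzs, hzreg, hzk⟩ := ih (R ⧸ Ideal.span {f}) φ' hφ' hd
      obtain ⟨ws, rfl⟩ : ∃ ws : List R, ws.map (Ideal.Quotient.mk (Ideal.span {f})) = zs := by
        clear hzs hzreg hzk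
        induction zs with
        | nil => exact ⟨[], rfl⟩
        | cons z zs ih =>
          obtain ⟨ws, rfl⟩ := ih
          obtain ⟨w, rfl⟩ := Ideal.Quotient.mk_surjective z
          exact ⟨w :: ws, rfl⟩
      have hker' : Ideal.ofList (f :: ws) = RingHom.ker φ := by
        have h1 : (Ideal.ofList ws).map (Ideal.Quotient.mk (Ideal.span {f})) =
            RingHom.ker φ' := by
          rw [Ideal.map_ofList]
          exact hzk
        apply le_antisymm
        · rw [Ideal.ofList_cons]
          apply sup_le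
          · rw [Ideal.span_singleton_le_iff_mem]
            exact hf
          · intro x hx
            have h2 : Ideal.Quotient.mk (Ideal.span {f}) x ∈ RingHom.ker φ' :=
              h1 ▸ Ideal.mem_map_of_mem _ hx
            rw [RingHom.mem_ker] at h2 ⊢
            rw [← h2]
            exact (Ideal.Quotient.lift_mk _ _ _).symm
        · intro x hx
          have h2 : Ideal.Quotient.mk (Ideal.span {f}) x ∈ RingHom.ker φ' := by
            rw [RingHom.mem_ker]
            exact (Ideal.Quotient.lift_mk _ _ _).trans hx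
          rw [← h1, Ideal.mem_map_iff_of_surjective _ Ideal.Quotient.mk_surjective] at h2
          obtain ⟨y, hy, hxy⟩ := h2
          rw [Ideal.Quotient.eq] at hxy
          have h3 : x = -(y - x) + y := by ring
          rw [h3, Ideal.ofList_cons]
          exact Submodule.add_mem_sup (neg_mem hxy) hy
      refine ⟨f :: ws, ?_, ?_, hker'⟩
      · intro z hz
        apply hker
        rw [← hker']
        exact Ideal.subset_span hz
      · rw [isWeaklyRegular_cons_iff']
        refine ⟨(IsRegular.of_ne_zero hf0).left.isSMulRegular, ?_⟩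
        have heq : (Ideal.span {f} : Submodule R R) = f • ⊤ := by
          rw [← Submodule.ideal_span_singleton_smul, smul_eq_mul, Ideal.mul_top]
        refine (AddEquiv.isWeaklyRegular_congr
          (e := (Submodule.quotEquivOfEq _ _ heq).toAddEquiv) ?_).mp hzreg
        refine List.forall₂_same.mpr fun t _ x => ?_
        obtain ⟨a, rfl⟩ := Ideal.Quotient.mk_surjective t
        change Submodule.quotEquivOfEq _ _ heq (algebraMap R (R ⧸ Ideal.span {f}) a • x) =
          algebraMap R (R ⧸ Ideal.span {f}) a • Submodule.quotEquivOfEq _ _ heq x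
        rw [algebraMap_smul, algebraMap_smul, map_smul]

end Vale.Agent.P177
end
end

section

section

/-!
Flat change of rings for Tor: comparison as modules.
-/

namespace Vale.Agent.P177

open CategoryTheory TensorProduct Function IsLocalRing RingTheory.Sequence Pointwise

universe u

variable {S B : Type u} [CommRing S] [CommRing B] [Algebra S B]

theorem tor_bc_common [Module.Flat S B] (n : ℕ) {K X : Type u} [AddCommGroup K] [Module S K]
    [AddCommGroup X] [Module S X] [Module B X] [IsScalarTower S B X]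
    {φ : K →ₗ[S] X} (hφ : IsBaseChange B φ)
    (N : Type u) [AddCommGroup N] [Module S N] [Module B N] [IsScalarTower S B N] :
    ∃ (M : Type u) (_ : AddCommGroup M) (_ : Module S M) (_ : Module B M)
      (_ : IsScalarTower S B M), Nonempty (TorM S n K N ≃ₗ[S] M) ∧
      Nonempty (TorM B n X N ≃ₗ[B] M) := by
  induction n generalizing K X with
  | zero =>
    obtain ⟨e, -⟩ := exists_cancel hφ N
    exact ⟨N ⊗[S] K, inferInstance, inferInstance, inferInstance, inferInstance,
      ⟨torZero K N ≪≫ₗ TensorProduct.comm S K N⟩,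
      ⟨torZero X N ≪≫ₗ TensorProduct.comm B X N ≪≫ₗ e⟩⟩
  | succ n ih =>
    obtain ⟨F, K1, _, _, _, _, i, g, hF, hi, hg, h⟩ := exists_cover S K
    obtain ⟨Y, _, _, _, _, ψ, hψ⟩ := exists_baseChange (R := S) B F
    obtain ⟨X1, _, _, _, _, φ1, hφ1⟩ := exists_baseChange (R := S) B K1
    let j : X1 →ₗ[B] Y := hφ1.lift (ψ ∘ₗ i)
    have hj : ∀ k, j (φ1 k) = ψ (i k) := fun k => hφ1.lift_eq _ k
    let q : Y →ₗ[B] X := hψ.lift (φ ∘ₗ g)
    have hq : ∀ y, q (ψ y) = φ (g y) := fun y => hψ.lift_eq _ y
    have hjinj : Injective j := bc_injective hφ1 hψ i j hj hi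
    have hqs : Surjective q := bc_surjective hψ hφ g q hq hg
    have hex : Exact j q := bc_exact hφ1 hψ hφ i j hj g q hq hg h
    have hYflat : Module.Flat B Y := Module.Flat.isBaseChange S B F Y hψ
    cases n with
    | zero =>
      obtain ⟨e1⟩ := tor_one i g hi hg h N
      obtain ⟨e2⟩ := tor_one j q hjinj hqs hex N
      obtain ⟨θ, hθ, ⟨e⟩⟩ := exists_ker_bc hφ1 hψ i j hj N
      obtain ⟨e3⟩ := ker_comm (N := N) i
      have e4 : LinearMap.ker (i.lTensor N) ≃ₗ[S] LinearMap.ker θ := by
        have : LinearMap.ker (i.lTensor N) = (LinearMap.ker θ).restrictScalars S := by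
          ext x
          change i.lTensor N x = 0 ↔ θ x = 0
          rw [hθ]
        rw [this]
        exact LinearEquiv.refl _ _
      exact ⟨LinearMap.ker θ, inferInstance, inferInstance, inferInstance, inferInstance,
        ⟨e1 ≪≫ₗ e3 ≪≫ₗ e4⟩, ⟨e2 ≪≫ₗ e.symm⟩⟩
    | succ n =>
      obtain ⟨e1⟩ := tor_shift i g hi hg h N n
      obtain ⟨e2⟩ := tor_shift j q hjinj hqs hex N n
      obtain ⟨M, i1, i2, i3, i4, ⟨f1⟩, ⟨f2⟩⟩ := ih hφ1
      exact ⟨M, i1, i2, i3, i4, ⟨e1 ≪≫ₗ f1⟩, ⟨e2 ≪≫ₗ f2⟩⟩

end Vale.Agent.P177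
end
end

section

section

/-!
Completions of regular local rings.
-/

namespace Vale.Agent.P177

open CategoryTheory TensorProduct Function IsLocalRing RingTheory.Sequence Pointwise

universe u

theorem exists_powerSeries_surjective_gen {ι A R : Type*} [Finite ι] [CommRing A] [IsLocalRing A]
    [IsAdicComplete (maximalIdeal A) A] [CommRing R] (σ : R →+* A)
    (hσ : Function.Surjective (fun x => residue A (σ x))) (x : ι → A)
    (hx : Ideal.span (Set.range x) = maximalIdeal A) :
    ∃ φ : MvPowerSeries ι R →+* A, Function.Surjective φ := by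
  obtain ⟨φ, hφ⟩ := exists_evalHom (maximalIdeal A) σ x
    (fun i => hx ▸ Ideal.subset_span ⟨i, rfl⟩)
  refine ⟨φ, ?_⟩
  have hX : ∀ i, φ (MvPowerSeries.X i) = x i := by
    intro i
    rw [← MvPolynomial.coe_X, hφ]
    simp
  have hmap : (Ideal.span (Set.range MvPowerSeries.X) : Ideal (MvPowerSeries ι R)).map φ =
      maximalIdeal A := by
    rw [Ideal.map_span, ← Set.range_comp, ← hx]
    congr 2
    ext i
    exact hX i
  have hH : IsHausdorff ((Ideal.span (Set.range MvPowerSeries.X) :
      Ideal (MvPowerSeries ι R)).map φ) A := by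
    rw [hmap]
    infer_instance
  apply surjective_of_mk_map_comp_surjective (I := Ideal.span (Set.range MvPowerSeries.X)) φ
  intro y
  obtain ⟨a, rfl⟩ := Ideal.Quotient.mk_surjective y
  obtain ⟨c, hc⟩ := hσ (residue A a)
  refine ⟨MvPowerSeries.C c, ?_⟩
  rw [← MvPolynomial.coe_C, RingHom.comp_apply, hφ]
  simp only [MvPolynomial.coe_eval₂Hom, MvPolynomial.eval₂_C]
  rw [Ideal.Quotient.mk_eq_mk_iff_sub_mem, hmap]
  rw [← Ideal.Quotient.mk_eq_mk_iff_sub_mem]
  exact hc

theorem isNoetherianRing_adicCompletion (R : Type u) [CommRing R] [IsLocalRing R]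
    [IsNoetherianRing R] : IsNoetherianRing (AdicCompletion (maximalIdeal R) R) := by
  obtain ⟨s, hs⟩ := (maximalIdeal R).fg_of_isNoetherianRing
  obtain ⟨φ, hφ⟩ := exists_powerSeries_surjective_gen (ι := s)
    (A := AdicCompletion (maximalIdeal R) R) (algebraMap R (AdicCompletion (maximalIdeal R) R))
    (by
      intro y
      obtain ⟨z, hz⟩ := (AdicCompletion.residueField_map_bijective R).2 y
      obtain ⟨z, rfl⟩ := residue_surjective z
      exact ⟨z, hz⟩)
    (fun i => algebraMap R (AdicCompletion (maximalIdeal R) R) i.1)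
    (by
      rw [AdicCompletion.maximalIdeal_eq_map]
      refine Eq.trans ?_ (congrArg
        (Ideal.map (algebraMap R (AdicCompletion (maximalIdeal R) R))) hs)
      refine Eq.trans ?_ (Ideal.map_span _ _).symm
      congr 1
      ext y
      simp only [Set.mem_range, Subtype.exists, exists_prop, Set.mem_image, SetLike.mem_coe])
  exact isNoetherianRing_of_surjective _ _ φ hφ

theorem ringKrullDim_adicCompletion (R : Type u) [CommRing R] [IsRegularLocalRing R] {r : ℕ}
    (hr : ringKrullDim R = r) [IsNoetherianRing (AdicCompletion (maximalIdeal R) R)] :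
    ringKrullDim (AdicCompletion (maximalIdeal R) R) = r := by
  have hspan : ((maximalIdeal (AdicCompletion (maximalIdeal R) R)).spanFinrank :
      WithBot ℕ∞) = r := by
    rw [AdicCompletion.spanFinrank_maximalIdeal_eq, IsRegularLocalRing.spanFinrank_maximalIdeal,
      hr]
  refine le_antisymm ?_ ?_
  · rw [← hspan]
    exact ringKrullDim_le_spanFinrank_maximalIdeal _
  · obtain ⟨rs, hrs, hlen, hreg⟩ := exists_rsp R hr
    have h1 : IsWeaklyRegular (AdicCompletion (maximalIdeal R) R)
      (rs.map (algebraMap R (AdicCompletion (maximalIdeal R) R))) := hreg.of_flat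
    have h2 := length_le_height (maximalIdeal _) _ (map_mem_maximalIdeal (fun z hz => by
      rw [← hrs]; exact Ideal.subset_span hz)) h1
    rw [List.length_map, hlen] at h2
    refine le_trans ?_ (Ideal.height_le_ringKrullDim_of_isPrime
      (I := maximalIdeal (AdicCompletion (maximalIdeal R) R)))
    exact_mod_cast h2

/-- The completion of a regular local ring with its universal property. -/
theorem exists_regular_completion (R : Type u) [CommRing R] [IsRegularLocalRing R] {r : ℕ}
    (hr : ringKrullDim R = r) :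
    ∃ (S : Type u) (_ : CommRing S) (_ : IsRegularLocalRing S) (_ : Algebra R S),
      Module.Flat R S ∧ IsLocalHom (algebraMap R S) ∧
      (maximalIdeal R).map (algebraMap R S) = maximalIdeal S ∧ ringKrullDim S = r ∧
      IsAdicComplete (maximalIdeal S) S ∧
      ∀ (C : Type u) [CommRing C] (J : Ideal C) [IsAdicComplete J C] (f : R →+* C),
        maximalIdeal R ≤ J.comap f → ∃ g : S →+* C, g.comp (algebraMap R S) = f := by
  have hN := isNoetherianRing_adicCompletion R
  have hdim := ringKrullDim_adicCompletion R hr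
  refine ⟨AdicCompletion (maximalIdeal R) R, inferInstance, ?_, inferInstance, inferInstance,
    inferInstance, AdicCompletion.maximalIdeal_eq_map.symm, hdim, inferInstance, ?_⟩
  · apply IsRegularLocalRing.of_spanFinrank_maximalIdeal_le
    rw [AdicCompletion.spanFinrank_maximalIdeal_eq, IsRegularLocalRing.spanFinrank_maximalIdeal,
      hr, hdim]
  · intro C _ J _ f hf
    have hI : ∀ n, maximalIdeal R ^ n ≤ (J ^ n).comap f := by
      intro n
      rw [← Ideal.map_le_iff_le_comap, Ideal.map_pow]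
      exact Ideal.pow_right_mono (Ideal.map_le_iff_le_comap.2 hf) n
    let F : (n : ℕ) → AdicCompletion (maximalIdeal R) R →+* C ⧸ J ^ n := fun n =>
      (Ideal.quotientMap (J ^ n) f (hI n)).comp (AdicCompletion.evalₐ (maximalIdeal R) n).toRingHom
    have hF : ∀ {m n : ℕ} (hle : m ≤ n), (Ideal.Quotient.factorPow J hle).comp (F n) = F m := by
      intro m n hle
      ext z
      obtain ⟨z, rfl⟩ := AdicCompletion.mk_surjective (maximalIdeal R) R z
      change Ideal.Quotient.factorPow J hle (Ideal.quotientMap (J ^ n) f (hI n)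
        (AdicCompletion.evalₐ (maximalIdeal R) n (AdicCompletion.mk (maximalIdeal R) R z))) =
        Ideal.quotientMap (J ^ m) f (hI m)
        (AdicCompletion.evalₐ (maximalIdeal R) m (AdicCompletion.mk (maximalIdeal R) R z))
      rw [AdicCompletion.evalₐ_mk, AdicCompletion.evalₐ_mk, Ideal.quotientMap_mk,
        Ideal.quotientMap_mk]
      change Ideal.Quotient.mk (J ^ m) (f (z.1 n)) = Ideal.Quotient.mk (J ^ m) (f (z.1 m))
      rw [Ideal.Quotient.mk_eq_mk_iff_sub_mem, ← map_sub]
      apply hI m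
      have h1 := z.2 hle
      rw [SModEq.comm, SModEq.sub_mem, smul_eq_mul, Ideal.mul_top] at h1
      exact h1
    refine ⟨IsAdicComplete.liftRingHom J F hF, ?_⟩
    ext z
    rw [← sub_eq_zero]
    apply IsHausdorff.haus (I := J) inferInstance
    intro n
    rw [SModEq.zero, smul_eq_mul, Ideal.mul_top, ← Ideal.Quotient.eq_zero_iff_mem, map_sub,
      RingHom.comp_apply, IsAdicComplete.mk_liftRingHom, sub_eq_zero]
    change Ideal.quotientMap (J ^ n) f (hI n)
      (AdicCompletion.evalₐ (maximalIdeal R) n (AdicCompletion.of _ _ z)) = _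
    rw [AdicCompletion.evalₐ_of, Ideal.quotientMap_mk]

end Vale.Agent.P177
end
end

section

section

/-!
Complete intersections, the Cohen-Macaulay case, and cutting by an element.
-/

namespace Vale.Agent.P177

open CategoryTheory TensorProduct Function IsLocalRing RingTheory.Sequence Pointwise

universe u

variable {R₁ R₂ T : Type u} [CommRing R₁] [CommRing R₂] [CommRing T]
  [IsRegularLocalRing R₁] [IsRegularLocalRing R₂] [IsRegularLocalRing T]
  [Algebra R₁ T] [Algebra R₂ T] [Module.Flat R₁ T] [Module.Flat R₂ T]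
  [IsLocalHom (algebraMap R₁ T)] [IsLocalHom (algebraMap R₂ T)] {r₁ r₂ t b : ℕ}

theorem nontrivial_tensor_local {T : Type u} [CommRing T] [IsLocalRing T] (X Y : Type u)
    [AddCommGroup X] [Module T X] [Module.Finite T X] [AddCommGroup Y] [Module T Y]
    [Module.Finite T Y] [Nontrivial X] [Nontrivial Y] : Nontrivial (X ⊗[T] Y) := by
  obtain ⟨f, hf⟩ := exists_surjective_residue (S := T) X
  obtain ⟨g, hg⟩ := exists_surjective_residue (S := T) Y
  obtain ⟨x, hx⟩ := hf 1
  obtain ⟨y, hy⟩ := hg 1
  refine ⟨x ⊗ₜ y, 0, fun h0 => ?_⟩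
  have h1 : LinearMap.mul' T (T ⧸ maximalIdeal T) (TensorProduct.map f g (x ⊗ₜ y)) = 0 := by
    rw [h0, map_zero, map_zero]
  rw [TensorProduct.map_tmul, hx, hy, LinearMap.mul'_apply, mul_one] at h1
  exact one_ne_zero h1

theorem annihilator_quot_list {R : Type u} [CommRing R] (zs : List R) :
    Module.annihilator R (R ⧸ (Ideal.ofList zs • ⊤ : Submodule R R)) = Ideal.ofList zs := by
  rw [smul_eq_mul, Ideal.mul_top, Ideal.annihilator_quotient]

omit [IsRegularLocalRing R₂] [Module.Flat R₂ T] [IsLocalHom (algebraMap R₂ T)] in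
/-- Euler characteristic with a complete intersection. -/
theorem chi_ci_eq (ht : ringKrullDim T = t) (zs : List R₁) (hzs : ∀ z ∈ zs, z ∈ maximalIdeal R₁)
    (hreg : IsWeaklyRegular R₁ zs) (G : Type u) [AddCommGroup G] [Module R₂ G]
    [Module.Finite R₂ G] (h : FP R₁ R₂ T (R₁ ⧸ (Ideal.ofList zs • ⊤ : Submodule R₁ R₁)) G) :
    chi R₁ R₂ T t (R₁ ⧸ (Ideal.ofList zs • ⊤ : Submodule R₁ R₁)) G =
      eul (zs.map (algebraMap R₁ T)) (T ⊗[R₂] G) := by
  have hregT : IsWeaklyRegular T (zs.map (algebraMap R₁ T)) := hreg.of_flat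
  have hFL : FL2 (zs.map (algebraMap R₁ T)) T (T ⊗[R₂] G) := by
    refine h.trans (Ideal.radical_mono ?_)
    rw [annihilator_quot_list, Ideal.map_ofList]
    exact sup_le le_sup_right ((map_ann_le_tensor G).trans (le_sup_of_le_left le_sup_right))
  have hv : ∀ j, 1 ≤ j → Subsingleton (TorM T j T (T ⊗[R₂] G)) := by
    intro j hj
    obtain ⟨j, rfl⟩ : ∃ k, j = k + 1 := ⟨j - 1, by (clear * - hj; omega)⟩
    exact tor_subsingleton_of_flat j
  have hlen := length_le_dim ht _ (map_mem_maximalIdeal (T := T) hzs) hregT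
  have hsum := sum_length_tor_quot (zs.map (algebraMap R₁ T)) (T ⊗[R₂] G) (t + 1) T hregT hFL 1
    hv (by omega)
  obtain ⟨e⟩ := exists_baseChange_quot (T := T) zs R₁
  have e2 : (T ⊗[R₁] R₁) ≃ₗ[T] T := AlgebraTensorModule.rid R₁ T T
  have e3 : ((T ⊗[R₁] R₁) ⧸ (Ideal.ofList (zs.map (algebraMap R₁ T)) • ⊤ :
      Submodule T (T ⊗[R₁] R₁))) ≃ₗ[T]
      (T ⧸ (Ideal.ofList (zs.map (algebraMap R₁ T)) • ⊤ : Submodule T T)) :=
    Submodule.Quotient.equiv _ _ e2 (by
      rw [Submodule.map_smul'', Submodule.map_top, LinearEquiv.range])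
  unfold chi
  rw [eulerTor_congr (e ≪≫ₗ e3) (LinearEquiv.refl T (T ⊗[R₂] G)) (t + 1)]
  unfold eulerTor
  rw [hsum, Finset.sum_range_succ', Finset.sum_eq_zero, zero_add, pow_zero, one_mul]
  · exact eul_congr _ (torZero _ _ ≪≫ₗ TensorProduct.lid T _)
  · intro j _
    have := hv (j + 1) (by omega)
    rw [eul_subsingleton, mul_zero]

omit [IsRegularLocalRing R₁] [IsRegularLocalRing R₂] [IsRegularLocalRing T] [Module.Flat R₁ T]
  [Module.Flat R₂ T] [IsLocalHom (algebraMap R₁ T)] [IsLocalHom (algebraMap R₂ T)] in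
theorem fl_of_fp_ci [IsLocalRing T] (zs : List R₁) (G : Type u) [AddCommGroup G] [Module R₂ G]
    (h : FP R₁ R₂ T (R₁ ⧸ (Ideal.ofList zs • ⊤ : Submodule R₁ R₁)) G) :
    FL (zs.map (algebraMap R₁ T)) (T ⊗[R₂] G) := by
  refine h.trans (Ideal.radical_mono ?_)
  rw [annihilator_quot_list, Ideal.map_ofList]
  exact sup_le le_sup_right ((map_ann_le_tensor G).trans le_sup_left)

/-- All of Serre's statements for complete intersections. -/
theorem pos_ci (h1 : ringKrullDim R₁ = r₁) (h2 : ringKrullDim R₂ = r₂)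
    (ht : ringKrullDim T = t) (hb : r₁ + r₂ = t + b) (zs : List R₁)
    (hzs : ∀ z ∈ zs, z ∈ maximalIdeal R₁)
    (hreg : IsWeaklyRegular R₁ zs) (G : Type u) [AddCommGroup G] [Module R₂ G]
    [Module.Finite R₂ G] (h : FP R₁ R₂ T (R₁ ⧸ (Ideal.ofList zs • ⊤ : Submodule R₁ R₁)) G) :
    Pos R₁ R₂ T t b (R₁ ⧸ (Ideal.ofList zs • ⊤ : Submodule R₁ R₁)) G := by
  have hr1 := dim_le_dim (R := R₁) (T := T) h1 ht
  have hr2 := dim_le_dim (R := R₂) (T := T) h2 ht
  have hlen : zs.length ≤ r₁ := length_le_dim h1 zs hzs hreg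
  have hdim := supportDim_quot_of_weaklyRegular h1 zs hzs hreg
  have hchi := chi_ci_eq ht zs hzs hreg G h
  have hFL := fl_of_fp_ci (T := T) zs G h
  have hmap := map_mem_maximalIdeal (T := T) hzs
  have hle := supportDim_le_length _ hmap _ hFL
  rw [List.length_map] at hle
  obtain ⟨hnn, hpos⟩ := eul_nonneg_pos _ hmap _ hFL
  rw [List.length_map] at hpos
  refine ⟨?_, ?_, ?_, ?_⟩
  · intro e g he hg
    rw [hdim] at he
    have he' : e ≤ r₁ - zs.length := by exact_mod_cast he
    have h3 := (le_supportDim_baseChange (T := T) h2 ht G g hg).trans hle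
    have h4 : g + (t - r₂) ≤ zs.length := by exact_mod_cast h3
    (clear * - hb hr2 hlen he' h4; omega)
  · rw [hchi]; exact hnn
  · intro e g he hg hbe
    rw [hdim] at he
    have he' : e ≤ r₁ - zs.length := by exact_mod_cast he
    rw [hchi]
    apply hpos
    refine le_trans ?_ (le_supportDim_baseChange (T := T) h2 ht G g hg)
    have : zs.length ≤ g + (t - r₂) := by (clear * - hb hr2 hlen hbe he'; omega)
    exact_mod_cast this
  · intro hh
    rw [hchi]
    apply eul_eq_zero_of_dim _ hmap _ hFL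
    rw [List.length_map]
    intro hcon
    obtain ⟨g, hg, hgl⟩ := supportDim_baseChange_le (T := T) h2 ht G _ hcon
    have := hh (r₁ - zs.length) g hdim.ge hg
    omega

theorem pos_residue (h1 : ringKrullDim R₁ = r₁) (h2 : ringKrullDim R₂ = r₂)
    (ht : ringKrullDim T = t) (hb : r₁ + r₂ = t + b) (G : Type u) [AddCommGroup G] [Module R₂ G]
    [Module.Finite R₂ G] (h : FP R₁ R₂ T (R₁ ⧸ maximalIdeal R₁) G) :
    Pos R₁ R₂ T t b (R₁ ⧸ maximalIdeal R₁) G := by
  obtain ⟨rs, hrs, hlen, hreg⟩ := exists_rsp R₁ h1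
  have e1 : (R₁ ⧸ (Ideal.ofList rs • ⊤ : Submodule R₁ R₁)) ≃ₗ[R₁] (R₁ ⧸ maximalIdeal R₁) :=
    Submodule.quotEquivOfEq _ _ (by rw [hrs]; simp)
  have h' : FP R₁ R₂ T (R₁ ⧸ (Ideal.ofList rs • ⊤ : Submodule R₁ R₁)) G :=
    h.mono e1.symm.annihilator_eq.le le_rfl
  exact (pos_ci h1 h2 ht hb rs (fun z hz => by rw [← hrs]; exact Ideal.subset_span hz) hreg G
    h').congr e1 (LinearEquiv.refl _ _)

/-- The Cohen-Macaulay case, in terms of depth. -/
theorem chi_pos_of_depth (h1 : ringKrullDim R₁ = r₁) (h2 : ringKrullDim R₂ = r₂)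
    (ht : ringKrullDim T = t) (hb : r₁ + r₂ = t + b) (E G : Type u) [AddCommGroup E]
    [Module R₁ E] [Module.Finite R₁ E] [AddCommGroup G] [Module R₂ G]
    [Module.Finite R₂ G] (h : FP R₁ R₂ T E G) (zs : List R₁) (ws : List R₂)
    (hzs : ∀ z ∈ zs, z ∈ maximalIdeal R₁) (hws : ∀ z ∈ ws, z ∈ maximalIdeal R₂)
    (hz : IsWeaklyRegular E zs) (hw : IsWeaklyRegular G ws) (hzl : zs.length ≤ r₁)
    (hwl : ws.length ≤ r₂) (hlen : b ≤ zs.length + ws.length) :
    0 ≤ chi R₁ R₂ T t E G ∧ (Nontrivial E → Nontrivial G → 0 < chi R₁ R₂ T t E G) := by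
  have hr1 := dim_le_dim (R := R₁) (T := T) h1 ht
  have hr2 := dim_le_dim (R := R₂) (T := T) h2 ht
  obtain ⟨us, hul, hus, hureg⟩ := exists_regular_baseChange (T := T) h1 ht E zs hzs hz hzl
  obtain ⟨vs, hvl, hvs, hvreg⟩ := exists_regular_baseChange (T := T) h2 ht G ws hws hw hwl
  have hv : ∀ j, 1 ≤ j → Subsingleton (TorM T j (T ⊗[R₁] E) (T ⊗[R₂] G)) := fun j hj =>
    tor_subsingleton_of_depth ht _ _ h.fl2 us vs hus hvs hureg hvreg j (by omega)
  have hchi : chi R₁ R₂ T t E G =
      ((Module.length T (TorM T 0 (T ⊗[R₁] E) (T ⊗[R₂] G))).toNat : ℤ) := by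
    unfold chi
    rw [eulerTor_of_vanish _ _ 1 (t + 1) (by omega) hv]
    unfold eulerTor
    simp only [Finset.range_one, Int.reduceNeg, Finset.sum_singleton, pow_zero, one_mul]
  rw [hchi]
  refine ⟨Nat.cast_nonneg _, fun hE hG => ?_⟩
  have hnt : Nontrivial (TorM T 0 (T ⊗[R₁] E) (T ⊗[R₂] G)) := by
    have a1 : Nontrivial (T ⊗[R₁] E) := by
      rw [← Module.supportDim_ne_bot_iff_nontrivial T]
      intro hbot
      have h0 : ((0 : ℕ) : WithBot ℕ∞) ≤ Module.supportDim R₁ E := by
        unfold Module.supportDim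
        have := (Module.nonempty_support_of_nontrivial (R := R₁) (M := E)).to_subtype
        exact Order.krullDim_nonneg
      have h3 := le_supportDim_baseChange (T := T) h1 ht E 0 h0
      rw [hbot] at h3
      simp only [zero_add, le_bot_iff, WithBot.natCast_ne_bot] at h3
    have a2 : Nontrivial (T ⊗[R₂] G) := by
      rw [← Module.supportDim_ne_bot_iff_nontrivial T]
      intro hbot
      have h0 : ((0 : ℕ) : WithBot ℕ∞) ≤ Module.supportDim R₂ G := by
        unfold Module.supportDim
        have := (Module.nonempty_support_of_nontrivial (R := R₂) (M := G)).to_subtype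
        exact Order.krullDim_nonneg
      have h3 := le_supportDim_baseChange (T := T) h2 ht G 0 h0
      rw [hbot] at h3
      simp only [zero_add, le_bot_iff, WithBot.natCast_ne_bot] at h3
    have a3 : Nontrivial ((T ⊗[R₁] E) ⊗[T] (T ⊗[R₂] G)) := nontrivial_tensor_local _ _
    exact (torZero _ _).toEquiv.nontrivial
  have h3 := h.length_ne_top 0
  have h4 : Module.length T (TorM T 0 (T ⊗[R₁] E) (T ⊗[R₂] G)) ≠ 0 := by
    rw [Ne, Module.length_eq_zero_iff]
    exact not_subsingleton _
  have h5 : (Module.length T (TorM T 0 (T ⊗[R₁] E) (T ⊗[R₂] G))).toNat ≠ 0 := by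
    rw [Ne, ENat.toNat_eq_zero]
    exact not_or.2 ⟨h4, h3⟩
  exact_mod_cast Nat.pos_of_ne_zero h5

omit [IsRegularLocalRing R₁] [IsRegularLocalRing R₂] [Module.Flat R₂ T]
  [IsLocalHom (algebraMap R₁ T)] [IsLocalHom (algebraMap R₂ T)] in
theorem chi_quotSMulTop [IsNoetherianRing R₁] (ht : ringKrullDim T = t) (E : Type u)
    [AddCommGroup E] [Module R₁ E] [Module.Finite R₁ E]
    (G : Type u) [AddCommGroup G] [Module R₂ G] [Module.Finite R₂ G] (h : FP R₁ R₂ T E G)
    (x : R₁) (hx : IsSMulRegular E x) : chi R₁ R₂ T t (QuotSMulTop x E) G = 0 := by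
  obtain ⟨f, g, -, hf, hg, hex⟩ := quot_ses E x hx
  have := chi_add ht f g hf hg hex G h
  omega

omit [IsRegularLocalRing R₂] [Module.Flat R₂ T] [IsLocalHom (algebraMap R₁ T)]
  [IsLocalHom (algebraMap R₂ T)] in
/-- Cutting by an element. -/
theorem cut (ht : ringKrullDim T = t) (P : Ideal R₁) [hP : P.IsPrime] (x : R₁)
    (hx : x ∈ maximalIdeal R₁) (hxP : x ∉ P) (G : Type u) [AddCommGroup G] [Module R₂ G]
    [Module.Finite R₂ G] (h : FP R₁ R₂ T (R₁ ⧸ P) G)
    (hpos : Pos R₁ R₂ T t b (QuotSMulTop x (R₁ ⧸ P)) G) (e g : ℕ)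
    (he : ((e + 1 : ℕ) : WithBot ℕ∞) ≤ Module.supportDim R₁ (R₁ ⧸ P))
    (hg : (g : WithBot ℕ∞) ≤ Module.supportDim R₂ G) : e + g < b := by
  have hreg : IsSMulRegular (R₁ ⧸ P) x := by
    rw [isSMulRegular_iff_right_eq_zero_of_smul]
    intro y hy
    obtain ⟨y, rfl⟩ := Ideal.Quotient.mk_surjective y
    have h1 : Ideal.Quotient.mk P (x * y) = 0 := hy
    rw [Ideal.Quotient.eq_zero_iff_mem] at h1 ⊢
    exact (hP.mem_or_mem h1).resolve_left hxP
  have h0 := chi_quotSMulTop ht (R₁ ⧸ P) G h x hreg
  have h1 := Module.supportDim_quotSMulTop_succ_eq_supportDim hreg hx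
  by_contra hcon
  have h2 : (e : WithBot ℕ∞) ≤ Module.supportDim R₁ (QuotSMulTop x (R₁ ⧸ P)) := by
    rw [← h1] at he
    generalize Module.supportDim R₁ (QuotSMulTop x (R₁ ⧸ P)) = a at he ⊢
    induction a using WithBot.recBotCoe with
    | bot => simp only [Nat.cast_add, Nat.cast_one, WithBot.bot_add, le_bot_iff, WithBot.add_eq_bot, WithBot.natCast_ne_bot, WithBot.one_ne_bot, or_self] at he
    | coe a =>
      have h3 : ((e + 1 : ℕ) : ℕ∞) ≤ a + 1 := by exact_mod_cast he
      have h4 : (e : ℕ∞) ≤ a := by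
        push_cast at h3
        exact (ENat.add_le_add_iff_right ENat.one_ne_top).1 h3
      exact_mod_cast h4
  have h3 := hpos.pos e g h2 hg (by omega)
  omega

end Vale.Agent.P177
end
end

section

section

/-!
Saturation with respect to the maximal ideal and modules of depth two.
-/

namespace Vale.Agent.P177

open CategoryTheory TensorProduct Function IsLocalRing RingTheory.Sequence Pointwise

universe u

section onering

variable {R : Type u} [CommRing R] [IsRegularLocalRing R] {r : ℕ}

omit [IsRegularLocalRing R] in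
theorem supportDim_le_zero_of_pow [IsLocalRing R] [IsNoetherianRing R] (V : Type u)
    [AddCommGroup V] [Module R V] [Module.Finite R V] (n : ℕ)
    (h : ∀ a ∈ maximalIdeal R ^ n, ∀ v : V, a • v = 0) : Module.supportDim R V ≤ 0 := by
  have h1 : FL ([] : List R) V := by
    unfold FL
    refine fun a ha => ⟨n, ?_⟩
    refine le_sup_left (α := Ideal R) ?_
    rw [Module.mem_annihilator]
    exact h _ (Ideal.pow_mem_pow ha n)
  exact supportDim_le_length [] (by simp only [List.not_mem_nil, mem_maximalIdeal, mem_nonunits_iff, IsEmpty.forall_iff, implies_true]) V h1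

theorem exists_sat (hr : ringKrullDim R = r) (h2 : 2 ≤ r) (C : Type u) [AddCommGroup C]
    [Module R C] [Module.Finite R C]
    (hC : ∀ j, r ≤ j + 1 → Subsingleton (TorM R j C (R ⧸ maximalIdeal R)))
    (N : Submodule R C) : ∃ S : Submodule R C, N ≤ S ∧
      (∃ n, ∀ a ∈ maximalIdeal R ^ n, ∀ s ∈ S, a • s ∈ N) ∧
      ∃ ws : List R, ws.length = 2 ∧ (∀ z ∈ ws, z ∈ maximalIdeal R) ∧ IsWeaklyRegular S ws := by
  let f : ℕ →o Submodule R C :=
    { toFun := fun n =>
        { carrier := {c | ∀ a ∈ maximalIdeal R ^ n, a • c ∈ N}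
          add_mem' := fun {x y} hx hy a ha => by
            rw [smul_add]
            exact N.add_mem (hx a ha) (hy a ha)
          zero_mem' := fun a _ => by rw [smul_zero]; exact N.zero_mem
          smul_mem' := fun c x hx a ha => by
            rw [smul_comm]
            exact N.smul_mem _ (hx a ha) }
      monotone' := fun m n hmn x hx a ha => hx a (Ideal.pow_le_pow_right hmn ha) }
  have hf : ∀ n c, c ∈ f n ↔ ∀ a ∈ maximalIdeal R ^ n, a • c ∈ N := fun n c => Iff.rfl
  obtain ⟨n, hn⟩ := monotone_stabilizes_iff_noetherian.2 (inferInstance : IsNoetherian R C) f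
  refine ⟨f n, ?_, ⟨n, fun a ha s hs => hs a ha⟩, ?_⟩
  · intro x hx
    rw [hf]
    exact fun a _ => N.smul_mem a hx
  · have hsoc : ∀ x : C ⧸ f n, (∀ a ∈ maximalIdeal R, a • x = 0) → x = 0 := by
      intro x hx
      obtain ⟨c, rfl⟩ := Submodule.mkQ_surjective _ x
      rw [Submodule.mkQ_apply, Submodule.Quotient.mk_eq_zero, hn (n + 1) (by omega), hf]
      have h3 : ∀ a ∈ maximalIdeal R, a • c ∈ f n := by
        intro a ha
        have := hx a ha
        rwa [← map_smul, Submodule.mkQ_apply, Submodule.Quotient.mk_eq_zero] at this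
      intro a ha
      rw [pow_succ] at ha
      induction ha using Submodule.mul_induction_on' with
      | mem_mul_mem a ha b hb =>
        rw [mul_smul]
        exact h3 b hb a ha
      | add x _ y _ hx hy =>
        rw [add_smul]
        exact N.add_mem hx hy
    have h4 : ∀ j, r ≤ j → Subsingleton (TorM R j (C ⧸ f n) (R ⧸ maximalIdeal R)) := by
      intro j hj
      rcases hj.eq_or_lt with h5 | h5
      · rw [← h5]
        exact tor_residue_of_no_socle hr _ hsoc
      · exact regular_tor_vanish R r hr _ _ j h5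
    have hex : Exact (f n).subtype (f n).mkQ := by
      intro x
      rw [Submodule.mkQ_apply, Submodule.Quotient.mk_eq_zero]
      simp only [Submodule.coe_subtype, Subtype.range_coe_subtype, SetLike.setOfPred_mem_eq, SetLike.mem_coe]
    obtain ⟨δ, -, h6, -⟩ := exists_torDelta (f n).subtype (f n).mkQ
      (Submodule.injective_subtype _) (Submodule.mkQ_surjective _) hex (R ⧸ maximalIdeal R)
    obtain ⟨ws, hw1, hw2, hw3⟩ := exists_regular_ext_list hr (f n) [] (IsWeaklyRegular.nil _ _)
      (r - 2) (fun j hj => by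
        have h7 := hC j (by omega)
        have h8 := h4 (j + 1) (by omega)
        refine subsingleton_of_forall_eq 0 fun x => ?_
        obtain ⟨y, rfl⟩ := (h6 j x).1 (Subsingleton.elim _ _)
        rw [Subsingleton.elim y 0, map_zero]) 2 (by rw [List.length_nil]; omega)
    exact ⟨ws, hw1, hw2, by simpa using hw3⟩

omit [IsRegularLocalRing R] in
theorem tor_ci_residue [IsLocalRing R] (zs : List R) (hreg : IsWeaklyRegular R zs)
    (hl : zs.length + 2 ≤ r) (j : ℕ) (hj : r ≤ j + 1) :
    Subsingleton (TorM R j (R ⧸ (Ideal.ofList zs • ⊤ : Submodule R R)) (R ⧸ maximalIdeal R)) := by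
  refine tor_subsingleton_list zs R hreg (R ⧸ maximalIdeal R) 1 (fun j hj => ?_) j (by omega)
  obtain ⟨j, rfl⟩ : ∃ k, j = k + 1 := ⟨j - 1, by omega⟩
  exact tor_subsingleton_of_flat j

theorem eq_zero_of_pow_of_no_socle {R : Type u} [CommRing R] [IsLocalRing R] (C : Type u)
    [AddCommGroup C] [Module R C] (h : ∀ x : C, (∀ a ∈ maximalIdeal R, a • x = 0) → x = 0) (n : ℕ)
    (x : C) (hx : ∀ a ∈ maximalIdeal R ^ n, a • x = 0) : x = 0 := by
  induction n generalizing x with
  | zero => simpa using hx 1 (by simp only [pow_zero, Ideal.one_eq_top, Submodule.mem_top])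
  | succ n ih =>
    apply h
    intro a ha
    apply ih
    intro c hc
    rw [← mul_smul]
    exact hx _ (by rw [pow_succ]; exact Ideal.mul_mem_mul hc ha)

/-- For a prime of coheight at least two, the domain embeds in a module of depth two supported on
it with cokernel of finite length. -/
theorem exists_depth_two (hr : ringKrullDim R = r) (P : Ideal R) [P.IsPrime]
    (hd : ((2 : ℕ) : WithBot ℕ∞) ≤ Module.supportDim R (R ⧸ P)) :
    ∃ (S : Type u) (_ : AddCommGroup S) (_ : Module R S) (_ : Module.Finite R S)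
      (f : (R ⧸ P) →ₗ[R] S), Injective f ∧ P ≤ Module.annihilator R S ∧
      Module.supportDim R (S ⧸ LinearMap.range f) ≤ 0 ∧
      ∃ ws : List R, ws.length = 2 ∧ (∀ z ∈ ws, z ∈ maximalIdeal R) ∧ IsWeaklyRegular S ws := by
  obtain ⟨zs, hmem, hreg, hlt, hh, hdim, hass⟩ := exists_ci hr P
  rw [hdim] at hd
  have hd' : 2 ≤ r - zs.length := by exact_mod_cast hd
  obtain ⟨f, hf⟩ := ((isAssociatedPrime_iff_exists_injective_linearMap _ _).1 hass).2
  obtain ⟨S, hNS, ⟨n, hn⟩, ws, hw1, hw2, hw3⟩ := exists_sat hr (by omega)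
    (R ⧸ (Ideal.ofList zs • ⊤ : Submodule R R))
    (fun j hj => tor_ci_residue zs hreg (by omega) j hj) (LinearMap.range f)
  have hsoc := no_socle_of_tor_residue hr (R ⧸ (Ideal.ofList zs • ⊤ : Submodule R R))
    (tor_ci_residue (r := r) zs hreg (by omega) r (by omega))
  refine ⟨S, inferInstance, inferInstance, inferInstance,
    f.codRestrict S (fun x => hNS ⟨x, rfl⟩), ?_, ?_, ?_, ws, hw1, hw2, hw3⟩
  · intro x y hxy
    exact hf (congrArg Subtype.val hxy)
  · intro p hp
    rw [Module.mem_annihilator]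
    rintro ⟨s, hs⟩
    apply Subtype.ext
    change p • s = 0
    apply eq_zero_of_pow_of_no_socle _ hsoc n
    intro a ha
    obtain ⟨y, hy⟩ := hn a ha s hs
    rw [smul_comm, ← hy, ← map_smul]
    have : p • y = 0 := by
      obtain ⟨y, rfl⟩ := Ideal.Quotient.mk_surjective y
      change Ideal.Quotient.mk P (p * y) = 0
      rw [Ideal.Quotient.eq_zero_iff_mem]
      exact Ideal.mul_mem_right _ _ hp
    rw [this, map_zero]
  · apply supportDim_le_zero_of_pow _ n
    intro a ha v
    obtain ⟨⟨s, hs⟩, rfl⟩ := Submodule.mkQ_surjective _ v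
    rw [← map_smul, Submodule.mkQ_apply, Submodule.Quotient.mk_eq_zero]
    obtain ⟨y, hy⟩ := hn a ha s hs
    exact ⟨y, Subtype.ext hy⟩

end onering

section twosided

variable {R₁ R₂ T : Type u} [CommRing R₁] [CommRing R₂] [CommRing T]
  [IsRegularLocalRing R₁] [IsRegularLocalRing R₂] [IsRegularLocalRing T]
  [Algebra R₁ T] [Algebra R₂ T] [Module.Flat R₁ T] [Module.Flat R₂ T]
  [IsLocalHom (algebraMap R₁ T)] [IsLocalHom (algebraMap R₂ T)] {r₁ r₂ t b : ℕ}

theorem eq_maximalIdeal_of_supportDim {R : Type u} [CommRing R] [IsLocalRing R]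
    (P : Ideal R) [hP : P.IsPrime] (h : Module.supportDim R (R ⧸ P) ≤ 0) :
    P = maximalIdeal R := by
  by_contra hne
  have hlt : P < maximalIdeal R := lt_of_le_of_ne (le_maximalIdeal hP.ne_top) hne
  have h1 : ((0 : ℕ) : WithBot ℕ∞) ≤ Module.supportDim R (R ⧸ maximalIdeal R) := by
    unfold Module.supportDim
    have := (Module.nonempty_support_of_nontrivial (R := R)
      (M := R ⧸ maximalIdeal R)).to_subtype
    exact Order.krullDim_nonneg
  have h2 := (supportDim_quotient_strict hlt 0 h1).trans h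
  have h3 : (1 : ℕ) ≤ 0 := by exact_mod_cast h2
  omega

/-- The case where the first module has dimension at most zero. -/
theorem pos_dim_zero (h1 : ringKrullDim R₁ = r₁) (h2 : ringKrullDim R₂ = r₂)
    (ht : ringKrullDim T = t) (hb : r₁ + r₂ = t + b) (G : Type u) [AddCommGroup G] [Module R₂ G]
    [Module.Finite R₂ G] (E : Type u) [AddCommGroup E] [Module R₁ E] [Module.Finite R₁ E]
    (hE : Module.supportDim R₁ E ≤ 0) (h : FP R₁ R₂ T E G) : Pos R₁ R₂ T t b E G := by
  refine pos_of_primes ht 0 G (fun P hP hdim hFP => ?_) E hE h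
  have hPm := eq_maximalIdeal_of_supportDim P hdim
  subst hPm
  exact pos_residue h1 h2 ht hb G hFP

/-- Replacing a domain by a module of depth two does not change the Euler characteristic. -/
theorem exists_replace (h1 : ringKrullDim R₁ = r₁) (h2 : ringKrullDim R₂ = r₂)
    (ht : ringKrullDim T = t) (hb : r₁ + r₂ = t + b) (P : Ideal R₁) [hP : P.IsPrime]
    (hd : ((2 : ℕ) : WithBot ℕ∞) ≤ Module.supportDim R₁ (R₁ ⧸ P)) :
    ∃ (S : Type u) (_ : AddCommGroup S) (_ : Module R₁ S) (_ : Module.Finite R₁ S),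
      Nontrivial S ∧ P ≤ Module.annihilator R₁ S ∧
      (∃ ws : List R₁, ws.length = 2 ∧ (∀ z ∈ ws, z ∈ maximalIdeal R₁) ∧ IsWeaklyRegular S ws) ∧
      ∀ (G : Type u) [AddCommGroup G] [Module R₂ G] [Module.Finite R₂ G],
        (∀ g : ℕ, (g : WithBot ℕ∞) ≤ Module.supportDim R₂ G → g < b) →
        FP R₁ R₂ T (R₁ ⧸ P) G → FP R₁ R₂ T S G ∧
          chi R₁ R₂ T t (R₁ ⧸ P) G = chi R₁ R₂ T t S G := by
  obtain ⟨S, _, _, _, f, hf, hPS, hdim, ws, hw1, hw2, hw3⟩ := exists_depth_two h1 P hd
  have hnt : Nontrivial (R₁ ⧸ P) := Ideal.Quotient.nontrivial_iff.2 hP.ne_top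
  refine ⟨S, inferInstance, inferInstance, inferInstance, hf.nontrivial, hPS,
    ⟨ws, hw1, hw2, hw3⟩, ?_⟩
  intro G _ _ _ hG hFP
  have hFPS : FP R₁ R₂ T S G := hFP.mono (by rwa [Ideal.annihilator_quotient]) le_rfl
  refine ⟨hFPS, ?_⟩
  have hex : Exact f (LinearMap.range f).mkQ := by
    intro x
    rw [Submodule.mkQ_apply, Submodule.Quotient.mk_eq_zero]
    rfl
  have hadd := chi_add ht f (LinearMap.range f).mkQ hf (Submodule.mkQ_surjective _) hex G hFPS
  have hq := pos_dim_zero h1 h2 ht hb G (S ⧸ LinearMap.range f) hdim (hFPS.mono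
    (LinearMap.annihilator_le_of_surjective _ (Submodule.mkQ_surjective _)) le_rfl)
  rw [hadd, hq.zero, add_zero]
  intro e g he hg
  have h3 : (e : WithBot ℕ∞) ≤ 0 := he.trans hdim
  have h4 : e ≤ 0 := by exact_mod_cast h3
  have := hG g hg
  omega

end twosided

end Vale.Agent.P177
end
end

section

section

/-!
Primes of given coheight, and prime avoidance for systems of parameters.
-/

namespace Vale.Agent.P177

open CategoryTheory TensorProduct Function IsLocalRing RingTheory.Sequence Pointwise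

universe u

section series

variable {T : Type u} [CommRing T]

theorem le_supportDim_of_series {I : Ideal T} (l : LTSeries (Module.support T (T ⧸ I)))
    (k m : ℕ) (hk : k + m = l.length) :
    (m : WithBot ℕ∞) ≤ Module.supportDim T (T ⧸ (l ⟨k, by omega⟩).1.asIdeal) := by
  unfold Module.supportDim
  rw [Order.le_krullDim_iff]
  let l' : LTSeries (Module.support T (T ⧸ (l ⟨k, by omega⟩).1.asIdeal)) :=
    { length := m
      toFun := fun i => ⟨(l ⟨k + i, by omega⟩).1,
        (support_quotient_prime _ _).2 (l.strictMono.monotone (by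
          rw [Fin.le_def]
          change k ≤ k + i
          omega))⟩
      step := fun i => l.strictMono (by
        rw [Fin.lt_def]
        change k + (i.castSucc : ℕ) < k + (i.succ : ℕ)
        simp only [Fin.val_castSucc, Fin.val_succ, add_lt_add_iff_left, lt_add_iff_pos_right, Order.lt_one_iff]) }
  exact ⟨l', rfl⟩

theorem exists_gt_prime (I : Ideal T) (n : ℕ)
    (h : ((n + 1 : ℕ) : WithBot ℕ∞) ≤ Module.supportDim T (T ⧸ I)) :
    ∃ q : Ideal T, q.IsPrime ∧ I < q ∧ (n : WithBot ℕ∞) ≤ Module.supportDim T (T ⧸ q) := by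
  unfold Module.supportDim at h
  obtain ⟨l, hl⟩ := Order.le_krullDim_iff.1 h
  refine ⟨(l ⟨1, by omega⟩).1.asIdeal, (l _).1.2, ?_,
    le_supportDim_of_series l 1 n (by omega)⟩
  have h1 : I ≤ (l ⟨0, by omega⟩).1.asIdeal := (support_quotient_prime _ _).1 (l _).2
  have h2 : l ⟨0, by omega⟩ < l ⟨1, by omega⟩ := l.strictMono (by rw [Fin.lt_def]; simp only [Order.lt_one_iff])
  exact lt_of_le_of_lt h1 h2

/-- A prime above `P` with prescribed coheight. -/
theorem exists_prime_exact [IsNoetherianRing T] (P : Ideal T) [hP : P.IsPrime] (n : ℕ)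
    (h : (n : WithBot ℕ∞) ≤ Module.supportDim T (T ⧸ P)) :
    ∃ q : Ideal T, q.IsPrime ∧ P ≤ q ∧ Module.supportDim T (T ⧸ q) = n := by
  obtain ⟨q, ⟨hq1, hq2, hq3⟩, hmax⟩ := set_has_maximal_iff_noetherian.2
    (inferInstance : IsNoetherian T T) {q : Ideal T | q.IsPrime ∧ P ≤ q ∧
      (n : WithBot ℕ∞) ≤ Module.supportDim T (T ⧸ q)} ⟨P, hP, le_rfl, h⟩
  refine ⟨q, hq1, hq2, le_antisymm ?_ hq3⟩
  by_contra hcon
  rw [not_le] at hcon
  obtain ⟨q', h1, h2, h3⟩ := exists_gt_prime q n (succ_le_of_lt_withBot hcon)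
  exact hmax q' ⟨h1, hq2.trans h2.le, h3⟩ h2

variable [IsLocalRing T]

end series

section avoid

variable {R T : Type u} [CommRing R] [CommRing T] [IsNoetherianRing T] [IsLocalRing T] [Algebra R T]

end avoid

end Vale.Agent.P177
end
end

section

section

/-!
Preparations for the inductive step: finite maps to discrete valuation rings and polynomial rings
over local rings.
-/

namespace Vale.Agent.P177

open CategoryTheory TensorProduct Function IsLocalRing RingTheory.Sequence Pointwise

universe u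

section dvr

variable (R V : Type u) [CommRing R] [IsLocalRing R] [CommRing V] [IsDomain V]
  [IsDiscreteValuationRing V] [Algebra R V] [Module.Finite R V]

theorem comap_maximalIdeal_of_finite :
    (maximalIdeal V).comap (algebraMap R V) = maximalIdeal R :=
  IsLocalRing.eq_maximalIdeal (Ideal.isMaximal_comap_of_isIntegral_of_isMaximal _)

theorem ker_lt_maximalIdeal : RingHom.ker (algebraMap R V) < maximalIdeal R := by
  refine lt_of_le_of_ne (le_maximalIdeal (RingHom.ker_ne_top _)) ?_
  intro h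
  have h1 : (maximalIdeal V).comap (algebraMap R V) = (⊥ : Ideal V).comap (algebraMap R V) := by
    rw [comap_maximalIdeal_of_finite, ← h]
    rfl
  have h2 : (⊥ : Ideal V) < maximalIdeal V := bot_lt_iff_ne_bot.2
    (IsDiscreteValuationRing.not_a_field V)
  have h3 := Ideal.IsIntegral.comap_lt_comap (R := R) h2
  rw [h1] at h3
  exact lt_irrefl _ h3

/-- Primes above the kernel. -/
theorem eq_ker_or_eq_maximalIdeal (q : Ideal R) [q.IsPrime]
    (h : RingHom.ker (algebraMap R V) ≤ q) :
    q = RingHom.ker (algebraMap R V) ∨ q = maximalIdeal R := by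
  obtain ⟨Q, hQ, hQq⟩ := Ideal.exists_ideal_over_prime_of_isIntegral_of_isDomain (S := V) q h
  by_cases h0 : Q = ⊥
  · left
    rw [← hQq, h0]
    rfl
  · right
    have hQm : Q = maximalIdeal V := IsLocalRing.eq_maximalIdeal (hQ.isMaximal h0)
    rw [← hQq, hQm, comap_maximalIdeal_of_finite]

omit [IsLocalRing R] [IsDomain V] [IsDiscreteValuationRing V] [Module.Finite R V] in
theorem annihilator_eq_ker : Module.annihilator R V = RingHom.ker (algebraMap R V) := by
  ext x
  rw [Module.mem_annihilator, RingHom.mem_ker]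
  constructor
  · intro h
    rw [Algebra.algebraMap_eq_smul_one]
    exact h 1
  · intro h v
    rw [Algebra.smul_def, h, zero_mul]

theorem supportDim_dvr [IsNoetherianRing R] : Module.supportDim R V = (1 : ℕ) := by
  have hkp : (RingHom.ker (algebraMap R V)).IsPrime := RingHom.ker_isPrime _
  have h4 : Module.supportDim R (R ⧸ RingHom.ker (algebraMap R V)) = Module.supportDim R V := by
    rw [← annihilator_eq_ker]
    unfold Module.supportDim
    rw [Module.support_eq_zeroLocus, Module.support_eq_zeroLocus, Ideal.annihilator_quotient]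
  rw [← h4]
  have h0 : ((0 : ℕ) : WithBot ℕ∞) ≤ Module.supportDim R (R ⧸ maximalIdeal R) := by
    unfold Module.supportDim
    have := (Module.nonempty_support_of_nontrivial (R := R)
      (M := R ⧸ maximalIdeal R)).to_subtype
    exact Order.krullDim_nonneg
  apply le_antisymm
  · by_contra hcon
    rw [not_le] at hcon
    obtain ⟨q, hq1, hq2, hq3⟩ := exists_gt_prime _ 1 (succ_le_of_lt_withBot hcon)
    rcases eq_ker_or_eq_maximalIdeal R V q hq2.le with h | h
    · exact absurd h hq2.ne'
    · obtain ⟨q', hq1', hq2', hq3'⟩ := exists_gt_prime q 0 hq3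
      rw [h] at hq2'
      exact absurd (le_maximalIdeal hq1'.ne_top) (not_le_of_gt hq2')
  · exact supportDim_quotient_strict (ker_lt_maximalIdeal R V) 0 h0

end dvr

section poly

open Polynomial

variable {T : Type u} [CommRing T] [IsLocalRing T]

/-- Primes containing the maximal ideal and a monic polynomial are maximal. -/
theorem isMaximal_of_monic_mem (q : Ideal T[X]) [hq : q.IsPrime] (g : T[X]) (hg : g.Monic)
    (hgq : g ∈ q) (hm : maximalIdeal T ≤ q.comap C) : q.IsMaximal := by
  have hcomap : q.comap C = maximalIdeal T :=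
    le_antisymm (le_maximalIdeal (Ideal.comap_ne_top _ hq.ne_top)) hm
  have hint := hg.quotient_isIntegral (I := q) hgq
  have hdom : IsDomain (T[X] ⧸ q) := Ideal.Quotient.isDomain q
  have h1 : (⊥ : Ideal (T[X] ⧸ q)).IsMaximal := by
    refine Ideal.isMaximal_of_isIntegral_of_isMaximal_comap' _ hint _ ?_
    have h2 : (⊥ : Ideal (T[X] ⧸ q)).comap
        ((Ideal.Quotient.mkₐ T q).comp (Algebra.ofId T T[X])).toRingHom = maximalIdeal T := by
      rw [← hcomap]
      ext x
      rw [Ideal.mem_comap, Ideal.mem_bot, Ideal.mem_comap]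
      change Ideal.Quotient.mk q (C x) = 0 ↔ _
      rw [Ideal.Quotient.eq_zero_iff_mem]
    rw [h2]
    infer_instance
  exact (Ideal.bot_quotient_isMaximal_iff q).1 h1

theorem comap_C_eq_maximalIdeal (q : Ideal T[X]) [hq : q.IsPrime]
    (hm : maximalIdeal T ≤ q.comap C) : q.comap C = maximalIdeal T :=
  le_antisymm (le_maximalIdeal (Ideal.comap_ne_top _ hq.ne_top)) hm

theorem ringKrullDim_localization_polynomial [IsNoetherianRing T] {t : ℕ}
    (ht : ringKrullDim T = t) (m : Ideal T[X]) [m.IsMaximal] (hm : m.comap C = maximalIdeal T) :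
    ringKrullDim (Localization.AtPrime m) = ((t + 1 : ℕ) : WithBot ℕ∞) := by
  rw [IsLocalization.AtPrime.ringKrullDim_eq_height m (Localization.AtPrime m)]
  have : m.LiesOver (maximalIdeal T) := ⟨hm.symm⟩
  rw [Polynomial.height_eq_height_add_one (maximalIdeal T) m]
  have h1 := IsLocalRing.maximalIdeal_height_eq_ringKrullDim (R := T)
  rw [ht] at h1
  push_cast
  rw [← h1]

/-- The residue ring has finite length. -/
theorem length_quot_ne_top [IsNoetherianRing T] (m : Ideal T[X]) (g : T[X])
    (hg : g.Monic) (hgm : g ∈ m) (hm : maximalIdeal T ≤ m.comap C) :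
    Module.length T (T[X] ⧸ m) ≠ ⊤ := by
  have h1 : Module.Finite T (T[X] ⧸ Ideal.span {g}) := hg.finite_quotient
  have hle : Ideal.span {g} ≤ m := by
    rw [Ideal.span_singleton_le_iff_mem]
    exact hgm
  have h2 : Module.Finite T (T[X] ⧸ m) := Module.Finite.of_surjective
    (Ideal.Quotient.factorₐ T hle).toLinearMap (Ideal.Quotient.factor_surjective hle)
  have h3 : FL ([] : List T) (T[X] ⧸ m) := by
    unfold FL
    refine le_trans ?_ Ideal.le_radical
    refine le_trans ?_ le_sup_left
    intro a ha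
    rw [Module.mem_annihilator]
    intro x
    obtain ⟨x, rfl⟩ := Ideal.Quotient.mk_surjective x
    have h4 : a • x ∈ m := by
      rw [Polynomial.smul_eq_C_mul]
      exact Ideal.mul_mem_right _ _ (hm ha)
    exact Ideal.Quotient.eq_zero_iff_mem.2 h4
  exact h3.length_ne_top

end poly

end Vale.Agent.P177
end
end

section

section

/-!
Transfer of Euler characteristics from `T` to the localizations of a `T`-algebra `B`.
-/

namespace Vale.Agent.P177

open CategoryTheory TensorProduct Function IsLocalRing RingTheory.Sequence Pointwise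

universe u

variable {R₁ T B₁ B : Type u} [CommRing R₁] [CommRing T] [CommRing B₁] [CommRing B]
  [Algebra R₁ T] [Algebra R₁ B₁] [Algebra T B] [Algebra B₁ B] [Algebra R₁ B]
  [IsScalarTower R₁ B₁ B] [IsScalarTower R₁ T B] [Algebra.IsPushout R₁ T B₁ B]
  [Module.Flat T B]

/-- Comparison of `Tor` over `T`, over `B` and over the localizations of `B`. -/
theorem exists_tor_transfer (V : Type u) [AddCommGroup V] [Module R₁ V] [Module B₁ V]
    [IsScalarTower R₁ B₁ V] (H : Type u) [AddCommGroup H] [Module T H] (n : ℕ) :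
    ∃ (M : Type u) (_ : AddCommGroup M) (_ : Module T M) (_ : Module B M)
      (_ : IsScalarTower T B M), Nonempty (TorM T n H (T ⊗[R₁] V) ≃ₗ[T] M) ∧
      Nonempty (TorM B n (B ⊗[T] H) (B ⊗[B₁] V) ≃ₗ[B] M) ∧
      ∀ m : MaximalSpectrum B, Nonempty (TorM (Localization.AtPrime m.asIdeal) n
        (Localization.AtPrime m.asIdeal ⊗[B] (B ⊗[T] H))
        (Localization.AtPrime m.asIdeal ⊗[B] (B ⊗[B₁] V)) ≃ₗ[Localization.AtPrime m.asIdeal]
        Localization.AtPrime m.asIdeal ⊗[B] M) := by
  obtain ⟨M, i1, i2, i3, i4, ⟨e1⟩, ⟨e2⟩⟩ := tor_bc_common (S := T) (B := B) n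
    (TensorProduct.isBaseChange T H B) (B ⊗[B₁] V)
  have e3 : (B ⊗[B₁] V) ≃ₗ[T] (T ⊗[R₁] V) := Algebra.IsPushout.cancelBaseChange R₁ T B₁ B V
  refine ⟨M, i1, i2, i3, i4, ⟨(torCongrRight n H e3).symm ≪≫ₗ e1⟩, ⟨e2⟩, fun m => ?_⟩
  obtain ⟨e4⟩ := exists_tor_flat_iso (A := B) (C := Localization.AtPrime m.asIdeal) n
    (TensorProduct.isBaseChange B (B ⊗[T] H) (Localization.AtPrime m.asIdeal))
    (TensorProduct.isBaseChange B (B ⊗[B₁] V) (Localization.AtPrime m.asIdeal))
  exact ⟨e4 ≪≫ₗ e2.baseChange B (Localization.AtPrime m.asIdeal) _ _⟩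

/-- The Euler characteristic over `T` as a sum over maximal ideals of `B`. -/
theorem eulerTor_eq_sum (V : Type u) [AddCommGroup V] [Module R₁ V] [Module B₁ V]
    [IsScalarTower R₁ B₁ V] (H : Type u) [AddCommGroup H] [Module T H]
    (hlen : ∀ n, Module.length T (TorM T n H (T ⊗[R₁] V)) ≠ ⊤) (S : Finset (MaximalSpectrum B))
    (hS : ∀ m : MaximalSpectrum B, m ∉ S → ∀ n, Subsingleton (Localization.AtPrime m.asIdeal ⊗[B]
      TorM B n (B ⊗[T] H) (B ⊗[B₁] V))) (N : ℕ) :
    eulerTor T N H (T ⊗[R₁] V) = ∑ m ∈ S, ((Module.length T (B ⧸ m.asIdeal)).toNat : ℤ) *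
      eulerTor (Localization.AtPrime m.asIdeal) N
        (Localization.AtPrime m.asIdeal ⊗[B] (B ⊗[T] H))
        (Localization.AtPrime m.asIdeal ⊗[B] (B ⊗[B₁] V)) := by
  have key : ∀ n, ((Module.length T (TorM T n H (T ⊗[R₁] V))).toNat : ℤ) =
      ∑ m ∈ S, ((Module.length T (B ⧸ m.asIdeal)).toNat : ℤ) *
        ((Module.length (Localization.AtPrime m.asIdeal) (TorM (Localization.AtPrime m.asIdeal) n
        (Localization.AtPrime m.asIdeal ⊗[B] (B ⊗[T] H))
        (Localization.AtPrime m.asIdeal ⊗[B] (B ⊗[B₁] V)))).toNat : ℤ) := by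
    intro n
    obtain ⟨M, _, _, _, _, ⟨e1⟩, ⟨e2⟩, e3⟩ := exists_tor_transfer (R₁ := R₁) (T := T) (B₁ := B₁)
      (B := B) V H n
    have h1 : Module.length T M ≠ ⊤ := by
      rw [← e1.length_eq]
      exact hlen n
    have h2 : IsFiniteLength B M := by
      have h3 := Module.length_ne_top_iff.1 h1
      rw [isFiniteLength_iff_isNoetherian_isArtinian] at h3 ⊢
      obtain ⟨h4, h5⟩ := h3
      exact ⟨isNoetherian_of_tower T h4, isArtinian_of_tower T h5⟩
    have h3 := length_eq_sum (T := T) S M h2 (fun m hm => by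
      have := hS m hm n
      exact (e2.baseChange B (Localization.AtPrime m.asIdeal) _ _).symm.toEquiv.subsingleton)
    have h4 : ∀ m ∈ S, Module.length T (B ⧸ m.asIdeal) *
        Module.length (Localization.AtPrime m.asIdeal)
          (Localization.AtPrime m.asIdeal ⊗[B] M) ≠ ⊤ := by
      intro m hm htop
      apply h1
      rw [h3, eq_top_iff, ← htop]
      exact Finset.single_le_sum (f := fun m : MaximalSpectrum B =>
        Module.length T (B ⧸ m.asIdeal) * Module.length (Localization.AtPrime m.asIdeal)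
          (Localization.AtPrime m.asIdeal ⊗[B] M)) (fun _ _ => bot_le) hm
    rw [e1.length_eq, h3, ENat.toNat_sum h4]
    push_cast
    refine Finset.sum_congr rfl fun m _ => ?_
    obtain ⟨e4⟩ := e3 m
    rw [ENat.toNat_mul, e4.length_eq]
    push_cast
    rfl
  unfold eulerTor
  rw [Finset.sum_congr rfl fun n _ => by rw [key n, Finset.mul_sum]]
  rw [Finset.sum_comm]
  refine Finset.sum_congr rfl fun m _ => ?_
  rw [Finset.mul_sum]
  refine Finset.sum_congr rfl fun n _ => ?_
  ring

end Vale.Agent.P177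
end
end

section

section

/-!
The inductive step: adjoining an element of the discrete valuation ring to the regular ring.
Data at one maximal ideal of `T[X]`.
-/

namespace Vale.Agent.P177

open CategoryTheory TensorProduct Function IsLocalRing RingTheory.Sequence Pointwise Polynomial

universe u

attribute [local instance] Polynomial.algebra

/-- The statement proved by induction. -/
def StepHyp (R₂ V G : Type u) [CommRing R₂] [CommRing V] [AddCommGroup G] [Module R₂ G]
    (r₂ b n : ℕ) : Prop :=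
  ∀ (R₁ T : Type u) [CommRing R₁] [IsRegularLocalRing R₁] [CommRing T]
    [IsRegularLocalRing T] [Algebra R₁ T] [Module.Flat R₁ T] [IsLocalHom (algebraMap R₁ T)]
    [Algebra R₂ T] [Module.Flat R₂ T] [IsLocalHom (algebraMap R₂ T)]
    [Algebra R₁ V] [Module.Finite R₁ V] (r₁ t : ℕ), ringKrullDim R₁ = r₁ →
    ringKrullDim T = t → r₁ + r₂ = t + b →
    Module.length R₁ (V ⧸ LinearMap.range (Algebra.linearMap R₁ V)) ≤ n →
    FP R₁ R₂ T V G → Pos R₁ R₂ T t b V G

section

variable {R₁ R₂ T V : Type u} [CommRing R₁] [CommRing R₂] [CommRing T] [CommRing V]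
  [IsRegularLocalRing R₁] [IsRegularLocalRing R₂] [IsRegularLocalRing T]
  [Algebra R₁ T] [Algebra R₂ T] [Module.Flat R₁ T] [Module.Flat R₂ T]
  [IsLocalHom (algebraMap R₁ T)] [IsLocalHom (algebraMap R₂ T)] {r₁ r₂ t b : ℕ}
  [IsDomain V] [IsDiscreteValuationRing V] [Algebra R₁ V] [Module.Finite R₁ V]
  [Algebra R₁[X] V] [IsScalarTower R₁ R₁[X] V]

omit [IsRegularLocalRing R₁] [IsDomain V] [IsDiscreteValuationRing V] in
theorem isIntegral_poly : Algebra.IsIntegral R₁[X] V :=
  Algebra.IsIntegral.tower_top R₁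

omit [IsRegularLocalRing R₁] in
theorem comap_poly_isMaximal :
    ((maximalIdeal V).comap (algebraMap R₁[X] V)).IsMaximal := by
  have := isIntegral_poly (R₁ := R₁) (V := V)
  exact Ideal.isMaximal_comap_of_isIntegral_of_isMaximal _

omit [IsRegularLocalRing R₁] in
theorem comap_C_comap_poly [IsLocalRing R₁] :
    ((maximalIdeal V).comap (algebraMap R₁[X] V)).comap C = maximalIdeal R₁ := by
  rw [Ideal.comap_comap, ← comap_maximalIdeal_of_finite R₁ V]
  congr 1
  exact (IsScalarTower.algebraMap_eq R₁ R₁[X] V).symm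

omit [IsRegularLocalRing R₁] [IsDomain V] [IsDiscreteValuationRing V] in
theorem exists_monic_ker : ∃ g : R₁[X], g.Monic ∧ algebraMap R₁[X] V g = 0 := by
  obtain ⟨g, hg, hg0⟩ := Algebra.IsIntegral.isIntegral (R := R₁) (algebraMap R₁[X] V X)
  refine ⟨g, hg, ?_⟩
  have h1 : algebraMap R₁[X] V g = aeval (algebraMap R₁[X] V X) g := by
    have h2 : (IsScalarTower.toAlgHom R₁ R₁[X] V) = aeval (algebraMap R₁[X] V X) := by
      ext
      simp
    have h3 := DFunLike.congr_fun h2 g
    exact h3
  rw [h1]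
  exact hg0

omit [IsRegularLocalRing T] [Module.Flat R₁ T] in
/-- The contraction of a maximal ideal of `T[X]` containing the kernel. -/
theorem comap_eq_of_ker_le [IsLocalRing T] (m : Ideal T[X]) [hmp : m.IsPrime]
    (hmT : m.comap C = maximalIdeal T)
    (hker : (RingHom.ker (algebraMap R₁[X] V)).map (algebraMap R₁[X] T[X]) ≤ m) :
    (maximalIdeal V).comap (algebraMap R₁[X] V) = m.comap (algebraMap R₁[X] T[X]) := by
  have := isIntegral_poly (R₁ := R₁) (V := V)
  have hC : (m.comap (algebraMap R₁[X] T[X])).comap C = maximalIdeal R₁ := by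
    have h1 : (m.comap (algebraMap R₁[X] T[X])).comap C =
        (m.comap C).comap (algebraMap R₁ T) := by
      rw [Ideal.comap_comap, Ideal.comap_comap]
      congr 1
      ext x
      simp
    rw [h1, hmT]
    exact ((IsLocalRing.local_hom_TFAE (algebraMap R₁ T)).out 0 4).mp ‹_›
  obtain ⟨Q, hQ, hQm⟩ := Ideal.exists_ideal_over_prime_of_isIntegral_of_isDomain (S := V)
    (m.comap (algebraMap R₁[X] T[X])) (Ideal.map_le_iff_le_comap.1 hker)
  have hQ0 : Q ≠ ⊥ := by
    rintro rfl
    have h2 : RingHom.ker (algebraMap R₁ V) = maximalIdeal R₁ := by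
      rw [← hC, ← hQm]
      rw [Ideal.comap_comap, IsScalarTower.algebraMap_eq R₁ R₁[X] V]
      rfl
    exact absurd h2 (ker_lt_maximalIdeal R₁ V).ne
  have hQm' : Q = maximalIdeal V := IsLocalRing.eq_maximalIdeal (hQ.isMaximal hQ0)
  rw [← hQm, hQm']

omit [IsRegularLocalRing T] in
theorem isLocalHom_localization [IsLocalRing T] (m : Ideal T[X]) [hmp : m.IsPrime]
    (hmT : m.comap C = maximalIdeal T) :
    IsLocalHom (algebraMap T (Localization.AtPrime m)) := by
  constructor
  intro a ha
  by_contra hcon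
  have h1 : a ∈ maximalIdeal T := hcon
  rw [← hmT, Ideal.mem_comap] at h1
  rw [IsScalarTower.algebraMap_apply T T[X] (Localization.AtPrime m)] at ha
  have h2 := (IsLocalization.AtPrime.isUnit_to_map_iff (Localization.AtPrime m) m
    (algebraMap T T[X] a)).1 ha
  exact h2 h1

/-- All data at one maximal ideal of `T[X]`. -/
theorem per_max (h1 : ringKrullDim R₁ = r₁) (h2 : ringKrullDim R₂ = r₂)
    (ht : ringKrullDim T = t) (hb : r₁ + r₂ = t + b) (G : Type u) [AddCommGroup G] [Module R₂ G]
    [Module.Finite R₂ G] (n : ℕ) (IH : StepHyp R₂ V G r₂ b n)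
    (hlen : Module.length R₁ (V ⧸ LinearMap.range (Algebra.linearMap R₁ V)) ≤ ((n + 1 : ℕ) : ℕ∞))
    (hw : algebraMap R₁[X] V X ∉ LinearMap.range (Algebra.linearMap R₁ V))
    (hFP : FP R₁ R₂ T V G) (m : Ideal T[X]) [hmm : m.IsMaximal]
    (hmT : m.comap C = maximalIdeal T)
    (hker : (RingHom.ker (algebraMap R₁[X] V)).map (algebraMap R₁[X] T[X]) ≤ m) :
    (∀ g : ℕ, (g : WithBot ℕ∞) ≤ Module.supportDim R₂ G → 1 + g ≤ b) ∧
    0 ≤ eulerTor (Localization.AtPrime m) (t + 1 + 1)
      (Localization.AtPrime m ⊗[T[X]] (T[X] ⊗[T] (T ⊗[R₂] G)))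
      (Localization.AtPrime m ⊗[T[X]] (T[X] ⊗[R₁[X]] V)) ∧
    (∀ g : ℕ, (g : WithBot ℕ∞) ≤ Module.supportDim R₂ G → b ≤ 1 + g →
      0 < eulerTor (Localization.AtPrime m) (t + 1 + 1)
      (Localization.AtPrime m ⊗[T[X]] (T[X] ⊗[T] (T ⊗[R₂] G)))
      (Localization.AtPrime m ⊗[T[X]] (T[X] ⊗[R₁[X]] V))) ∧
    ((∀ g : ℕ, (g : WithBot ℕ∞) ≤ Module.supportDim R₂ G → 1 + g < b) →
      eulerTor (Localization.AtPrime m) (t + 1 + 1)
      (Localization.AtPrime m ⊗[T[X]] (T[X] ⊗[T] (T ⊗[R₂] G)))
      (Localization.AtPrime m ⊗[T[X]] (T[X] ⊗[R₁[X]] V)) = 0) := by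
  have hint := isIntegral_poly (R₁ := R₁) (V := V)
  have hMmax := comap_poly_isMaximal (R₁ := R₁) (V := V)
  have hMC := comap_C_comap_poly (R₁ := R₁) (V := V)
  have hcm := comap_eq_of_ker_le (R₁ := R₁) (V := V) m hmT hker
  set M : Ideal R₁[X] := (maximalIdeal V).comap (algebraMap R₁[X] V) with hM
  -- the ring `R''`
  have iR : IsRegularLocalRing (Localization.AtPrime M) :=
    Polynomial.isRegularLocalRing_localization_atPrime_of_comap_eq_maximalIdeal R₁ M hMC
  have dR := ringKrullDim_localization_polynomial h1 M hMC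
  have hunit : ∀ y : M.primeCompl, IsUnit (algebraMap R₁[X] V y) := by
    rintro ⟨y, hy⟩
    by_contra hcon
    exact hy hcon
  let aV : Algebra (Localization.AtPrime M) V :=
    (IsLocalization.lift (M := M.primeCompl) (g := algebraMap R₁[X] V) hunit).toAlgebra
  have sV : IsScalarTower R₁[X] (Localization.AtPrime M) V :=
    IsScalarTower.of_algebraMap_eq fun x => (IsLocalization.lift_eq hunit x).symm
  have sV' : IsScalarTower R₁ (Localization.AtPrime M) V :=
    IsScalarTower.of_algebraMap_eq fun x => by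
      rw [IsScalarTower.algebraMap_apply R₁ R₁[X] (Localization.AtPrime M),
        ← IsScalarTower.algebraMap_apply R₁[X] (Localization.AtPrime M) V,
        ← IsScalarTower.algebraMap_apply R₁ R₁[X] V]
  have fV : Module.Finite (Localization.AtPrime M) V :=
    Module.Finite.of_restrictScalars_finite R₁ (Localization.AtPrime M) V
  -- the ring `L`
  have iL : IsRegularLocalRing (Localization.AtPrime m) :=
    Polynomial.isRegularLocalRing_localization_atPrime_of_comap_eq_maximalIdeal T m hmT
  have dL := ringKrullDim_localization_polynomial ht m hmT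
  let aL : Algebra (Localization.AtPrime M) (Localization.AtPrime m) :=
    (Localization.localRingHom M m (algebraMap R₁[X] T[X]) hcm).toAlgebra
  have sL : IsScalarTower R₁[X] (Localization.AtPrime M) (Localization.AtPrime m) :=
    IsScalarTower.of_algebraMap_eq fun x => by
      rw [IsScalarTower.algebraMap_apply R₁[X] T[X] (Localization.AtPrime m)]
      exact (Localization.localRingHom_to_map M m (algebraMap R₁[X] T[X]) hcm x).symm
  have hlocL : IsLocalHom (algebraMap (Localization.AtPrime M) (Localization.AtPrime m)) :=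
    Localization.isLocalHom_localRingHom M m (algebraMap R₁[X] T[X]) hcm
  have fl1 : Module.Flat R₁[X] T[X] :=
    Module.Flat.isBaseChange R₁ R₁[X] T T[X] (Algebra.IsPushout.out (R := R₁) (S := R₁[X])
      (R' := T) (S' := T[X]))
  have fl2 : Module.Flat T[X] (Localization.AtPrime m) := IsLocalization.flat _ m.primeCompl
  have fl3 : Module.Flat R₁[X] (Localization.AtPrime m) := Module.Flat.trans R₁[X] T[X] _
  have fl4 : Module.Flat (Localization.AtPrime M) (Localization.AtPrime m) :=
    (Module.flat_iff_of_isLocalization (Localization.AtPrime M) M.primeCompl _).2 fl3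
  have hlocT := isLocalHom_localization m hmT
  have flT : Module.Flat T (Localization.AtPrime m) := Module.Flat.trans T T[X] _
  have sT2 : IsScalarTower R₂ T (Localization.AtPrime m) :=
    IsScalarTower.of_algebraMap_eq fun x => by
      rw [IsScalarTower.algebraMap_apply R₂ T[X] (Localization.AtPrime m),
        IsScalarTower.algebraMap_apply T T[X] (Localization.AtPrime m),
        IsScalarTower.algebraMap_apply R₂ T T[X]]
  have fl5 : Module.Flat R₂ (Localization.AtPrime m) := Module.Flat.trans R₂ T _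
  have hloc2 : IsLocalHom (algebraMap R₂ (Localization.AtPrime m)) := by
    rw [IsScalarTower.algebraMap_eq R₂ T (Localization.AtPrime m)]
    infer_instance
  -- compatibility of the maps
  have hc1 : ∀ a : R₁[X], algebraMap (Localization.AtPrime M) (Localization.AtPrime m)
      (algebraMap R₁[X] (Localization.AtPrime M) a) =
      algebraMap T[X] (Localization.AtPrime m) (algebraMap R₁[X] T[X] a) := by
    intro a
    rw [← IsScalarTower.algebraMap_apply R₁[X] (Localization.AtPrime M) (Localization.AtPrime m),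
      IsScalarTower.algebraMap_apply R₁[X] T[X] (Localization.AtPrime m)]
  have hc2 : ∀ a : R₁, algebraMap (Localization.AtPrime M) (Localization.AtPrime m)
      (algebraMap R₁ (Localization.AtPrime M) a) =
      algebraMap T[X] (Localization.AtPrime m) (C (algebraMap R₁ T a)) := by
    intro a
    rw [IsScalarTower.algebraMap_apply R₁ R₁[X] (Localization.AtPrime M), hc1]
    congr 1
    simp
  -- the finiteness condition
  have hFP' : FP (Localization.AtPrime M) R₂ (Localization.AtPrime m) V G := by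
    unfold FP
    rw [Ideal.radical_eq_sInf]
    refine le_sInf ?_
    rintro q ⟨hJq, hq⟩
    have hq' : (q.comap (algebraMap T[X] (Localization.AtPrime m))).IsPrime :=
      Ideal.comap_isPrime _ _
    have hq'm : q.comap (algebraMap T[X] (Localization.AtPrime m)) ≤ m := by
      have h3 : (maximalIdeal (Localization.AtPrime m)).comap
          (algebraMap T[X] (Localization.AtPrime m)) = m := Localization.AtPrime.under_maximalIdeal
      exact (Ideal.comap_mono (le_maximalIdeal hq.ne_top)).trans h3.le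
    have hq'C : maximalIdeal T ≤ (q.comap (algebraMap T[X] (Localization.AtPrime m))).comap C := by
      refine hFP.trans ?_
      rw [(Ideal.comap_isPrime C
        (q.comap (algebraMap T[X] (Localization.AtPrime m)))).radical_le_iff]
      apply sup_le
      · rw [Ideal.map_le_iff_le_comap]
        intro a ha
        change algebraMap T[X] (Localization.AtPrime m) (C (algebraMap R₁ T a)) ∈ q
        rw [← hc2]
        apply hJq
        apply Ideal.mem_sup_left
        apply Ideal.mem_map_of_mem
        rw [Module.mem_annihilator] at ha ⊢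
        intro v
        rw [algebraMap_smul]
        exact ha v
      · rw [Ideal.map_le_iff_le_comap]
        intro a ha
        change algebraMap T[X] (Localization.AtPrime m) (algebraMap T T[X] (algebraMap R₂ T a)) ∈ q
        rw [← IsScalarTower.algebraMap_apply T T[X] (Localization.AtPrime m),
          ← IsScalarTower.algebraMap_apply R₂ T (Localization.AtPrime m)]
        apply hJq
        apply Ideal.mem_sup_right
        exact Ideal.mem_map_of_mem _ ha
    obtain ⟨g, hg, hg0⟩ := exists_monic_ker (R₁ := R₁) (V := V)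
    have hgq : g.map (algebraMap R₁ T) ∈ q.comap (algebraMap T[X] (Localization.AtPrime m)) := by
      change algebraMap T[X] (Localization.AtPrime m) (algebraMap R₁[X] T[X] g) ∈ q
      rw [← hc1]
      apply hJq
      apply Ideal.mem_sup_left
      apply Ideal.mem_map_of_mem
      rw [Module.mem_annihilator]
      intro v
      rw [algebraMap_smul, Algebra.smul_def, hg0, zero_mul]
    have hqmax := isMaximal_of_monic_mem _ _ (hg.map _) hgq hq'C
    have hqm := hqmax.eq_of_le hmm.ne_top hq'm
    rw [← Localization.AtPrime.map_eq_maximalIdeal, Ideal.map_le_iff_le_comap, hqm]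
  -- the length
  have hlen' : Module.length (Localization.AtPrime M)
      (V ⧸ LinearMap.range (Algebra.linearMap (Localization.AtPrime M) V)) ≤ (n : ℕ∞) := by
    set W := LinearMap.range (Algebra.linearMap (Localization.AtPrime M) V) with hW
    set W₁ := LinearMap.range (Algebra.linearMap R₁ V) with hW₁
    have hle : Module.length (Localization.AtPrime M) (V ⧸ W) ≤ Module.length R₁ (V ⧸ W) := by
      have h3 := Submodule.length_le_length_restrictScalars R₁
        (⊤ : Submodule (Localization.AtPrime M) (V ⧸ W))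
      rw [Submodule.restrictScalars_top, Module.length_top, Module.length_top] at h3
      exact h3
    let f : (V ⧸ W₁) →ₗ[R₁] (V ⧸ W) := Submodule.liftQ W₁ (W.mkQ.restrictScalars R₁) (by
      rintro _ ⟨a, rfl⟩
      change W.mkQ (Algebra.linearMap R₁ V a) = 0
      rw [Submodule.mkQ_apply, Submodule.Quotient.mk_eq_zero]
      refine ⟨algebraMap R₁ (Localization.AtPrime M) a, ?_⟩
      change algebraMap (Localization.AtPrime M) V (algebraMap R₁ (Localization.AtPrime M) a) = _
      rw [← IsScalarTower.algebraMap_apply R₁ (Localization.AtPrime M) V]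
      rfl)
    have hf : Surjective f := by
      intro x
      obtain ⟨v, rfl⟩ := Submodule.mkQ_surjective _ x
      exact ⟨Submodule.Quotient.mk v, rfl⟩
    have hkerf : LinearMap.ker f ≠ ⊥ := by
      intro hbot
      apply hw
      have h3 : (Submodule.Quotient.mk (algebraMap R₁[X] V X) : V ⧸ W₁) ∈ LinearMap.ker f := by
        change W.mkQ (algebraMap R₁[X] V X) = 0
        rw [Submodule.mkQ_apply, Submodule.Quotient.mk_eq_zero]
        refine ⟨algebraMap R₁[X] (Localization.AtPrime M) X, ?_⟩
        change algebraMap (Localization.AtPrime M) V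
          (algebraMap R₁[X] (Localization.AtPrime M) X) = _
        rw [← IsScalarTower.algebraMap_apply R₁[X] (Localization.AtPrime M) V]
      rw [hbot, Submodule.mem_bot, Submodule.Quotient.mk_eq_zero] at h3
      exact h3
    have hne : Module.length R₁ (V ⧸ W₁) ≠ ⊤ := fun h3 => by
      rw [h3] at hlen
      exact absurd hlen (not_le_of_gt (ENat.natCast_lt_top _))
    have h4 := Module.length_ne_top_iff.1 hne
    rw [isFiniteLength_iff_isNoetherian_isArtinian] at h4
    obtain ⟨h5, h6⟩ := h4
    have h7 := Submodule.length_quotient_lt (LinearMap.ker f) hkerf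
    rw [(f.quotKerEquivOfSurjective hf).length_eq] at h7
    have h8 := (hle.trans_lt h7).trans_le hlen
    have h9 : ((n + 1 : ℕ) : ℕ∞) = (n : ℕ∞) + 1 := by push_cast; rfl
    rw [h9] at h8
    exact (ENat.lt_add_one_iff (ENat.natCast_ne_top n)).1 h8
  have hpos := IH (Localization.AtPrime M) (Localization.AtPrime m) (r₁ + 1) (t + 1) dR dL
    (by omega) hlen' hFP'
  have hdimV := supportDim_dvr (Localization.AtPrime M) V
  -- identification of the modules
  have eG : (Localization.AtPrime m ⊗[T[X]] (T[X] ⊗[T] (T ⊗[R₂] G))) ≃ₗ[Localization.AtPrime m]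
      (Localization.AtPrime m ⊗[R₂] G) :=
    AlgebraTensorModule.cancelBaseChange T T[X] (Localization.AtPrime m)
      (Localization.AtPrime m) (T ⊗[R₂] G) ≪≫ₗ
    AlgebraTensorModule.cancelBaseChange R₂ T (Localization.AtPrime m) (Localization.AtPrime m) G
  have eV1 : V ≃ₗ[Localization.AtPrime M] (Localization.AtPrime M ⊗[R₁[X]] V) := by
    have h3 : IsLocalizedModule M.primeCompl (LinearMap.id : V →ₗ[R₁[X]] V) :=
      isLocalizedModule_id M.primeCompl (M := V) (Localization.AtPrime M)
    have h4 : IsBaseChange (Localization.AtPrime M) (LinearMap.id : V →ₗ[R₁[X]] V) :=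
      (isLocalizedModule_iff_isBaseChange M.primeCompl (Localization.AtPrime M) _).1 h3
    exact h4.equiv.symm
  have eV : (Localization.AtPrime m ⊗[T[X]] (T[X] ⊗[R₁[X]] V)) ≃ₗ[Localization.AtPrime m]
      (Localization.AtPrime m ⊗[Localization.AtPrime M] V) :=
    AlgebraTensorModule.cancelBaseChange R₁[X] T[X] (Localization.AtPrime m)
      (Localization.AtPrime m) V ≪≫ₗ
    (AlgebraTensorModule.cancelBaseChange R₁[X] (Localization.AtPrime M) (Localization.AtPrime m)
      (Localization.AtPrime m) V).symm ≪≫ₗ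
    (AlgebraTensorModule.congr (LinearEquiv.refl _ _) eV1).symm
  have hchi : eulerTor (Localization.AtPrime m) (t + 1 + 1)
      (Localization.AtPrime m ⊗[T[X]] (T[X] ⊗[T] (T ⊗[R₂] G)))
      (Localization.AtPrime m ⊗[T[X]] (T[X] ⊗[R₁[X]] V)) =
      chi (Localization.AtPrime M) R₂ (Localization.AtPrime m) (t + 1) V G := by
    refine (eulerTor_congr (T := Localization.AtPrime m)
      (X := Localization.AtPrime m ⊗[T[X]] (T[X] ⊗[T] (T ⊗[R₂] G)))
      (X' := Localization.AtPrime m ⊗[R₂] G)
      (Y := Localization.AtPrime m ⊗[T[X]] (T[X] ⊗[R₁[X]] V))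
      (Y' := Localization.AtPrime m ⊗[Localization.AtPrime M] V) eG eV (t + 1 + 1)).trans ?_
    exact eulerTor_symm _ _ _
  rw [hchi]
  have hone : ((1 : ℕ) : WithBot ℕ∞) ≤ Module.supportDim (Localization.AtPrime M) V := hdimV.ge
  refine ⟨fun g hg => hpos.dim_le 1 g hone hg, hpos.nonneg, fun g hg hbg =>
    hpos.pos 1 g hone hg hbg, fun hh => hpos.zero fun e g he hg => ?_⟩
  rw [hdimV] at he
  have he' : e ≤ 1 := by exact_mod_cast he
  have := hh g hg
  omega

end

end Vale.Agent.P177
end
end

section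

section

/-!
Serre's statements for finite modules which are discrete valuation rings.
-/

namespace Vale.Agent.P177

open CategoryTheory TensorProduct Function IsLocalRing RingTheory.Sequence Pointwise Polynomial

universe u

attribute [local instance] Polynomial.algebra

theorem subsingleton_localization_of_smul {B : Type u} [CommRing B] (m : Ideal B) [m.IsPrime]
    (M : Type u) [AddCommGroup M] [Module B M] (b : B) (hb : b ∉ m) (h : ∀ x : M, b • x = 0) :
    Subsingleton (Localization.AtPrime m ⊗[B] M) := by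
  refine subsingleton_of_forall_eq 0 fun x => ?_
  induction x using TensorProduct.induction_on with
  | zero => rfl
  | tmul l x =>
    have hu := IsLocalization.map_units (Localization.AtPrime m) (⟨b, hb⟩ : m.primeCompl)
    obtain ⟨c, hc⟩ := hu.exists_left_inv
    have h1 : l = b • (c * l) := by
      rw [Algebra.smul_def, ← mul_assoc, mul_comm (algebraMap B _ b), hc, one_mul]
    rw [h1, TensorProduct.smul_tmul, h, TensorProduct.tmul_zero]
  | add x y hx hy => rw [hx, hy, add_zero]

section

variable {R₁ R₂ T V : Type u} [CommRing R₁] [CommRing R₂] [CommRing T] [CommRing V]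
  [IsRegularLocalRing R₁] [IsRegularLocalRing R₂] [IsRegularLocalRing T]
  [Algebra R₁ T] [Algebra R₂ T] [Module.Flat R₁ T] [Module.Flat R₂ T]
  [IsLocalHom (algebraMap R₁ T)] [IsLocalHom (algebraMap R₂ T)] {r₁ r₂ t b : ℕ}
  [IsDomain V] [IsDiscreteValuationRing V] [Algebra R₁ V] [Module.Finite R₁ V]

theorem pos_of_surjective (h1 : ringKrullDim R₁ = r₁) (h2 : ringKrullDim R₂ = r₂)
    (ht : ringKrullDim T = t) (hb : r₁ + r₂ = t + b) (G : Type u) [AddCommGroup G] [Module R₂ G]
    [Module.Finite R₂ G] (hs : Surjective (algebraMap R₁ V)) (hFP : FP R₁ R₂ T V G) :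
    Pos R₁ R₂ T t b V G := by
  obtain ⟨zs, hzs, hreg, hker⟩ := exists_regular_ker V r₁ R₁ (algebraMap R₁ V) hs h1
  have e : (R₁ ⧸ (Ideal.ofList zs • ⊤ : Submodule R₁ R₁)) ≃ₗ[R₁] V :=
    Submodule.quotEquivOfEq _ _ (by
      rw [smul_eq_mul, Ideal.mul_top, hker]
      rfl) ≪≫ₗ
    (Algebra.linearMap R₁ V).quotKerEquivOfSurjective hs
  exact (pos_ci h1 h2 ht hb zs hzs hreg G (hFP.mono e.symm.annihilator_eq.le le_rfl)).congr e
    (LinearEquiv.refl _ _)

/-- The set of maximal ideals of `T[X]` which occur. -/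
theorem finite_maximal [Algebra R₁[X] V] [IsScalarTower R₁ R₁[X] V] :
    {m : MaximalSpectrum T[X] | (maximalIdeal T).map C ⊔
      (RingHom.ker (algebraMap R₁[X] V)).map (algebraMap R₁[X] T[X]) ≤ m.asIdeal}.Finite := by
  obtain ⟨g, hg, hg0⟩ := exists_monic_ker (R₁ := R₁) (V := V)
  set I : Ideal T[X] := (maximalIdeal T).map C ⊔
      (RingHom.ker (algebraMap R₁[X] V)).map (algebraMap R₁[X] T[X]) with hI
  have hfin := Ideal.finite_minimalPrimes_of_isNoetherianRing T[X] I
  refine (hfin.preimage (f := fun m : MaximalSpectrum T[X] => m.asIdeal)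
    (fun a _ b _ hab => MaximalSpectrum.ext hab)).subset ?_
  intro m hm
  refine ⟨⟨m.isMaximal.isPrime, hm⟩, ?_⟩
  rintro q ⟨hq, hIq⟩ hqm
  have hmax : q.IsMaximal := isMaximal_of_monic_mem q (g.map (algebraMap R₁ T)) (hg.map _)
    (hIq (Ideal.mem_sup_right (Ideal.mem_map_of_mem (algebraMap R₁[X] T[X]) hg0)))
    (Ideal.map_le_iff_le_comap.1 (le_sup_left.trans hIq))
  exact (hmax.eq_of_le m.isMaximal.ne_top hqm).ge

omit [IsRegularLocalRing R₁] [IsRegularLocalRing T] [Module.Flat R₁ T] in
theorem exists_maximal_mem [IsLocalRing T] [IsLocalRing R₁] [Module.Flat R₁ T]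
    [Algebra R₁[X] V] [IsScalarTower R₁ R₁[X] V] :
    ∃ m : MaximalSpectrum T[X], (maximalIdeal T).map C ⊔
      (RingHom.ker (algebraMap R₁[X] V)).map (algebraMap R₁[X] T[X]) ≤ m.asIdeal := by
  have hff : Module.FaithfullyFlat R₁ T := Module.FaithfullyFlat.of_flat_of_isLocalHom
  have hnt : Nontrivial (T ⊗[R₁] V) := by
    rw [Module.FaithfullyFlat.nontrivial_tensorProduct_iff_right]
    infer_instance
  obtain ⟨n, hn⟩ := Ideal.exists_maximal (T ⊗[R₁] V)
  let φ : T[X] →ₐ[T] (T ⊗[R₁] V) := aeval ((1 : T) ⊗ₜ[R₁] (algebraMap R₁[X] V X))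
  have hφC : φ.toRingHom.comp C = algebraMap T (T ⊗[R₁] V) := by
    ext x
    exact φ.commutes x
  have hint : φ.toRingHom.IsIntegral := by
    refine RingHom.IsIntegral.tower_top C φ.toRingHom ?_
    rw [hφC]
    exact Algebra.IsIntegral.isIntegral
  have hmax : (n.comap φ.toRingHom).IsMaximal :=
    Ideal.isMaximal_comap_of_isIntegral_of_isMaximal' _ hint n
  refine ⟨⟨n.comap φ.toRingHom, hmax⟩, sup_le ?_ ?_⟩
  · rw [Ideal.map_le_iff_le_comap]
    change maximalIdeal T ≤ (n.comap φ.toRingHom).comap C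
    rw [Ideal.comap_comap, hφC]
    have h3 : (n.comap (algebraMap T (T ⊗[R₁] V))).IsMaximal :=
      Ideal.isMaximal_comap_of_isIntegral_of_isMaximal n
    rw [IsLocalRing.eq_maximalIdeal h3]
  · rw [Ideal.map_le_iff_le_comap]
    intro h hh
    change φ (h.map (algebraMap R₁ T)) ∈ n
    have h4 : φ (h.map (algebraMap R₁ T)) = 0 := by
      rw [aeval_map_algebraMap]
      have h5 : ((1 : T) ⊗ₜ[R₁] (algebraMap R₁[X] V X)) =
          (Algebra.TensorProduct.includeRight : V →ₐ[R₁] T ⊗[R₁] V) (algebraMap R₁[X] V X) := rfl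
      rw [h5, aeval_algHom_apply]
      have h6 : aeval (algebraMap R₁[X] V X) h = algebraMap R₁[X] V h := by
        have h2 : (IsScalarTower.toAlgHom R₁ R₁[X] V) = aeval (algebraMap R₁[X] V X) := by
          ext
          simp
        exact (DFunLike.congr_fun h2 h).symm
      rw [h6, (RingHom.mem_ker).1 hh, map_zero]
    rw [h4]
    exact n.zero_mem

/-- The inductive step. -/
theorem pos_step (h1 : ringKrullDim R₁ = r₁) (h2 : ringKrullDim R₂ = r₂)
    (ht : ringKrullDim T = t) (hb : r₁ + r₂ = t + b) (G : Type u) [AddCommGroup G] [Module R₂ G]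
    [Module.Finite R₂ G] (n : ℕ) (IH : StepHyp R₂ V G r₂ b n)
    (hlen : Module.length R₁ (V ⧸ LinearMap.range (Algebra.linearMap R₁ V)) ≤ ((n + 1 : ℕ) : ℕ∞))
    (w : V) (hw : w ∉ LinearMap.range (Algebra.linearMap R₁ V)) (hFP : FP R₁ R₂ T V G) :
    Pos R₁ R₂ T t b V G := by
  let aV : Algebra R₁[X] V := (aeval (R := R₁) w).toRingHom.toAlgebra
  have sV : IsScalarTower R₁ R₁[X] V := IsScalarTower.of_algebraMap_eq fun x =>
    ((aeval (R := R₁) w).commutes x).symm
  have hwX : algebraMap R₁[X] V X = w := aeval_X w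
  have hfin := finite_maximal (R₁ := R₁) (T := T) (V := V)
  set S : Finset (MaximalSpectrum T[X]) := hfin.toFinset with hS
  have hmemS : ∀ m, m ∈ S ↔ (maximalIdeal T).map C ⊔
      (RingHom.ker (algebraMap R₁[X] V)).map (algebraMap R₁[X] T[X]) ≤ m.asIdeal := by
    intro m
    rw [hS, Set.Finite.mem_toFinset]
    rfl
  have hSvan : ∀ m : MaximalSpectrum T[X], m ∉ S → ∀ j,
      Subsingleton (Localization.AtPrime m.asIdeal ⊗[T[X]]
        TorM T[X] j (T[X] ⊗[T] (T ⊗[R₂] G)) (T[X] ⊗[R₁[X]] V)) := by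
    intro m hm j
    have hmm := m.isMaximal
    rw [hmemS, sup_le_iff, not_and_or] at hm
    rcases hm with hm | hm
    · rw [Ideal.map_le_iff_le_comap, SetLike.not_le_iff_exists] at hm
      obtain ⟨a, ha, ham⟩ := hm
      obtain ⟨M', _, _, _, _, ⟨e1⟩, ⟨e2⟩, -⟩ := exists_tor_transfer (R₁ := R₁) (T := T)
        (B₁ := R₁[X]) (B := T[X]) V (T ⊗[R₂] G) j
      have hFL := hFP.symm.fl2.tor j
      unfold FL at hFL
      rw [Ideal.ofList_nil, sup_bot_eq] at hFL
      obtain ⟨N, hN⟩ := hFL ha
      rw [Module.mem_annihilator] at hN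
      have h3 : Subsingleton (Localization.AtPrime m.asIdeal ⊗[T[X]] M') := by
        refine subsingleton_localization_of_smul m.asIdeal M' ((C a) ^ N)
          (fun hcon => ham (hmm.isPrime.mem_of_pow_mem N hcon)) (fun x => ?_)
        have h4 : (C a ^ N : T[X]) = algebraMap T T[X] (a ^ N) := by
          rw [map_pow]
          rfl
        rw [h4, algebraMap_smul]
        obtain ⟨y, rfl⟩ := e1.surjective x
        rw [← map_smul, hN y, map_zero]
      exact (e2.baseChange T[X] (Localization.AtPrime m.asIdeal) _ _).toEquiv.subsingleton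
    · rw [Ideal.map_le_iff_le_comap, SetLike.not_le_iff_exists] at hm
      obtain ⟨h, hh, hhm⟩ := hm
      refine subsingleton_localization_of_smul m.asIdeal _ (algebraMap R₁[X] T[X] h) hhm
        (fun x => ?_)
      refine tor_smul_eq_zero_right (R := T[X]) (algebraMap R₁[X] T[X] h) (fun y => ?_) j _ x
      induction y using TensorProduct.induction_on with
      | zero => exact smul_zero _
      | tmul p v =>
        rw [algebraMap_smul, TensorProduct.smul_tmul', TensorProduct.smul_tmul, Algebra.smul_def,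
          (RingHom.mem_ker).1 hh, zero_mul, TensorProduct.tmul_zero]
      | add x y hx hy => rw [smul_add, hx, hy, add_zero]
  have hsum := eulerTor_eq_sum (R₁ := R₁) (T := T) (B₁ := R₁[X]) (B := T[X]) V (T ⊗[R₂] G)
    (fun j => hFP.symm.length_ne_top j) S hSvan (t + 1 + 1)
  have hchi : chi R₁ R₂ T t V G = eulerTor T (t + 1 + 1) (T ⊗[R₂] G) (T ⊗[R₁] V) := by
    rw [eulerTor_of_vanish _ _ (t + 1) (t + 1 + 1) (by omega) (fun j hj =>
      regular_tor_vanish T t ht _ _ j hj)]
    exact eulerTor_symm _ _ _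
  rw [hsum] at hchi
  have hper : ∀ m : MaximalSpectrum T[X], m ∈ S →
      (∀ g : ℕ, (g : WithBot ℕ∞) ≤ Module.supportDim R₂ G → 1 + g ≤ b) ∧
      0 ≤ eulerTor (Localization.AtPrime m.asIdeal) (t + 1 + 1)
        (Localization.AtPrime m.asIdeal ⊗[T[X]] (T[X] ⊗[T] (T ⊗[R₂] G)))
        (Localization.AtPrime m.asIdeal ⊗[T[X]] (T[X] ⊗[R₁[X]] V)) ∧
      (∀ g : ℕ, (g : WithBot ℕ∞) ≤ Module.supportDim R₂ G → b ≤ 1 + g →
        0 < eulerTor (Localization.AtPrime m.asIdeal) (t + 1 + 1)
        (Localization.AtPrime m.asIdeal ⊗[T[X]] (T[X] ⊗[T] (T ⊗[R₂] G)))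
        (Localization.AtPrime m.asIdeal ⊗[T[X]] (T[X] ⊗[R₁[X]] V))) ∧
      ((∀ g : ℕ, (g : WithBot ℕ∞) ≤ Module.supportDim R₂ G → 1 + g < b) →
        eulerTor (Localization.AtPrime m.asIdeal) (t + 1 + 1)
        (Localization.AtPrime m.asIdeal ⊗[T[X]] (T[X] ⊗[T] (T ⊗[R₂] G)))
        (Localization.AtPrime m.asIdeal ⊗[T[X]] (T[X] ⊗[R₁[X]] V)) = 0) := fun m hm =>
    have hmm := m.isMaximal
    per_max h1 h2 ht hb G n IH hlen (by rwa [hwX]) hFP m.asIdeal
      (comap_C_eq_maximalIdeal m.asIdeal (Ideal.map_le_iff_le_comap.1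
        (le_sup_left.trans ((hmemS m).1 hm)))) (le_sup_right.trans ((hmemS m).1 hm))
  obtain ⟨m₀, hm₀⟩ := exists_maximal_mem (R₁ := R₁) (T := T) (V := V)
  rw [← hmemS] at hm₀
  have hdimV := supportDim_dvr R₁ V
  obtain ⟨g, hg, hg0⟩ := exists_monic_ker (R₁ := R₁) (V := V)
  have hc : ∀ m ∈ S, (0 : ℤ) < ((Module.length T (T[X] ⧸ m.asIdeal)).toNat : ℤ) := by
    intro m hm
    have hmm := m.isMaximal
    have h3 := length_quot_ne_top m.asIdeal (g.map (algebraMap R₁ T)) (hg.map _)
      ((hmemS m).1 hm (Ideal.mem_sup_right (Ideal.mem_map_of_mem (algebraMap R₁[X] T[X]) hg0)))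
      (Ideal.map_le_iff_le_comap.1 (le_sup_left.trans ((hmemS m).1 hm)))
    have h4 : Module.length T (T[X] ⧸ m.asIdeal) ≠ 0 := by
      rw [Ne, Module.length_eq_zero_iff]
      exact not_subsingleton _
    have h5 : (Module.length T (T[X] ⧸ m.asIdeal)).toNat ≠ 0 := by
      rw [Ne, ENat.toNat_eq_zero]
      exact not_or.2 ⟨h4, h3⟩
    exact_mod_cast Nat.pos_of_ne_zero h5
  refine ⟨?_, ?_, ?_, ?_⟩
  · intro e g' he hg'
    rw [hdimV] at he
    have he' : e ≤ 1 := by exact_mod_cast he
    have := (hper m₀ hm₀).1 g' hg'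
    omega
  · rw [hchi]
    exact Finset.sum_nonneg fun m hm => mul_nonneg (hc m hm).le (hper m hm).2.1
  · intro e g' he hg' hb'
    rw [hdimV] at he
    have he' : e ≤ 1 := by exact_mod_cast he
    rw [hchi]
    exact Finset.sum_pos (fun m hm => mul_pos (hc m hm)
      ((hper m hm).2.2.1 g' hg' (by omega))) ⟨m₀, hm₀⟩
  · intro hh
    rw [hchi]
    refine Finset.sum_eq_zero fun m hm => ?_
    rw [(hper m hm).2.2.2 (fun g' hg' => hh 1 g' hdimV.ge hg'), mul_zero]

end

/-- Serre's statements for discrete valuation rings finite over the first ring, such that the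
cokernel has finite length. -/
theorem stepHyp_all {R₂ V : Type u} [CommRing R₂] [IsRegularLocalRing R₂] [CommRing V]
    [IsDomain V] [IsDiscreteValuationRing V] {r₂ b : ℕ} (h2 : ringKrullDim R₂ = r₂)
    (G : Type u) [AddCommGroup G] [Module R₂ G] [Module.Finite R₂ G] (n : ℕ) :
    StepHyp R₂ V G r₂ b n := by
  induction n with
  | zero =>
    intro R₁ T _ _ _ _ _ _ _ _ _ _ _ _ r₁ t h1 ht hb hlen hFP
    refine pos_of_surjective h1 h2 ht hb G ?_ hFP
    rw [Nat.cast_zero, nonpos_iff_eq_zero, Module.length_eq_zero_iff] at hlen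
    intro v
    have h3 : (Submodule.Quotient.mk v : V ⧸ LinearMap.range (Algebra.linearMap R₁ V)) = 0 :=
      Subsingleton.elim _ _
    rw [Submodule.Quotient.mk_eq_zero] at h3
    exact h3
  | succ n ih =>
    intro R₁ T _ _ _ _ _ _ _ _ _ _ _ _ r₁ t h1 ht hb hlen hFP
    by_cases hs : Surjective (algebraMap R₁ V)
    · exact pos_of_surjective h1 h2 ht hb G hs hFP
    · have hex : ∃ w : V, w ∉ LinearMap.range (Algebra.linearMap R₁ V) := by
        by_contra hcon
        push Not at hcon
        exact hs hcon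
      obtain ⟨w, hw⟩ := hex
      exact pos_step h1 h2 ht hb G n ih hlen w hw hFP

end Vale.Agent.P177
end
end

section

section

/-!
Finite modules over complete rings; a lemma of Krull and Akizuki.
-/

namespace Vale.Agent.P177

open CategoryTheory TensorProduct Function IsLocalRing RingTheory.Sequence Pointwise

universe u

theorem isPrecomplete_of_finite {R : Type u} [CommRing R] (I : Ideal R) [IsPrecomplete I R]
    (M : Type u) [AddCommGroup M] [Module R M] [Module.Finite R M] : IsPrecomplete I M := by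
  rw [← AdicCompletion.of_surjective_iff]
  intro x
  obtain ⟨y, rfl⟩ := AdicCompletion.ofTensorProduct_surjective_of_finite I M x
  induction y using TensorProduct.induction_on with
  | zero => exact ⟨0, by rw [map_zero, map_zero]⟩
  | tmul a m =>
    obtain ⟨r, rfl⟩ := AdicCompletion.of_surjective I R a
    refine ⟨r • m, ?_⟩
    rw [AdicCompletion.ofTensorProduct_tmul, map_smul]
    exact (algebraMap_smul (AdicCompletion I R) r (AdicCompletion.of I M m)).symm
  | add x y hx hy =>
    obtain ⟨a, ha⟩ := hx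
    obtain ⟨b, hb⟩ := hy
    exact ⟨a + b, by rw [map_add, map_add, ha, hb]⟩

section KA

variable {A : Type u} [CommRing A] [IsLocalRing A]

theorem maximalIdeal_le_radical_of_ne_bot
    (hprime : ∀ q : Ideal A, q.IsPrime → q ≠ ⊥ → q = maximalIdeal A) (I : Ideal A) (hI : I ≠ ⊥) :
    maximalIdeal A ≤ I.radical := by
  rw [Ideal.radical_eq_sInf]
  refine le_sInf ?_
  rintro q ⟨hIq, hq⟩
  refine (hprime q hq ?_).ge
  rintro rfl
  exact hI (le_bot_iff.1 hIq)

variable [IsNoetherianRing A] [IsDomain A]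
  (hprime : ∀ q : Ideal A, q.IsPrime → q ≠ ⊥ → q = maximalIdeal A)
  {U : Type u} [CommRing U] [IsDomain U] [Algebra A U] (hinj : Injective (algebraMap A U))
  (hU : ∀ u : U, ∃ a : A, a ≠ 0 ∧ ∃ c : A, a • u = algebraMap A U c)

omit [IsLocalRing A] [IsNoetherianRing A] [IsDomain U] in
include hU in
theorem exists_common_multiple (M : Submodule A U) (hM : M.FG) :
    ∃ c : A, c ≠ 0 ∧ ∀ m ∈ M, ∃ d : A, c • m = algebraMap A U d := by
  induction M, hM using Submodule.fg_induction with
  | singleton x =>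
    obtain ⟨a, ha, c, hc⟩ := hU x
    refine ⟨a, ha, fun m hm => ?_⟩
    obtain ⟨e, rfl⟩ := Submodule.mem_span_singleton.1 hm
    exact ⟨e * c, by rw [smul_comm, hc, map_mul, Algebra.smul_def]⟩
  | sup N₁ N₂ hN₁ hN₂ h1 h2 =>
    obtain ⟨c1, hc1, hd1⟩ := h1
    obtain ⟨c2, hc2, hd2⟩ := h2
    refine ⟨c1 * c2, mul_ne_zero hc1 hc2, fun m hm => ?_⟩
    obtain ⟨x, hx, y, hy, rfl⟩ := Submodule.mem_sup.1 hm
    obtain ⟨d1, h3⟩ := hd1 x hx
    obtain ⟨d2, h4⟩ := hd2 y hy
    refine ⟨c2 * d1 + c1 * d2, ?_⟩
    rw [smul_add, mul_smul, mul_smul, smul_comm c1 c2 x, h3, h4, Algebra.smul_def,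
      Algebra.smul_def, map_add, map_mul, map_mul]

include hprime hinj hU in
theorem length_quotSMulTop_eq (M : Submodule A U) (hM : M.FG) (h1M : (1 : U) ∈ M) (x : A)
    (hx0 : x ≠ 0) : (Module.length A (QuotSMulTop x M)).toNat =
      (Module.length A (QuotSMulTop x A)).toNat ∧
      Module.length A (QuotSMulTop x M) ≠ ⊤ := by
  have hfin : Module.Finite A M := Module.Finite.iff_fg.2 hM
  let f : A →ₗ[A] M := (Algebra.linearMap A U).codRestrict M (fun a => by
    rw [Algebra.linearMap_apply, Algebra.algebraMap_eq_smul_one]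
    exact M.smul_mem a h1M)
  have hf : Injective f := fun a b hab => hinj (congrArg Subtype.val hab)
  have hex : Exact f (LinearMap.range f).mkQ := by
    intro x
    rw [Submodule.mkQ_apply, Submodule.Quotient.mk_eq_zero]
    rfl
  obtain ⟨c, hc0, hc⟩ := exists_common_multiple hU M hM
  have hFLQ : FL ([] : List A) (M ⧸ LinearMap.range f) := by
    unfold FL
    rw [Ideal.ofList_nil, sup_bot_eq]
    apply maximalIdeal_le_radical_of_ne_bot hprime
    intro hbot
    apply hc0
    have h3 : c ∈ Module.annihilator A (M ⧸ LinearMap.range f) := by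
      rw [Module.mem_annihilator]
      intro v
      obtain ⟨⟨m, hm⟩, rfl⟩ := Submodule.mkQ_surjective _ v
      rw [← map_smul, Submodule.mkQ_apply, Submodule.Quotient.mk_eq_zero]
      obtain ⟨d, hd⟩ := hc m hm
      exact ⟨d, Subtype.ext hd.symm⟩
    rw [hbot] at h3
    exact h3
  have hFLx : ∀ (N : Type u) [AddCommGroup N] [Module A N], FL [x] N := by
    intro N _ _
    unfold FL
    apply maximalIdeal_le_radical_of_ne_bot hprime
    intro hbot
    apply hx0
    have h3 : x ∈ Module.annihilator A N ⊔ Ideal.ofList [x] :=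
      Ideal.mem_sup_right (by rw [Ideal.ofList_singleton]; exact Ideal.mem_span_singleton_self x)
    rw [hbot] at h3
    exact h3
  have hadd := eul_add [x] f (LinearMap.range f).mkQ hf (Submodule.mkQ_surjective _) hex
    (hFLx M)
  rw [eul_cons_eq_zero x [] (M ⧸ LinearMap.range f) hFLQ, add_zero] at hadd
  have htors : ∀ (N : Type u) [AddCommGroup N] [Module A N],
      (∀ n : N, x • n = 0 → n = 0) → eul [x] N =
      ((Module.length A (QuotSMulTop x N)).toNat : ℤ) := by
    intro N _ _ hN
    have : Subsingleton (Submodule.torsionBy A N x) := by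
      refine subsingleton_of_forall_eq 0 ?_
      rintro ⟨y, hy⟩
      exact Subtype.ext (hN y hy)
    change eul [] (QuotSMulTop x N) - eul [] (Submodule.torsionBy A N x) = _
    rw [eul_subsingleton [] (Submodule.torsionBy A N x), sub_zero]
    rfl
  rw [htors M (by
      rintro ⟨m, hm⟩ h
      have h3 : x • m = 0 := congrArg Subtype.val h
      apply Subtype.ext
      rw [Algebra.smul_def] at h3
      exact (mul_eq_zero.1 h3).resolve_left fun h4 => hx0 ((map_eq_zero_iff _ hinj).1 h4)),
    htors A (fun n hn => (mul_eq_zero.1 hn).resolve_left hx0)] at hadd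
  refine ⟨by exact_mod_cast hadd, ?_⟩
  exact ((hFLx M).quot (z := x) (zs := [])).length_ne_top

include hprime hinj hU in
/-- The lemma of Krull and Akizuki. -/
theorem exists_fg_add (x : A) (hx0 : x ≠ 0) :
    ∃ M₀ : Submodule A U, M₀.FG ∧ ∀ u : U, ∃ m ∈ M₀, ∃ u' : U, u = m + x • u' := by
  let π : U →ₗ[A] QuotSMulTop x U := Submodule.mkQ _
  let φ : Submodule A U → ℕ := fun M => (Module.length A (M.map π)).toNat
  have hquot : ∀ M : Submodule A U, M.FG → (1 : U) ∈ M →
      Module.length A (M.map π) ≤ Module.length A (QuotSMulTop x M) := by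
    intro M _ _
    let g0 : M →ₗ[A] M.map π := π.restrict (fun m hm => Submodule.mem_map_of_mem hm)
    let g : QuotSMulTop x M →ₗ[A] M.map π := Submodule.liftQ _ g0 (by
      intro y hy
      rw [Submodule.mem_smul_pointwise_iff_exists] at hy
      obtain ⟨y, -, rfl⟩ := hy
      apply Subtype.ext
      change π (x • (y : U)) = 0
      rw [Submodule.mkQ_apply, Submodule.Quotient.mk_eq_zero]
      exact Submodule.smul_mem_pointwise_smul _ x _ trivial)
    refine Module.length_le_of_surjective g ?_
    rintro ⟨_, m, hm, rfl⟩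
    exact ⟨Submodule.Quotient.mk ⟨m, hm⟩, rfl⟩
  have hne : ∀ M : Submodule A U, M.FG → (1 : U) ∈ M → Module.length A (M.map π) ≠ ⊤ := by
    intro M hM h1 htop
    apply (length_quotSMulTop_eq hprime hinj hU M hM h1 x hx0).2
    rw [eq_top_iff, ← htop]
    exact hquot M hM h1
  have hbd : ∀ M : Submodule A U, M.FG → (1 : U) ∈ M →
      φ M ≤ (Module.length A (QuotSMulTop x A)).toNat := by
    intro M hM h1
    obtain ⟨h3, h4⟩ := length_quotSMulTop_eq hprime hinj hU M hM h1 x hx0
    rw [← h3]
    exact ENat.toNat_le_toNat (hquot M hM h1) h4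
  have hmax : ∃ M₀ : Submodule A U, (M₀.FG ∧ (1 : U) ∈ M₀) ∧
      ∀ M : Submodule A U, M.FG → (1 : U) ∈ M → φ M ≤ φ M₀ := by
    by_contra hcon
    push Not at hcon
    have h3 : ∀ k : ℕ, ∃ M : Submodule A U, (M.FG ∧ (1 : U) ∈ M) ∧ k ≤ φ M := by
      intro k
      induction k with
      | zero => exact ⟨Submodule.span A {1}, ⟨Submodule.fg_span_singleton _,
          Submodule.mem_span_singleton_self _⟩, Nat.zero_le _⟩
      | succ k ih =>
        obtain ⟨M, hM, hk⟩ := ih
        obtain ⟨M', hM', h1', hlt⟩ := hcon M hM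
        exact ⟨M', ⟨hM', h1'⟩, by omega⟩
    obtain ⟨M, hM, hk⟩ := h3 ((Module.length A (QuotSMulTop x A)).toNat + 1)
    have := hbd M hM.1 hM.2
    omega
  obtain ⟨M₀, ⟨hM₀, h1M₀⟩, hmax⟩ := hmax
  refine ⟨M₀, hM₀, fun u => ?_⟩
  have hM₁ : (M₀ ⊔ Submodule.span A {u}).FG := hM₀.sup (Submodule.fg_span_singleton _)
  have h1M₁ : (1 : U) ∈ M₀ ⊔ Submodule.span A {u} := Submodule.mem_sup_left h1M₀
  have hle : M₀.map π ≤ (M₀ ⊔ Submodule.span A {u}).map π := Submodule.map_mono le_sup_left
  have heq : M₀.map π = (M₀ ⊔ Submodule.span A {u}).map π := by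
    by_contra hcon
    have hfl := Module.length_ne_top_iff.1 (hne _ hM₁ h1M₁)
    rw [isFiniteLength_iff_isNoetherian_isArtinian] at hfl
    obtain ⟨_, _⟩ := hfl
    have h3 : (M₀.map π).comap ((M₀ ⊔ Submodule.span A {u}).map π).subtype ≠ ⊤ := by
      intro htop
      apply hcon
      apply le_antisymm hle
      intro y hy
      have h4 : (⟨y, hy⟩ : (M₀ ⊔ Submodule.span A {u}).map π) ∈
          (M₀.map π).comap ((M₀ ⊔ Submodule.span A {u}).map π).subtype := htop ▸ trivial
      exact h4
    have h4 := Submodule.length_lt h3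
    rw [(Submodule.comapSubtypeEquivOfLe hle).length_eq] at h4
    have h5 := hmax _ hM₁ h1M₁
    have h6 : φ M₀ < φ (M₀ ⊔ Submodule.span A {u}) := by
      rw [← ENat.natCast_toNat (hne _ hM₀ h1M₀), ← ENat.natCast_toNat (hne _ hM₁ h1M₁)] at h4
      exact_mod_cast h4
    omega
  have h7 : π u ∈ M₀.map π := by
    rw [heq]
    exact Submodule.mem_map_of_mem (Submodule.mem_sup_right (Submodule.mem_span_singleton_self u))
  obtain ⟨m, hm, hmu⟩ := h7
  have h8 : π (u - m) = 0 := by rw [map_sub, hmu, sub_self]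
  rw [Submodule.mkQ_apply, Submodule.Quotient.mk_eq_zero,
    Submodule.mem_smul_pointwise_iff_exists] at h8
  obtain ⟨u', -, hu'⟩ := h8
  exact ⟨m, hm, u', by rw [hu']; ring⟩

end KA

end Vale.Agent.P177
end
end

section

section

/-!
The normalization of a complete one dimensional local domain is a discrete valuation ring, finite
over it.
-/

namespace Vale.Agent.P177

open CategoryTheory TensorProduct Function IsLocalRing RingTheory.Sequence Pointwise

universe u

section KA

variable {A : Type u} [CommRing A] [IsLocalRing A] [IsNoetherianRing A] [IsDomain A]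
  (hprime : ∀ q : Ideal A, q.IsPrime → q ≠ ⊥ → q = maximalIdeal A)
  {U : Type u} [CommRing U] [IsDomain U] [Algebra A U] (hinj : Injective (algebraMap A U))
  (hU : ∀ u : U, ∃ a : A, a ≠ 0 ∧ ∃ c : A, a • u = algebraMap A U c)

include hprime hinj hU in
theorem isNoetherianRing_of_ka : IsNoetherianRing U := by
  refine ⟨fun (I : Ideal U) => ?_⟩
  by_cases hI : I = ⊥
  · rw [hI]; exact Submodule.fg_bot
  obtain ⟨u, huI, hu0⟩ := Submodule.exists_mem_ne_zero_of_ne_bot hI
  obtain ⟨a, ha0, c, hc⟩ := hU u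
  have hcI : algebraMap A U c ∈ I := by
    rw [← hc, Algebra.smul_def]
    exact Ideal.mul_mem_left I _ huI
  have hc0 : c ≠ 0 := by
    rintro rfl
    rw [map_zero, Algebra.smul_def] at hc
    rcases mul_eq_zero.1 hc with h | h
    · exact ha0 ((map_eq_zero_iff _ hinj).1 h)
    · exact hu0 h
  obtain ⟨M₀, hM₀, hM⟩ := exists_fg_add hprime hinj hU c hc0
  have hfin : Module.Finite A M₀ := Module.Finite.iff_fg.2 hM₀
  have hN : (M₀ ⊓ I.restrictScalars A).FG := Submodule.FG.of_le hM₀ inf_le_left
  obtain ⟨s, hs⟩ := hN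
  classical
  refine ⟨insert (algebraMap A U c) s, le_antisymm ?_ ?_⟩
  · rw [Submodule.span_le]
    intro y hy
    rw [Finset.coe_insert, Set.mem_insert_iff] at hy
    rcases hy with rfl | hy
    · exact hcI
    · have h3 : y ∈ M₀ ⊓ I.restrictScalars A := hs ▸ Submodule.subset_span hy
      exact h3.2
  · intro y hy
    obtain ⟨m, hm, u', rfl⟩ := hM y
    have hcu : c • u' ∈ Submodule.span U
        ((insert (algebraMap A U c) s : Finset U) : Set U) := by
      rw [Algebra.smul_def, mul_comm]
      exact Submodule.smul_mem _ _ (Submodule.subset_span (by simp only [Finset.coe_insert, Set.mem_insert_iff, SetLike.mem_coe, true_or]))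
    refine Submodule.add_mem _ ?_ hcu
    have hcuI : c • u' ∈ I := by
      rw [Algebra.smul_def]
      exact Ideal.mul_mem_right _ I hcI
    have hmI : m ∈ I := by
      have h4 := I.sub_mem hy hcuI
      rwa [add_sub_cancel_right] at h4
    have h3 : m ∈ Submodule.span A (s : Set U) := by
      rw [hs]
      exact ⟨hm, hmI⟩
    have h4 : Submodule.span A (s : Set U) ≤ (Submodule.span U
        ((insert (algebraMap A U c) s : Finset U) : Set U)).restrictScalars A := by
      rw [Submodule.span_le]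
      intro z hz
      exact Submodule.subset_span (by simp only [Finset.coe_insert, Set.mem_insert_iff, SetLike.mem_coe, Finset.mem_coe.1 hz, or_true])
    exact h4 h3

variable [Algebra.IsIntegral A U]

omit [IsNoetherianRing A] [IsDomain A] in
include hinj in
theorem map_ne_top_of_integral : (maximalIdeal A).map (algebraMap A U) ≠ ⊤ := by
  obtain ⟨Q, hQ, hQA⟩ := Ideal.exists_ideal_over_prime_of_isIntegral_of_isDomain (S := U)
    (maximalIdeal A) (by
      rw [(RingHom.injective_iff_ker_eq_bot _).1 hinj]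
      exact bot_le)
  intro htop
  apply hQ.ne_top
  rw [eq_top_iff, ← htop, Ideal.map_le_iff_le_comap, hQA]

include hprime hinj hU in
/-- Over a complete ring, `U` is finite. -/
theorem finite_of_complete [IsAdicComplete (maximalIdeal A) A] (hne : maximalIdeal A ≠ ⊥) :
    Module.Finite A U := by
  have hnoeth := isNoetherianRing_of_ka hprime hinj hU
  have hH : IsHausdorff ((maximalIdeal A).map (algebraMap A U)) U :=
    IsHausdorff.of_isDomain _ (map_ne_top_of_integral hinj)
  have hH' : IsHausdorff (maximalIdeal A) U := IsHausdorff.map_algebraMap_iff.1 hH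
  obtain ⟨x, hx, hx0⟩ := Submodule.exists_mem_ne_zero_of_ne_bot hne
  obtain ⟨M₀, hM₀, hM⟩ := exists_fg_add hprime hinj hU x hx0
  have hfin : Module.Finite A M₀ := Module.Finite.iff_fg.2 hM₀
  have hprec : IsPrecomplete (maximalIdeal A) M₀ := isPrecomplete_of_finite _ _
  have hsurj : Surjective M₀.subtype := by
    apply surjective_of_mkQ_comp_surjective (I := maximalIdeal A)
    intro y
    obtain ⟨u, rfl⟩ := Submodule.mkQ_surjective _ y
    obtain ⟨m, hm, u', rfl⟩ := hM u
    refine ⟨⟨m, hm⟩, ?_⟩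
    rw [map_add]
    have h3 : (Submodule.mkQ (maximalIdeal A • ⊤ : Submodule A U)) (x • u') = 0 := by
      rw [Submodule.mkQ_apply, Submodule.Quotient.mk_eq_zero]
      exact Submodule.smul_mem_smul hx trivial
    rw [h3, add_zero]
    rfl
  exact Module.Finite.of_surjective M₀.subtype hsurj

end KA

section localring

/-- A domain finite over a complete local ring is local. -/
theorem isLocalRing_of_finite (A : Type u) [CommRing A] [IsLocalRing A] [IsNoetherianRing A]
    [IsAdicComplete (maximalIdeal A) A]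
    (U : Type u) [CommRing U] [IsDomain U] [Algebra A U] [Module.Finite A U] :
    IsLocalRing U := by
  set J := (maximalIdeal A).map (algebraMap A U) with hJ
  have hprec : IsPrecomplete (maximalIdeal A) U := isPrecomplete_of_finite _ _
  have hhaus : IsHausdorff (maximalIdeal A) U := inferInstance
  have hcomp : IsAdicComplete (maximalIdeal A) U := { hprec, hhaus with }
  have hJc : IsAdicComplete J U := (IsAdicComplete.map_algebraMap_iff _ _).2 hcomp
  have hjac : J ≤ Ideal.jacobson ⊥ := IsAdicComplete.le_jacobson_bot J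
  have hunit : ∀ a : U, IsUnit (Ideal.Quotient.mk J a) → IsUnit a := by
    intro a ha
    obtain ⟨b, hb⟩ := ha.exists_right_inv
    obtain ⟨b, rfl⟩ := Ideal.Quotient.mk_surjective b
    rw [← map_mul, ← map_one (Ideal.Quotient.mk J), Ideal.Quotient.eq] at hb
    have h3 := Ideal.mem_jacobson_bot.1 (hjac hb) 1
    have h4 : (a * b - 1) * 1 + 1 = a * b := by ring
    rw [h4] at h3
    exact isUnit_of_mul_isUnit_left h3
  have hart : IsArtinianRing (U ⧸ J) := by
    have h1 : FL ([] : List A) (U ⧸ J) := by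
      unfold FL
      refine le_trans ?_ Ideal.le_radical
      refine le_trans ?_ le_sup_left
      intro a ha
      rw [Module.mem_annihilator]
      intro x
      obtain ⟨x, rfl⟩ := Ideal.Quotient.mk_surjective x
      have h4 : a • x ∈ J := by
        rw [Algebra.smul_def]
        exact Ideal.mul_mem_right _ _ (Ideal.mem_map_of_mem _ ha)
      exact Ideal.Quotient.eq_zero_iff_mem.2 h4
    have hfin : Module.Finite A (U ⧸ J) := inferInstance
    have h2 := Module.length_ne_top_iff.1 h1.length_ne_top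
    rw [isFiniteLength_iff_isNoetherian_isArtinian] at h2
    exact isArtinian_of_tower A h2.2
  refine IsLocalRing.of_isUnit_or_isUnit_one_sub_self fun a => ?_
  -- an idempotent modulo `J`
  obtain ⟨n, y, hy⟩ := IsArtinian.exists_pow_succ_smul_dvd (Ideal.Quotient.mk J a) (1 : U ⧸ J)
  simp only [smul_eq_mul, mul_one, Nat.succ_eq_add_one] at hy
  set α := Ideal.Quotient.mk J a with hα
  have hk : ∀ k : ℕ, α ^ n = α ^ (n + k) * y ^ k := by
    intro k
    induction k with
    | zero => simp
    | succ k ih =>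
      rw [ih, pow_add α n k, ← hy]
      ring
  have hidem := hk n
  obtain ⟨c, hc⟩ : ∃ c, c = y ^ n := ⟨_, rfl⟩
  rw [← hc, pow_add] at hidem
  -- `α ^ n = α ^ n * α ^ n * c`
  obtain ⟨e, he⟩ := Ideal.Quotient.mk_surjective (α ^ n * c)
  have hee : e ^ 2 - e ∈ J := by
    rw [← Ideal.Quotient.eq_zero_iff_mem, map_sub, map_pow, he]
    have : (α ^ n * c) ^ 2 = α ^ n * α ^ n * c * c := by ring
    rw [this, ← hidem, sub_self]
  have hhens : HenselianRing U J := inferInstance
  obtain ⟨E, hE, hEe⟩ := hhens.is_henselian (Polynomial.X ^ 2 - Polynomial.X)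
    (by monicity!) e (by simpa only [Polynomial.eval_sub, Polynomial.eval_pow, Polynomial.eval_X] using hee) (by
      have h5 : (Polynomial.derivative (Polynomial.X ^ 2 - Polynomial.X : Polynomial U)).eval e =
          2 * e - 1 := by
        simp only [Polynomial.derivative_sub, Polynomial.derivative_X_pow,
          Polynomial.derivative_X, Polynomial.eval_sub, Polynomial.eval_mul,
          Polynomial.eval_pow, Polynomial.eval_X, Polynomial.eval_one]
        norm_num
      rw [h5]
      refine IsUnit.of_mul_eq_one (Ideal.Quotient.mk J (2 * e - 1)) ?_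
      rw [← map_mul]
      have h6 : (2 * e - 1) * (2 * e - 1) = 1 + 4 * (e ^ 2 - e) := by ring
      rw [h6, map_add, map_mul, Ideal.Quotient.eq_zero_iff_mem.2 hee, mul_zero, add_zero, map_one])
  have hE2 : E * (E - 1) = 0 := by
    have h7 : E ^ 2 - E = 0 := by simpa only [Polynomial.IsRoot.def, Polynomial.eval_sub, Polynomial.eval_pow, Polynomial.eval_X] using hE
    rw [← h7]; ring
  have hEe' : Ideal.Quotient.mk J E = α ^ n * c := by
    rw [← he, Ideal.Quotient.eq]
    exact hEe
  rcases mul_eq_zero.1 hE2 with h0 | h1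
  · -- `α` is nilpotent
    right
    apply hunit
    rw [map_sub, map_one]
    apply IsNilpotent.isUnit_one_sub
    refine ⟨n, ?_⟩
    change α ^ n = 0
    rw [hidem, mul_assoc, ← hEe', h0, map_zero, mul_zero]
  · left
    apply hunit
    change IsUnit α
    have h8 : α ^ n * c = 1 := by
      rw [← hEe', sub_eq_zero.1 h1, map_one]
    rcases Nat.eq_zero_or_pos n with hn | hn
    · -- `n = 0`
      subst hn
      rw [zero_add, pow_one, pow_zero] at hy
      exact IsUnit.of_mul_eq_one _ hy
    · have h9 : IsUnit (α ^ n) := IsUnit.of_mul_eq_one _ h8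
      exact (isUnit_pow_iff (by omega)).1 h9

end localring

/-- The normalization of a complete one dimensional local domain. -/
theorem exists_dvr (A : Type u) [CommRing A] [IsLocalRing A] [IsNoetherianRing A] [IsDomain A]
    [IsAdicComplete (maximalIdeal A) A]
    (hprime : ∀ q : Ideal A, q.IsPrime → q ≠ ⊥ → q = maximalIdeal A)
    (hne : maximalIdeal A ≠ ⊥) :
    ∃ (V : Type u) (_ : CommRing V) (_ : IsDomain V) (_ : IsDiscreteValuationRing V)
      (_ : Algebra A V), Module.Finite A V ∧ Injective (algebraMap A V) ∧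
      ∃ c : A, c ≠ 0 ∧ ∀ v : V, ∃ d : A, c • v = algebraMap A V d := by
  let K := FractionRing A
  let V := integralClosure A K
  have hinj : Injective (algebraMap A V) := by
    have h1 : Injective (algebraMap A K) := IsFractionRing.injective A K
    have h2 : algebraMap A K = (algebraMap V K).comp (algebraMap A V) :=
      IsScalarTower.algebraMap_eq A V K
    rw [h2, RingHom.coe_comp] at h1
    exact Injective.of_comp h1
  have hU : ∀ u : V, ∃ a : A, a ≠ 0 ∧ ∃ c : A, a • u = algebraMap A V c := by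
    intro u
    obtain ⟨c, ⟨a, ha⟩, hca⟩ := IsLocalization.exists_mk'_eq (nonZeroDivisors A) (u : K)
    refine ⟨a, nonZeroDivisors.ne_zero ha, c, ?_⟩
    apply Subtype.ext
    change a • (u : K) = algebraMap A K c
    rw [← hca, Algebra.smul_def, mul_comm]
    exact IsLocalization.mk'_spec K c ⟨a, ha⟩
  have hint : Algebra.IsIntegral A V := inferInstance
  have hfin : Module.Finite A V := finite_of_complete hprime hinj hU hne
  have hnoeth : IsNoetherianRing V := isNoetherianRing_of_ka hprime hinj hU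
  have hloc : IsLocalRing V := isLocalRing_of_finite A V
  have hic : IsIntegrallyClosed V := integralClosure.isIntegrallyClosedOfFiniteExtension K
  have hmax : ∀ P : Ideal V, P ≠ ⊥ → P.IsPrime → P = maximalIdeal V := by
    intro P hP hPp
    have h1 : P.comap (algebraMap A V) ≠ ⊥ := fun h => hP (Ideal.eq_bot_of_comap_eq_bot h)
    have h2 := hprime (P.comap (algebraMap A V)) (Ideal.comap_isPrime _ _) h1
    have h3 : P.IsMaximal := by
      apply Ideal.isMaximal_of_isIntegral_of_isMaximal_comap (R := A)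
      rw [h2]
      infer_instance
    exact IsLocalRing.eq_maximalIdeal h3
  have h5 : IsIntegrallyClosed V ∧ ∀ P : Ideal V, P ≠ ⊥ → P.IsPrime → P = maximalIdeal V :=
    ⟨hic, hmax⟩
  have hpid : IsPrincipalIdealRing V :=
    ((tfae_of_isNoetherianRing_of_isLocalRing_of_isDomain V).out 3 0).mp h5
  have hdvr : IsDiscreteValuationRing V :=
    { hpid, hloc with
      not_a_field' := by
        intro hbot
        obtain ⟨x, hx, hx0⟩ := Submodule.exists_mem_ne_zero_of_ne_bot hne
        have h1 : algebraMap A V x ∈ maximalIdeal V := by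
          have h2 : ((maximalIdeal V).comap (algebraMap A V)) = maximalIdeal A :=
            IsLocalRing.eq_maximalIdeal (Ideal.isMaximal_comap_of_isIntegral_of_isMaximal _)
          rw [← h2] at hx
          exact hx
        rw [hbot, Ideal.mem_bot, map_eq_zero_iff _ hinj] at h1
        exact hx0 h1 }
  obtain ⟨c, hc0, hc⟩ := exists_common_multiple hU (⊤ : Submodule A V) Module.Finite.fg_top
  exact ⟨V, inferInstance, inferInstance, hdvr, inferInstance, hfin, hinj, c, hc0,
    fun v => hc v trivial⟩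

end Vale.Agent.P177
end
end

section

section

/-!
Vanishing of the Euler characteristic for one dimensional modules against Cohen-Macaulay modules
of codimension two.
-/

namespace Vale.Agent.P177

open CategoryTheory TensorProduct Function IsLocalRing RingTheory.Sequence Pointwise

universe u

section onering

variable {R : Type u} [CommRing R] [IsRegularLocalRing R] {r : ℕ}

end onering

section avoid

variable {R T : Type u} [CommRing R] [IsRegularLocalRing R] [CommRing T] [IsNoetherianRing T]
  [IsLocalRing T] [Algebra R T] {r : ℕ}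

end avoid

section vanish

variable {R₁ R₂ T : Type u} [CommRing R₁] [CommRing R₂] [CommRing T]
  [IsRegularLocalRing R₁] [IsRegularLocalRing R₂] [IsRegularLocalRing T]
  [Algebra R₁ T] [Algebra R₂ T] [Module.Flat R₁ T] [Module.Flat R₂ T]
  [IsLocalHom (algebraMap R₁ T)] [IsLocalHom (algebraMap R₂ T)] {r₁ r₂ t b : ℕ}

end vanish

end Vale.Agent.P177
end
end

section

section

/-!
The local positivity statement for `dim R₁ + dim R₂ - dim T ≤ 3`.
-/

namespace Vale.Agent.P177

open CategoryTheory TensorProduct Function IsLocalRing RingTheory.Sequence Pointwise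

universe u

section prelim

variable {R : Type u} [CommRing R] [IsLocalRing R]

theorem exists_mem_notMem_of_supportDim (P : Ideal R) [hP : P.IsPrime]
    (h : ((1 : ℕ) : WithBot ℕ∞) ≤ Module.supportDim R (R ⧸ P)) : ∃ x ∈ maximalIdeal R, x ∉ P := by
  by_contra hcon
  push Not at hcon
  have hPm : P = maximalIdeal R := le_antisymm (le_maximalIdeal hP.ne_top) hcon
  obtain ⟨q, hq1, hq2, -⟩ := exists_gt_prime P 0 h
  rw [hPm] at hq2
  exact absurd (le_maximalIdeal hq1.ne_top) (not_le_of_gt hq2)

omit [IsLocalRing R] in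
theorem isSMulRegular_quot_prime (P : Ideal R) [hP : P.IsPrime] (x : R) (hx : x ∉ P) :
    IsSMulRegular (R ⧸ P) x := by
  rw [isSMulRegular_iff_right_eq_zero_of_smul]
  intro y hy
  obtain ⟨y, rfl⟩ := Ideal.Quotient.mk_surjective y
  have h1 : Ideal.Quotient.mk P (x * y) = 0 := hy
  rw [Ideal.Quotient.eq_zero_iff_mem] at h1 ⊢
  exact (hP.mem_or_mem h1).resolve_left hx

theorem supportDim_quotSMulTop_prime_le [IsNoetherianRing R] (P : Ideal R) [hP : P.IsPrime]
    (x : R) (hx : x ∈ maximalIdeal R) (hxP : x ∉ P) (n : ℕ)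
    (h : Module.supportDim R (R ⧸ P) ≤ ((n + 1 : ℕ) : WithBot ℕ∞)) :
    Module.supportDim R (QuotSMulTop x (R ⧸ P)) ≤ (n : WithBot ℕ∞) := by
  by_contra hcon
  rw [not_le] at hcon
  have h3 := succ_le_of_lt_withBot hcon
  have h4 := Module.supportDim_quotSMulTop_succ_eq_supportDim (isSMulRegular_quot_prime P x hxP) hx
  have h5 : ((n + 1 : ℕ) : WithBot ℕ∞) + 1 ≤ ((n + 1 : ℕ) : WithBot ℕ∞) := by
    refine le_trans ?_ h
    rw [← h4]
    (clear * - h3; gcongr)
  have h6 : n + 1 + 1 ≤ n + 1 := by exact_mod_cast h5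
  omega

omit [IsLocalRing R] in
theorem supportDim_le_of_le_annihilator [IsNoetherianRing R] (P : Ideal R) (S : Type u)
    [AddCommGroup S] [Module R S] [Module.Finite R S] (h : P ≤ Module.annihilator R S) :
    Module.supportDim R S ≤ Module.supportDim R (R ⧸ P) := by
  have h4 : Module.supportDim R (R ⧸ Module.annihilator R S) = Module.supportDim R S := by
    unfold Module.supportDim
    rw [Module.support_eq_zeroLocus, Module.support_eq_zeroLocus, Ideal.annihilator_quotient]
  rw [← h4]
  exact supportDim_quotient_mono h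

end prelim

variable {R₁ R₂ T : Type u} [CommRing R₁] [CommRing R₂] [CommRing T]
  [IsRegularLocalRing R₁] [IsRegularLocalRing R₂] [IsRegularLocalRing T]
  [Algebra R₁ T] [Algebra R₂ T] [Module.Flat R₁ T] [Module.Flat R₂ T]
  [IsLocalHom (algebraMap R₁ T)] [IsLocalHom (algebraMap R₂ T)] {r₁ r₂ t b : ℕ}

/-- Serre's statements for primes of coheight one in the first ring. -/
def HOne (R₁ R₂ T : Type u) [CommRing R₁] [CommRing R₂] [CommRing T] [IsLocalRing T]
    [Algebra R₁ T] [Algebra R₂ T] (t b : ℕ) : Prop :=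
  ∀ P : Ideal R₁, P.IsPrime → Module.supportDim R₁ (R₁ ⧸ P) = (1 : ℕ) →
    ∀ (G : Type u) [AddCommGroup G] [Module R₂ G] [Module.Finite R₂ G],
      FP R₁ R₂ T (R₁ ⧸ P) G → Pos R₁ R₂ T t b (R₁ ⧸ P) G

theorem pos_dim_one (h1 : ringKrullDim R₁ = r₁) (h2 : ringKrullDim R₂ = r₂)
    (ht : ringKrullDim T = t) (hb : r₁ + r₂ = t + b) (H : HOne R₁ R₂ T t b) (G : Type u)
    [AddCommGroup G] [Module R₂ G]
    [Module.Finite R₂ G] (E : Type u) [AddCommGroup E] [Module R₁ E] [Module.Finite R₁ E]
    (hE : Module.supportDim R₁ E ≤ ((1 : ℕ) : WithBot ℕ∞)) (h : FP R₁ R₂ T E G) :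
    Pos R₁ R₂ T t b E G := by
  refine pos_of_primes ht ((1 : ℕ) : WithBot ℕ∞) G (fun P hP hdim hFP => ?_) E hE h
  by_cases h0 : Module.supportDim R₁ (R₁ ⧸ P) ≤ 0
  · exact pos_dim_zero h1 h2 ht hb G _ h0 hFP
  · rw [not_le] at h0
    exact H P hP (le_antisymm hdim (succ_le_of_lt_withBot (n := 0) h0)) G hFP

/-- The case of two primes of coheight two. -/
theorem pos_two_two (h1 : ringKrullDim R₁ = r₁) (h2 : ringKrullDim R₂ = r₂)
    (ht : ringKrullDim T = t) (hb : r₁ + r₂ = t + b) (hb4 : b ≤ 4) (H : HOne R₁ R₂ T t b)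
    (P : Ideal R₁) [hP : P.IsPrime] (Q : Ideal R₂) [hQ : Q.IsPrime]
    (hPd : Module.supportDim R₁ (R₁ ⧸ P) = (2 : ℕ)) (hQd : Module.supportDim R₂ (R₂ ⧸ Q) = (2 : ℕ))
    (hFP : FP R₁ R₂ T (R₁ ⧸ P) (R₂ ⧸ Q)) : Pos R₁ R₂ T t b (R₁ ⧸ P) (R₂ ⧸ Q) := by
  obtain ⟨x, hx, hxP⟩ := exists_mem_notMem_of_supportDim P (by rw [hPd]; exact_mod_cast one_le_two)
  have hd := supportDim_quotSMulTop_prime_le P x hx hxP 1 hPd.le
  have hpos := pos_dim_one h1 h2 ht hb H (R₂ ⧸ Q) (QuotSMulTop x (R₁ ⧸ P)) hd
    (hFP.mono (LinearMap.annihilator_le_of_surjective _ (Submodule.mkQ_surjective _)) le_rfl)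
  have hcut := cut ht P x hx hxP (R₂ ⧸ Q) hFP hpos 1 2 hPd.ge hQd.ge
  have hb' : b = 4 := by omega
  subst hb'
  have hr1 : 2 ≤ r₁ := by
    have := dim_le_dim (R := R₂) (T := T) h2 ht
    omega
  have hr2 : 2 ≤ r₂ := by
    have := dim_le_dim (R := R₁) (T := T) h1 ht
    omega
  obtain ⟨S, _, _, _, hS, hPS, ⟨zs, hz1, hz2, hz3⟩, hSG⟩ :=
    exists_replace (R₂ := R₂) (T := T) h1 h2 ht hb P hPd.ge
  obtain ⟨hFPS, hchiS⟩ := hSG (R₂ ⧸ Q) (by
    intro g hg
    rw [hQd] at hg
    have : g ≤ 2 := by exact_mod_cast hg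
    omega) hFP
  obtain ⟨S', _, _, _, hS', hQS', ⟨ws, hw1, hw2, hw3⟩, hSG'⟩ :=
    exists_replace (R₁ := R₂) (R₂ := R₁) (T := T) h2 h1 ht (by omega : r₂ + r₁ = t + 4) Q hQd.ge
  obtain ⟨hFPS', hchiS'⟩ := hSG' S (by
    intro g hg
    have h3 := hg.trans (supportDim_le_of_le_annihilator P S hPS)
    rw [hPd] at h3
    have : g ≤ 2 := by exact_mod_cast h3
    omega) hFPS.symm
  have hpos := (chi_pos_of_depth h2 h1 ht (by omega : r₂ + r₁ = t + 4) S' S hFPS' ws zs hw2 hz2 hw3
    hz3 (by omega) (by (clear * - hb hr1 hz1; omega)) (by (clear * - hz1 hw1; omega))).2 hS' hS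
  rw [← hchiS', ← chi_symm, ← hchiS] at hpos
  refine ⟨?_, hpos.le, fun _ _ _ _ _ => hpos, ?_⟩
  · intro e g he hg
    rw [hPd] at he
    rw [hQd] at hg
    have h3 : e ≤ 2 := by exact_mod_cast he
    have h4 : g ≤ 2 := by exact_mod_cast hg
    omega
  · intro hh
    have := hh 2 2 hPd.ge hQd.ge
    omega

theorem pos_two_two' (h1 : ringKrullDim R₁ = r₁) (h2 : ringKrullDim R₂ = r₂)
    (ht : ringKrullDim T = t) (hb : r₁ + r₂ = t + b) (hb4 : b ≤ 4) (H : HOne R₁ R₂ T t b)
    (Q : Ideal R₂) [hQ : Q.IsPrime] (hQd : Module.supportDim R₂ (R₂ ⧸ Q) = (2 : ℕ))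
    (E : Type u) [AddCommGroup E] [Module R₁ E] [Module.Finite R₁ E]
    (hE : Module.supportDim R₁ E ≤ ((2 : ℕ) : WithBot ℕ∞))
    (hFP : FP R₁ R₂ T E (R₂ ⧸ Q)) : Pos R₁ R₂ T t b E (R₂ ⧸ Q) := by
  refine pos_of_primes ht ((2 : ℕ) : WithBot ℕ∞) _ (fun P hP hdim hFP => ?_) E hE hFP
  by_cases h0 : Module.supportDim R₁ (R₁ ⧸ P) ≤ ((1 : ℕ) : WithBot ℕ∞)
  · exact pos_dim_one h1 h2 ht hb H _ _ h0 hFP
  · rw [not_le] at h0
    exact pos_two_two h1 h2 ht hb hb4 H P Q (le_antisymm hdim (succ_le_of_lt_withBot h0)) hQd hFP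

/-- No finiteness is possible for coheights at least three and at least two. -/
theorem not_fp_three_two (h1 : ringKrullDim R₁ = r₁) (h2 : ringKrullDim R₂ = r₂)
    (ht : ringKrullDim T = t) (hb : r₁ + r₂ = t + b) (hb4 : b ≤ 4) (H : HOne R₁ R₂ T t b)
    (P : Ideal R₁) [hP : P.IsPrime] (Q : Ideal R₂) [hQ : Q.IsPrime]
    (hPd : ((3 : ℕ) : WithBot ℕ∞) ≤ Module.supportDim R₁ (R₁ ⧸ P))
    (hQd : ((2 : ℕ) : WithBot ℕ∞) ≤ Module.supportDim R₂ (R₂ ⧸ Q))
    (hFP : FP R₁ R₂ T (R₁ ⧸ P) (R₂ ⧸ Q)) : False := by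
  obtain ⟨P', hP', hPP', hPd'⟩ := exists_prime_exact P 3 hPd
  obtain ⟨Q', hQ', hQQ', hQd'⟩ := exists_prime_exact Q 2 hQd
  have hFP' : FP R₁ R₂ T (R₁ ⧸ P') (R₂ ⧸ Q') := hFP.mono
    (by rwa [Ideal.annihilator_quotient, Ideal.annihilator_quotient])
    (by rwa [Ideal.annihilator_quotient, Ideal.annihilator_quotient])
  obtain ⟨x, hx, hxP⟩ := exists_mem_notMem_of_supportDim P' (by
    rw [hPd']
    exact_mod_cast (by omega : 1 ≤ 3))
  have hd := supportDim_quotSMulTop_prime_le P' x hx hxP 2 hPd'.le
  have hpos := pos_two_two' h1 h2 ht hb hb4 H Q' hQd' (QuotSMulTop x (R₁ ⧸ P')) hd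
    (hFP'.mono (LinearMap.annihilator_le_of_surjective _ (Submodule.mkQ_surjective _)) le_rfl)
  have hcut := cut ht P' x hx hxP (R₂ ⧸ Q') hFP' hpos 2 2 hPd'.ge hQd'.ge
  omega

/-- Assembly: Serre's statements for `b ≤ 4` follow from the case of coheight one. -/
theorem pos_of_hOne (h1 : ringKrullDim R₁ = r₁) (h2 : ringKrullDim R₂ = r₂)
    (ht : ringKrullDim T = t) (hb : r₁ + r₂ = t + b) (hb4 : b ≤ 4) (H : HOne R₁ R₂ T t b)
    (H' : HOne R₂ R₁ T t b) (E G : Type u) [AddCommGroup E] [Module R₁ E] [Module.Finite R₁ E]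
    [AddCommGroup G] [Module R₂ G] [Module.Finite R₂ G] (hFP : FP R₁ R₂ T E G) :
    Pos R₁ R₂ T t b E G := by
  refine pos_of_primes ht ⊤ G (fun P hP _ hFP => ?_) E le_top hFP
  refine (pos_of_primes ht ⊤ (R₁ ⧸ P) (fun Q hQ _ hFP => ?_) G le_top hFP.symm).symm
  refine Pos.symm ?_
  have hFP := hFP.symm
  by_cases hP1 : Module.supportDim R₁ (R₁ ⧸ P) ≤ ((1 : ℕ) : WithBot ℕ∞)
  · exact pos_dim_one h1 h2 ht hb H _ _ hP1 hFP
  by_cases hQ1 : Module.supportDim R₂ (R₂ ⧸ Q) ≤ ((1 : ℕ) : WithBot ℕ∞)
  · exact (pos_dim_one h2 h1 ht (by omega : r₂ + r₁ = t + b) H' _ _ hQ1 hFP.symm).symm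
  rw [not_le] at hP1 hQ1
  have hP2 := succ_le_of_lt_withBot hP1
  have hQ2 := succ_le_of_lt_withBot hQ1
  by_cases hP3 : Module.supportDim R₁ (R₁ ⧸ P) ≤ ((2 : ℕ) : WithBot ℕ∞)
  · by_cases hQ3 : Module.supportDim R₂ (R₂ ⧸ Q) ≤ ((2 : ℕ) : WithBot ℕ∞)
    · exact pos_two_two h1 h2 ht hb hb4 H P Q (le_antisymm hP3 hP2) (le_antisymm hQ3 hQ2) hFP
    · rw [not_le] at hQ3
      exact (not_fp_three_two h2 h1 ht (by omega : r₂ + r₁ = t + b) hb4 H' Q P
        (succ_le_of_lt_withBot hQ3) hP2 hFP.symm).elim
  · rw [not_le] at hP3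
    exact (not_fp_three_two h1 h2 ht hb hb4 H P Q (succ_le_of_lt_withBot hP3) hQ2 hFP).elim

end Vale.Agent.P177
end
end

section

section

/-!
Serre's statements for primes of coheight one when the first ring is complete.
-/

namespace Vale.Agent.P177

open CategoryTheory TensorProduct Function IsLocalRing RingTheory.Sequence Pointwise

universe u

section coheight

variable {R : Type u} [CommRing R] [IsLocalRing R]

theorem eq_maximalIdeal_of_coheight_one (P : Ideal R) [hP : P.IsPrime]
    (hPd : Module.supportDim R (R ⧸ P) = (1 : ℕ)) (q : Ideal R) [hq : q.IsPrime] (hlt : P < q) :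
    q = maximalIdeal R := by
  by_contra hne
  have hlt' : q < maximalIdeal R := lt_of_le_of_ne (le_maximalIdeal hq.ne_top) hne
  have h1 : ((0 : ℕ) : WithBot ℕ∞) ≤ Module.supportDim R (R ⧸ maximalIdeal R) := by
    unfold Module.supportDim
    have := (Module.nonempty_support_of_nontrivial (R := R)
      (M := R ⧸ maximalIdeal R)).to_subtype
    exact Order.krullDim_nonneg
  have h2 := supportDim_quotient_strict hlt' 0 h1
  have h3 := supportDim_quotient_strict hlt (0 + 1) h2
  rw [hPd] at h3
  have h4 : 0 + 1 + 1 ≤ 1 := by exact_mod_cast h3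
  omega

theorem isAdicComplete_quotient [IsNoetherianRing R] [IsAdicComplete (maximalIdeal R) R]
    (P : Ideal R) [IsLocalRing (R ⧸ P)] :
    IsAdicComplete (maximalIdeal (R ⧸ P)) (R ⧸ P) := by
  have hprec : IsPrecomplete (maximalIdeal R) (R ⧸ P) := isPrecomplete_of_finite _ _
  have hhaus : IsHausdorff (maximalIdeal R) (R ⧸ P) := inferInstance
  have hcomp : IsAdicComplete (maximalIdeal R) (R ⧸ P) := { hprec, hhaus with }
  have h1 : (maximalIdeal R).map (algebraMap R (R ⧸ P)) = maximalIdeal (R ⧸ P) :=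
    map_maximalIdeal_of_surjective _ Ideal.Quotient.mk_surjective
  rw [← h1]
  exact (IsAdicComplete.map_algebraMap_iff _ _).2 hcomp

/-- A discrete valuation ring attached to a prime of coheight one of a complete ring. -/
theorem exists_dvr_of_prime [IsNoetherianRing R] [IsAdicComplete (maximalIdeal R) R]
    (P : Ideal R) [hP : P.IsPrime] (hPd : Module.supportDim R (R ⧸ P) = (1 : ℕ)) :
    ∃ (V : Type u) (_ : CommRing V) (_ : IsDomain V) (_ : IsDiscreteValuationRing V)
      (_ : Algebra R V) (_ : Module.Finite R V) (f : (R ⧸ P) →ₗ[R] V), Injective f ∧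
      Module.supportDim R (V ⧸ LinearMap.range f) ≤ 0 ∧ P ≤ Module.annihilator R V ∧
      Module.length R (V ⧸ LinearMap.range (Algebra.linearMap R V)) ≠ ⊤ := by
  have hdom : IsDomain (R ⧸ P) := Ideal.Quotient.isDomain P
  have hloc : IsLocalRing (R ⧸ P) :=
    .of_surjective' (Ideal.Quotient.mk P) Ideal.Quotient.mk_surjective
  have hcomp := isAdicComplete_quotient P
  have hprime : ∀ q : Ideal (R ⧸ P), q.IsPrime → q ≠ ⊥ → q = maximalIdeal (R ⧸ P) := by
    intro q hq hq0
    have h1 : P < q.comap (Ideal.Quotient.mk P) := by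
      refine lt_of_le_of_ne (fun x hx => ?_) ?_
      · rw [Ideal.mem_comap, Ideal.Quotient.eq_zero_iff_mem.2 hx]
        exact q.zero_mem
      · intro heq
        apply hq0
        rw [eq_bot_iff]
        intro x hx
        obtain ⟨x, rfl⟩ := Ideal.Quotient.mk_surjective x
        have h2 : x ∈ q.comap (Ideal.Quotient.mk P) := hx
        rw [← heq] at h2
        exact Ideal.Quotient.eq_zero_iff_mem.2 h2
    have h2 := eq_maximalIdeal_of_coheight_one P hPd (q.comap (Ideal.Quotient.mk P)) h1
    have h3 : (q.comap (Ideal.Quotient.mk P)).map (Ideal.Quotient.mk P) = q :=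
      Ideal.map_comap_of_surjective _ Ideal.Quotient.mk_surjective q
    rw [← h3, h2]
    exact map_maximalIdeal_of_surjective _ Ideal.Quotient.mk_surjective
  obtain ⟨x, hx, hxP⟩ := exists_mem_notMem_of_supportDim P hPd.ge
  have hne : maximalIdeal (R ⧸ P) ≠ ⊥ := by
    intro hbot
    apply hxP
    have h1 : (maximalIdeal R).map (Ideal.Quotient.mk P) = maximalIdeal (R ⧸ P) :=
      map_maximalIdeal_of_surjective _ Ideal.Quotient.mk_surjective
    have h2 : Ideal.Quotient.mk P x ∈ maximalIdeal (R ⧸ P) := h1 ▸ Ideal.mem_map_of_mem _ hx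
    rw [hbot, Ideal.mem_bot, Ideal.Quotient.eq_zero_iff_mem] at h2
    exact h2
  obtain ⟨V, _, _, _, _, hfin, hinj, c, hc0, hc⟩ := exists_dvr (R ⧸ P) hprime hne
  let aV : Algebra R V := ((algebraMap (R ⧸ P) V).comp (Ideal.Quotient.mk P)).toAlgebra
  have sV : IsScalarTower R (R ⧸ P) V := IsScalarTower.of_algebraMap_eq fun x => rfl
  have fV : Module.Finite R V := Module.Finite.trans (R ⧸ P) V
  let f : (R ⧸ P) →ₗ[R] V := (Algebra.linearMap (R ⧸ P) V).restrictScalars R
  have hPann : P ≤ Module.annihilator R V := by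
    rw [annihilator_eq_ker]
    intro p hp
    rw [RingHom.mem_ker]
    change algebraMap (R ⧸ P) V (Ideal.Quotient.mk P p) = 0
    rw [Ideal.Quotient.eq_zero_iff_mem.2 hp, map_zero]
  have hrange : LinearMap.range f = LinearMap.range (Algebra.linearMap R V) := by
    ext v
    constructor
    · rintro ⟨a, rfl⟩
      obtain ⟨a, rfl⟩ := Ideal.Quotient.mk_surjective a
      exact ⟨a, rfl⟩
    · rintro ⟨a, rfl⟩
      exact ⟨Ideal.Quotient.mk P a, rfl⟩
  obtain ⟨c, rfl⟩ := Ideal.Quotient.mk_surjective c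
  have hcP : c ∉ P := fun h => hc0 (Ideal.Quotient.eq_zero_iff_mem.2 h)
  have hFL : FL ([] : List R) (V ⧸ LinearMap.range f) := by
    unfold FL
    rw [Ideal.ofList_nil, sup_bot_eq, Ideal.radical_eq_sInf]
    refine le_sInf ?_
    rintro q ⟨hq1, hq⟩
    have h1 : P ≤ q := (hPann.trans (LinearMap.annihilator_le_of_surjective _
      (Submodule.mkQ_surjective _))).trans hq1
    have h2 : c ∈ q := by
      apply hq1
      rw [Module.mem_annihilator]
      intro v
      obtain ⟨v, rfl⟩ := Submodule.mkQ_surjective _ v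
      rw [← map_smul, Submodule.mkQ_apply, Submodule.Quotient.mk_eq_zero]
      obtain ⟨d, hd⟩ := hc v
      refine ⟨d, ?_⟩
      rw [← algebraMap_smul (R ⧸ P) c v]
      exact hd.symm
    have h3 : P < q := lt_of_le_of_ne h1 (fun h => hcP (h ▸ h2))
    exact (eq_maximalIdeal_of_coheight_one P hPd q h3).ge
  refine ⟨V, inferInstance, inferInstance, inferInstance, aV, fV, f, hinj, ?_, hPann, ?_⟩
  · exact supportDim_le_length [] (by simp only [List.not_mem_nil, mem_maximalIdeal, mem_nonunits_iff, IsEmpty.forall_iff, implies_true]) _ hFL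
  · rw [← hrange]
    exact hFL.length_ne_top

end coheight

variable {R₁ R₂ T : Type u} [CommRing R₁] [CommRing R₂] [CommRing T]
  [IsRegularLocalRing R₁] [IsRegularLocalRing R₂] [IsRegularLocalRing T]
  [Algebra R₁ T] [Algebra R₂ T] [Module.Flat R₁ T] [Module.Flat R₂ T]
  [IsLocalHom (algebraMap R₁ T)] [IsLocalHom (algebraMap R₂ T)] {r₁ r₂ t b : ℕ}

theorem hOne_complete (h1 : ringKrullDim R₁ = r₁) (h2 : ringKrullDim R₂ = r₂)
    (ht : ringKrullDim T = t) (hb : r₁ + r₂ = t + b) [IsAdicComplete (maximalIdeal R₁) R₁] :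
    HOne R₁ R₂ T t b := by
  intro P hP hPd G _ _ _ hFP
  obtain ⟨V, _, _, _, _, _, f, hf, hdim, hPann, hlen⟩ := exists_dvr_of_prime P hPd
  have hFPV : FP R₁ R₂ T V G := hFP.mono (by rwa [Ideal.annihilator_quotient]) le_rfl
  have hposV : Pos R₁ R₂ T t b V G := stepHyp_all h2 G
    (Module.length R₁ (V ⧸ LinearMap.range (Algebra.linearMap R₁ V))).toNat R₁ T r₁ t h1 ht hb
    (ENat.natCast_toNat hlen).ge hFPV
  have hdimV := supportDim_dvr R₁ V
  have hex : Exact f (LinearMap.range f).mkQ := by
    intro x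
    rw [Submodule.mkQ_apply, Submodule.Quotient.mk_eq_zero]
    rfl
  have hadd := chi_add ht f (LinearMap.range f).mkQ hf (Submodule.mkQ_surjective _) hex G hFPV
  have hq := pos_dim_zero h1 h2 ht hb G (V ⧸ LinearMap.range f) hdim (hFPV.mono
    (LinearMap.annihilator_le_of_surjective _ (Submodule.mkQ_surjective _)) le_rfl)
  rw [hq.zero, add_zero] at hadd
  · refine ⟨?_, ?_, ?_, ?_⟩
    · rw [hPd, ← hdimV]; exact hposV.dim_le
    · rw [← hadd]; exact hposV.nonneg
    · rw [hPd, ← hdimV, ← hadd]; exact hposV.pos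
    · rw [hPd, ← hdimV, ← hadd]; exact hposV.zero
  · intro e g he hg
    have h3 : (e : WithBot ℕ∞) ≤ 0 := he.trans hdim
    have h4 : e ≤ 0 := by exact_mod_cast h3
    have := hposV.dim_le 1 g hdimV.ge hg
    omega

end Vale.Agent.P177
end
end

section

section

/-!
Serre's statements for primes of coheight one, by passing to completions.
-/

namespace Vale.Agent.P177

open CategoryTheory TensorProduct Function IsLocalRing RingTheory.Sequence Pointwise

universe u

section descend

variable {R₁ R₂ T S C : Type u} [CommRing R₁] [CommRing R₂] [CommRing T] [CommRing S] [CommRing C]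
  [Algebra R₁ T] [Algebra R₂ T] [Algebra R₁ S] [Algebra S C] [Algebra T C] [Algebra R₁ C]
  [Algebra R₂ C] [IsScalarTower R₁ S C] [IsScalarTower R₁ T C] [IsScalarTower R₂ T C]

theorem chi_descend [IsLocalRing T] [IsLocalRing C] [Module.Flat T C]
    (hloc : (maximalIdeal T).map (algebraMap T C) = maximalIdeal C) (t : ℕ) (E G : Type u)
    [AddCommGroup E] [Module R₁ E] [AddCommGroup G] [Module R₂ G] :
    chi S R₂ C t (S ⊗[R₁] E) G = chi R₁ R₂ T t E G := by
  unfold chi
  have e1 : (C ⊗[S] (S ⊗[R₁] E)) ≃ₗ[C] (C ⊗[T] (T ⊗[R₁] E)) :=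
    AlgebraTensorModule.cancelBaseChange R₁ S C C E ≪≫ₗ
      (AlgebraTensorModule.cancelBaseChange R₁ T C C E).symm
  have e2 : (C ⊗[R₂] G) ≃ₗ[C] (C ⊗[T] (T ⊗[R₂] G)) :=
    (AlgebraTensorModule.cancelBaseChange R₂ T C C G).symm
  rw [eulerTor_congr e1 e2]
  unfold eulerTor
  refine Finset.sum_congr rfl fun j _ => ?_
  rw [length_tor_bc₂ (A := T) (C := C) hloc j (TensorProduct.isBaseChange T (T ⊗[R₁] E) C)
    (TensorProduct.isBaseChange T (T ⊗[R₂] G) C)]

theorem FP.ascend [IsLocalRing T] [IsLocalRing C]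
    (hloc : (maximalIdeal T).map (algebraMap T C) = maximalIdeal C) (E G : Type u)
    [AddCommGroup E] [Module R₁ E] [AddCommGroup G] [Module R₂ G] (h : FP R₁ R₂ T E G) :
    FP S R₂ C (S ⊗[R₁] E) G := by
  unfold FP at h ⊢
  rw [← hloc]
  refine (Ideal.map_mono h).trans ((Ideal.map_radical_le _).trans (Ideal.radical_mono ?_))
  rw [Ideal.map_sup, Ideal.map_map, Ideal.map_map, ← IsScalarTower.algebraMap_eq,
    ← IsScalarTower.algebraMap_eq]
  refine sup_le_sup ?_ le_rfl
  rw [IsScalarTower.algebraMap_eq R₁ S C, ← Ideal.map_map]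
  exact Ideal.map_mono (map_ann_le_tensor E)

theorem Pos.descend [IsRegularLocalRing R₁] [IsRegularLocalRing T] [IsRegularLocalRing S]
    [IsRegularLocalRing C] [Module.Flat R₁ S] [Module.Flat T C]
    (hlocS : (maximalIdeal R₁).map (algebraMap R₁ S) = maximalIdeal S)
    (hloc : (maximalIdeal T).map (algebraMap T C) = maximalIdeal C) {r : ℕ}
    (hr : ringKrullDim R₁ = r) (hs : ringKrullDim S = r) {t b : ℕ} (E G : Type u)
    [AddCommGroup E] [Module R₁ E] [Module.Finite R₁ E] [AddCommGroup G] [Module R₂ G]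
    (h : Pos S R₂ C t b (S ⊗[R₁] E) G) : Pos R₁ R₂ T t b E G := by
  have hS : IsLocalHom (algebraMap R₁ S) := isLocalHom_of_map_maximalIdeal _ _ hlocS
  have hle := supportDim_le_baseChange R₁ S hlocS E
  have hchi := chi_descend (R₁ := R₁) (R₂ := R₂) (S := S) hloc t E G
  refine ⟨?_, ?_, ?_, ?_⟩
  · intro e g he hg
    exact h.dim_le e g (he.trans hle) hg
  · rw [← hchi]; exact h.nonneg
  · intro e g he hg hb
    rw [← hchi]
    exact h.pos e g (he.trans hle) hg hb
  · intro hh
    rw [← hchi]
    refine h.zero fun e g he hg => ?_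
    obtain ⟨e', he', hee'⟩ := supportDim_baseChange_le hr hs E e he
    have := hh e' g he' hg
    omega

end descend

variable {R₁ R₂ T : Type u} [CommRing R₁] [CommRing R₂] [CommRing T]
  [IsRegularLocalRing R₁] [IsRegularLocalRing R₂] [IsRegularLocalRing T]
  [Algebra R₁ T] [Algebra R₂ T] [Module.Flat R₁ T] [Module.Flat R₂ T]
  [IsLocalHom (algebraMap R₁ T)] [IsLocalHom (algebraMap R₂ T)] {r₁ r₂ t b : ℕ}

/-- Serre's statements when the first module has dimension at most one. -/
theorem pos_dim_le_one (h1 : ringKrullDim R₁ = r₁) (h2 : ringKrullDim R₂ = r₂)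
    (ht : ringKrullDim T = t) (hb : r₁ + r₂ = t + b) (G : Type u)
    [AddCommGroup G] [Module R₂ G]
    [Module.Finite R₂ G] (E : Type u) [AddCommGroup E] [Module R₁ E] [Module.Finite R₁ E]
    (hE : Module.supportDim R₁ E ≤ ((1 : ℕ) : WithBot ℕ∞)) (h : FP R₁ R₂ T E G) :
    Pos R₁ R₂ T t b E G := by
  obtain ⟨S, _, _, _, hflatS, hlhS, hlocS, hdimS, hcS, huniv⟩ := exists_regular_completion R₁ h1
  obtain ⟨C, _, _, _, hflatC, hlhC, hlocC, hdimC, hcC, -⟩ := exists_regular_completion T ht
  have hmap : maximalIdeal R₁ ≤ (maximalIdeal C).comap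
      ((algebraMap T C).comp (algebraMap R₁ T)) := by
    intro x hx
    exact algebraMap_mem_maximalIdeal (R := T) (T := C)
      (algebraMap_mem_maximalIdeal (R := R₁) (T := T) hx)
  obtain ⟨g, hg⟩ := huniv C (maximalIdeal C) ((algebraMap T C).comp (algebraMap R₁ T)) hmap
  let aSC : Algebra S C := g.toAlgebra
  let a1C : Algebra R₁ C := ((algebraMap T C).comp (algebraMap R₁ T)).toAlgebra
  let a2C : Algebra R₂ C := ((algebraMap T C).comp (algebraMap R₂ T)).toAlgebra
  have t1 : IsScalarTower R₁ T C := IsScalarTower.of_algebraMap_eq fun x => rfl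
  have t2 : IsScalarTower R₂ T C := IsScalarTower.of_algebraMap_eq fun x => rfl
  have t3 : IsScalarTower R₁ S C := IsScalarTower.of_algebraMap_eq fun x =>
    (RingHom.congr_fun hg x).symm
  have f1 : Module.Flat R₁ C := Module.Flat.trans R₁ T C
  have f2 : Module.Flat R₂ C := Module.Flat.trans R₂ T C
  have l2 : IsLocalHom (algebraMap R₂ C) := by
    rw [IsScalarTower.algebraMap_eq R₂ T C]
    infer_instance
  have lS : IsLocalHom (algebraMap S C) := by
    refine ((IsLocalRing.local_hom_TFAE (algebraMap S C)).out 0 2).mpr ?_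
    rw [← hlocS, Ideal.map_map, ← IsScalarTower.algebraMap_eq, Ideal.map_le_iff_le_comap]
    exact hmap
  have fS : Module.Flat S C := by
    apply flat_of_tor_residue
    have h3 := tor_subsingleton_bc (S := R₁) (B := S) 0
      (TensorProduct.isBaseChange R₁ (R₁ ⧸ maximalIdeal R₁) S) C
    have e1 : (S ⊗[R₁] (R₁ ⧸ maximalIdeal R₁)) ≃ₗ[S] (S ⧸ maximalIdeal S) :=
      (Algebra.TensorProduct.quotIdealMapEquivTensorQuot S (maximalIdeal R₁)).symm.toLinearEquiv
        ≪≫ₗ Submodule.quotEquivOfEq _ _ hlocS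
    exact (torCongrLeft 1 e1 C).symm.toEquiv.subsingleton
  have hdimE : Module.supportDim S (S ⊗[R₁] E) ≤ ((1 : ℕ) : WithBot ℕ∞) := by
    by_contra hcon
    rw [not_le] at hcon
    obtain ⟨e, he, hee⟩ := supportDim_baseChange_le h1 hdimS E _ (succ_le_of_lt_withBot hcon)
    have h4 : e ≤ 1 := by exact_mod_cast he.trans hE
    omega
  have H : HOne S R₂ C t b := hOne_complete hdimS h2 hdimC hb
  have hpos := pos_dim_one hdimS h2 hdimC hb H G (S ⊗[R₁] E) hdimE (FP.ascend hlocC E G h)
  exact Pos.descend hlocS hlocC h1 hdimS E G hpos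

theorem hOne_all (h1 : ringKrullDim R₁ = r₁) (h2 : ringKrullDim R₂ = r₂)
    (ht : ringKrullDim T = t) (hb : r₁ + r₂ = t + b) : HOne R₁ R₂ T t b :=
  fun P _ hPd G _ _ _ hFP => pos_dim_le_one h1 h2 ht hb G (R₁ ⧸ P) hPd.le hFP

end Vale.Agent.P177
end
end

section

section

/-!
The local positivity statement for `dim R₁ + dim R₂ - dim T ≤ 4`.
-/

namespace Vale.Agent.P177

open TensorProduct IsLocalRing

universe u

/-- The local positivity statement for `b ≤ 4`. -/
theorem locPos_four : LocPos.{u} 4 := by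
  intro R₁ R₂ T _ _ _ _ _ _ _ _ _ _ _ _ r₁ r₂ t b h1 h2 ht hb hb4 E G _ _ _ _ _ _ hFP
  have H := hOne_all (R₁ := R₁) (R₂ := R₂) (T := T) h1 h2 ht hb
  have H' := hOne_all (R₁ := R₂) (R₂ := R₁) (T := T) h2 h1 ht (by omega : r₂ + r₁ = t + b)
  have hpos := pos_of_hOne h1 h2 ht hb hb4 H H' E G hFP
  exact ⟨hpos.dim_le, hpos.nonneg, hpos.pos⟩

end Vale.Agent.P177
end
end

section

section

/-!
The kernel of a surjection from a regular local ring onto a flat extension of a hypersurface
of the same embedding codimension is principal.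
-/

namespace Vale.Agent.P177

open IsLocalRing RingTheory.Sequence Pointwise TensorProduct

universe u

lemma maximalIdeal_ne_sq (R : Type u) [CommRing R] [IsRegularLocalRing R] {n : ℕ}
    (hn : ringKrullDim R = (n + 1 : ℕ)) : ¬ maximalIdeal R ≤ maximalIdeal R ^ 2 := by
  intro hle
  have hbot : maximalIdeal R = ⊥ := by
    apply Submodule.eq_bot_of_le_smul_of_le_jacobson_bot (maximalIdeal R) _
      ((maximalIdeal R).fg_of_isNoetherianRing)
    · rw [smul_eq_mul, ← pow_two]; exact hle
    · rw [IsLocalRing.jacobson_eq_maximalIdeal _ bot_ne_top]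
  have h1 := exists_nat_ringKrullDim R
  rw [hbot, Submodule.spanFinrank_bot, hn] at h1
  norm_cast at h1

lemma isPrime_span_singleton (R : Type u) [CommRing R] [IsRegularLocalRing R] {y : R}
    (hy : y ∈ maximalIdeal R) (hy2 : y ∉ maximalIdeal R ^ 2) : (Ideal.span {y}).IsPrime := by
  have := (regular_quotient R y hy hy2).1
  have := regular_isDomain (R ⧸ Ideal.span {y})
  exact (Ideal.Quotient.isDomain_iff_prime _).mp this

theorem exists_prime_not_dvd (R : Type u) [CommRing R] [IsRegularLocalRing R] (a : R) (ha : a ≠ 0)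
    (hd : 2 ≤ ringKrullDim R) :
    ∃ y ∈ maximalIdeal R, y ∉ maximalIdeal R ^ 2 ∧ a ∉ Ideal.span {y} := by
  classical
  have : IsDomain R := regular_isDomain R
  by_contra hcon
  push Not at hcon
  have hfin := Ideal.finite_minimalPrimes_of_isNoetherianRing R (Ideal.span {a})
  have hsub : (maximalIdeal R : Set R) ⊆
      ⋃ i ∈ (↑(insert (maximalIdeal R ^ 2) hfin.toFinset) : Set (Ideal R)),
        ((id i : Ideal R) : Set R) := by
    intro z hz
    by_cases hz2 : z ∈ maximalIdeal R ^ 2
    · exact Set.mem_biUnion (Finset.mem_coe.mpr (Finset.mem_insert_self _ _)) hz2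
    · have hza := hcon z hz hz2
      have hzp := isPrime_span_singleton R hz hz2
      obtain ⟨P, hP, hPle⟩ := Ideal.exists_minimalPrimes_le (I := Ideal.span {a})
        (J := Ideal.span {z}) (by rwa [Ideal.span_singleton_le_iff_mem])
      have hPp : P.IsPrime := hP.1.1
      have haP : a ∈ P := hP.1.2 (Ideal.mem_span_singleton_self a)
      have hzP : z ∈ P := by
        by_contra hzP
        have hPbot : P = ⊥ := by
          apply Submodule.eq_bot_of_le_smul_of_le_jacobson_bot (maximalIdeal R) P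
            P.fg_of_isNoetherianRing
          · intro c hc
            obtain ⟨b, rfl⟩ := Ideal.mem_span_singleton'.mp (hPle hc)
            have hb : b ∈ P := (hPp.mem_or_mem hc).resolve_right hzP
            rw [mul_comm]
            exact Submodule.smul_mem_smul hz hb
          · rw [IsLocalRing.jacobson_eq_maximalIdeal _ bot_ne_top]
        rw [hPbot] at haP
        exact ha haP
      exact Set.mem_biUnion (Finset.mem_coe.mpr (Finset.mem_insert_of_mem
        (hfin.mem_toFinset.mpr hP))) hzP
  obtain ⟨n, hn⟩ := exists_nat_eq_ringKrullDim R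
  rw [Ideal.subset_union_prime (f := id) (maximalIdeal R ^ 2) (maximalIdeal R ^ 2)] at hsub
  · obtain ⟨P, hP, hle⟩ := hsub
    rcases Finset.mem_insert.mp hP with rfl | hP
    · obtain ⟨m, rfl⟩ : ∃ m, n = m + 1 := by
        rw [hn] at hd
        norm_cast at hd
        exact ⟨n - 1, by omega⟩
      exact maximalIdeal_ne_sq R hn hle
    · have hPmin := hfin.mem_toFinset.mp hP
      have hPp : P.IsPrime := hPmin.1.1
      have hPeq : P = maximalIdeal R := le_antisymm (le_maximalIdeal hPp.ne_top) hle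
      have h1 : P.height ≤ 1 := by
        have : (Ideal.span {a}).IsPrincipal := ⟨a, rfl⟩
        exact Ideal.height_le_one_of_isPrincipal_of_mem_minimalPrimes _ _ hPmin
      have h2 := maximalIdeal_height_eq_ringKrullDim (R := R)
      rw [← hPeq] at h2
      rw [← h2] at hd
      have h3 : (2 : WithBot ℕ∞) ≤ ((1 : ℕ∞) : WithBot ℕ∞) := hd.trans (by exact_mod_cast h1)
      norm_cast at h3
  · intro P hP h1 _
    rcases Finset.mem_insert.mp hP with rfl | hP
    · exact absurd rfl h1
    · exact (hfin.mem_toFinset.mp hP).1.1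

lemma isPrincipalIdealRing_of_dim_one (S : Type u) [CommRing S] [IsRegularLocalRing S]
    (hS : ringKrullDim S = 1) : IsPrincipalIdealRing S := by
  have : IsDomain S := regular_isDomain S
  have h1 := exists_nat_ringKrullDim S
  rw [hS] at h1
  have h2 : (maximalIdeal S).spanFinrank = 1 := by
    exact_mod_cast h1.symm
  have h3 : (maximalIdeal S).IsPrincipal := ((Submodule.spanFinrank_eq_one_iff _).mp h2).1
  exact ((tfae_of_isNoetherianRing_of_isLocalRing_of_isDomain S).out 4 0).mp h3

lemma exists_pow_le_span (R : Type u) [CommRing R] [IsRegularLocalRing R]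
    (hR : ringKrullDim R = 1) (a : R) (ha : a ≠ 0) :
    ∃ N : ℕ, maximalIdeal R ^ N ≤ Ideal.span {a} := by
  have : IsDomain R := regular_isDomain R
  have := isPrincipalIdealRing_of_dim_one R hR
  by_cases hu : IsUnit a
  · exact ⟨0, by simp [Ideal.span_singleton_eq_top.mpr hu]⟩
  have h := ((tfae_of_isNoetherianRing_of_isLocalRing_of_isDomain R).out 0 6).mp
    ‹IsPrincipalIdealRing R›
  obtain ⟨N, hN⟩ := h (Ideal.span {a}) (by simpa only [ne_eq, Submodule.span_eq_bot, Set.mem_singleton_iff, forall_eq] using ha)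
  exact ⟨N, hN.ge⟩

lemma flat_quotient_map (A C : Type u) [CommRing A] [CommRing C] [Algebra A C] [Module.Flat A C]
    (I : Ideal A) : Module.Flat (A ⧸ I) (C ⧸ I.map (algebraMap A C)) := by
  let e₁ : (C ⧸ I.map (algebraMap A C)) ≃ₗ[A] (A ⧸ I) ⊗[A] C :=
    ((Algebra.TensorProduct.quotIdealMapEquivTensorQuot C I).toLinearEquiv.restrictScalars A).trans
      (TensorProduct.comm A C (A ⧸ I))
  let e₂ : (C ⧸ I.map (algebraMap A C)) ≃ₗ[A ⧸ I] (A ⧸ I) ⊗[A] C :=
    e₁.extendScalarsOfSurjective Ideal.Quotient.mk_surjective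
  exact Module.Flat.of_linearEquiv e₂

theorem ker_principal_aux (n : ℕ) : ∀ {R S C A : Type u} [CommRing R] [IsRegularLocalRing R]
    [CommRing S] [IsRegularLocalRing S] [CommRing A] [CommRing C] [IsLocalRing C]
    [Algebra A C] [Module.Flat A C] (ψ : R →+* A) (_ : Function.Surjective ψ) (a : R)
    (_ : RingHom.ker ψ = Ideal.span {a}) (_ : a ∈ maximalIdeal R ^ 2) (_ : a ≠ 0)
    (_ : ((maximalIdeal R).map ψ).map (algebraMap A C) = maximalIdeal C)
    (φ : S →+* C) (_ : Function.Surjective φ)
    (_ : ringKrullDim R = n) (_ : ringKrullDim S = n),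
    ∃ g : S, g ≠ 0 ∧ RingHom.ker φ = Ideal.span {g} := by
  induction n with
  | zero =>
    intro R S C A _ _ _ _ _ _ _ _ _ ψ hψ a hker ha ha0 hloc φ hφ hR hS
    exfalso
    have h1 := exists_nat_ringKrullDim R
    rw [hR] at h1
    have h2 : (maximalIdeal R).spanFinrank = 0 := by exact_mod_cast h1.symm
    rw [Submodule.spanFinrank_eq_zero_iff_eq_bot ((maximalIdeal R).fg_of_isNoetherianRing)] at h2
    rw [h2] at ha
    apply ha0
    simpa only [pow_two, Submodule.mul_bot, Submodule.mem_bot] using ha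
  | succ n ih =>
    intro R S C A _ _ _ _ _ _ _ _ _ ψ hψ a hker ha ha0 hloc φ hφ hR hS
    have hRd : IsDomain R := regular_isDomain R
    have hSd : IsDomain S := regular_isDomain S
    have hloc' : (maximalIdeal R).map ((algebraMap A C).comp ψ) = maximalIdeal C := by
      rw [← hloc, Ideal.map_map]
    have hA : Nontrivial A := by
      by_contra hcon
      rw [not_nontrivial_iff_subsingleton] at hcon
      have : (1 : C) = 0 := by
        rw [← map_one (algebraMap A C), Subsingleton.elim (1 : A) 0, map_zero]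
      exact one_ne_zero this
    have hAl : IsLocalRing A := .of_surjective' ψ hψ
    have hmA : (maximalIdeal R).map ψ = maximalIdeal A :=
      map_maximalIdeal_of_surjective _ hψ
    have hlh : IsLocalHom (algebraMap A C) := by
      apply ((local_hom_TFAE (algebraMap A C)).out 0 2).mpr
      rw [← hmA, hloc]
    have hff : Module.FaithfullyFlat A C := Module.FaithfullyFlat.of_flat_of_isLocalHom
    rcases n with _ | n
    · -- dimension one
      have hSp := isPrincipalIdealRing_of_dim_one S (by simpa only [zero_add, Nat.cast_one] using hS)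
      obtain ⟨N, hN⟩ := exists_pow_le_span R (by simpa only [zero_add, Nat.cast_one] using hR) a ha0
      obtain ⟨g, hg⟩ := (IsPrincipalIdealRing.principal (RingHom.ker φ)).principal
      refine ⟨g, ?_, hg⟩
      rintro rfl
      have hinj : Function.Injective φ := by
        rw [RingHom.injective_iff_ker_eq_bot, hg]
        simp only [Submodule.span_zero_singleton]
      have hnil : maximalIdeal C ^ N = ⊥ := by
        rw [← hloc', ← Ideal.map_pow, eq_bot_iff]
        refine (Ideal.map_mono hN).trans ?_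
        rw [Ideal.map_span, Set.image_singleton, Ideal.span_singleton_le_iff_mem, Ideal.mem_bot,
          RingHom.comp_apply]
        have : ψ a = 0 := by
          rw [← RingHom.mem_ker, hker]; exact Ideal.mem_span_singleton_self a
        rw [this, map_zero]
      have hbot : maximalIdeal S = ⊥ := by
        rw [eq_bot_iff]
        intro s hs
        have h1 : φ s ∈ maximalIdeal C := by
          rw [← map_maximalIdeal_of_surjective φ hφ]
          exact Ideal.mem_map_of_mem _ hs
        have h2 : φ (s ^ N) = 0 := by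
          have := Ideal.pow_mem_pow h1 N
          rw [hnil] at this
          rw [map_pow]; exact this
        have h3 : s ^ N = 0 := hinj (by rw [h2, map_zero])
        exact eq_zero_of_pow_eq_zero h3
      have h4 := exists_nat_ringKrullDim S
      rw [hbot, Submodule.spanFinrank_bot, hS] at h4
      norm_cast at h4
    · -- dimension at least two
      obtain ⟨y, hy, hy2, hay⟩ := exists_prime_not_dvd R a ha0 (by
        rw [hR]; exact_mod_cast (by omega : 2 ≤ n + 1 + 1))
      obtain ⟨Y, hY⟩ := hφ (algebraMap A C (ψ y))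
      have hyC : algebraMap A C (ψ y) ∈ maximalIdeal C := by
        rw [← hloc]
        exact Ideal.mem_map_of_mem _ (Ideal.mem_map_of_mem _ hy)
      have hYm : Y ∈ maximalIdeal S := by
        rw [mem_maximalIdeal]
        intro hu
        have := hu.map φ
        rw [hY] at this
        exact (mem_maximalIdeal _).mp hyC this
      have hYm2 : Y ∉ maximalIdeal S ^ 2 := by
        intro hcon
        have h1 : algebraMap A C (ψ y) ∈ maximalIdeal C ^ 2 := by
          rw [← hY, ← map_maximalIdeal_of_surjective φ hφ, ← Ideal.map_pow]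
          exact Ideal.mem_map_of_mem _ hcon
        have h2 : ψ y ∈ maximalIdeal A ^ 2 := by
          rw [← Ideal.comap_map_eq_self_of_faithfullyFlat (B := C) (maximalIdeal A ^ 2),
            Ideal.mem_comap, Ideal.map_pow, ← hmA, hloc]
          exact h1
        rw [← hmA, ← Ideal.map_pow] at h2
        obtain ⟨y', hy', hyy⟩ := (Ideal.mem_map_iff_of_surjective ψ hψ).mp h2
        have h3 : y - y' ∈ RingHom.ker ψ := by
          rw [RingHom.mem_ker, map_sub, hyy, sub_self]
        rw [hker] at h3
        have h4 : y - y' ∈ maximalIdeal R ^ 2 :=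
          (Ideal.span_singleton_le_iff_mem _).mpr ha h3
        exact hy2 (by simpa using add_mem h4 hy')
      obtain ⟨hregR, hdimR⟩ := regular_quotient R y hy hy2
      obtain ⟨hregS, hdimS⟩ := regular_quotient S Y hYm hYm2
      -- the quotient data
      let I : Ideal A := Ideal.span {ψ y}
      have hImap : I.map (algebraMap A C) = Ideal.span {algebraMap A C (ψ y)} := by
        rw [Ideal.map_span, Set.image_singleton]
      have hflat : Module.Flat (A ⧸ I) (C ⧸ I.map (algebraMap A C)) := flat_quotient_map A C I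
      have hne : I.map (algebraMap A C) ≠ ⊤ := by
        rw [hImap]
        intro h
        rw [Ideal.span_singleton_eq_top] at h
        exact (mem_maximalIdeal _).mp hyC h
      have hnt : Nontrivial (C ⧸ I.map (algebraMap A C)) := Ideal.Quotient.nontrivial_iff.mpr hne
      have hCl : IsLocalRing (C ⧸ I.map (algebraMap A C)) :=
        .of_surjective' (Ideal.Quotient.mk _) Ideal.Quotient.mk_surjective
      let ψ' : R ⧸ Ideal.span {y} →+* A ⧸ I :=
        Ideal.quotientMap I ψ (by
          rw [Ideal.span_singleton_le_iff_mem, Ideal.mem_comap]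
          exact Ideal.mem_span_singleton_self _)
      have hψ' : Function.Surjective ψ' := Ideal.quotientMap_surjective hψ
      let φ' : S ⧸ Ideal.span {Y} →+* C ⧸ I.map (algebraMap A C) :=
        Ideal.quotientMap _ φ (by
          rw [Ideal.span_singleton_le_iff_mem, Ideal.mem_comap, hImap, hY]
          exact Ideal.mem_span_singleton_self _)
      have hφ' : Function.Surjective φ' := Ideal.quotientMap_surjective hφ
      have hker' : RingHom.ker ψ' = Ideal.span {Ideal.Quotient.mk (Ideal.span {y}) a} := by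
        apply le_antisymm
        · intro r hr
          obtain ⟨r, rfl⟩ := Ideal.Quotient.mk_surjective r
          rw [RingHom.mem_ker, Ideal.quotientMap_mk, Ideal.Quotient.eq_zero_iff_mem] at hr
          obtain ⟨c, hc⟩ := Ideal.mem_span_singleton'.mp hr
          obtain ⟨c, rfl⟩ := hψ c
          have h3 : r - c * y ∈ RingHom.ker ψ := by
            rw [RingHom.mem_ker, map_sub, map_mul, hc, sub_self]
          rw [hker] at h3
          obtain ⟨b, hb⟩ := Ideal.mem_span_singleton'.mp h3
          rw [Ideal.mem_span_singleton']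
          refine ⟨Ideal.Quotient.mk _ b, ?_⟩
          rw [← map_mul, hb, Ideal.Quotient.mk_eq_mk_iff_sub_mem]
          have : r - c * y - r = -(c * y) := by ring
          rw [this, neg_mem_iff]
          exact Ideal.mul_mem_left _ _ (Ideal.mem_span_singleton_self _)
        · rw [Ideal.span_singleton_le_iff_mem, RingHom.mem_ker, Ideal.quotientMap_mk]
          have : ψ a = 0 := by
            rw [← RingHom.mem_ker, hker]; exact Ideal.mem_span_singleton_self a
          rw [this, map_zero]
      have hmR : (maximalIdeal R).map (Ideal.Quotient.mk (Ideal.span {y})) =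
          maximalIdeal (R ⧸ Ideal.span {y}) :=
        map_maximalIdeal_of_surjective _ Ideal.Quotient.mk_surjective
      have ha' : Ideal.Quotient.mk (Ideal.span {y}) a ∈ maximalIdeal (R ⧸ Ideal.span {y}) ^ 2 := by
        rw [← hmR, ← Ideal.map_pow]
        exact Ideal.mem_map_of_mem _ ha
      have ha0' : Ideal.Quotient.mk (Ideal.span {y}) a ≠ 0 := by
        rw [Ne, Ideal.Quotient.eq_zero_iff_mem]
        exact hay
      have hloc'' : ((maximalIdeal (R ⧸ Ideal.span {y})).map ψ').map
          (algebraMap (A ⧸ I) (C ⧸ I.map (algebraMap A C))) =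
          maximalIdeal (C ⧸ I.map (algebraMap A C)) := by
        rw [← hmR, ← map_maximalIdeal_of_surjective (Ideal.Quotient.mk (I.map (algebraMap A C)))
          Ideal.Quotient.mk_surjective, ← hloc, Ideal.map_map, Ideal.map_map, Ideal.map_map,
          Ideal.map_map]
        rfl
      have hdR : ringKrullDim (R ⧸ Ideal.span {y}) = (n + 1 : ℕ) := by
        obtain ⟨k, hk⟩ := exists_nat_eq_ringKrullDim (R ⧸ Ideal.span {y})
        rw [hk, hR] at hdimR
        rw [hk]
        norm_cast at hdimR ⊢
        omega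
      have hdS : ringKrullDim (S ⧸ Ideal.span {Y}) = (n + 1 : ℕ) := by
        obtain ⟨k, hk⟩ := exists_nat_eq_ringKrullDim (S ⧸ Ideal.span {Y})
        rw [hk, hS] at hdimS
        rw [hk]
        norm_cast at hdimS ⊢
        omega
      obtain ⟨g', hg'0, hg'⟩ := ih ψ' hψ' _ hker' ha' ha0' hloc'' φ' hφ' hdR hdS
      obtain ⟨G, hG⟩ := Ideal.Quotient.mk_surjective g'
      have hGk : φ' (Ideal.Quotient.mk _ G) = 0 := by
        rw [← RingHom.mem_ker, hg', hG]; exact Ideal.mem_span_singleton_self _
      rw [Ideal.quotientMap_mk, Ideal.Quotient.eq_zero_iff_mem, hImap] at hGk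
      obtain ⟨c, hc⟩ := Ideal.mem_span_singleton'.mp hGk
      obtain ⟨t, rfl⟩ := hφ c
      have hgk : φ (G - t * Y) = 0 := by
        rw [map_sub, map_mul, hY, hc, sub_self]
      have hgm : Ideal.Quotient.mk (Ideal.span {Y}) (G - t * Y) = g' := by
        rw [map_sub, hG, sub_eq_self, Ideal.Quotient.eq_zero_iff_mem]
        exact Ideal.mul_mem_left _ _ (Ideal.mem_span_singleton_self _)
      refine ⟨G - t * Y, ?_, ?_⟩
      · intro h0
        rw [h0, map_zero] at hgm
        exact hg'0 hgm.symm
      · have hreg : ∀ c : C, algebraMap A C (ψ y) * c = 0 → c = 0 := by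
          have hyA : IsSMulRegular A (ψ y) := by
            rw [isSMulRegular_iff_right_eq_zero_of_smul]
            intro r hr
            obtain ⟨r, rfl⟩ := hψ r
            rw [smul_eq_mul, ← map_mul, ← RingHom.mem_ker, hker] at hr
            obtain ⟨s, hs⟩ := Ideal.mem_span_singleton'.mp hr
            have hyp := isPrime_span_singleton R hy hy2
            have h5 : s * a ∈ Ideal.span {y} := by
              rw [hs]; exact Ideal.mul_mem_right _ _ (Ideal.mem_span_singleton_self _)
            obtain ⟨s', hs'⟩ := Ideal.mem_span_singleton'.mp ((hyp.mem_or_mem h5).resolve_right hay)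
            have hy0 : y ≠ 0 := fun h => hy2 (h ▸ zero_mem _)
            have h6 : s' * a = r := by
              apply mul_left_cancel₀ hy0
              rw [← hs, ← hs']; ring
            rw [← RingHom.mem_ker, hker, ← h6]
            exact Ideal.mul_mem_left _ _ (Ideal.mem_span_singleton_self _)
          have hyC' : IsSMulRegular C (algebraMap A C (ψ y)) := hyA.of_flat
          intro c hc'
          exact isSMulRegular_iff_right_eq_zero_of_smul.mp hyC' c hc'
        apply le_antisymm
        · apply Submodule.le_of_le_smul_of_le_jacobson_bot (I := maximalIdeal S)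
            ((RingHom.ker φ).fg_of_isNoetherianRing)
          · rw [IsLocalRing.jacobson_eq_maximalIdeal _ bot_ne_top]
          · intro κ hκ
            have h7 : Ideal.Quotient.mk (Ideal.span {Y}) κ ∈ RingHom.ker φ' := by
              rw [RingHom.mem_ker, Ideal.quotientMap_mk, hκ, map_zero]
            rw [hg', ← hgm] at h7
            obtain ⟨α, hα⟩ := Ideal.mem_span_singleton'.mp h7
            obtain ⟨α, rfl⟩ := Ideal.Quotient.mk_surjective α
            rw [← map_mul, eq_comm, Ideal.Quotient.mk_eq_mk_iff_sub_mem] at hα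
            obtain ⟨β, hβ⟩ := Ideal.mem_span_singleton'.mp hα
            have h8 : κ = α * (G - t * Y) + β * Y := by rw [hβ]; ring
            have h9 : φ β = 0 := by
              apply hreg
              have := congrArg φ h8
              rw [map_add, map_mul, map_mul, hgk, (RingHom.mem_ker).mp hκ, mul_zero, zero_add,
                hY] at this
              rw [mul_comm]; exact this.symm
            rw [h8]
            apply add_mem
            · exact Ideal.mem_sup_left (Ideal.mul_mem_left _ _ (Ideal.mem_span_singleton_self _))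
            · apply Ideal.mem_sup_right
              rw [mul_comm]
              exact Submodule.smul_mem_smul hYm ((RingHom.mem_ker).mpr h9)
        · rw [Ideal.span_singleton_le_iff_mem, RingHom.mem_ker, hgk]

theorem ker_isPrincipal {R S C : Type u} [CommRing R] [IsRegularLocalRing R]
    [CommRing S] [IsRegularLocalRing S] (hdim : ringKrullDim R = ringKrullDim S)
    [CommRing C] [IsLocalRing C] (a : R) (ha : a ∈ maximalIdeal R ^ 2) (ha0 : a ≠ 0)
    [Algebra (R ⧸ Ideal.span {a}) C] [Module.Flat (R ⧸ Ideal.span {a}) C]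
    (hloc : ((maximalIdeal R).map (Ideal.Quotient.mk (Ideal.span {a}))).map
      (algebraMap (R ⧸ Ideal.span {a}) C) = maximalIdeal C)
    (φ : S →+* C) (hφ : Function.Surjective φ) :
    ∃ g : S, g ≠ 0 ∧ RingHom.ker φ = Ideal.span {g} := by
  obtain ⟨n, hn⟩ := exists_nat_eq_ringKrullDim R
  exact ker_principal_aux n (Ideal.Quotient.mk (Ideal.span {a})) Ideal.Quotient.mk_surjective a
    Ideal.mk_ker ha ha0 hloc φ hφ hn (hdim ▸ hn)

end Vale.Agent.P177
end
end

section

section

/-!
Flatness of the directed unions of finite local subalgebras.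
-/

namespace Vale.Agent.P177

open IsLocalRing Function RingTheory.Sequence

universe u

theorem isLocalRing_of_integral_map {R A : Type u} [CommRing R] [IsLocalRing R] [CommRing A]
    [Algebra R A] [Algebra.IsIntegral R A]
    (h : ((maximalIdeal R).map (algebraMap R A)).IsMaximal) :
    ∃ _ : IsLocalRing A, (maximalIdeal R).map (algebraMap R A) = maximalIdeal A := by
  have h1 : IsLocalRing A := IsLocalRing.of_unique_max_ideal
    ⟨(maximalIdeal R).map (algebraMap R A), h, fun M hM => by
      have h2 : (M.comap (algebraMap R A)).IsMaximal :=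
        Ideal.isMaximal_comap_of_isIntegral_of_isMaximal M
      have h3 : M.comap (algebraMap R A) = maximalIdeal R := IsLocalRing.eq_maximalIdeal h2
      have h4 : (maximalIdeal R).map (algebraMap R A) ≤ M := by
        rw [Ideal.map_le_iff_le_comap, h3]
      exact (h.eq_of_le hM.ne_top h4).symm⟩
  exact ⟨h1, IsLocalRing.eq_maximalIdeal h⟩

theorem ringKrullDim_le_of_integral {R A : Type u} [CommRing R] [CommRing A]
    [Algebra R A] [Algebra.IsIntegral R A] (hinj : Injective (algebraMap R A)) :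
    ringKrullDim R ≤ ringKrullDim A := by
  refine iSup_le fun l => ?_
  obtain ⟨P, hP⟩ := (algebraMap_isIntegral_iff.2 ‹Algebra.IsIntegral R A›).comap_surjective hinj
    l.head
  have hlo : P.asIdeal.LiesOver l.head.asIdeal := ⟨by rw [← hP]; rfl⟩
  obtain ⟨L, hL, -⟩ := Ideal.exists_ltSeries_of_hasGoingUp l P.asIdeal
  rw [← hL]
  exact Order.LTSeries.length_le_krullDim L

section flat

variable {R : Type u} [CommRing R] [IsRegularLocalRing R] {Ω : Type u} [Field Ω] [Algebra R Ω]
  {d : ℕ} {x : Fin d → R} (hx : Ideal.span (Set.range x) = maximalIdeal R)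
  (hd : ringKrullDim R = d) (hinj : Injective (algebraMap R Ω))

include hx hd hinj in
theorem FinMax.flat {A : Subalgebra R Ω} (hA : FinMax x A) : Module.Flat R A := by
  have hfin : Module.Finite R A := hA.finite
  obtain ⟨hloc, hm⟩ := isLocalRing_of_integral_map (hA.isMaximal hx)
  have hN : IsNoetherianRing A := by
    have : IsNoetherian R A := isNoetherian_of_isNoetherianRing_of_finite R A
    exact isNoetherian_of_tower R this
  have hinj' : Injective (algebraMap R A) := fun a b hab => hinj (by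
    have := congrArg (Subtype.val : A → Ω) hab
    exact this)
  have hdim : ringKrullDim R ≤ ringKrullDim A := ringKrullDim_le_of_integral hinj'
  let rs : List R := List.ofFn x
  have hrs : Ideal.ofList rs = maximalIdeal R := by
    rw [← hx, Ideal.ofList]
    congr 1
    ext y
    simp [rs, List.mem_ofFn]
  have hrl : rs.length = d := by simp [rs]
  have hrsA : Ideal.ofList (rs.map (algebraMap R A)) = maximalIdeal A := by
    rw [← Ideal.map_ofList, hrs, hm]
  obtain ⟨hreg, hdA⟩ := isRegularLocalRing_of_list (rs.map (algebraMap R A)) hrsA (by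
    rw [List.length_map, hrl, ← hd]
    exact hdim)
  have hl : IsLocalHom (algebraMap R A) :=
    ((IsLocalRing.local_hom_TFAE (algebraMap R A)).out 0 2).2 hm.le
  refine flat_of_weaklyRegular rs hrs
    (isRegular_of_ofList_eq_maximalIdeal R rs hrs (by rw [hd, hrl])).toIsWeaklyRegular
    (isRegular_of_ofList_eq_maximalIdeal A (rs.map (algebraMap R A)) hrsA
      hdA.symm).toIsWeaklyRegular

include hx hd hinj in
theorem LocUnion.flat {A : Subalgebra R Ω} (hA : LocUnion x A) : Module.Flat R A := by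
  classical
  apply Module.Flat.of_forall_isTrivialRelation
  intro l f y h
  obtain ⟨A₀, h1, h2, h3⟩ := hA (Finset.univ.image fun i => (y i : Ω)) (by
    intro z hz
    obtain ⟨i, -, rfl⟩ := Finset.mem_image.1 hz
    exact (y i).2)
  have h4 : ∀ i, (y i : Ω) ∈ A₀ := fun i =>
    h2 _ (Finset.mem_image_of_mem _ (Finset.mem_univ i))
  have hfl : Module.Flat R A₀ := h3.flat hx hd hinj
  have h5 : ∑ i, f i • (⟨y i, h4 i⟩ : A₀) = 0 := by
    apply Subtype.ext
    have h6 := congrArg (Subtype.val : A → Ω) h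
    rw [AddSubmonoidClass.coe_finsetSum] at h6 ⊢
    exact h6
  obtain ⟨k, a, z, h6, h7⟩ := Module.Flat.isTrivialRelation_of_sum_smul_eq_zero h5
  refine ⟨k, a, fun j => ⟨z j, h1 (z j).2⟩, fun i => ?_, h7⟩
  apply Subtype.ext
  have h8 := congrArg (Subtype.val : A₀ → Ω) (h6 i)
  rw [AddSubmonoidClass.coe_finsetSum] at h8 ⊢
  exact h8

omit [IsRegularLocalRing R] in
theorem LocUnion.isIntegral {A : Subalgebra R Ω} (hA : LocUnion x A) : Algebra.IsIntegral R A := by
  refine ⟨fun y => ?_⟩
  obtain ⟨A₀, h1, h2, h3⟩ := hA {(y : Ω)} (by simp)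
  have hfin : Module.Finite R A₀ := h3.finite
  have h4 := Algebra.IsIntegral.isIntegral (R := R)
    (⟨y, h2 _ (Finset.mem_singleton_self _)⟩ : A₀)
  have h5 := h4.map (Subalgebra.inclusion h1)
  exact h5

end flat

end Vale.Agent.P177
end
end

section

section

namespace Vale.Agent.P177

open CategoryTheory IsLocalRing TensorProduct

universe u

theorem exists_nat_of_sum_eq (x y : WithBot ℕ∞) (d : ℕ) (h : x + y = (d : WithBot ℕ∞)) :
    ∃ a b : ℕ, x = (a : WithBot ℕ∞) ∧ y = (b : WithBot ℕ∞) ∧ a + b = d := by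
  induction x using WithBot.recBotCoe with
  | bot => simp at h
  | coe x =>
    induction y using WithBot.recBotCoe with
    | bot => simp at h
    | coe y =>
      have h1 : x + y = (d : ℕ∞) := by exact_mod_cast h
      have hx : x ≠ ⊤ := by
        rintro rfl
        rw [top_add] at h1
        exact absurd h1.symm (ENat.natCast_ne_top d)
      have hy : y ≠ ⊤ := by
        rintro rfl
        rw [add_top] at h1
        exact absurd h1.symm (ENat.natCast_ne_top d)
      lift x to ℕ using hx
      lift y to ℕ using hy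
      exact ⟨x, y, rfl, rfl, by exact_mod_cast h1⟩

end Vale.Agent.P177
end
end
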