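import Vale.Agent.P177.MathlibUsed
import Vale.Agent.P177.Bdl.B4
import Vale.Agent.P177.Bdl.B1
import Vale.Agent.P177.Bdl.B2
import Vale.Agent.P177.Bdl.B5
import Vale.Agent.P177.Bdl.B3
import Vale.Agent.P177.HDefs

set_option linter.all false

section

section

/-!
Local positivity at a prime lying over the maximal ideals.
-/

namespace Vale.Agent.P177

open CategoryTheory TensorProduct Function IsLocalRing RingTheory.Sequence Pointwise

universe u

section

theorem supportDim_atUnits {R L : Type u} [CommRing R] [CommRing L] [Algebra R L]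
    (e : R ≃ₐ[R] L) (N : Type u) [AddCommGroup N] [Module R N] [Module.Finite R N] :
    Module.supportDim L (L ⊗[R] N) = Module.supportDim R N := by
  have hs : Surjective (algebraMap R L) := fun y => ⟨e.symm y, by
    have := e.commutes (e.symm y)
    rw [← this]
    simp⟩
  let f : N ≃ₗ[R] L ⊗[R] N := (TensorProduct.lid R N).symm ≪≫ₗ
    TensorProduct.congr e.toLinearEquiv (LinearEquiv.refl R N)
  have hfin : Module.Finite R (L ⊗[R] N) := Module.Finite.equiv f
  rw [← supportDim_eq_of_surjective hs, ← Module.supportDim_eq_of_equiv f]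

variable {R₁ R₂ T : Type u} [CommRing R₁] [CommRing R₂] [CommRing T]
    [IsRegularLocalRing R₁] [IsRegularLocalRing R₂] [IsRegularLocalRing T]
    [Algebra R₁ T] [Algebra R₂ T] [Module.Flat R₁ T] [Module.Flat R₂ T]

theorem locPosAt_top (N M : Type u) [AddCommGroup N] [Module R₁ N] [Module.Finite R₁ N]
    [AddCommGroup M] [Module R₂ M] [Module.Finite R₂ M] (Q : Ideal T) [Q.IsPrime]
    (h₁ : Q.comap (algebraMap R₁ T) = maximalIdeal R₁)
    (h₂ : Q.comap (algebraMap R₂ T) = maximalIdeal R₂) (d : ℕ)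
    (hd₁ : ringKrullDim R₁ = d) (hd₂ : ringKrullDim R₂ = d)
    (hdW : ringKrullDim (Localization.AtPrime Q) = d)
    (hW : (∀ e g : ℕ, (e : WithBot ℕ∞) ≤ Module.supportDim R₁ N →
        (g : WithBot ℕ∞) ≤ Module.supportDim R₂ M → e + g ≤ d) ∧
      0 ≤ eulerTor (Localization.AtPrime Q) (d + 1) (Localization.AtPrime Q ⊗[R₁] N)
        (Localization.AtPrime Q ⊗[R₂] M) ∧
      (∀ e g : ℕ, (e : WithBot ℕ∞) ≤ Module.supportDim R₁ N →
        (g : WithBot ℕ∞) ≤ Module.supportDim R₂ M → d ≤ e + g →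
        0 < eulerTor (Localization.AtPrime Q) (d + 1) (Localization.AtPrime Q ⊗[R₁] N)
          (Localization.AtPrime Q ⊗[R₂] M))) :
    LocPosAt (T := T) R₁ R₂ N M Q := by
  intro L₁ L₂ _ _ _ _ _ _ D₁ D₂ r₁ r₂ q b k₁ k₂ kq hrb _
  have i1 := D₁.isloc
  have i2 := D₂.isloc
  have i3 := D₁.tower
  have i4 := D₂.tower
  have u₁ : (Q.comap (algebraMap R₁ T)).primeCompl ≤ IsUnit.submonoid R₁ := by
    intro x hx
    by_contra hcon
    apply hx
    change x ∈ Q.comap (algebraMap R₁ T)
    rw [h₁]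
    exact (mem_maximalIdeal _).2 hcon
  have u₂ : (Q.comap (algebraMap R₂ T)).primeCompl ≤ IsUnit.submonoid R₂ := by
    intro x hx
    by_contra hcon
    apply hx
    change x ∈ Q.comap (algebraMap R₂ T)
    rw [h₂]
    exact (mem_maximalIdeal _).2 hcon
  let e₁ : R₁ ≃ₐ[R₁] L₁ := IsLocalization.atUnits R₁ _ u₁
  let e₂ : R₂ ≃ₐ[R₂] L₂ := IsLocalization.atUnits R₂ _ u₂
  have s₁ : Module.supportDim L₁ (L₁ ⊗[R₁] N) = Module.supportDim R₁ N := supportDim_atUnits e₁ N
  have s₂ : Module.supportDim L₂ (L₂ ⊗[R₂] M) = Module.supportDim R₂ M := supportDim_atUnits e₂ M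
  have g₁ : r₁ = d := by
    rw [← ringKrullDim_eq_of_ringEquiv e₁.toRingEquiv, hd₁] at k₁
    exact_mod_cast k₁.symm
  have g₂ : r₂ = d := by
    rw [← ringKrullDim_eq_of_ringEquiv e₂.toRingEquiv, hd₂] at k₂
    exact_mod_cast k₂.symm
  have g₃ : q = d := by
    rw [hdW] at kq
    exact_mod_cast kq.symm
  have g₄ : b = d := by omega
  subst g₃ g₄
  let c₁ : (Localization.AtPrime Q ⊗[L₁] (L₁ ⊗[R₁] N)) ≃ₗ[Localization.AtPrime Q]
      (Localization.AtPrime Q ⊗[R₁] N) :=
    AlgebraTensorModule.cancelBaseChange R₁ L₁ (Localization.AtPrime Q) (Localization.AtPrime Q) N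
  let c₂ : (Localization.AtPrime Q ⊗[L₂] (L₂ ⊗[R₂] M)) ≃ₗ[Localization.AtPrime Q]
      (Localization.AtPrime Q ⊗[R₂] M) :=
    AlgebraTensorModule.cancelBaseChange R₂ L₂ (Localization.AtPrime Q) (Localization.AtPrime Q) M
  rw [s₁, s₂, eulerTor_congr c₁ c₂]
  exact hW

end

end Vale.Agent.P177
end
end

section

section

/-!
Positivity for modules killed by `p`.
-/

namespace Vale.Agent.P177

open CategoryTheory TensorProduct Function IsLocalRing RingTheory.Sequence Pointwise

universe u

theorem exists_completion (A : Type u) [CommRing A] [IsLocalRing A] [IsNoetherianRing A]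
    (p : ℕ) [hpp : Fact p.Prime] (hp : (p : A) = 0) (e : ℕ) (x : Fin e → A)
    (hx : Ideal.span (Set.range x) = maximalIdeal A) :
    ∃ (C : Type u) (_ : CommRing C) (_ : IsLocalRing C) (_ : Algebra A C) (_ : Module.Flat A C)
      (k : Type u) (_ : Field k) (φ : MvPowerSeries (Fin e) k →+* C),
      (maximalIdeal A).map (algebraMap A C) = maximalIdeal C ∧ Function.Surjective φ := by
  let C := AdicCompletion (maximalIdeal A) A
  have hloc : (maximalIdeal A).map (algebraMap A C) = maximalIdeal C :=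
    (AdicCompletion.maximalIdeal_eq_map (R := A)).symm
  have hpC : (p : C) = 0 := by
    have := congrArg (algebraMap A C) hp
    rwa [map_natCast, map_zero] at this
  have hchar : CharP C p := (CharP.charP_iff_prime_eq_zero hpp.out).2 hpC
  obtain ⟨σ, hσ⟩ := exists_coefficientField C p
  have hspan : Ideal.span (Set.range (algebraMap A C ∘ x)) = maximalIdeal C := by
    rw [Set.range_comp, ← Ideal.map_span, hx, hloc]
  obtain ⟨φ, hφ⟩ := exists_powerSeries_surjective C (ResidueField C) σ
    (fun y => ⟨y, hσ y⟩) e (algebraMap A C ∘ x) hspan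
  exact ⟨C, inferInstance, inferInstance, inferInstance, inferInstance, ResidueField C,
    inferInstance, φ, hloc, hφ⟩

/-- Data over the power series ring attached to a pair of `A`-modules. -/
theorem exists_powerSeries_modules (A : Type u) [CommRing A] [IsLocalRing A] [IsNoetherianRing A]
    (C : Type u) [CommRing C] [IsLocalRing C] [Algebra A C] [Module.Flat A C]
    (hloc : (maximalIdeal A).map (algebraMap A C) = maximalIdeal C)
    (k : Type u) [Field k] (e : ℕ) [Algebra (MvPowerSeries (Fin e) k) C]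
    (hφ : Surjective (algebraMap (MvPowerSeries (Fin e) k) C))
    (M N : Type u) [AddCommGroup M] [Module A M] [Module.Finite A M]
    [AddCommGroup N] [Module A N] [Module.Finite A N]
    (hlen : Module.length A (M ⊗[A] N) ≠ ⊤) :
    ∃ (X Y : Type u) (_ : AddCommGroup X) (_ : Module C X) (_ : Module (MvPowerSeries (Fin e) k) X)
      (_ : IsScalarTower (MvPowerSeries (Fin e) k) C X)
      (_ : AddCommGroup Y) (_ : Module C Y) (_ : Module (MvPowerSeries (Fin e) k) Y)
      (_ : IsScalarTower (MvPowerSeries (Fin e) k) C Y),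
      (∀ n, Module.length A (TorM A n M N) = Module.length C (TorM C n X Y)) ∧
      (0 ≤ eulerTor (MvPowerSeries (Fin e) k) (e + 1) X Y) ∧
      (Module.Finite (MvPowerSeries (Fin e) k) X) ∧ (Module.Finite (MvPowerSeries (Fin e) k) Y) ∧
      (∀ a b : ℕ, (a : WithBot ℕ∞) ≤ Module.supportDim A M →
        (b : WithBot ℕ∞) ≤ Module.supportDim A N →
        (a + b ≤ e) ∧ (e ≤ a + b → 0 < eulerTor (MvPowerSeries (Fin e) k) (e + 1) X Y)) := by
  let S := MvPowerSeries (Fin e) k
  obtain ⟨X, _, _, _, _, φ, hφX⟩ := exists_baseChange (R := A) C M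
  obtain ⟨Y, _, _, _, _, ψ, hψY⟩ := exists_baseChange (R := A) C N
  let mX : Module (MvPowerSeries (Fin e) k) X := Module.compHom X (algebraMap (MvPowerSeries (Fin e) k) C)
  let mY : Module (MvPowerSeries (Fin e) k) Y := Module.compHom Y (algebraMap (MvPowerSeries (Fin e) k) C)
  have sX : IsScalarTower (MvPowerSeries (Fin e) k) C X := ⟨fun s b t => by
    rw [Algebra.smul_def, mul_smul]
    rfl⟩
  have sY : IsScalarTower (MvPowerSeries (Fin e) k) C Y := ⟨fun s b t => by
    rw [Algebra.smul_def, mul_smul]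
    rfl⟩
  have fX : Module.Finite C X := Module.Finite.of_surjective hφX.equiv.toLinearMap hφX.equiv.surjective
  have fY : Module.Finite C Y := Module.Finite.of_surjective hψY.equiv.toLinearMap hψY.equiv.surjective
  have fC : Module.Finite (MvPowerSeries (Fin e) k) C :=
    Module.Finite.of_surjective (Algebra.linearMap _ C) hφ
  have fX' : Module.Finite (MvPowerSeries (Fin e) k) X := Module.Finite.trans C X
  have fY' : Module.Finite (MvPowerSeries (Fin e) k) Y := Module.Finite.trans C Y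
  have ht : ∀ n, Module.length A (TorM A n M N) = Module.length C (TorM C n X Y) := fun n =>
    length_tor_bc₂ hloc n hφX hψY
  have hlenS : Module.length (MvPowerSeries (Fin e) k) (X ⊗[MvPowerSeries (Fin e) k] Y) ≠ ⊤ := by
    rw [length_tensor_baseChange hφ (isBaseChange_id_of_surjective hφ X) Y,
      ← (torZero X Y).length_eq, ← ht 0, (torZero M N).length_eq]
    exact hlen
  obtain ⟨h1, h2⟩ := serre_mvPowerSeries k e X Y hlenS (e + 1) (by omega)
  have hdim : ∀ (M : Type u) [AddCommGroup M] [Module A M] [Module.Finite A M]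
      (X : Type u) [AddCommGroup X] [Module A X] [Module C X] [IsScalarTower A C X]
      [Module (MvPowerSeries (Fin e) k) X] [IsScalarTower (MvPowerSeries (Fin e) k) C X]
      [Module.Finite (MvPowerSeries (Fin e) k) X]
      (φ : M →ₗ[A] X), IsBaseChange C φ →
      Module.supportDim A M ≤ Module.supportDim (MvPowerSeries (Fin e) k) X := by
    intro M _ _ _ X _ _ _ _ _ _ _ φ hφX
    rw [supportDim_eq_of_surjective hφ X, ← Module.supportDim_eq_of_equiv hφX.equiv]
    have h5 := isLocalHom_of_map_maximalIdeal A C hloc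
    have h6 : Module.FaithfullyFlat A C := Module.FaithfullyFlat.of_flat_of_isLocalHom
    exact supportDim_le_baseChange_of_faithfullyFlat M
  refine ⟨X, Y, inferInstance, inferInstance, mX, sX, inferInstance, inferInstance, mY, sY, ht, h1,
    fX', fY', ?_⟩
  intro a b ha hb
  exact h2 a b (ha.trans (hdim M X φ hφX)) (hb.trans (hdim N Y ψ hψY))

/-- The conclusion of Serre's conjectures for a pair. -/
def Good (R : Type u) [CommRing R] (d : ℕ) (M N : Type u) [AddCommGroup M] [Module R M]
    [AddCommGroup N] [Module R N] : Prop :=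
  0 ≤ eulerTor R (d + 1) M N ∧ ∀ a b : ℕ, (a : WithBot ℕ∞) ≤ Module.supportDim R M →
      (b : WithBot ℕ∞) ≤ Module.supportDim R N → d ≤ a + b → 0 < eulerTor R (d + 1) M N

section base

variable (R : Type u) [CommRing R] [IsRegularLocalRing R] (d : ℕ) (hd : ringKrullDim R = d)
  (p : ℕ) [Fact p.Prime] (hp0 : (p : R) ≠ 0) (hpm : (p : R) ∈ maximalIdeal R)

include hd hp0 in
/-- Ramified case, modules over `A = R/p`. -/
theorem good_ramified (hp2 : (p : R) ∈ maximalIdeal R ^ 2)
    (M N : Type u) [AddCommGroup M] [Module R M] [Module.Finite R M]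
    [Module (R ⧸ Ideal.span {(p : R)}) M] [IsScalarTower R (R ⧸ Ideal.span {(p : R)}) M]
    [AddCommGroup N] [Module R N] [Module.Finite R N]
    [Module (R ⧸ Ideal.span {(p : R)}) N] [IsScalarTower R (R ⧸ Ideal.span {(p : R)}) N]
    (hlen : Module.length R (M ⊗[R] N) ≠ ⊤) : Good R d M N := by
  have hdom : IsDomain R := regular_isDomain R
  have hpm : (p : R) ∈ maximalIdeal R := Ideal.pow_le_self two_ne_zero hp2
  have hne : Ideal.span {(p : R)} ≠ ⊤ := by
    rw [Ne, Ideal.span_singleton_eq_top]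
    exact hpm
  have hnt : Nontrivial (R ⧸ Ideal.span {(p : R)}) := Ideal.Quotient.nontrivial_iff.2 hne
  have hlA : IsLocalRing (R ⧸ Ideal.span {(p : R)}) :=
    IsLocalRing.of_surjective' (Ideal.Quotient.mk _) Ideal.Quotient.mk_surjective
  have hmA : (maximalIdeal R).map (Ideal.Quotient.mk (Ideal.span {(p : R)})) =
      maximalIdeal (R ⧸ Ideal.span {(p : R)}) :=
    map_maximalIdeal_of_surjective _ Ideal.Quotient.mk_surjective
  have hsurj : Surjective (algebraMap R (R ⧸ Ideal.span {(p : R)})) :=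
    Ideal.Quotient.mk_surjective
  have fM : Module.Finite (R ⧸ Ideal.span {(p : R)}) M :=
    Module.Finite.of_restrictScalars_finite R _ M
  have fN : Module.Finite (R ⧸ Ideal.span {(p : R)}) N :=
    Module.Finite.of_restrictScalars_finite R _ N
  have H : IsHypersurface R (R ⧸ Ideal.span {(p : R)}) (p : R) :=
    { regular := fun x y hxy => mul_left_cancel₀ hp0 hxy
      surj := hsurj
      ker := Ideal.mk_ker }
  -- generators
  obtain ⟨rs, hrs, hlenrs⟩ := exists_list_maximalIdeal R
  have hrsd : rs.length = d := by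
    rw [hd] at hlenrs
    exact_mod_cast hlenrs
  subst hrsd
  have hx : Ideal.span (Set.range (fun i : Fin rs.length =>
      Ideal.Quotient.mk (Ideal.span {(p : R)}) (rs.get i))) =
      maximalIdeal (R ⧸ Ideal.span {(p : R)}) := by
    rw [← hmA, ← hrs, Ideal.ofList, Ideal.map_span]
    congr 1
    ext z
    constructor
    · rintro ⟨i, rfl⟩
      exact ⟨rs.get i, List.get_mem rs i, rfl⟩
    · rintro ⟨y, hy, rfl⟩
      obtain ⟨i, rfl⟩ := List.get_of_mem hy
      exact ⟨i, rfl⟩
  have hpA : (p : (R ⧸ Ideal.span {(p : R)})) = 0 := by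
    rw [← map_natCast (Ideal.Quotient.mk (Ideal.span {(p : R)})) p]
    exact Ideal.Quotient.eq_zero_iff_mem.2 (Ideal.mem_span_singleton_self _)
  obtain ⟨C, _, _, _, _, k, _, φ, hloc, hφ⟩ := exists_completion (R ⧸ Ideal.span {(p : R)}) p hpA
    rs.length _ hx
  have hSreg : IsRegularLocalRing (MvPowerSeries (Fin rs.length) k) :=
    mvPowerSeries_isRegularLocalRing _ _
  have hSdim : ringKrullDim (MvPowerSeries (Fin rs.length) k) = rs.length := by
    rw [mvPowerSeries_ringKrullDim]
    simp only [Nat.card_eq_fintype_card, Fintype.card_fin]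
  have hSdom : IsDomain (MvPowerSeries (Fin rs.length) k) := regular_isDomain _
  obtain ⟨g, hg0, hg⟩ := ker_isPrincipal (R := R) (S := MvPowerSeries (Fin rs.length) k)
    (by rw [hd, hSdim]) (p : R) hp2 hp0 (by rw [hmA]; exact hloc) φ hφ
  let _ : Algebra (MvPowerSeries (Fin rs.length) k) C := φ.toAlgebra
  have H' : IsHypersurface (MvPowerSeries (Fin rs.length) k) C g :=
    { regular := fun x y hxy => mul_left_cancel₀ hg0 hxy
      surj := hφ
      ker := hg }
  have hlenA : Module.length (R ⧸ Ideal.span {(p : R)})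
      (M ⊗[R ⧸ Ideal.span {(p : R)}] N) ≠ ⊤ := by
    rw [← length_tensor_baseChange hsurj (isBaseChange_id_of_surjective hsurj M) N]
    exact hlen
  obtain ⟨X, Y, _, _, _, _, _, _, _, _, ht, h1, fX, fY, h2⟩ :=
    exists_powerSeries_modules (R ⧸ Ideal.span {(p : R)}) C hloc k rs.length hφ M N hlenA
  have hfinA : ∀ n, Module.length (R ⧸ Ideal.span {(p : R)})
      (TorM (R ⧸ Ideal.span {(p : R)}) n M N) ≠ ⊤ := fun n =>
    tor_length_ne_top n M N hlenA
  have hfinC : ∀ n, Module.length C (TorM C n X Y) ≠ ⊤ := fun n => by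
    rw [← ht]
    exact hfinA n
  have hRv : Module.length R (TorM R (rs.length + 1) M N) = 0 := by
    have := regular_tor_vanish R rs.length hd M N (rs.length + 1) le_rfl
    exact Module.length_eq_zero
  have hSv : Module.length (MvPowerSeries (Fin rs.length) k)
      (TorM (MvPowerSeries (Fin rs.length) k) (rs.length + 1) X Y) = 0 := by
    have := regular_tor_vanish (MvPowerSeries (Fin rs.length) k) rs.length hSdim X Y
      (rs.length + 1) le_rfl
    exact Module.length_eq_zero
  have heq : eulerTor R (rs.length + 1) M N =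
      eulerTor (MvPowerSeries (Fin rs.length) k) (rs.length + 1) X Y := by
    rw [H.eulerTor_eq M N hfinA rs.length hRv, H'.eulerTor_eq X Y hfinC rs.length hSv, ht, ht]
  unfold Good
  rw [heq]
  refine ⟨h1, ?_⟩
  intro a b ha hb hab
  rw [supportDim_eq_of_surjective hsurj M] at ha
  rw [supportDim_eq_of_surjective hsurj N] at hb
  exact (h2 a b ha hb).2 hab

include hd hp0 hpm in
/-- Unramified case, modules over `A = R/p`. -/
theorem good_unramified (hp2 : (p : R) ∉ maximalIdeal R ^ 2)
    (M N : Type u) [AddCommGroup M] [Module R M] [Module.Finite R M]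
    [Module (R ⧸ Ideal.span {(p : R)}) M] [IsScalarTower R (R ⧸ Ideal.span {(p : R)}) M]
    [AddCommGroup N] [Module R N] [Module.Finite R N]
    [Module (R ⧸ Ideal.span {(p : R)}) N] [IsScalarTower R (R ⧸ Ideal.span {(p : R)}) N]
    (hlen : Module.length R (M ⊗[R] N) ≠ ⊤) : Good R d M N := by
  have hdom : IsDomain R := regular_isDomain R
  obtain ⟨hAreg, hAdim⟩ := regular_quotient R (p : R) hpm hp2
  obtain ⟨e, he⟩ := exists_nat_eq_ringKrullDim (R ⧸ Ideal.span {(p : R)})
  have hed : e + 1 = d := by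
    rw [he, hd] at hAdim
    exact_mod_cast hAdim
  subst hed
  have hsurj : Surjective (algebraMap R (R ⧸ Ideal.span {(p : R)})) :=
    Ideal.Quotient.mk_surjective
  have fM : Module.Finite (R ⧸ Ideal.span {(p : R)}) M :=
    Module.Finite.of_restrictScalars_finite R _ M
  have fN : Module.Finite (R ⧸ Ideal.span {(p : R)}) N :=
    Module.Finite.of_restrictScalars_finite R _ N
  have H : IsHypersurface R (R ⧸ Ideal.span {(p : R)}) (p : R) :=
    { regular := fun x y hxy => mul_left_cancel₀ hp0 hxy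
      surj := hsurj
      ker := Ideal.mk_ker }
  obtain ⟨rs, hrs, hlenrs⟩ := exists_list_maximalIdeal (R ⧸ Ideal.span {(p : R)})
  have hrsd : rs.length = e := by
    rw [he] at hlenrs
    exact_mod_cast hlenrs
  subst hrsd
  have hx : Ideal.span (Set.range (fun i : Fin rs.length => rs.get i)) =
      maximalIdeal (R ⧸ Ideal.span {(p : R)}) := by
    rw [← hrs, Ideal.ofList]
    congr 1
    ext z
    constructor
    · rintro ⟨i, rfl⟩
      exact List.get_mem rs i
    · intro hz
      obtain ⟨i, rfl⟩ := List.get_of_mem hz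
      exact ⟨i, rfl⟩
  have hpA : (p : (R ⧸ Ideal.span {(p : R)})) = 0 := by
    rw [← map_natCast (Ideal.Quotient.mk (Ideal.span {(p : R)})) p]
    exact Ideal.Quotient.eq_zero_iff_mem.2 (Ideal.mem_span_singleton_self _)
  obtain ⟨C, _, _, _, _, k, _, φ, hloc, hφ⟩ := exists_completion (R ⧸ Ideal.span {(p : R)}) p hpA
    rs.length _ hx
  let _ : Algebra (MvPowerSeries (Fin rs.length) k) C := φ.toAlgebra
  have hlenA : Module.length (R ⧸ Ideal.span {(p : R)})
      (M ⊗[R ⧸ Ideal.span {(p : R)}] N) ≠ ⊤ := by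
    rw [← length_tensor_baseChange hsurj (isBaseChange_id_of_surjective hsurj M) N]
    exact hlen
  obtain ⟨X, Y, _, _, _, _, _, _, _, _, -, -, -, -, h2⟩ :=
    exists_powerSeries_modules (R ⧸ Ideal.span {(p : R)}) C hloc k rs.length hφ M N hlenA
  have hfinA : ∀ n, Module.length (R ⧸ Ideal.span {(p : R)})
      (TorM (R ⧸ Ideal.span {(p : R)}) n M N) ≠ ⊤ := fun n =>
    tor_length_ne_top n M N hlenA
  have hAv : ∀ n, rs.length + 1 ≤ n → Module.length (R ⧸ Ideal.span {(p : R)})
      (TorM (R ⧸ Ideal.span {(p : R)}) n M N) = 0 := by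
    intro n hn
    have := regular_tor_vanish (R ⧸ Ideal.span {(p : R)}) rs.length he M N n hn
    exact Module.length_eq_zero
  have hRv : Module.length R (TorM R (rs.length + 1 + 1) M N) = 0 := by
    have := regular_tor_vanish R (rs.length + 1) hd M N (rs.length + 1 + 1) le_rfl
    exact Module.length_eq_zero
  constructor
  · rw [H.eulerTor_eq M N hfinA (rs.length + 1) hRv, hAv _ le_rfl, hAv _ (by omega)]
    simp only [Int.reduceNeg, ENat.toNat_zero, CharP.cast_eq_zero, sub_self, mul_zero, Std.le_refl]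
  · intro a b ha hb hab
    exfalso
    rw [supportDim_eq_of_surjective hsurj M] at ha
    rw [supportDim_eq_of_surjective hsurj N] at hb
    have := (h2 a b ha hb).1
    omega

include hd hp0 hpm in
/-- Modules killed by `p`. -/
theorem good_killed_by_p
    (M N : Type u) [AddCommGroup M] [Module R M] [Module.Finite R M]
    [AddCommGroup N] [Module R N] [Module.Finite R N]
    (hM : ∀ m : M, (p : R) • m = 0) (hN : ∀ m : N, (p : R) • m = 0)
    (hlen : Module.length R (M ⊗[R] N) ≠ ⊤) : Good R d M N := by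
  have tM : Module.IsTorsionBySet R M (Ideal.span {(p : R)} : Set R) := by
    intro x a
    obtain ⟨c, hc⟩ := Ideal.mem_span_singleton'.1 a.2
    rw [← hc, mul_smul, hM, smul_zero]
  have tN : Module.IsTorsionBySet R N (Ideal.span {(p : R)} : Set R) := by
    intro x a
    obtain ⟨c, hc⟩ := Ideal.mem_span_singleton'.1 a.2
    rw [← hc, mul_smul, hN, smul_zero]
  let _ : Module (R ⧸ Ideal.span {(p : R)}) M := tM.module
  let _ : Module (R ⧸ Ideal.span {(p : R)}) N := tN.module
  have _ : IsScalarTower R (R ⧸ Ideal.span {(p : R)}) M := tM.isScalarTower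
  have _ : IsScalarTower R (R ⧸ Ideal.span {(p : R)}) N := tN.isScalarTower
  by_cases hp2 : (p : R) ∈ maximalIdeal R ^ 2
  · exact good_ramified R d hd p hp0 hp2 M N hlen
  · exact good_unramified R d hd p hp0 hpm hp2 M N hlen

end base

end Vale.Agent.P177
end
end

section

section

/-!
Devissage: from modules killed by `p` to `p`-power torsion modules.
-/

namespace Vale.Agent.P177

open CategoryTheory TensorProduct Function IsLocalRing RingTheory.Sequence Pointwise

universe u

section

variable {R : Type u} [CommRing R]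

theorem Good.symm {d : ℕ} {M N : Type u} [AddCommGroup M] [Module R M]
    [AddCommGroup N] [Module R N] (h : Good R d M N) : Good R d N M := by
  have heq : eulerTor R (d + 1) N M = eulerTor R (d + 1) M N := by
    unfold eulerTor
    refine Finset.sum_congr rfl fun i _ => ?_
    obtain ⟨e⟩ := tor_symm (R := R) i N M
    rw [e.length_eq]
  unfold Good
  rw [heq]
  refine ⟨h.1, fun a b ha hb hab => h.2 b a hb ha (by omega)⟩

variable [IsLocalRing R] [IsNoetherianRing R]

theorem length_tensor_ne_top_of_annihilator_le (M M' N : Type u) [AddCommGroup M] [Module R M]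
    [AddCommGroup M'] [Module R M'] [AddCommGroup N] [Module R N] [Module.Finite R M]
    [Module.Finite R M'] [Module.Finite R N]
    (h : Module.length R (M ⊗[R] N) ≠ ⊤)
    (hle : Module.annihilator R M ≤ Module.annihilator R M') :
    Module.length R (M' ⊗[R] N) ≠ ⊤ := by
  obtain ⟨k, hk⟩ := exists_pow_le_sup_annihilator M N h
  rw [Module.length_ne_top_iff]
  refine isFiniteLength_of_pow_smul_eq_zero k ?_
  intro a ha x
  obtain ⟨b, hb, c, hc, rfl⟩ := Submodule.mem_sup.1 (hk ha)
  rw [add_smul, tensor_smul_eq_zero_left b (fun m => Module.mem_annihilator.1 (hle hb) m) x,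
    zero_add]
  apply (TensorProduct.comm R M' N).injective
  rw [map_smul, map_zero]
  exact tensor_smul_eq_zero_left c (fun m => Module.mem_annihilator.1 hc m) _

end

section

variable {R : Type u} [CommRing R] [IsRegularLocalRing R] {d : ℕ} (hd : ringKrullDim R = d)

include hd in
theorem Good.of_exact {M' M M'' N : Type u} [AddCommGroup M'] [Module R M']
    [AddCommGroup M] [Module R M] [AddCommGroup M''] [Module R M''] [Module.Finite R M']
    [Module.Finite R M] [Module.Finite R M'']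
    [AddCommGroup N] [Module R N] [Module.Finite R N]
    (f : M' →ₗ[R] M) (g : M →ₗ[R] M'') (hf : Injective f) (hg : Surjective g) (h : Exact f g)
    (hlen : Module.length R (M ⊗[R] N) ≠ ⊤) (h1 : Good R d M' N) (h3 : Good R d M'' N)
    (hdim : Module.supportDim R M ≤ Module.supportDim R M'') : Good R d M N := by
  have hlen' : Module.length R (M' ⊗[R] N) ≠ ⊤ :=
    length_tensor_ne_top_of_annihilator_le M M' N hlen (LinearMap.annihilator_le_of_injective f hf)
  have hv : Module.length R (TorM R (d + 1) M'' N) = 0 := by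
    have := regular_tor_vanish R d hd M'' N (d + 1) le_rfl
    exact Module.length_eq_zero
  have hadd := eulerTor_add_aux f g hf hg h N (fun i => tor_length_ne_top i M' N hlen')
    (fun i => tor_length_ne_top i M N hlen) (d + 1) hv
  unfold Good
  rw [hadd]
  refine ⟨add_nonneg h1.1 h3.1, fun a b ha hb hab => ?_⟩
  exact add_pos_of_nonneg_of_pos h1.1 (h3.2 a b (ha.trans hdim) hb hab)

include hd in
theorem good_devissage (p : R) (W : Type u) [AddCommGroup W] [Module R W] [Module.Finite R W]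
    (hW : ∀ (X : Type u) [AddCommGroup X] [Module R X] [Module.Finite R X],
      (∀ x : X, p • x = 0) → Module.length R (X ⊗[R] W) ≠ ⊤ → Good R d X W) (a : ℕ)
    (X : Type u) [AddCommGroup X] [Module R X] [Module.Finite R X]
    (hX : ∀ x : X, p ^ a • x = 0) (hlen : Module.length R (X ⊗[R] W) ≠ ⊤) : Good R d X W := by
  induction a generalizing X with
  | zero =>
    refine hW X (fun x => ?_) hlen
    have := hX x
    rw [pow_zero, one_smul] at this
    rw [this, smul_zero]
  | succ a ih =>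
    have hex : Exact (LinearMap.range (LinearMap.lsmul R X p)).subtype
        (LinearMap.range (LinearMap.lsmul R X p)).mkQ := by
      intro x
      simp only [Submodule.mkQ_apply, Submodule.Quotient.mk_eq_zero, LinearMap.mem_range, LinearMap.lsmul_apply, Submodule.coe_subtype, Subtype.range_coe_subtype, Set.mem_ofPred_eq]
    have e1 : Injective (LinearMap.range (LinearMap.lsmul R X p)).subtype :=
      Submodule.injective_subtype _
    have e2 : Surjective (LinearMap.range (LinearMap.lsmul R X p)).mkQ :=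
      Submodule.mkQ_surjective _
    have hlen1 : Module.length R ((LinearMap.range (LinearMap.lsmul R X p)) ⊗[R] W) ≠ ⊤ :=
      length_tensor_ne_top_of_annihilator_le X _ W hlen
        (LinearMap.annihilator_le_of_injective _ e1)
    have hlen2 : Module.length R ((X ⧸ LinearMap.range (LinearMap.lsmul R X p)) ⊗[R] W) ≠ ⊤ :=
      length_tensor_ne_top_of_annihilator_le X _ W hlen
        (LinearMap.annihilator_le_of_surjective _ e2)
    refine Good.of_exact hd _ _ e1 e2 hex hlen (ih _ ?_ hlen1) (hW _ ?_ hlen2) ?_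
    · rintro ⟨x, y, rfl⟩
      apply Subtype.ext
      change p ^ a • (p • y) = 0
      rw [smul_smul, ← pow_succ, hX]
    · intro x
      obtain ⟨y, rfl⟩ := Submodule.mkQ_surjective _ x
      rw [← map_smul, Submodule.mkQ_apply, Submodule.Quotient.mk_eq_zero]
      exact ⟨y, rfl⟩
    · have hsup : Module.support R (X ⧸ LinearMap.range (LinearMap.lsmul R X p)) =
          Module.support R X := by
        have h1 : LinearMap.range (LinearMap.lsmul R X p) = Ideal.span {p} • (⊤ : Submodule R X) := by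
          rw [Submodule.ideal_span_singleton_smul]
          ext x
          rw [Submodule.mem_smul_pointwise_iff_exists]
          simp only [LinearMap.mem_range, LinearMap.lsmul_apply, Submodule.mem_top, true_and]
        rw [h1, Module.support_quotient]
        refine Set.inter_eq_left.2 ?_
        intro P hP
        have h2 := Module.annihilator_le_of_mem_support hP
        have h3 : p ^ (a + 1) ∈ Module.annihilator R X := Module.mem_annihilator.2 hX
        have h4 : p ∈ P.asIdeal := P.2.mem_of_pow_mem _ (h2 h3)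
        change (Ideal.span {p} : Set R) ⊆ P.asIdeal
        exact (Ideal.span_singleton_le_iff_mem _).2 h4
      unfold Module.supportDim
      rw [hsup]

/-- All pairs of `p`-power torsion modules over a regular local ring of mixed characteristic. -/
theorem good_p_power (R : Type u) [CommRing R] [IsRegularLocalRing R] (d : ℕ)
    (hd : ringKrullDim R = d) (p : ℕ) [Fact p.Prime] (hp0 : (p : R) ≠ 0)
    (hpm : (p : R) ∈ maximalIdeal R) (M N : Type u) [AddCommGroup M] [Module R M]
    [Module.Finite R M] [AddCommGroup N] [Module R N] [Module.Finite R N] (a b : ℕ)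
    (hM : ∀ x : M, (p : R) ^ a • x = 0) (hN : ∀ x : N, (p : R) ^ b • x = 0)
    (hlen : Module.length R (M ⊗[R] N) ≠ ⊤) : Good R d M N := by
  refine good_devissage hd (p : R) N ?_ a M hM hlen
  intro X _ _ _ hX hlenX
  apply Good.symm
  have hsymm : ∀ (Y : Type u) [AddCommGroup Y] [Module R Y],
      Module.length R (X ⊗[R] Y) = Module.length R (Y ⊗[R] X) := fun Y _ _ =>
    (TensorProduct.comm R X Y).length_eq
  refine good_devissage hd (p : R) X ?_ b N hN (by rwa [← hsymm])
  intro Y _ _ _ hY hlenY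
  exact good_killed_by_p R d hd p hp0 hpm Y X hY hX hlenY

end

end Vale.Agent.P177
end
end

section

section

/-!
Nonnegativity at the points of a chart.
-/

namespace Vale.Agent.P177

open IsLocalRing Function TensorProduct

universe u

section pair

variable {R₁ R₂ T : Type u} [CommRing R₁] [CommRing R₂] [CommRing T]
    [IsRegularLocalRing R₁] [IsRegularLocalRing R₂] [IsRegularLocalRing T]
    [Algebra R₁ T] [Algebra R₂ T] [Module.Flat R₁ T] [Module.Flat R₂ T]
    [IsLocalHom (algebraMap R₁ T)] [IsLocalHom (algebraMap R₂ T)]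

omit [IsRegularLocalRing R₁] [IsRegularLocalRing R₂] [IsRegularLocalRing T]
  [IsLocalHom (algebraMap R₁ T)] [IsLocalHom (algebraMap R₂ T)]
  [Module.Flat R₂ T] [Algebra R₂ T] in
theorem mem_support_of_map_le (E : Type u) [AddCommGroup E] [Module R₁ E] [Module.Finite R₁ E]
    (P : Ideal T) (hPp : P.IsPrime)
    (hP : (Module.annihilator R₁ E).map (algebraMap R₁ T) ≤ P) :
    (⟨P, hPp⟩ : PrimeSpectrum T) ∈ Module.support T (T ⊗[R₁] E) := by
  apply mem_support_baseChange
  rw [Module.support_eq_zeroLocus, PrimeSpectrum.mem_zeroLocus]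
  intro a ha
  exact hP (Ideal.mem_map_of_mem _ ha)

omit [IsRegularLocalRing T] in
theorem maximalIdeal_le_of_length [IsLocalRing T] (X Y : Type u) [AddCommGroup X] [Module T X]
    [Module.Finite T X] [AddCommGroup Y] [Module T Y] [Module.Finite T Y]
    (h : IsFiniteLength T (X ⊗[T] Y)) (P : Ideal T) (hPp : P.IsPrime)
    (h1 : (⟨P, hPp⟩ : PrimeSpectrum T) ∈ Module.support T X)
    (h2 : (⟨P, hPp⟩ : PrimeSpectrum T) ∈ Module.support T Y) : maximalIdeal T ≤ P := by
  obtain ⟨k, hk⟩ := exists_pow_smul_eq_zero h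
  have h3 := mem_support_tensorProduct _ h1 h2
  have h4 : Module.annihilator T (X ⊗[T] Y) ≤ P := Module.annihilator_le_of_mem_support h3
  have h5 : maximalIdeal T ^ k ≤ P := fun a ha => h4 (Module.mem_annihilator.2 (hk a ha))
  exact hPp.le_of_pow_le h5

omit [IsRegularLocalRing R₁] [IsRegularLocalRing R₂] [IsLocalHom (algebraMap R₁ T)]
  [IsLocalHom (algebraMap R₂ T)] in
theorem fp_of_length (E G : Type u) [AddCommGroup E] [Module R₁ E] [Module.Finite R₁ E]
    [AddCommGroup G] [Module R₂ G] [Module.Finite R₂ G]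
    (h : IsFiniteLength T ((T ⊗[R₁] E) ⊗[T] (T ⊗[R₂] G))) : FP R₁ R₂ T E G := by
  unfold FP
  rw [Ideal.radical_eq_sInf]
  refine le_sInf ?_
  rintro P ⟨hP, hPp⟩
  exact maximalIdeal_le_of_length (T ⊗[R₁] E) (T ⊗[R₂] G) h P hPp
    (mem_support_of_map_le (T := T) E P hPp (le_sup_left.trans hP))
    (mem_support_of_map_le (T := T) G P hPp (le_sup_right.trans hP))

omit [IsRegularLocalRing T] in
theorem tor_subsingleton_left (i : ℕ) (X Y : Type u) [AddCommGroup X] [Module T X]
    [AddCommGroup Y] [Module T Y] [Subsingleton X] : Subsingleton (TorM T i X Y) := by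
  cases i with
  | zero => exact (torZero X Y).toEquiv.subsingleton
  | succ i =>
    have : Module.Flat T X := inferInstance
    exact tor_subsingleton_of_flat i

/-- Nonnegativity for pairs with small excess. -/
theorem pair_nonneg {r₁ r₂ t : ℕ} (h1 : ringKrullDim R₁ = r₁) (h2 : ringKrullDim R₂ = r₂)
    (ht : ringKrullDim T = t) (hb : r₁ + r₂ ≤ t + 4) (n : ℕ) (hn : t + 1 ≤ n)
    (E G : Type u) [AddCommGroup E] [Module R₁ E] [Module.Finite R₁ E]
    [AddCommGroup G] [Module R₂ G] [Module.Finite R₂ G]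
    (h : IsFiniteLength T ((T ⊗[R₁] E) ⊗[T] (T ⊗[R₂] G))) :
    0 ≤ eulerTor T n (T ⊗[R₁] E) (T ⊗[R₂] G) := by
  have hFP := fp_of_length (R₁ := R₁) (R₂ := R₂) (T := T) E G h
  rw [eulerTor_of_vanish (T ⊗[R₁] E) (T ⊗[R₂] G) (t + 1) n hn
    (fun j hj => regular_tor_vanish T t ht _ _ j hj)]
  by_cases hE : Nontrivial E
  · by_cases hG : Nontrivial G
    · have hle₁ : Module.annihilator R₁ E ≤ maximalIdeal R₁ := by
        refine le_maximalIdeal fun htop => ?_
        rw [Module.annihilator_eq_top_iff] at htop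
        exact not_subsingleton E htop
      have hle₂ : Module.annihilator R₂ G ≤ maximalIdeal R₂ := by
        refine le_maximalIdeal fun htop => ?_
        rw [Module.annihilator_eq_top_iff] at htop
        exact not_subsingleton G htop
      have hdim := ringKrullDim_le_add_of_radical R₁ R₂ T r₁ r₂ h1 h2
        (hFP.trans (Ideal.radical_mono (sup_le_sup (Ideal.map_mono hle₁) (Ideal.map_mono hle₂))))
      rw [ht] at hdim
      have hle : t ≤ r₁ + r₂ := by exact_mod_cast hdim
      obtain ⟨b, hb'⟩ := Nat.exists_eq_add_of_le hle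
      exact (locPos_four R₁ R₂ T r₁ r₂ t b h1 h2 ht hb' (by omega) E G hFP).2.1
    · rw [not_nontrivial_iff_subsingleton] at hG
      have h0 : ∀ i, Subsingleton (TorM T i (T ⊗[R₁] E) (T ⊗[R₂] G)) := fun i => by
        obtain ⟨e⟩ := tor_symm (R := T) i (T ⊗[R₁] E) (T ⊗[R₂] G)
        have : Subsingleton (T ⊗[R₂] G) := inferInstance
        have h3 := tor_subsingleton_left (T := T) i (T ⊗[R₂] G) (T ⊗[R₁] E)
        exact e.toEquiv.subsingleton
      rw [eulerTor_of_vanish _ _ 0 (t + 1) (by omega) (fun j _ => h0 j)]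
      simp only [eulerTor, Finset.range_zero, Int.reduceNeg, Module.length_eq_zero, ENat.toNat_zero, CharP.cast_eq_zero, mul_zero, Finset.sum_const_zero, Std.le_refl]
  · rw [not_nontrivial_iff_subsingleton] at hE
    have h0 : ∀ i, Subsingleton (TorM T i (T ⊗[R₁] E) (T ⊗[R₂] G)) := fun i => by
      have : Subsingleton (T ⊗[R₁] E) := inferInstance
      exact tor_subsingleton_left (T := T) i (T ⊗[R₁] E) (T ⊗[R₂] G)
    rw [eulerTor_of_vanish _ _ 0 (t + 1) (by omega) (fun j _ => h0 j)]
    simp only [eulerTor, Finset.range_zero, Int.reduceNeg, Module.length_eq_zero, ENat.toNat_zero, CharP.cast_eq_zero, mul_zero, Finset.sum_const_zero, Std.le_refl]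

end pair

end Vale.Agent.P177
end
end

section

section

/-!
The Hilbert function of a filtered module through a strict resolution.
-/

namespace Vale.Agent.P177

open Function IsLocalRing PowerSeries

universe u

section aug

variable {A : Type u} [CommRing A] {M : Type u} [AddCommGroup M] [Module A M] (X : FR A M)

/-- The terms of the augmented complex. -/
def augC : ℕ → Type u
  | 0 => M
  | i + 1 => Fin (X.b i) → A

instance augGrp : ∀ i, AddCommGroup (augC X i)
  | 0 => inferInstanceAs (AddCommGroup M)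
  | i + 1 => inferInstanceAs (AddCommGroup (Fin (X.b i) → A))

instance augMod : ∀ i, Module A (augC X i)
  | 0 => inferInstanceAs (Module A M)
  | i + 1 => inferInstanceAs (Module A (Fin (X.b i) → A))

/-- The differentials of the augmented complex. -/
def augD : ∀ i, augC X (i + 1) →ₗ[A] augC X i
  | 0 => X.ε
  | i + 1 => X.δ i

end aug

section fres

variable {A : Type u} [CommRing A] {I : Ideal A} {M : Type u} [AddCommGroup M] [Module A M]
  {F : ℕ → Submodule A M} {r : ℕ} (X : FRes I F r)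

/-- The numerator polynomial of a strict resolution. -/
noncomputable def FRes.pol : Polynomial ℤ :=
  ∑ i ∈ Finset.range (r + 1), (-1) ^ i * ∑ j, Polynomial.X ^ (X.a i j)

/-- The alternating sum of shifts. -/
def FRes.psi (f : ℕ → ℤ) (n : ℕ) : ℤ :=
  ∑ i ∈ Finset.range (r + 1), (-1) ^ i * ∑ j, f (n - X.a i j)

theorem mk_shift (f : ℕ → ℤ) (hf : f 0 = 0) (a : ℕ) :
    (PowerSeries.mk fun n => f (n - a)) = (PowerSeries.X : ℤ⟦X⟧) ^ a * PowerSeries.mk f := by
  ext n
  rw [coeff_X_pow_mul', coeff_mk]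
  split_ifs with h
  · rw [coeff_mk]
  · rw [Nat.sub_eq_zero_of_le (by omega), hf]

theorem FRes.mk_psi (f : ℕ → ℤ) (hf : f 0 = 0) :
    PowerSeries.mk (X.psi f) = (X.pol : ℤ⟦X⟧) * PowerSeries.mk f := by
  have h1 : PowerSeries.mk (X.psi f) = ∑ i ∈ Finset.range (r + 1), (-1) ^ i * ∑ j,
      (PowerSeries.mk fun n => f (n - X.a i j)) := by
    ext n
    rw [coeff_mk, map_sum]
    unfold FRes.psi
    refine Finset.sum_congr rfl fun i _ => ?_
    have h2 : ((-1 : ℤ⟦X⟧) ^ i) = PowerSeries.C ((-1 : ℤ) ^ i) := by simp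
    rw [h2, coeff_C_mul, map_sum]
    congr 1
    exact Finset.sum_congr rfl fun j _ => by rw [coeff_mk]
  rw [h1]
  unfold FRes.pol
  have h3 : ((∑ i ∈ Finset.range (r + 1), (-1) ^ i * ∑ j, Polynomial.X ^ (X.a i j) :
      Polynomial ℤ) : ℤ⟦X⟧) = ∑ i ∈ Finset.range (r + 1), (-1) ^ i * ∑ j,
        (PowerSeries.X : ℤ⟦X⟧) ^ (X.a i j) := by
    have h4 : ∀ p : Polynomial ℤ, (p : ℤ⟦X⟧) = Polynomial.coeToPowerSeries.ringHom p :=
      fun p => rfl
    rw [h4, map_sum]
    refine Finset.sum_congr rfl fun i _ => ?_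
    rw [map_mul, map_pow, map_neg, map_one, map_sum]
    congr 1
    refine Finset.sum_congr rfl fun j _ => ?_
    rw [map_pow]
    congr 1
    exact Polynomial.coe_X
  rw [h3, Finset.sum_mul]
  refine Finset.sum_congr rfl fun i _ => ?_
  rw [mul_assoc, Finset.sum_mul]
  congr 1
  exact Finset.sum_congr rfl fun j _ => mk_shift f hf _

/-- The Hilbert function is computed by a strict resolution. -/
theorem FRes.lamF_eq (hR : ∀ n, rl ⊤ (I ^ n : Ideal A) ≠ ⊤) (hF : ∀ n, rl ⊤ (F n) ≠ ⊤) :
    lamF F = X.psi (lamF (fun n => (I ^ n : Ideal A))) := by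
  funext n
  let G : ℕ → Submodule A A := fun n => (I ^ n : Ideal A)
  have hG : ∀ n, rl ⊤ (G n) ≠ ⊤ := hR
  let K : ∀ i, Submodule A (augC X.toFR i) := fun _ => ⊤
  let K' : ∀ i, Submodule A (augC X.toFR i)
    | 0 => F n
    | i + 1 => wfil G (X.a i) n
  have hsub : Subsingleton (augC X.toFR (r + 1 + 1)) := by
    refine ⟨fun v w => ?_⟩
    exact (eq_zero_of_fin_zero (X.bound (r + 1) (by omega)) v).trans
      (eq_zero_of_fin_zero (X.bound (r + 1) (by omega)) w).symm
  have hK'0 : (K' 1).map (augD X.toFR 0) = F n := X.strict_ε n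
  have hK'1 : (K' 2).map (augD X.toFR 1) = LinearMap.ker (augD X.toFR 0) ⊓ K' 1 := X.strict_zero n
  have hK'2 : ∀ i, (K' (i + 3)).map (augD X.toFR (i + 2)) =
      LinearMap.ker (augD X.toFR (i + 1)) ⊓ K' (i + 2) := fun i => X.strict_succ i n
  have hZ' : ∀ i, (K' (i + 1)).map (augD X.toFR i) = Zc (augC X.toFR) (augD X.toFR) i ⊓ K' i := by
    intro i
    match i with
    | 0 =>
      rw [hK'0]
      exact (top_inf_eq _).symm
    | 1 => exact hK'1
    | i + 2 => exact hK'2 i
  have hZ : ∀ i, (K (i + 1)).map (augD X.toFR i) = Zc (augC X.toFR) (augD X.toFR) i ⊓ K i := by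
    intro i
    change Submodule.map _ ⊤ = _ ⊓ ⊤
    rw [inf_top_eq, Submodule.map_top]
    match i with
    | 0 => exact LinearMap.range_eq_top.2 X.surj
    | 1 => exact (LinearMap.exact_iff.1 X.exact_zero).symm
    | i + 2 => exact (LinearMap.exact_iff.1 (X.exact_succ i)).symm
  obtain ⟨-, h2⟩ := rel_euler (augC X.toFR) (augD X.toFR) (r + 1) hsub (by
      intro i v
      match i with
      | 0 => exact X.exact_zero.apply_apply_eq_zero v
      | i + 1 => exact (X.exact_succ i).apply_apply_eq_zero v) K K' (fun i => le_top)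
    (fun i => le_top) (fun i => by rw [hZ']; exact inf_le_right) (by
      intro i
      match i with
      | 0 => exact hF n
      | i + 1 => exact (lamF_wfil G hG (X.a i) n).1) (by
      intro i
      rw [hZ, rl_eq_zero le_rfl]
      exact ENat.zero_ne_top)
  have hz1 : ∀ i, rl (Zc (augC X.toFR) (augD X.toFR) i ⊓ K i)
      ((K (i + 1)).map (augD X.toFR i)) = 0 := fun i => by rw [hZ, rl_eq_zero le_rfl]
  have hz2 : ∀ i, rl (Zc (augC X.toFR) (augD X.toFR) i ⊓ K' i)
      ((K' (i + 1)).map (augD X.toFR i)) = 0 := fun i => by rw [hZ', rl_eq_zero le_rfl]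
  simp only [hz1, hz2] at h2
  simp only [ENat.toNat_zero, Nat.cast_zero, mul_zero, Finset.sum_const_zero, sub_self] at h2
  rw [Finset.sum_range_succ'] at h2
  have h3 : ∀ i, ((rl (K (i + 1)) (K' (i + 1))).toNat : ℤ) = ∑ j, lamF G (n - X.a i j) :=
    fun i => (lamF_wfil G hG (X.a i) n).2
  simp only [h3] at h2
  have h4 : ((rl (K 0) (K' 0)).toNat : ℤ) = lamF F n := rfl
  rw [h4] at h2
  change lamF F n = ∑ i ∈ Finset.range (r + 1), (-1) ^ i * ∑ j, lamF G (n - X.a i j)
  have h5 : ∑ i ∈ Finset.range (r + 1), (-1 : ℤ) ^ (i + 1) * ∑ j, lamF G (n - X.a i j) =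
      - ∑ i ∈ Finset.range (r + 1), (-1 : ℤ) ^ i * ∑ j, lamF G (n - X.a i j) := by
    rw [← Finset.sum_neg_distrib]
    exact Finset.sum_congr rfl fun i _ => by ring
  rw [h5] at h2
  linarith

end fres

end Vale.Agent.P177
end
end

section

section

/-!
Degrees of Hilbert functions and dimension.
-/

namespace Vale.Agent.P177

open Function IsLocalRing PowerSeries

universe u

variable {A : Type u} [CommRing A] [IsRegularLocalRing A] {d : ℕ}

theorem lamF_pos {M : Type u} [AddCommGroup M] [Module A M] [Module.Finite A M] [Nontrivial M]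
    (n : ℕ) (hn : 1 ≤ n) : 1 ≤ lam A M n := by
  have h1 : rl ⊤ (maximalIdeal A ^ n • ⊤ : Submodule A M) ≠ 0 := by
    rw [rl_top_eq]
    intro h
    rw [Module.length_eq_zero_iff, Submodule.Quotient.subsingleton_iff] at h
    have h2 : (⊤ : Submodule A M) ≤ maximalIdeal A • ⊤ := by
      obtain ⟨k, rfl⟩ : ∃ k, n = k + 1 := ⟨n - 1, by omega⟩
      rw [pow_succ', mul_smul] at h
      rw [← h]
      refine (smul_mono_right _ le_top).trans ?_
      rw [h]
    have h3 := Submodule.eq_bot_of_le_smul_of_le_jacobson_bot (maximalIdeal A) ⊤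
      Module.Finite.fg_top h2 (IsLocalRing.maximalIdeal_le_jacobson _)
    exact bot_ne_top h3.symm
  have h4 : (rl ⊤ (maximalIdeal A ^ n • ⊤ : Submodule A M)).toNat ≠ 0 := by
    intro h5
    rw [ENat.toNat_eq_zero] at h5
    exact h5.elim h1 (rl_pow_ne_top n)
  change 1 ≤ (((rl ⊤ (maximalIdeal A ^ n • ⊤ : Submodule A M)).toNat : ℕ) : ℤ)
  omega

/-- Numerator of the Hilbert series. -/
theorem mk_lam (hd : ringKrullDim A = d) {M : Type u} [AddCommGroup M] [Module A M]
    [Module.Finite A M]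
    (X : FRes (maximalIdeal A) (fun n => (maximalIdeal A ^ n • ⊤ : Submodule A M)) d) :
    (1 - PowerSeries.X) ^ (d + 1) * PowerSeries.mk (lam A M) =
      ((Polynomial.X * X.pol : Polynomial ℤ) : ℤ⟦X⟧) := by
  have h1 : lam A M = X.psi (lamR A) := X.lamF_eq rl_self_ne_top rl_pow_ne_top
  rw [h1, X.mk_psi _ (by unfold lamR; exact lamF_zero (by simp))]
  rw [mul_left_comm, mk_lamR d A hd]
  push_cast
  ring

theorem exists_HP_lam {M : Type u} [AddCommGroup M] [Module A M]
    [Module.Finite A M] [Nontrivial M] : ∃ D, HP (lam A M) D := by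
  obtain ⟨d, hd⟩ := exists_nat_eq_ringKrullDim A
  obtain ⟨X⟩ := exists_fres_of_regular hd (goodFil_pow (maximalIdeal A) M)
  obtain ⟨D, -, hD⟩ := exists_HP (mk_lam hd X) 1 (fun n hn => lamF_pos n hn)
  exact ⟨D, hD⟩

theorem lam_le_of_surjective {M N : Type u} [AddCommGroup M] [Module A M]
    [Module.Finite A M] [AddCommGroup N] [Module A N] [Module.Finite A N] (f : M →ₗ[A] N)
    (hf : Surjective f) (n : ℕ) : lam A N n ≤ lam A M n := by
  unfold lam lamF
  have h1 : rl ⊤ (maximalIdeal A ^ n • ⊤ : Submodule A N) ≤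
      rl ⊤ (maximalIdeal A ^ n • ⊤ : Submodule A M) := by
    rw [rl_top_eq, rl_top_eq]
    refine Module.length_le_of_surjective (Submodule.mapQ _ _ f ?_) ?_
    · rw [← Submodule.map_le_iff_le_comap, Submodule.map_smul'']
      exact smul_mono_right _ le_top
    · intro v
      obtain ⟨v, rfl⟩ := Submodule.mkQ_surjective _ v
      obtain ⟨w, rfl⟩ := hf v
      exact ⟨Submodule.Quotient.mk w, rfl⟩
  exact_mod_cast ENat.toNat_le_toNat h1 (rl_pow_ne_top n)

/-- Artin-Rees for an injective map. -/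
theorem exists_shift {M N : Type u} [AddCommGroup M] [Module A M]
    [Module.Finite A M] [AddCommGroup N] [Module A N] [Module.Finite A N] (f : N →ₗ[A] M)
    (hf : Injective f) : ∃ c, ∀ n, (maximalIdeal A ^ n • ⊤ : Submodule A M).comap f ≤
      (maximalIdeal A ^ (n - c) • ⊤ : Submodule A N) := by
  have h1 := (goodFil_pow (maximalIdeal A) M).comap_subtype (LinearMap.range f)
  obtain ⟨c, hc⟩ := h1.stable
  have h2 : ∀ k, ((maximalIdeal A ^ (c + k) • ⊤ : Submodule A M).comap
      (LinearMap.range f).subtype) ≤ (maximalIdeal A ^ k • ⊤ : Submodule A (LinearMap.range f)) := by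
    intro k
    induction k with
    | zero => simp
    | succ k ih =>
      have := hc (c + k) (by omega)
      rw [← add_assoc]
      rw [← this, pow_succ', mul_smul]
      exact smul_mono_right _ ih
  refine ⟨c, fun n v hv => ?_⟩
  by_cases hn : n ≤ c
  · rw [Nat.sub_eq_zero_of_le hn]
    simp
  · obtain ⟨k, rfl⟩ : ∃ k, n = c + k := ⟨n - c, by omega⟩
    rw [Nat.add_sub_cancel_left]
    have h3 : (⟨f v, v, rfl⟩ : LinearMap.range f) ∈
        (maximalIdeal A ^ k • ⊤ : Submodule A (LinearMap.range f)) := h2 k hv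
    let e := LinearEquiv.ofInjective f hf
    have h4 : e v = ⟨f v, v, rfl⟩ := rfl
    have h5 : (maximalIdeal A ^ k • ⊤ : Submodule A (LinearMap.range f)) =
        (maximalIdeal A ^ k • ⊤ : Submodule A N).map e.toLinearMap := by
      rw [Submodule.map_smul'', Submodule.map_top, LinearMap.range_eq_top.2 e.surjective]
    rw [h5] at h3
    obtain ⟨w, hw, hwv⟩ := h3
    have : w = v := e.injective (hwv.trans h4.symm)
    rwa [← this]

theorem HP.sub_shift {f : ℕ → ℤ} {D c : ℕ} (hf : HP f D) (h0 : f 0 = 0) (hc : 1 ≤ c) :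
    (∀ D', D = D' + 1 → HP (fun n => f n - f (n - c)) D') ∧
    (D = 0 → ∃ n₀, ∀ n, n₀ ≤ n → f n - f (n - c) = 0) := by
  obtain ⟨P, hP, he⟩ := hf
  have h1 : (PowerSeries.mk fun n => f n - f (n - c)) =
      (1 - PowerSeries.X) * ((∑ i ∈ Finset.range c, PowerSeries.X ^ i) * PowerSeries.mk f) := by
    have h2 : (PowerSeries.mk fun n => f n - f (n - c)) = PowerSeries.mk f -
        (PowerSeries.mk fun n => f (n - c)) := by
      ext n
      simp
    rw [h2, mk_shift f h0, ← mul_assoc, mul_neg_geom_sum]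
    ring
  have h3 : (1 - PowerSeries.X) ^ D * (PowerSeries.mk fun n => f n - f (n - c)) =
      ((P * ∑ i ∈ Finset.range c, Polynomial.X ^ i : Polynomial ℤ) : ℤ⟦X⟧) := by
    have h4 : ((P * ∑ i ∈ Finset.range c, Polynomial.X ^ i : Polynomial ℤ) : ℤ⟦X⟧) =
        (P : ℤ⟦X⟧) * ∑ i ∈ Finset.range c, PowerSeries.X ^ i := by
      have h4 : ∀ p : Polynomial ℤ, (p : ℤ⟦X⟧) = Polynomial.coeToPowerSeries.ringHom p :=
        fun p => rfl
      rw [h4, map_mul, map_sum]
      congr 1
      refine Finset.sum_congr rfl fun i _ => ?_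
      rw [map_pow]
      congr 1
      exact Polynomial.coe_X
    rw [h4, ← he, h1]
    ring
  refine ⟨?_, ?_⟩
  · rintro D' rfl
    refine ⟨P * ∑ i ∈ Finset.range c, Polynomial.X ^ i, ?_, h3⟩
    rw [Polynomial.eval_mul, Polynomial.eval_finsetSum]
    simp only [Polynomial.eval_pow, Polynomial.eval_X, one_pow, Finset.sum_const,
      Finset.card_range, nsmul_eq_mul, mul_one]
    exact mul_pos hP (by exact_mod_cast hc)
  · rintro rfl
    refine ⟨(P * ∑ i ∈ Finset.range c, Polynomial.X ^ i : Polynomial ℤ).natDegree + 1,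
      fun n hn => ?_⟩
    have h4 := congrArg (coeff n) h3
    rw [pow_zero, one_mul, coeff_mk, Polynomial.coeff_coe,
      Polynomial.coeff_eq_zero_of_natDegree_lt (by omega)] at h4
    exact h4

theorem lam_prime_step (P₀ P₁ : Ideal A) [P₀.IsPrime] [P₁.IsPrime] (h : P₀ < P₁) {D E : ℕ}
    (hD : HP (lam A (A ⧸ P₀)) D) (hE : HP (lam A (A ⧸ P₁)) E) : E + 1 ≤ D := by
  obtain ⟨x, hx1, hx0⟩ := SetLike.exists_of_lt h
  let f : (A ⧸ P₀) →ₗ[A] (A ⧸ P₀) := LinearMap.lsmul A (A ⧸ P₀) x
  have hf : Injective f := by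
    rw [injective_iff_map_eq_zero]
    intro v hv
    obtain ⟨v, rfl⟩ := Ideal.Quotient.mk_surjective v
    have h1 : Ideal.Quotient.mk P₀ (x * v) = 0 := hv
    rw [Ideal.Quotient.eq_zero_iff_mem] at h1 ⊢
    exact (Ideal.IsPrime.mem_or_mem ‹_› h1).resolve_left hx0
  obtain ⟨c, hc⟩ := exists_shift f hf
  have key : ∀ n, lam A (A ⧸ P₁) n ≤ lam A (A ⧸ P₀) n - lam A (A ⧸ P₀) (n - (c + 1)) := by
    intro n
    let Y : Submodule A (A ⧸ P₀) := maximalIdeal A ^ n • ⊤
    let W : Submodule A (A ⧸ P₀) := LinearMap.range f ⊔ Y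
    have h1 : rl ⊤ Y = rl ⊤ W + rl W Y := rl_add le_sup_right le_top
    have h2 : rl ⊤ (maximalIdeal A ^ n • ⊤ : Submodule A (A ⧸ P₁)) ≤ rl ⊤ W := by
      rw [rl_top_eq, rl_top_eq]
      have hle : W ≤ (maximalIdeal A ^ n • ⊤ : Submodule A (A ⧸ P₁)).comap
          (Submodule.factor h.le : (A ⧸ P₀) →ₗ[A] (A ⧸ P₁)) := by
        refine sup_le ?_ ?_
        · rintro _ ⟨v, rfl⟩
          obtain ⟨v, rfl⟩ := Ideal.Quotient.mk_surjective v
          have h3 : (Submodule.factor h.le : (A ⧸ P₀) →ₗ[A] (A ⧸ P₁))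
              (f (Ideal.Quotient.mk P₀ v)) = 0 := by
            change Ideal.Quotient.mk P₁ (x * v) = 0
            rw [Ideal.Quotient.eq_zero_iff_mem]
            exact Ideal.mul_mem_right _ _ hx1
          rw [Submodule.mem_comap, h3]
          exact zero_mem _
        · rw [← Submodule.map_le_iff_le_comap, Submodule.map_smul'']
          exact smul_mono_right _ le_top
      refine Module.length_le_of_surjective (Submodule.mapQ _ _ _ hle) ?_
      intro v
      obtain ⟨v, rfl⟩ := Submodule.mkQ_surjective _ v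
      obtain ⟨w, rfl⟩ := Submodule.factor_surjective h.le v
      exact ⟨Submodule.Quotient.mk w, rfl⟩
    have h3 : rl ⊤ (maximalIdeal A ^ (n - (c + 1)) • ⊤ : Submodule A (A ⧸ P₀)) ≤ rl W Y := by
      refine (rl_top_anti (Y := Y.comap f) ?_).trans ?_
      · exact (hc n).trans (Submodule.smul_mono_left (Ideal.pow_le_pow_right (by omega)))
      · rw [rl_top_eq]
        unfold rl
        let g : (A ⧸ P₀) →ₗ[A] W := f.codRestrict W (fun v => le_sup_left (a := LinearMap.range f)
          (b := Y) ⟨v, rfl⟩)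
        refine Module.length_le_of_injective (Submodule.mapQ (Y.comap f) (Y.submoduleOf W) g
          (fun v hv => hv)) ?_
        rw [injective_iff_map_eq_zero]
        intro v hv
        obtain ⟨v, rfl⟩ := Submodule.mkQ_surjective _ v
        have h4 : (Submodule.Quotient.mk (g v) : W ⧸ Y.submoduleOf W) = 0 := hv
        rw [Submodule.Quotient.mk_eq_zero] at h4
        exact (Submodule.Quotient.mk_eq_zero _).2 h4
    have hfin : rl ⊤ Y ≠ ⊤ := rl_pow_ne_top n
    have hW : rl ⊤ W ≠ ⊤ := fun h5 => hfin (by rw [h1, h5, top_add])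
    have hWY : rl W Y ≠ ⊤ := fun h5 => hfin (by rw [h1, h5, add_top])
    have h5 := congrArg ENat.toNat h1
    rw [ENat.toNat_add hW hWY] at h5
    have h6 := ENat.toNat_le_toNat h2 hW
    have h7 := ENat.toNat_le_toNat h3 hWY
    have e1 : lam A (A ⧸ P₁) n =
      ((rl ⊤ (maximalIdeal A ^ n • ⊤ : Submodule A (A ⧸ P₁))).toNat : ℤ) := rfl
    have e2 : lam A (A ⧸ P₀) n = ((rl ⊤ Y).toNat : ℤ) := rfl
    have e3 : lam A (A ⧸ P₀) (n - (c + 1)) =
      ((rl ⊤ (maximalIdeal A ^ (n - (c + 1)) • ⊤ : Submodule A (A ⧸ P₀))).toNat : ℤ) := rfl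
    rw [e1, e2, e3]
    omega
  have h0 : lam A (A ⧸ P₀) 0 = 0 := by
    unfold lam
    exact lamF_zero (by rw [pow_zero, Ideal.one_eq_top, Submodule.top_smul])
  obtain ⟨h1, h2⟩ := hD.sub_shift (c := c + 1) h0 (by omega)
  cases D with
  | zero =>
    obtain ⟨n₀, hn₀⟩ := h2 rfl
    have h3 := key (n₀ + 1)
    rw [hn₀ (n₀ + 1) (by omega)] at h3
    have : Nontrivial (A ⧸ P₁) := Ideal.Quotient.nontrivial_iff.2 (Ideal.IsPrime.ne_top ‹_›)
    have h4 := lamF_pos (A := A) (M := A ⧸ P₁) (n₀ + 1) (by omega)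
    omega
  | succ D' =>
    have := hE.le_of_le (h1 D' rfl) 0 (fun n _ => key n)
    omega

/-- The degree of the Hilbert function bounds the length of chains of primes. -/
theorem chain_le (k : ℕ) : ∀ (l : LTSeries (PrimeSpectrum A)), l.length = k →
    ∀ D, HP (lam A (A ⧸ (l.head).asIdeal)) D → k ≤ D := by
  induction k with
  | zero => exact fun _ _ _ _ => Nat.zero_le _
  | succ k ih =>
    intro l hl D hD
    have hne : l.length ≠ 0 := by omega
    have : Nontrivial (A ⧸ ((l.tail hne).head).asIdeal) :=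
      Ideal.Quotient.nontrivial_iff.2 ((l.tail hne).head).2.ne_top
    obtain ⟨E, hE⟩ := exists_HP_lam (A := A) (M := A ⧸ ((l.tail hne).head).asIdeal)
    have h1 := ih (l.tail hne) (by simp [hl]) E hE
    have hlt : l.head < (l.tail hne).head := by
      rw [RelSeries.head_tail]
      have hs : l ⟨0, by omega⟩ < l ⟨1, by omega⟩ := l.strictMono (by simp [Fin.lt_def])
      have e1 : l.head = l ⟨0, by omega⟩ := rfl
      have e2 : l 1 = l ⟨1, by omega⟩ := by
        congr 1
        ext
        simp [Nat.mod_eq_of_lt (show 1 < l.length + 1 by omega)]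
      rw [e1, e2]
      exact hs
    have h2 := lam_prime_step l.head.asIdeal (l.tail hne).head.asIdeal hlt hD hE
    omega

theorem le_HP_lam {M : Type u} [AddCommGroup M] [Module A M] [Module.Finite A M] {D k : ℕ}
    (hD : HP (lam A M) D) (hk : (k : WithBot ℕ∞) ≤ Module.supportDim A M) : k ≤ D := by
  obtain ⟨l, hl⟩ := Order.le_krullDim_iff.1 hk
  have hmono : StrictMono (Subtype.val : Module.support A M → PrimeSpectrum A) := fun _ _ h => h
  let l' : LTSeries (PrimeSpectrum A) := l.map _ hmono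
  have hhead : l'.head = l.head.1 := rfl
  obtain ⟨m, hm⟩ := Module.mem_support_iff_exists_annihilator.1 l.head.2
  let f : (A ⧸ (A ∙ m).annihilator) →ₗ[A] M := Submodule.liftQ _ (LinearMap.toSpanSingleton A M m)
    (by
      intro a ha
      rw [LinearMap.mem_ker, LinearMap.toSpanSingleton_apply]
      exact (Submodule.mem_annihilator_span_singleton m a).1 ha)
  have hf : Injective f := by
    rw [injective_iff_map_eq_zero]
    intro v hv
    obtain ⟨v, rfl⟩ := Submodule.mkQ_surjective _ v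
    have h1 : v • m = 0 := hv
    exact (Submodule.Quotient.mk_eq_zero _).2 ((Submodule.mem_annihilator_span_singleton m v).2 h1)
  obtain ⟨c, hc⟩ := exists_shift f hf
  let P := l'.head.asIdeal
  have hP : (A ∙ m).annihilator ≤ P := hm
  have : Nontrivial (A ⧸ P) := Ideal.Quotient.nontrivial_iff.2 l'.head.2.ne_top
  obtain ⟨E, hE⟩ := exists_HP_lam (A := A) (M := A ⧸ P)
  have h1 := chain_le k l' (by simpa [l'] using hl) E hE
  refine h1.trans ?_
  have h2 : ∀ n, lam A (A ⧸ P) (n - c) ≤ lam A M n := by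
    intro n
    refine (lam_le_of_surjective (Submodule.factor hP) (Submodule.factor_surjective hP) _).trans ?_
    have h3 : rl ⊤ (maximalIdeal A ^ (n - c) • ⊤ : Submodule A (A ⧸ (A ∙ m).annihilator)) ≤
        rl ⊤ (maximalIdeal A ^ n • ⊤ : Submodule A M) := by
      refine (rl_top_anti (hc n)).trans ?_
      rw [rl_top_eq, rl_top_eq]
      refine Module.length_le_of_injective (Submodule.mapQ _ _ f le_rfl) ?_
      rw [injective_iff_map_eq_zero]
      intro v hv
      obtain ⟨v, rfl⟩ := Submodule.mkQ_surjective _ v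
      have h4 : (Submodule.Quotient.mk (f v) : M ⧸ _) = 0 := hv
      rw [Submodule.Quotient.mk_eq_zero] at h4
      exact (Submodule.Quotient.mk_eq_zero _).2 h4
    have h5 := ENat.toNat_le_toNat h3 (rl_pow_ne_top n)
    unfold lam lamF
    exact_mod_cast h5
  have h3 : HP (fun n => lam A (A ⧸ P) (n - c)) E := by
    obtain ⟨Q, hQ, he⟩ := hE
    refine ⟨Polynomial.X ^ c * Q, by simpa using hQ, ?_⟩
    rw [mk_shift]
    · push_cast
      rw [← he]
      ring
    · unfold lam
      exact lamF_zero (by rw [pow_zero, Ideal.one_eq_top, Submodule.top_smul])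
  exact h3.le_of_le hD 0 (fun n _ => h2 n)

/-- Asymptotic behaviour of the tensor Hilbert function. -/
theorem psi_cases (hd : ringKrullDim A = d) {M N : Type u} [AddCommGroup M] [Module A M]
    [Module.Finite A M] [AddCommGroup N] [Module A N] [Module.Finite A N]
    [Nontrivial M] [Nontrivial N]
    (X : FRes (maximalIdeal A) (fun n => (maximalIdeal A ^ n • ⊤ : Submodule A M)) d) :
    (∃ n₀, ∀ n, n₀ ≤ n → 0 ≤ X.psi (lam A N) n) ∧
    (∀ k l : ℕ, (k : WithBot ℕ∞) ≤ Module.supportDim A M → (l : WithBot ℕ∞) ≤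
      Module.supportDim A N → d ≤ k + l → ∃ n₀, ∀ n, n₀ ≤ n → 1 ≤ X.psi (lam A N) n) := by
  obtain ⟨D, hD⟩ := exists_HP_lam (A := A) (M := M)
  obtain ⟨E, hE⟩ := exists_HP_lam (A := A) (M := N)
  have h0 : lam A N 0 = 0 := by
    unfold lam
    exact lamF_zero (by simp)
  have h1 : PowerSeries.X * PowerSeries.mk (X.psi (lam A N)) =
      (1 - PowerSeries.X) ^ (d + 1) * (PowerSeries.mk (lam A M) * PowerSeries.mk (lam A N)) := by
    rw [X.mk_psi _ h0, ← mul_assoc, ← mul_assoc, mk_lam hd X]
    push_cast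
    rfl
  obtain ⟨c1, c2, c3⟩ := prod_cases hD hE h1
  have c3' : d < D + E → ∃ n₀, ∀ n, n₀ ≤ n → 1 ≤ X.psi (lam A N) n := fun h =>
    Filter.tendsto_atTop_atTop.1 (c3 h) 1
  refine ⟨?_, ?_⟩
  · rcases lt_trichotomy (D + E) d with h | h | h
    · obtain ⟨n₀, hn₀⟩ := c1 h
      exact ⟨n₀, fun n hn => (hn₀ n hn).ge⟩
    · obtain ⟨n₀, hn₀⟩ := c2 h
      exact ⟨n₀, fun n hn => zero_le_one.trans (hn₀ n hn)⟩
    · obtain ⟨n₀, hn₀⟩ := c3' h
      exact ⟨n₀, fun n hn => zero_le_one.trans (hn₀ n hn)⟩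
  · intro k l hk hl hkl
    have hkD := le_HP_lam hD hk
    have hlE := le_HP_lam hE hl
    rcases lt_trichotomy (D + E) d with h | h | h
    · omega
    · exact c2 h
    · exact c3' h

end Vale.Agent.P177
end
end

section

section

/-!
Decomposition of the Euler characteristic along a filtration, and positivity through the
localizations of a chart.
-/

namespace Vale.Agent.P177

open Function IsLocalRing TensorProduct

universe u

section split

variable {A : Type u} [CommRing A] [IsRegularLocalRing A] {d : ℕ} {M N : Type u}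
  [AddCommGroup M] [Module A M] [AddCommGroup N] [Module A N] [Module.Finite A N]
  {F : ℕ → Submodule A M} (X : FRes (maximalIdeal A) F d)

omit [Module.Finite A N] in
theorem fr_length (i : ℕ) : rl (X.Z N i) (X.B N i) = Module.length A (TorM A i M N) := by
  obtain ⟨e⟩ := X.toFR.tor_eq N i
  exact e.length_eq.symm

omit [Module.Finite A N] in
theorem Zc_eq_Z (i : ℕ) : Zc (fun i => Fin (X.b i) → N) (fun i => act N (X.δ i)) i = X.Z N i := by
  cases i <;> rfl

theorem euler_split (hfin : ∀ i, Module.length A (TorM A i M N) ≠ ⊤) (n : ℕ) :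
    (∀ i, rl (X.ZK (fun n => (maximalIdeal A ^ n • ⊤ : Submodule A N)) n i)
      (X.BK (fun n => (maximalIdeal A ^ n • ⊤ : Submodule A N)) n i) ≠ ⊤) ∧
    eulerTor A (d + 1) M N = ∑ i ∈ Finset.range (d + 1), (-1) ^ i *
      ((rl (X.ZK (fun n => (maximalIdeal A ^ n • ⊤ : Submodule A N)) n i)
        (X.BK (fun n => (maximalIdeal A ^ n • ⊤ : Submodule A N)) n i)).toNat : ℤ) +
        X.psi (lam A N) n := by
  let G : ℕ → Submodule A N := fun n => (maximalIdeal A ^ n • ⊤ : Submodule A N)
  have hG : GoodFil (maximalIdeal A) G := goodFil_pow _ _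
  let C : ℕ → Type u := fun i => Fin (X.b i) → N
  let D : ∀ i, C (i + 1) →ₗ[A] C i := fun i => act N (X.δ i)
  have hw : ∀ i, rl ⊤ (wfil G (X.a i) n) ≠ ⊤ ∧
      lamF (wfil G (X.a i)) n = ∑ j, lamF G (n - X.a i j) := fun i =>
    lamF_wfil G rl_pow_ne_top (X.a i) n
  have hZ : ∀ i, Zc C D i = X.Z N i := Zc_eq_Z X
  have h := rel_euler C D d (by
      refine ⟨fun v w => ?_⟩
      exact (eq_zero_of_fin_zero (X.bound (d + 1) (by omega)) v).trans
        (eq_zero_of_fin_zero (X.bound (d + 1) (by omega)) w).symm)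
    (fun i v => X.B_le_Z N (i + 1) ⟨v, rfl⟩) (fun _ => ⊤) (fun i => wfil G (X.a i) n)
    (fun _ => le_top) (fun _ => le_top) (fun i => X.map_wfil_le hG i n) (fun i => (hw i).1)
    (by
      intro i
      rw [hZ, inf_top_eq, Submodule.map_top]
      change rl (X.Z N i) (X.B N i) ≠ ⊤
      rw [fr_length]
      exact hfin i)
  obtain ⟨h1, h2⟩ := h
  simp only [hZ] at h1 h2
  refine ⟨h1, ?_⟩
  have h3 : ∀ i, rl (X.Z N i ⊓ ⊤) ((⊤ : Submodule A (C (i + 1))).map (D i)) =
      Module.length A (TorM A i M N) := by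
    intro i
    rw [inf_top_eq, Submodule.map_top]
    exact fr_length X i
  simp only [h3] at h2
  have h4 : ∀ i, ((rl ⊤ (wfil G (X.a i) n)).toNat : ℤ) = ∑ j, lamF G (n - X.a i j) :=
    fun i => (hw i).2
  simp only [h4] at h2
  have h5 : eulerTor A (d + 1) M N = ∑ i ∈ Finset.range (d + 1), (-1) ^ i *
      ((Module.length A (TorM A i M N)).toNat : ℤ) := rfl
  rw [h5]
  rw [sub_eq_iff_eq_add] at h2
  rw [h2, add_comm]
  rfl

end split

section local_sum

variable {A S : Type u} [CommRing A] [CommRing S] [Algebra A S]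

theorem exists_finset_support (W : Type u) [AddCommGroup W] [Module S W]
    (hfin : IsFiniteLength S W) : ∃ T : Finset (MaximalSpectrum S), ∀ m : MaximalSpectrum S,
      m ∉ T → Subsingleton (Localization.AtPrime m.asIdeal ⊗[S] W) := by
  classical
  induction hfin with
  | of_subsingleton => exact ⟨∅, fun _ _ => inferInstance⟩
  | of_simple_quotient hN ih =>
    rename_i M _ _ N hsimple
    obtain ⟨T, hT⟩ := ih
    obtain ⟨m', hm', ⟨e⟩⟩ := isSimpleModule_iff_quot_maximal.1 hsimple
    refine ⟨insert ⟨m', hm'⟩ T, fun m hm => ?_⟩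
    rw [Finset.mem_insert, not_or] at hm
    have hmm := m.isMaximal
    have h1 := hT m hm.2
    have hne : m.asIdeal ≠ m' := fun h' => hm.1 (MaximalSpectrum.ext h')
    have h2 := subsingleton_localization_quot m.asIdeal m' hne
    have h3 : Subsingleton (Localization.AtPrime m.asIdeal ⊗[S] (M ⧸ N)) :=
      (e.baseChange S (Localization.AtPrime m.asIdeal) _ _).toEquiv.subsingleton
    have hex : Exact N.subtype N.mkQ := by
      intro x
      rw [Submodule.mkQ_apply, Submodule.Quotient.mk_eq_zero]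
      simp
    have h4 := (baseChange_ses (B := Localization.AtPrime m.asIdeal) N.subtype N.mkQ
      (Submodule.injective_subtype _) (Submodule.mkQ_surjective _) hex).2.2
    refine ⟨fun v w => ?_⟩
    have h5 : ∀ v : Localization.AtPrime m.asIdeal ⊗[S] M, v = 0 := by
      intro v
      obtain ⟨w, rfl⟩ := (h4 v).1 (Subsingleton.elim _ _)
      rw [Subsingleton.elim w 0, map_zero]
    rw [h5 v, h5 w]

theorem sum_nonneg_of_local [IsLocalRing A] [IsNoetherianRing A] (t : ℕ) (W : ℕ → Type u)
    [∀ i, AddCommGroup (W i)]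
    [∀ i, Module S (W i)] [∀ i, Module A (W i)] [∀ i, IsScalarTower A S (W i)]
    (hW : ∀ i, i < t → Module.length A (W i) ≠ ⊤)
    (hP : ∀ m : MaximalSpectrum S, (∀ a ∈ maximalIdeal A, algebraMap A S a ∈ m.asIdeal) →
      (∀ i, i < t → Module.length (Localization.AtPrime m.asIdeal)
        (Localization.AtPrime m.asIdeal ⊗[S] W i) ≠ ⊤) →
      0 ≤ ∑ i ∈ Finset.range t, (-1) ^ i * ((Module.length (Localization.AtPrime m.asIdeal)
        (Localization.AtPrime m.asIdeal ⊗[S] W i)).toNat : ℤ)) :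
    0 ≤ ∑ i ∈ Finset.range t, (-1) ^ i * ((Module.length A (W i)).toNat : ℤ) := by
  classical
  have hfin : ∀ i, i < t → IsFiniteLength S (W i) := by
    intro i hi
    have h3 := Module.length_ne_top_iff.1 (hW i hi)
    rw [isFiniteLength_iff_isNoetherian_isArtinian] at h3 ⊢
    obtain ⟨h4, h5⟩ := h3
    exact ⟨isNoetherian_of_tower A h4, isArtinian_of_tower A h5⟩
  have hex : ∀ i, ∃ T : Finset (MaximalSpectrum S), i < t → ∀ m : MaximalSpectrum S,
      m ∉ T → Subsingleton (Localization.AtPrime m.asIdeal ⊗[S] W i) := by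
    intro i
    by_cases hi : i < t
    · obtain ⟨T, hT⟩ := exists_finset_support (W i) (hfin i hi)
      exact ⟨T, fun _ => hT⟩
    · exact ⟨∅, fun h => absurd h hi⟩
  choose T hT using hex
  let U : Finset (MaximalSpectrum S) := (Finset.range t).biUnion T
  have hU : ∀ m : MaximalSpectrum S, m ∉ U → ∀ i, i < t →
      Subsingleton (Localization.AtPrime m.asIdeal ⊗[S] W i) := by
    intro m hm i hi
    refine hT i hi m fun h => hm ?_
    exact Finset.mem_biUnion.2 ⟨i, Finset.mem_range.2 hi, h⟩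
  have hlen : ∀ i, i < t → Module.length A (W i) = ∑ m ∈ U, Module.length A (S ⧸ m.asIdeal) *
      Module.length (Localization.AtPrime m.asIdeal)
        (Localization.AtPrime m.asIdeal ⊗[S] W i) := fun i hi =>
    length_eq_sum (T := A) U (W i) (hfin i hi) (fun m hm => hU m hm i hi)
  have hne : ∀ i, i < t → ∀ m ∈ U, Module.length A (S ⧸ m.asIdeal) *
      Module.length (Localization.AtPrime m.asIdeal)
        (Localization.AtPrime m.asIdeal ⊗[S] W i) ≠ ⊤ := by
    intro i hi m hm htop
    apply hW i hi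
    rw [hlen i hi, eq_top_iff, ← htop]
    exact Finset.single_le_sum (f := fun m : MaximalSpectrum S =>
      Module.length A (S ⧸ m.asIdeal) * Module.length (Localization.AtPrime m.asIdeal)
        (Localization.AtPrime m.asIdeal ⊗[S] W i)) (fun _ _ => bot_le) hm
  have hfinL : ∀ (m : MaximalSpectrum S) (i : ℕ), i < t →
      Module.length (Localization.AtPrime m.asIdeal)
        (Localization.AtPrime m.asIdeal ⊗[S] W i) ≠ ⊤ := by
    intro m i hi htop
    by_cases hm : m ∈ U
    · have h1 := hne i hi m hm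
      rw [htop] at h1
      apply h1
      refine ENat.mul_top ?_
      intro h0
      rw [Module.length_eq_zero_iff, Submodule.Quotient.subsingleton_iff] at h0
      exact m.isMaximal.ne_top h0
    · have := hU m hm i hi
      rw [Module.length_eq_zero] at htop
      exact ENat.zero_ne_top htop
  have hsum : ∑ i ∈ Finset.range t, (-1) ^ i * ((Module.length A (W i)).toNat : ℤ) =
      ∑ m ∈ U, ((Module.length A (S ⧸ m.asIdeal)).toNat : ℤ) *
        ∑ i ∈ Finset.range t, (-1) ^ i * ((Module.length (Localization.AtPrime m.asIdeal)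
          (Localization.AtPrime m.asIdeal ⊗[S] W i)).toNat : ℤ) := by
    have h1 : ∀ i ∈ Finset.range t, (-1) ^ i * ((Module.length A (W i)).toNat : ℤ) =
        ∑ m ∈ U, ((Module.length A (S ⧸ m.asIdeal)).toNat : ℤ) *
          ((-1) ^ i * ((Module.length (Localization.AtPrime m.asIdeal)
          (Localization.AtPrime m.asIdeal ⊗[S] W i)).toNat : ℤ)) := by
      intro i hi
      rw [Finset.mem_range] at hi
      rw [hlen i hi, ENat.toNat_sum (hne i hi)]
      push_cast
      rw [Finset.mul_sum]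
      refine Finset.sum_congr rfl fun m _ => ?_
      rw [ENat.toNat_mul]
      push_cast
      ring
    rw [Finset.sum_congr rfl h1, Finset.sum_comm]
    refine Finset.sum_congr rfl fun m _ => ?_
    rw [Finset.mul_sum]
  rw [hsum]
  refine Finset.sum_nonneg fun m _ => mul_nonneg (Int.natCast_nonneg _) ?_
  by_cases hm : ∀ a ∈ maximalIdeal A, algebraMap A S a ∈ m.asIdeal
  · exact hP m hm (hfinL m)
  · push Not at hm
    obtain ⟨a, ha, ham⟩ := hm
    refine (Finset.sum_eq_zero fun i hi => ?_).ge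
    rw [Finset.mem_range] at hi
    obtain ⟨n, hn⟩ := exists_pow_smul_eq_zero (Module.length_ne_top_iff.1 (hW i hi))
    have hz : ∀ w : W i, algebraMap A S (a ^ n) • w = 0 := fun w => by
      rw [algebraMap_smul]
      exact hn _ (Ideal.pow_mem_pow ha n) w
    have hunit : IsUnit (algebraMap S (Localization.AtPrime m.asIdeal)
        (algebraMap A S (a ^ n))) := by
      refine IsLocalization.map_units (Localization.AtPrime m.asIdeal)
        (⟨algebraMap A S (a ^ n), ?_⟩ : m.asIdeal.primeCompl)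
      rw [map_pow]
      intro h
      exact ham (Ideal.IsPrime.mem_of_pow_mem inferInstance n h)
    have hsub : Subsingleton (Localization.AtPrime m.asIdeal ⊗[S] W i) := by
      refine ⟨fun v w => ?_⟩
      have h5 : ∀ v : Localization.AtPrime m.asIdeal ⊗[S] W i, v = 0 := by
        intro v
        apply hunit.smul_left_cancel.1
        rw [smul_zero]
        induction v with
        | zero => rw [smul_zero]
        | add v w hv hw => rw [smul_add, hv, hw, add_zero]
        | tmul b w =>
          rw [TensorProduct.smul_tmul', smul_eq_mul, ← Algebra.smul_def, TensorProduct.smul_tmul,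
            hz, TensorProduct.tmul_zero]
      rw [h5 v, h5 w]
    rw [Module.length_eq_zero]
    simp

end local_sum

end Vale.Agent.P177
end
end

section

section

namespace Vale.Agent.P177

open CategoryTheory TensorProduct Function IsLocalRing RingTheory.Sequence Pointwise

universe u

/-- Positivity of the Euler characteristic along two maps. -/
def PosAlong {R₁ R₂ W : Type u} [CommRing R₁] [CommRing R₂] [CommRing W] (j₁ : R₁ →+* W)
    (j₂ : R₂ →+* W) (d : ℕ) (N M : Type u) [AddCommGroup N] [Module R₁ N] [AddCommGroup M]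
    [Module R₂ M] : Prop :=
  let _ : Algebra R₁ W := j₁.toAlgebra
  let _ : Algebra R₂ W := j₂.toAlgebra
  (∀ e g : ℕ, (e : WithBot ℕ∞) ≤ Module.supportDim R₁ N →
        (g : WithBot ℕ∞) ≤ Module.supportDim R₂ M → e + g ≤ d) ∧
      0 ≤ eulerTor W (d + 1) (W ⊗[R₁] N) (W ⊗[R₂] M) ∧
      (∀ e g : ℕ, (e : WithBot ℕ∞) ≤ Module.supportDim R₁ N →
        (g : WithBot ℕ∞) ≤ Module.supportDim R₂ M → d ≤ e + g →
        0 < eulerTor W (d + 1) (W ⊗[R₁] N) (W ⊗[R₂] M))

theorem posAlong_iff {R₁ R₂ W : Type u} [CommRing R₁] [CommRing R₂] [CommRing W]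
    [a₁ : Algebra R₁ W] [a₂ : Algebra R₂ W] (j₁ : R₁ →+* W) (j₂ : R₂ →+* W)
    (h₁ : ∀ r, j₁ r = algebraMap R₁ W r) (h₂ : ∀ r, j₂ r = algebraMap R₂ W r) (d : ℕ)
    (N M : Type u) [AddCommGroup N] [Module R₁ N] [AddCommGroup M] [Module R₂ M] :
    PosAlong j₁ j₂ d N M ↔ ((∀ e g : ℕ, (e : WithBot ℕ∞) ≤ Module.supportDim R₁ N →
        (g : WithBot ℕ∞) ≤ Module.supportDim R₂ M → e + g ≤ d) ∧
      0 ≤ eulerTor W (d + 1) (W ⊗[R₁] N) (W ⊗[R₂] M) ∧
      (∀ e g : ℕ, (e : WithBot ℕ∞) ≤ Module.supportDim R₁ N →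
        (g : WithBot ℕ∞) ≤ Module.supportDim R₂ M → d ≤ e + g →
        0 < eulerTor W (d + 1) (W ⊗[R₁] N) (W ⊗[R₂] M))) := by
  have e₁ : j₁.toAlgebra = a₁ := Algebra.algebra_ext _ _ h₁
  have e₂ : j₂.toAlgebra = a₂ := Algebra.algebra_ext _ _ h₂
  subst e₁ e₂
  rfl

theorem locPosAt_top' {R₁ R₂ T : Type u} [CommRing R₁] [CommRing R₂] [CommRing T]
    [IsRegularLocalRing R₁] [IsRegularLocalRing R₂] [IsRegularLocalRing T]
    [Algebra R₁ T] [Algebra R₂ T] [Module.Flat R₁ T] [Module.Flat R₂ T]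
    (N M : Type u) [AddCommGroup N] [Module R₁ N] [Module.Finite R₁ N]
    [AddCommGroup M] [Module R₂ M] [Module.Finite R₂ M] (Q : Ideal T) [Q.IsPrime]
    (h₁ : Q.comap (algebraMap R₁ T) = maximalIdeal R₁)
    (h₂ : Q.comap (algebraMap R₂ T) = maximalIdeal R₂) (d : ℕ)
    (hd₁ : ringKrullDim R₁ = d) (hd₂ : ringKrullDim R₂ = d)
    (hdW : ringKrullDim (Localization.AtPrime Q) = d)
    (hW : PosAlong ((algebraMap T (Localization.AtPrime Q)).comp (algebraMap R₁ T))
      ((algebraMap T (Localization.AtPrime Q)).comp (algebraMap R₂ T)) d N M) :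
    LocPosAt (T := T) R₁ R₂ N M Q := by
  refine locPosAt_top N M Q h₁ h₂ d hd₁ hd₂ hdW ?_
  exact (posAlong_iff _ _ (fun r => rfl) (fun r => rfl) d N M).1 hW

theorem global_pos_at {R₁ R₂ T : Type u} [CommRing R₁] [CommRing R₂] [CommRing T]
    [IsRegularLocalRing R₁] [IsRegularLocalRing R₂] [IsRegularLocalRing T]
    [Algebra R₁ T] [Algebra R₂ T] [Module.Flat R₁ T] [Module.Flat R₂ T]
    (μ : T →+* R₁) (hμ : ∀ s, μ (algebraMap R₁ T s) = s) (z : List T)
    (hkerμ : RingHom.ker μ = Ideal.ofList z) (hz : IsWeaklyRegular T z)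
    (θ : R₂ ≃+* R₁) (hθ : ∀ s, μ (algebraMap R₂ T s) = θ s)
    (d : ℕ) (hd : ringKrullDim R₁ = d)
    (M N : Type u) [AddCommGroup M] [Module R₂ M] [Module.Finite R₂ M]
    [AddCommGroup N] [Module R₁ N] [Module R₂ N] [Module.Finite R₁ N]
    (𝔪 : Ideal T) [𝔪.IsPrime] (h𝔪₁ : 𝔪.comap (algebraMap R₁ T) = maximalIdeal R₁)
    (h𝔪₂ : 𝔪.comap (algebraMap R₂ T) = maximalIdeal R₂)
    (hdW : ringKrullDim (Localization.AtPrime 𝔪) = d)
    (hex : ∀ (Q : Ideal T) [Q.IsPrime],
      (Module.annihilator R₁ N).map (algebraMap R₁ T) ≤ Q →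
      (Module.annihilator R₂ M).map (algebraMap R₂ T) ≤ Q → 𝔪 ≤ Q ∨
      ∀ (r₁ r₂ q : ℕ), (Q.comap (algebraMap R₁ T)).height = r₁ →
      (Q.comap (algebraMap R₂ T)).height = r₂ → Q.height = q → r₁ + r₂ ≤ q + 4)
    (hW : ∀ (N' M' : Type u) [AddCommGroup N'] [Module R₁ N'] [Module.Finite R₁ N']
      [AddCommGroup M'] [Module R₂ M'] [Module.Finite R₂ M'],
      Module.annihilator R₁ N ≤ Module.annihilator R₁ N' →
      Module.annihilator R₂ M ≤ Module.annihilator R₂ M' →
      maximalIdeal (Localization.AtPrime 𝔪) ≤ ((Module.annihilator R₁ N').map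
        ((algebraMap T (Localization.AtPrime 𝔪)).comp (algebraMap R₁ T)) ⊔
        (Module.annihilator R₂ M').map
        ((algebraMap T (Localization.AtPrime 𝔪)).comp (algebraMap R₂ T))).radical →
      PosAlong ((algebraMap T (Localization.AtPrime 𝔪)).comp (algebraMap R₁ T))
        ((algebraMap T (Localization.AtPrime 𝔪)).comp (algebraMap R₂ T)) d N' M')
    (hN : ∀ (s : R₂) (t : N), s • t = θ s • t)
    (hlen : Module.length R₂ (M ⊗[R₂] N) ≠ ⊤) :
    0 ≤ eulerTor R₂ (d + 1) M N ∧ ∀ m n : ℕ, (m : WithBot ℕ∞) ≤ Module.supportDim R₂ M →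
      (n : WithBot ℕ∞) ≤ Module.supportDim R₁ N →
      (m + n ≤ d) ∧ (d ≤ m + n → 0 < eulerTor R₂ (d + 1) M N) := by
  have hd₂ : ringKrullDim R₂ = d := by rw [ringKrullDim_eq_of_ringEquiv θ, hd]
  have key : ∀ (N' M' : Type u) [AddCommGroup N'] [Module R₁ N'] [Module.Finite R₁ N']
      [AddCommGroup M'] [Module R₂ M'] [Module.Finite R₂ M'],
      Module.annihilator R₁ N ≤ Module.annihilator R₁ N' →
      Module.annihilator R₂ M ≤ Module.annihilator R₂ M' →
      ∀ (Q : Ideal T) [Q.IsPrime], Q ∈ ((Module.annihilator R₁ N').map (algebraMap R₁ T) ⊔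
      (Module.annihilator R₂ M').map (algebraMap R₂ T)).minimalPrimes →
      LocPosAt (T := T) R₁ R₂ N' M' Q := by
    intro N' M' _ _ _ _ _ _ h1 h2 Q _ hQ
    have hQ1 := le_sup_left.trans hQ.1.2
    have hQ2 := le_sup_right.trans hQ.1.2
    rcases hex Q ((Ideal.map_mono h1).trans hQ1) ((Ideal.map_mono h2).trans hQ2) with h | h
    · have hle : (Module.annihilator R₁ N').map (algebraMap R₁ T) ⊔
          (Module.annihilator R₂ M').map (algebraMap R₂ T) ≤ 𝔪 := by
        refine sup_le ?_ ?_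
        · rw [Ideal.map_le_iff_le_comap, h𝔪₁]
          refine le_maximalIdeal fun htop => ?_
          rw [htop, Ideal.map_top] at hQ1
          exact Ideal.IsPrime.ne_top ‹_› (top_le_iff.1 hQ1)
        · rw [Ideal.map_le_iff_le_comap, h𝔪₂]
          refine le_maximalIdeal fun htop => ?_
          rw [htop, Ideal.map_top] at hQ2
          exact Ideal.IsPrime.ne_top ‹_› (top_le_iff.1 hQ2)
      have heq : Q = 𝔪 := le_antisymm (hQ.2 ⟨‹_›, hle⟩ h) h
      subst heq
      refine locPosAt_top' N' M' Q h𝔪₁ h𝔪₂ d hd hd₂ hdW (hW N' M' h1 h2 ?_)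
      have h3 := maximalIdeal_le_radical_of_minimal _ Q hQ
      rwa [Ideal.map_sup, Ideal.map_map, Ideal.map_map] at h3
    · exact locPosAt_of_locPos 4 locPos_four N' M' Q h
  refine global_pos_of_loc μ hμ z hkerμ hz θ hθ d hd M N (key N M le_rfl le_rfl) ?_ hN hlen
  intro p₁ p₂ hp₁ hp₂ Q _ hQ
  refine key (R₁ ⧸ p₁.asIdeal) (R₂ ⧸ p₂.asIdeal) ?_ ?_ Q ?_
  · rw [Ideal.annihilator_quotient]
    exact hp₁.1.2
  · rw [Ideal.annihilator_quotient]
    exact hp₂.1.2
  · rw [Ideal.annihilator_quotient, Ideal.annihilator_quotient]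
    exact hQ

/-- The same with ring homomorphisms. -/
theorem global_pos_at_hom {R₁ R₂ T : Type u} [CommRing R₁] [CommRing R₂] [CommRing T]
    [IsRegularLocalRing R₁] [IsRegularLocalRing R₂] [IsRegularLocalRing T]
    (i₁ : R₁ →+* T) (i₂ : R₂ →+* T) (f₁ : i₁.Flat) (f₂ : i₂.Flat)
    (μ : T →+* R₁) (hμ : ∀ s, μ (i₁ s) = s) (z : List T)
    (hkerμ : RingHom.ker μ = Ideal.ofList z) (hz : IsWeaklyRegular T z)
    (θ : R₂ ≃+* R₁) (hθ : ∀ s, μ (i₂ s) = θ s)
    (d : ℕ) (hd : ringKrullDim R₁ = d)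
    (M N : Type u) [AddCommGroup M] [Module R₂ M] [Module.Finite R₂ M]
    [AddCommGroup N] [Module R₁ N] [Module R₂ N] [Module.Finite R₁ N]
    (𝔪 : Ideal T) [𝔪.IsPrime] (h𝔪₁ : 𝔪.comap i₁ = maximalIdeal R₁)
    (h𝔪₂ : 𝔪.comap i₂ = maximalIdeal R₂)
    (hdW : ringKrullDim (Localization.AtPrime 𝔪) = d)
    (hex : ∀ (Q : Ideal T) [Q.IsPrime], (Module.annihilator R₁ N).map i₁ ≤ Q →
      (Module.annihilator R₂ M).map i₂ ≤ Q → 𝔪 ≤ Q ∨
      ∀ (r₁ r₂ q : ℕ), (Q.comap i₁).height = r₁ →
      (Q.comap i₂).height = r₂ → Q.height = q → r₁ + r₂ ≤ q + 4)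
    (hW : ∀ (N' M' : Type u) [AddCommGroup N'] [Module R₁ N'] [Module.Finite R₁ N']
      [AddCommGroup M'] [Module R₂ M'] [Module.Finite R₂ M'],
      Module.annihilator R₁ N ≤ Module.annihilator R₁ N' →
      Module.annihilator R₂ M ≤ Module.annihilator R₂ M' →
      maximalIdeal (Localization.AtPrime 𝔪) ≤ ((Module.annihilator R₁ N').map
        ((algebraMap T (Localization.AtPrime 𝔪)).comp i₁) ⊔
        (Module.annihilator R₂ M').map
        ((algebraMap T (Localization.AtPrime 𝔪)).comp i₂)).radical →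
      PosAlong ((algebraMap T (Localization.AtPrime 𝔪)).comp i₁)
        ((algebraMap T (Localization.AtPrime 𝔪)).comp i₂) d N' M')
    (hN : ∀ (s : R₂) (t : N), s • t = θ s • t)
    (hlen : Module.length R₂ (M ⊗[R₂] N) ≠ ⊤) :
    0 ≤ eulerTor R₂ (d + 1) M N ∧ ∀ m n : ℕ, (m : WithBot ℕ∞) ≤ Module.supportDim R₂ M →
      (n : WithBot ℕ∞) ≤ Module.supportDim R₁ N →
      (m + n ≤ d) ∧ (d ≤ m + n → 0 < eulerTor R₂ (d + 1) M N) := by
  let _ : Algebra R₁ T := i₁.toAlgebra
  let _ : Algebra R₂ T := i₂.toAlgebra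
  have : Module.Flat R₁ T := f₁
  have : Module.Flat R₂ T := f₂
  exact global_pos_at μ hμ z hkerμ hz θ hθ d hd M N 𝔪 h𝔪₁ h𝔪₂ hdW hex hW hN hlen

end Vale.Agent.P177
end
end

section

section

/-!
The height inequality at the prime `mT`, in the form needed for the local theorem.
-/

namespace Vale.Agent.P177

open TensorProduct IsLocalRing MvPolynomial RingTheory.Sequence

universe u

/-- The map of polynomial rings over the residue fields induced by a linear relation. -/
noncomputable def jHom {R A : Type u} [CommRing R] [CommRing A] [IsLocalRing R] [IsLocalRing A]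
    (j : R →+* A) [IsLocalHom j] {d : ℕ} (θ : Fin d → Fin d → A) :
    MvPolynomial (Fin d) (ResidueField R) →+* MvPolynomial (Fin d) (ResidueField A) :=
  eval₂Hom (C.comp (ResidueField.map j)) (fun i => ∑ l, C (residue A (θ i l)) * X l)

theorem jHom_C {R A : Type u} [CommRing R] [CommRing A] [IsLocalRing R] [IsLocalRing A]
    (j : R →+* A) [IsLocalHom j] {d : ℕ} (θ : Fin d → Fin d → A) (r : ResidueField R) :
    jHom j θ (C r) = C (ResidueField.map j r) := by
  simp only [jHom, eval₂Hom_C, RingHom.coe_comp, Function.comp_apply]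

theorem jHom_X {R A : Type u} [CommRing R] [CommRing A] [IsLocalRing R] [IsLocalRing A]
    (j : R →+* A) [IsLocalHom j] {d : ℕ} (θ : Fin d → Fin d → A) (i : Fin d) :
    jHom j θ (X i) = ∑ l, C (residue A (θ i l)) * X l := by
  simp only [jHom, eval₂Hom_X']

/-- The identity matrix. -/
def idMat {A : Type u} [CommRing A] (d : ℕ) : Fin d → Fin d → A :=
  fun i l => if i = l then 1 else 0

theorem jHom_id_X {R A : Type u} [CommRing R] [CommRing A] [IsLocalRing R] [IsLocalRing A]
    (j : R →+* A) [IsLocalHom j] {d : ℕ} (i : Fin d) :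
    jHom j (idMat d) (X i) = X i := by
  rw [jHom_X, Finset.sum_eq_single i]
  · simp [idMat]
  · intro l _ hl
    simp [idMat, Ne.symm hl]
  · simp only [Finset.mem_univ, not_true_eq_false, mul_eq_zero, map_eq_zero, residue_eq_zero_iff, mem_maximalIdeal, mem_nonunits_iff, X_ne_zero, or_false, IsEmpty.forall_iff]

/-- The local theorem: positivity along two maps of regular local rings of the same dimension
with the same maximal ideals, given a height inequality on the tangent space. -/
def LocStmt : Prop :=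
  ∀ (R₁ R₂ W : Type u) [CommRing R₁] [CommRing R₂] [CommRing W] [IsRegularLocalRing R₁]
    [IsRegularLocalRing R₂] [IsRegularLocalRing W] (j₁ : R₁ →+* W) (j₂ : R₂ →+* W)
    [IsLocalHom j₁] [IsLocalHom j₂], j₁.Flat → j₂.Flat → Infinite (ResidueField W) →
    ∀ (d : ℕ), ringKrullDim R₁ = d → ringKrullDim R₂ = d → ringKrullDim W = d →
    ∀ (x₁ : Fin d → R₁) (x₂ : Fin d → R₂), Ideal.span (Set.range x₁) = maximalIdeal R₁ →
    Ideal.span (Set.range x₂) = maximalIdeal R₂ → (maximalIdeal R₁).map j₁ = maximalIdeal W →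
    (maximalIdeal R₂).map j₂ = maximalIdeal W →
    ∀ (θ : Fin d → Fin d → W), (∀ i, j₂ (x₂ i) = ∑ l, θ i l * j₁ (x₁ l)) →
    ∀ (E G : Type u) [AddCommGroup E] [Module R₁ E] [Module.Finite R₁ E] [AddCommGroup G]
      [Module R₂ G] [Module.Finite R₂ G],
    (∀ (z : Ideal (MvPolynomial (Fin d) (ResidueField W))) [z.IsPrime],
      (∀ f ∈ z, ∀ n, homogeneousComponent n f ∈ z) → (∃ i, X i ∉ z) →
      (∀ (n : ℕ) (F : MvPolynomial (Fin d) R₁), F.IsHomogeneous n →
        eval x₁ F ∈ Module.annihilator R₁ E → jHom j₁ (idMat d) (F.map (residue R₁)) ∈ z) →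
      (∀ (n : ℕ) (F : MvPolynomial (Fin d) R₂), F.IsHomogeneous n →
        eval x₂ F ∈ Module.annihilator R₂ G → jHom j₂ θ (F.map (residue R₂)) ∈ z) →
      (z.comap (jHom j₁ (idMat d))).height + (z.comap (jHom j₂ θ)).height ≤ z.height + 1) →
    maximalIdeal W ≤ ((Module.annihilator R₁ E).map j₁ ⊔
      (Module.annihilator R₂ G).map j₂).radical →
    (∀ e g : ℕ, (e : WithBot ℕ∞) ≤ Module.supportDim R₁ E →
      (g : WithBot ℕ∞) ≤ Module.supportDim R₂ G → e + g ≤ d) →
    PosAlong j₁ j₂ d E G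

namespace QData

variable {d : ℕ} {B Γ : Type u} [CommRing B] [IsRegularLocalRing B] [CommRing Γ]
  [IsRegularLocalRing Γ] {D : QData d B Γ}

/-- The polar forms in `B/G`. -/
noncomputable def polar (D : QData d B Γ) : Ideal (B ⧸ Ideal.span {D.G}) :=
  Ideal.span (Set.range fun l : Fin d => ∑ m, Ideal.Quotient.mk _ (D.μ (D.β l m)) *
    Ideal.Quotient.mk (Ideal.span {D.G}) (D.x m))

section TD

variable {T : Type u} [CommRing T] [IsRegularLocalRing T] (t : D.TD T)

theorem TD.m_eq_span₂ : t.m = Ideal.ofList (D.xs.map t.i₂) := by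
  obtain ⟨η, hη1, hη2, -⟩ := t.exists_η
  have hη : ∀ i m, η i m ∈ maximalIdeal T := by
    intro i m
    rw [hη2]
    exact Ideal.sum_mem _ fun l _ => Ideal.mul_mem_right _ _
      (Ideal.sub_mem _ (t.X_mem _) (t.X_mem _))
  have h1 : t.m = Ideal.span (Set.range fun i => t.f (C (D.a₁ (D.x i)))) := by
    rw [TD.m, t.ofList_i₁]
  rw [t.ofList_i₂]
  refine le_antisymm ?_ ?_
  · refine Submodule.le_of_le_smul_of_le_jacobson_bot (I := maximalIdeal T)
      (IsNoetherian.noetherian _) (IsLocalRing.maximalIdeal_le_jacobson _) ?_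
    conv_lhs => rw [h1]
    rw [Ideal.span_le]
    rintro _ ⟨i, rfl⟩
    have h2 : t.f (C (D.a₁ (D.x i))) = t.f (C (D.a₂ (D.x i))) -
        ∑ m, η i m * t.f (C (D.a₁ (D.x m))) := by
      rw [← hη1, t.a₂_eq, add_sub_cancel_right]
    simp only [SetLike.mem_coe]
    rw [h2]
    refine Ideal.sub_mem _ (Ideal.mem_sup_left (Ideal.subset_span ⟨i, rfl⟩))
      (Ideal.mem_sup_right ?_)
    exact Ideal.sum_mem _ fun m _ => Ideal.mul_mem_mul (hη i m) (t.x_mem m)
  · rw [Ideal.span_le]
    rintro _ ⟨i, rfl⟩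
    simp only [SetLike.mem_coe, t.a₂_eq]
    exact Ideal.add_mem _ (t.x_mem i) (t.h_mem_m i)

theorem TD.infinite_residue [t.m.IsPrime] (hd : 0 < d) :
    Infinite (ResidueField (Localization.AtPrime t.m)) := by
  let κ : T →+* ResidueField (Localization.AtPrime t.m) :=
    (residue _).comp (algebraMap T (Localization.AtPrime t.m))
  have hκ : ∀ y, κ y = 0 ↔ y ∈ t.m := by
    intro y
    change residue _ _ = 0 ↔ _
    rw [residue_eq_zero_iff]
    exact IsLocalization.AtPrime.to_map_mem_maximal_iff _ t.m y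
  let p : Fin d × Fin d := (⟨0, hd⟩, ⟨0, hd⟩)
  refine Infinite.of_injective (fun n : ℕ => κ (t.f (X p ^ n))) ?_
  intro n m hnm
  by_contra hne
  simp only at hnm
  rw [← sub_eq_zero, ← map_sub, ← map_sub, hκ] at hnm
  have h1 : (X p ^ n - X p ^ m : MvPolynomial (Fin d × Fin d) Γ) ∈ t.m.comap t.f := hnm
  rw [t.comap_m, MvPolynomial.mem_map_C_iff] at h1
  have h2 := h1 (Finsupp.single p n)
  rw [coeff_sub, coeff_X_pow, coeff_X_pow, if_pos rfl, if_neg, sub_zero] at h2
  · exact (Ideal.ne_top_iff_one _).1 (maximalIdeal.isMaximal Γ).ne_top h2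
  · intro h3
    apply hne
    have := congrArg (fun s => s p) h3
    simpa using this.symm

theorem TD.pos_at (hLOC : LocStmt.{u}) [hm : t.m.IsPrime]
    [hR : IsRegularLocalRing (B ⧸ Ideal.span {D.G})]
    (hxs : Ideal.ofList D.xs = maximalIdeal (B ⧸ Ideal.span {D.G}))
    (hdR : ringKrullDim (B ⧸ Ideal.span {D.G}) = (d : WithBot ℕ∞)) (hd0 : 0 < d)
    (N M : Type u) [AddCommGroup N] [Module (B ⧸ Ideal.span {D.G}) N]
    [Module.Finite (B ⧸ Ideal.span {D.G}) N] [AddCommGroup M]
    [Module (B ⧸ Ideal.span {D.G}) M] [Module.Finite (B ⧸ Ideal.span {D.G}) M]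
    (htr : TransTo (Module.annihilator (B ⧸ Ideal.span {D.G}) N)
      (Module.annihilator (B ⧸ Ideal.span {D.G}) M) D.polar)
    (hFP : maximalIdeal (Localization.AtPrime t.m) ≤
      ((Module.annihilator (B ⧸ Ideal.span {D.G}) N).map
        ((algebraMap T (Localization.AtPrime t.m)).comp t.i₁) ⊔
      (Module.annihilator (B ⧸ Ideal.span {D.G}) M).map
        ((algebraMap T (Localization.AtPrime t.m)).comp t.i₂)).radical)
    (hdims : ∀ e g : ℕ, (e : WithBot ℕ∞) ≤ Module.supportDim (B ⧸ Ideal.span {D.G}) N →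
      (g : WithBot ℕ∞) ≤ Module.supportDim (B ⧸ Ideal.span {D.G}) M → e + g ≤ d) :
    PosAlong ((algebraMap T (Localization.AtPrime t.m)).comp t.i₁)
      ((algebraMap T (Localization.AtPrime t.m)).comp t.i₂) d N M := by
  classical
  let R := B ⧸ Ideal.span {D.G}
  let W := Localization.AtPrime t.m
  have hWreg : IsRegularLocalRing W := isRegularLocalRing_localization T t.m W
  let j₁ : R →+* W := (algebraMap T W).comp t.i₁
  let j₂ : R →+* W := (algebraMap T W).comp t.i₂
  have hc₁ : (maximalIdeal W).comap j₁ = maximalIdeal R := by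
    rw [← Ideal.comap_comap, ← t.comap_m₁ hxs]
    exact congrArg (Ideal.comap t.i₁) Localization.AtPrime.under_maximalIdeal
  have hc₂ : (maximalIdeal W).comap j₂ = maximalIdeal R := by
    rw [← Ideal.comap_comap, ← t.comap_m₂ hxs]
    exact congrArg (Ideal.comap t.i₂) Localization.AtPrime.under_maximalIdeal
  have hl₁ : IsLocalHom j₁ := ((IsLocalRing.local_hom_TFAE j₁).out 0 4).mpr hc₁
  have hl₂ : IsLocalHom j₂ := ((IsLocalRing.local_hom_TFAE j₂).out 0 4).mpr hc₂
  have hfW : (algebraMap T W).Flat := by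
    rw [RingHom.flat_algebraMap_iff]
    exact IsLocalization.flat W t.m.primeCompl
  let x : Fin d → R := fun i => Ideal.Quotient.mk _ (D.x i)
  have hx : Ideal.span (Set.range x) = maximalIdeal R := by
    rw [← hxs, Ideal.ofList]
    congr 1
    ext y
    simp only [x, xs, List.mem_ofFn, Set.mem_range]
    exact Iff.rfl
  have hmW : ∀ y, algebraMap T W y ∈ maximalIdeal W ↔ y ∈ t.m := fun y =>
    IsLocalization.AtPrime.to_map_mem_maximal_iff _ t.m y
  have hmax₁ : (maximalIdeal R).map j₁ = maximalIdeal W := by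
    rw [← Ideal.map_map, ← hxs, Ideal.map_ofList]
    exact Localization.AtPrime.map_eq_maximalIdeal
  have hmax₂ : (maximalIdeal R).map j₂ = maximalIdeal W := by
    rw [← Ideal.map_map, ← hxs, Ideal.map_ofList, ← t.m_eq_span₂]
    exact Localization.AtPrime.map_eq_maximalIdeal
  obtain ⟨η, hη1, hη2, ω, hω⟩ := t.exists_η
  let θ : Fin d → Fin d → W := fun i l => (if i = l then 1 else 0) + algebraMap T W (η i l)
  have hθ : ∀ i, j₂ (x i) = ∑ l, θ i l * j₁ (x l) := by
    intro i
    change algebraMap T W (t.i₂ (Ideal.Quotient.mk _ (D.x i))) =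
      ∑ l, θ i l * algebraMap T W (t.i₁ (Ideal.Quotient.mk _ (D.x l)))
    simp only [t.i₁_mk, t.i₂_mk, θ, add_mul, Finset.sum_add_distrib, ite_mul, one_mul, zero_mul,
      Finset.sum_ite_eq, Finset.mem_univ, if_true]
    rw [t.a₂_eq, map_add, hη1, map_sum]
    simp only [map_mul]
  -- residues
  let κ : T →+* ResidueField W := (residue W).comp (algebraMap T W)
  have hκ : RingHom.ker κ = t.m := by
    ext y
    rw [RingHom.mem_ker]
    change residue W (algebraMap T W y) = 0 ↔ _
    rw [residue_eq_zero_iff, hmW]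
  have hκ12 : ∀ r : R, κ (t.i₂ r) = κ (t.i₁ r) := by
    intro r
    rw [← sub_eq_zero, ← map_sub, ← RingHom.mem_ker, hκ]
    exact t.sub_mem_m r
  have hκC : ∀ y : Γ, κ (t.f (C y)) = κ (t.i₁ (Ideal.Quotient.mk _ (D.μ y))) := by
    intro y
    rw [← sub_eq_zero, ← map_sub, ← RingHom.mem_ker, hκ]
    exact t.fC_sub_mem y
  have hres : ResidueField.map j₂ = ResidueField.map j₁ := by
    apply RingHom.ext
    intro a
    obtain ⟨r, rfl⟩ := residue_surjective a
    rw [ResidueField.map_residue, ResidueField.map_residue]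
    exact hκ12 r
  refine hLOC R R W j₁ j₂ (t.flat₁.comp hfW) (t.flat₂.comp hfW) (t.infinite_residue hd0) d hdR hdR
    (by
      rw [IsLocalization.AtPrime.ringKrullDim_eq_height t.m W, t.height_m]
      rfl) x x hx hx hmax₁ hmax₂ θ hθ N M ?_ hFP hdims
  intro z hz hhom hXz hzN hzM
  -- some polar form is not in `z`
  have hpol : ∃ l, ∑ m, C (κ (t.f (C (D.β l m)))) *
      (X m : MvPolynomial (Fin d) (ResidueField W)) ∉ z := by
    by_contra hcon
    push Not at hcon
    obtain ⟨i, hi⟩ := hXz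
    apply hi
    rw [← jHom_id_X j₁ i]
    refine X_mem_of_transTo hdR hx _ _ (fun l m => Ideal.Quotient.mk _ (D.μ (D.β l m))) htr
      (jHom j₁ (idMat d)) z hzN ?_ ?_ i
    · intro n F hF hFM
      have h1 := hzM n F hF hFM
      have h2 : (Ideal.Quotient.mk z).comp (jHom j₂ θ) =
          (Ideal.Quotient.mk z).comp (jHom j₁ (idMat d)) := by
        apply MvPolynomial.ringHom_ext
        · intro a
          rw [RingHom.comp_apply, RingHom.comp_apply, jHom_C, jHom_C, hres]
        · intro i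
          rw [RingHom.comp_apply, RingHom.comp_apply, Ideal.Quotient.eq, jHom_id_X, jHom_X]
          have h3 : (∑ l, C (residue W (θ i l)) * X l - X i :
              MvPolynomial (Fin d) (ResidueField W)) =
              ∑ s, C (κ (ω i s)) * ∑ l, C (κ (t.f (C (D.β s l)))) * X l := by
            have h4 : ∀ l, residue W (θ i l) = (if i = l then 1 else 0) + κ (η i l) := by
              intro l
              change residue W ((if i = l then 1 else 0) + algebraMap T W (η i l)) = _
              rw [map_add]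
              congr 1
              split_ifs <;> simp
            simp only [h4, map_add, add_mul, Finset.sum_add_distrib]
            have h5 : ∑ l, C (if i = l then (1 : ResidueField W) else 0) *
                (X l : MvPolynomial (Fin d) (ResidueField W)) = X i := by
              rw [Finset.sum_eq_single i]
              · simp only [↓reduceIte, C_1, one_mul]
              · intro l _ hl
                simp [Ne.symm hl]
              · simp only [Finset.mem_univ, not_true_eq_false, ↓reduceIte, C_1, one_mul, X_ne_zero, imp_self]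
            rw [h5, add_sub_cancel_left]
            simp only [hω, map_sum, map_mul, Finset.sum_mul, Finset.mul_sum]
            rw [Finset.sum_comm]
            refine Finset.sum_congr rfl fun s _ => Finset.sum_congr rfl fun l _ => ?_
            ring
          rw [h3]
          exact Ideal.sum_mem _ fun s _ => Ideal.mul_mem_left _ _ (hcon s)
      have h3 := RingHom.congr_fun h2 (F.map (residue R))
      rw [RingHom.comp_apply, RingHom.comp_apply, Ideal.Quotient.eq] at h3
      have := Ideal.sub_mem _ h1 h3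
      rwa [sub_sub_cancel] at this
    · intro l
      have h1 := hcon l
      have h2 : ∑ m, jHom j₁ (idMat d) (C (residue R (Ideal.Quotient.mk _ (D.μ (D.β l m))))) *
          jHom j₁ (idMat d) (X m) = ∑ m, C (κ (t.f (C (D.β l m)))) *
          (X m : MvPolynomial (Fin d) (ResidueField W)) := by
        refine Finset.sum_congr rfl fun m _ => ?_
        rw [jHom_C, jHom_id_X, hκC]
        rfl
      rw [h2]
      exact h1
  -- the height inequality
  let _ : Algebra (ResidueField R) (ResidueField W) := (ResidueField.map j₁).toAlgebra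
  have hK := t.height_K (k := ResidueField R) (K := ResidueField W) κ hκ (residue R)
    residue_surjective (fun r => ResidueField.map_residue j₁ r) η hη2
    (fun i m => residue W (θ i m)) (by
      intro i m
      change residue W ((if i = m then 1 else 0) + algebraMap T W (η i m)) = _
      rw [map_add]
      congr 1
      split_ifs <;> simp) z hpol
  have e₁ : z.comap (aeval X : MvPolynomial (Fin d) (ResidueField R) →ₐ[ResidueField R]
      MvPolynomial (Fin d) (ResidueField W)) = z.comap (jHom j₁ (idMat d)) := by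
    have : ((aeval X : MvPolynomial (Fin d) (ResidueField R) →ₐ[ResidueField R]
      MvPolynomial (Fin d) (ResidueField W)) : _ →+* _) = jHom j₁ (idMat d) := by
      apply MvPolynomial.ringHom_ext
      · intro a
        rw [jHom_C]
        exact aeval_C _ _
      · intro i
        rw [jHom_id_X]
        exact aeval_X _ _
    rw [← this]
    rfl
  have e₂ : z.comap (aeval (fun i => ∑ l, C (residue W (θ i l)) * X l) :
      MvPolynomial (Fin d) (ResidueField R) →ₐ[ResidueField R]
      MvPolynomial (Fin d) (ResidueField W)) = z.comap (jHom j₂ θ) := by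
    have : ((aeval (fun i => ∑ l, C (residue W (θ i l)) * X l) :
      MvPolynomial (Fin d) (ResidueField R) →ₐ[ResidueField R]
      MvPolynomial (Fin d) (ResidueField W)) : _ →+* _) = jHom j₂ θ := by
      apply MvPolynomial.ringHom_ext
      · intro a
        rw [jHom_C, hres]
        exact aeval_C _ _
      · intro i
        rw [jHom_X]
        exact aeval_X _ _
    rw [← this]
    rfl
  rw [e₁, e₂] at hK
  exact hK

end TD

end QData

end Vale.Agent.P177
end
end

section

section

/-!
Serre's statements for a pair of modules over a quadratic hypersurface.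
-/

namespace Vale.Agent.P177

open TensorProduct IsLocalRing MvPolynomial RingTheory.Sequence

universe u

/-- Serre's statements for a pair of modules over a ring of dimension `d`. -/
def SerrePair (R : Type u) [CommRing R] (d : ℕ) (M N : Type u) [AddCommGroup M] [Module R M]
    [AddCommGroup N] [Module R N] : Prop :=
  0 ≤ eulerTor R (d + 1) M N ∧ ∀ m n : ℕ, (m : WithBot ℕ∞) ≤ Module.supportDim R M →
      (n : WithBot ℕ∞) ≤ Module.supportDim R N →
      (m + n ≤ d) ∧ (d ≤ m + n → 0 < eulerTor R (d + 1) M N)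

theorem length_tensor_ne_top_of_le {R : Type u} [CommRing R] [IsLocalRing R] [IsNoetherianRing R]
    (M M' N N' : Type u) [AddCommGroup M] [Module R M] [AddCommGroup M'] [Module R M']
    [AddCommGroup N] [Module R N] [AddCommGroup N'] [Module R N'] [Module.Finite R M]
    [Module.Finite R M'] [Module.Finite R N] [Module.Finite R N']
    (h : Module.length R (M ⊗[R] N) ≠ ⊤)
    (hle : Module.annihilator R M ≤ Module.annihilator R M')
    (hle' : Module.annihilator R N ≤ Module.annihilator R N') :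
    Module.length R (M' ⊗[R] N') ≠ ⊤ := by
  have h1 := length_tensor_ne_top_of_annihilator_le M M' N h hle
  rw [(TensorProduct.comm R M' N).length_eq] at h1
  have h2 := length_tensor_ne_top_of_annihilator_le N N' M' h1 hle'
  rwa [(TensorProduct.comm R N' M').length_eq] at h2

namespace QData

variable {d : ℕ} {B Γ : Type u} [CommRing B] [IsRegularLocalRing B] [CommRing Γ]
  [IsRegularLocalRing Γ]

theorem isHypersurface (D : QData d B Γ)
    (hdR : ringKrullDim (B ⧸ Ideal.span {D.G}) = (d : WithBot ℕ∞)) :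
    IsHypersurface B (B ⧸ Ideal.span {D.G}) D.G := by
  have hdom : IsDomain B := regular_isDomain B
  have hne : D.G ≠ 0 := by
    intro h0
    have h1 : Function.Injective (Ideal.Quotient.mk (Ideal.span {D.G})) := by
      rw [RingHom.injective_iff_ker_eq_bot, Ideal.mk_ker, h0]
      exact Ideal.span_singleton_eq_bot.2 rfl
    have e : B ≃+* B ⧸ Ideal.span {D.G} :=
      RingEquiv.ofBijective _ ⟨h1, Ideal.Quotient.mk_surjective⟩
    have h2 := ringKrullDim_eq_of_ringEquiv e
    rw [hdR, D.dimB] at h2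
    have h3 : d + 1 = d := by exact_mod_cast h2
    omega
  refine ⟨?_, Ideal.Quotient.mk_surjective, Ideal.mk_ker⟩
  intro a b hab
  exact mul_left_cancel₀ hne hab

theorem serrePair (hLOC : LocStmt.{u}) (D : QData d B Γ) (hB : SerreAll B (d + 1)) (hd0 : 0 < d)
    (M N : Type u) [AddCommGroup M] [Module (B ⧸ Ideal.span {D.G}) M]
    [Module.Finite (B ⧸ Ideal.span {D.G}) M] [AddCommGroup N]
    [Module (B ⧸ Ideal.span {D.G}) N] [Module.Finite (B ⧸ Ideal.span {D.G}) N]
    (hlen : Module.length (B ⧸ Ideal.span {D.G}) (M ⊗[B ⧸ Ideal.span {D.G}] N) ≠ ⊤)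
    (htr : ∀ _ : IsLocalRing (B ⧸ Ideal.span {D.G}),
      TransTo (Module.annihilator (B ⧸ Ideal.span {D.G}) M)
      (Module.annihilator (B ⧸ Ideal.span {D.G}) N) D.polar) :
    SerrePair (B ⧸ Ideal.span {D.G}) d M N := by
  obtain ⟨hR, hxs, hdR⟩ := D.quot_regular
  obtain ⟨T, _, _, ⟨t⟩⟩ := D.exists_TD
  have hm := t.m_prime
  have H := D.isHypersurface hdR
  refine global_pos_at_hom t.i₁ t.i₂ t.flat₁ t.flat₂ t.ν t.ν_i₁ t.z t.ker_ν t.z_regular
    (RingEquiv.refl _) (fun s => t.ν_i₂ s) d hdR M N t.m (t.comap_m₁ hxs) (t.comap_m₂ hxs)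
    ?_ ?_ ?_ (fun s t => rfl) hlen
  · rw [IsLocalization.AtPrime.ringKrullDim_eq_height t.m, t.height_m]
    rfl
  · intro Q hQ h1 h2
    by_cases hu : ∀ j, t.f (C (D.u j)) ∈ Q
    · left
      obtain ⟨k, hk⟩ := exists_pow_le_sup_annihilator M N hlen
      refine t.m_le_of_u_mem hxs (Module.annihilator _ N) (Module.annihilator _ M) ?_ Q h1 h2 hu
      intro a ha
      refine ⟨k, ?_⟩
      rw [sup_comm]
      exact hk (Ideal.pow_mem_pow ha k)
    · right
      push Not at hu
      obtain ⟨j, hj⟩ := hu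
      intro r₁ r₂ q hr₁ hr₂ hq
      have := t.height_le Q j hj r₁ r₂ q hr₁ hr₂ hq
      omega
  · intro N' M' _ _ _ _ _ _ hN' hM' hFP
    refine t.pos_at hLOC hxs hdR hd0 N' M' ((htr inferInstance).symm.mono hN' hM' le_rfl) hFP ?_
    intro e g he hg
    have hlen' := length_tensor_ne_top_of_le M M' N N' hlen hM' hN'
    have := dimension_inequality_hypersurface H d D.dimB hdR hB M' N' hlen' g e hg he
    (clear * - this; omega)

end QData

end Vale.Agent.P177
end
end

section

section

/-!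
Serre's statements over a hypersurface in a power series ring over a discrete valuation ring.
-/

namespace Vale.Agent.P177

open TensorProduct IsLocalRing RingTheory.Sequence Function

universe u

/-- The quotient ring. -/
abbrev QuadRing (V : Type u) [CommRing V] (ϖ : V) (d : ℕ)
    (c : Fin d → Fin d → MvPowerSeries (Fin d) V) : Type u :=
  MvPowerSeries (Fin d) V ⧸ Ideal.span {quadEq V ϖ d c}

/-- The ideal generated by the polar forms. -/
noncomputable def polarIdeal (V : Type u) [CommRing V] (ϖ : V) (d : ℕ)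
    (c : Fin d → Fin d → MvPowerSeries (Fin d) V) : Ideal (QuadRing V ϖ d c) :=
  Ideal.span (Set.range fun l : Fin d =>
    ∑ m, Ideal.Quotient.mk (Ideal.span {quadEq V ϖ d c})
      ((c l m + c m l) * MvPowerSeries.X m))

theorem quadRing_regular (V : Type u) [CommRing V] [IsRegularLocalRing V] (ϖ : V)
    (hϖ : maximalIdeal V = Ideal.span {ϖ}) (hV : ringKrullDim V = (1 : ℕ)) (d : ℕ)
    (c : Fin d → Fin d → MvPowerSeries (Fin d) V) :
    ∃ (_ : IsRegularLocalRing (QuadRing V ϖ d c)),
    Ideal.span (Set.range (fun i => (Ideal.Quotient.mk _ (MvPowerSeries.X i) :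
      QuadRing V ϖ d c))) = maximalIdeal (QuadRing V ϖ d c) ∧
    ringKrullDim (QuadRing V ϖ d c) = (d : WithBot ℕ∞) := by
  obtain ⟨h1, h2, D, hG, hx, -⟩ := exists_QData V ϖ hϖ hV d c
  have key : ∀ (g : MvPowerSeries (Fin d) V) (x : Fin d → MvPowerSeries (Fin d) V), D.G = g →
      D.x = x → ∃ (_ : IsRegularLocalRing (MvPowerSeries (Fin d) V ⧸ Ideal.span {g})),
      Ideal.span (Set.range (fun i => (Ideal.Quotient.mk (Ideal.span {g}) (x i)))) =
        maximalIdeal (MvPowerSeries (Fin d) V ⧸ Ideal.span {g}) ∧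
      ringKrullDim (MvPowerSeries (Fin d) V ⧸ Ideal.span {g}) = (d : WithBot ℕ∞) := by
    rintro g x rfl rfl
    obtain ⟨k1, k2, k3⟩ := D.quot_regular
    refine ⟨k1, ?_, k3⟩
    rw [← k2, Ideal.ofList]
    congr 1
    ext y
    simp only [QData.xs, List.mem_ofFn, Set.mem_range]
    exact Iff.rfl
  exact key _ _ hG hx

theorem serrePair_quadRing (hLOC : LocStmt.{u}) (V : Type u) [CommRing V] [IsRegularLocalRing V]
    (ϖ : V) (hϖ : maximalIdeal V = Ideal.span {ϖ}) (hV : ringKrullDim V = (1 : ℕ)) (d : ℕ)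
    (c : Fin d → Fin d → MvPowerSeries (Fin d) V) [hR : IsLocalRing (QuadRing V ϖ d c)]
    (M N : Type u) [AddCommGroup M] [Module (QuadRing V ϖ d c) M]
    [Module.Finite (QuadRing V ϖ d c) M] [AddCommGroup N] [Module (QuadRing V ϖ d c) N]
    [Module.Finite (QuadRing V ϖ d c) N]
    (hlen : Module.length (QuadRing V ϖ d c) (M ⊗[QuadRing V ϖ d c] N) ≠ ⊤)
    (htr : TransTo (Module.annihilator (QuadRing V ϖ d c) M)
      (Module.annihilator (QuadRing V ϖ d c) N) (polarIdeal V ϖ d c)) :
    SerrePair (QuadRing V ϖ d c) d M N := by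
  by_cases hd0 : 0 < d
  · obtain ⟨h1, h2, D, hG, hx, hβ⟩ := exists_QData V ϖ hϖ hV d c
    have hB : SerreAll (MvPowerSeries (Fin d) V) (d + 1) :=
      serreAll_powerSeries 4 locPos_four V (by rw [hV]; norm_num) d (d + 1) D.dimB
    have key : ∀ (g : MvPowerSeries (Fin d) V) (x : Fin d → MvPowerSeries (Fin d) V), D.G = g →
        D.x = x → ∀ [IsLocalRing (MvPowerSeries (Fin d) V ⧸ Ideal.span {g})] (M N : Type u)
        [AddCommGroup M] [Module (MvPowerSeries (Fin d) V ⧸ Ideal.span {g}) M]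
        [Module.Finite (MvPowerSeries (Fin d) V ⧸ Ideal.span {g}) M] [AddCommGroup N]
        [Module (MvPowerSeries (Fin d) V ⧸ Ideal.span {g}) N]
        [Module.Finite (MvPowerSeries (Fin d) V ⧸ Ideal.span {g}) N]
        (_ : Module.length (MvPowerSeries (Fin d) V ⧸ Ideal.span {g})
          (M ⊗[MvPowerSeries (Fin d) V ⧸ Ideal.span {g}] N) ≠ ⊤)
        (_ : TransTo (Module.annihilator (MvPowerSeries (Fin d) V ⧸ Ideal.span {g}) M)
          (Module.annihilator (MvPowerSeries (Fin d) V ⧸ Ideal.span {g}) N)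
          (Ideal.span (Set.range fun l : Fin d => ∑ m, Ideal.Quotient.mk (Ideal.span {g})
            ((c l m + c m l) * x m)))),
        SerrePair (MvPowerSeries (Fin d) V ⧸ Ideal.span {g}) d M N := by
      rintro g x rfl rfl _ M N _ _ _ _ _ _ hlen htr
      refine D.serrePair hLOC hB hd0 M N hlen fun _ => ?_
      have hmB : (maximalIdeal (MvPowerSeries (Fin d) V)).map
          (Ideal.Quotient.mk (Ideal.span {D.G})) =
          maximalIdeal (MvPowerSeries (Fin d) V ⧸ Ideal.span {D.G}) :=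
        map_maximalIdeal_of_surjective _ Ideal.Quotient.mk_surjective
      refine TransTo.of_sup (htr.mono le_rfl le_rfl ?_)
      rw [Ideal.span_le]
      rintro _ ⟨l, rfl⟩
      have e1 : ∑ m, Ideal.Quotient.mk (Ideal.span {D.G}) ((c l m + c m l) * D.x m) =
          ∑ m, Ideal.Quotient.mk _ (D.μ (D.β l m)) *
            Ideal.Quotient.mk (Ideal.span {D.G}) (D.x m) -
          ∑ m, Ideal.Quotient.mk (Ideal.span {D.G}) (D.μ (D.β l m) - polarMatrix V d c l m) *
            Ideal.Quotient.mk (Ideal.span {D.G}) (D.x m) := by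
        rw [← Finset.sum_sub_distrib]
        refine Finset.sum_congr rfl fun m _ => ?_
        rw [← map_mul, ← map_mul, ← map_sub]
        congr 1
        simp only [polarMatrix]
        ring
      simp only [SetLike.mem_coe]
      rw [e1]
      refine Ideal.sub_mem _ (Ideal.mem_sup_left (Ideal.subset_span ⟨l, rfl⟩))
        (Ideal.mem_sup_right (Ideal.sum_mem _ fun m _ => ?_))
      rw [pow_two]
      refine Ideal.mul_mem_mul ?_ ?_
      · rw [← hmB]
        exact Ideal.mem_map_of_mem _ (hβ l m)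
      · rw [← hmB]
        refine Ideal.mem_map_of_mem _ ?_
        rw [D.maxB]
        exact Ideal.mem_sup_right (Ideal.subset_span ⟨m, rfl⟩)
    exact key _ _ hG hx M N hlen htr
  · obtain ⟨k1, -, k3⟩ := quadRing_regular V ϖ hϖ hV d c
    exact serreAll_essSmooth 4 locPos_four (QuadRing V ϖ d c) (QuadRing V ϖ d c)
      (by rw [k3]; exact_mod_cast (by omega : d ≤ 4)) d k3 M N hlen

/-- The polar ideal is the maximal ideal when the polar matrix is invertible. -/
theorem transTo_of_isUnit_det (V : Type u) [CommRing V] [IsRegularLocalRing V]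
    (ϖ : V) (hϖ : maximalIdeal V = Ideal.span {ϖ}) (hV : ringKrullDim V = (1 : ℕ)) (d : ℕ)
    (c : Fin d → Fin d → MvPowerSeries (Fin d) V) (hc : IsUnit (polarMatrix V d c).det)
    [hR : IsLocalRing (QuadRing V ϖ d c)] (I J : Ideal (QuadRing V ϖ d c)) :
    TransTo I J (polarIdeal V ϖ d c) := by
  obtain ⟨k1, k2, -⟩ := quadRing_regular V ϖ hϖ hV d c
  refine ⟨0, ?_⟩
  rw [zero_add, pow_zero, mul_one, pow_one]
  refine le_sup_of_le_right ?_
  rw [← k2, Ideal.span_le]
  rintro _ ⟨i, rfl⟩
  have h4 := Matrix.nonsing_inv_mul (polarMatrix V d c) hc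
  have h5 : (MvPowerSeries.X i : MvPowerSeries (Fin d) V) = ∑ l, (polarMatrix V d c)⁻¹ i l *
      ∑ m, (c l m + c m l) * MvPowerSeries.X m := by
    simp only [Finset.mul_sum]
    rw [Finset.sum_comm]
    rw [Finset.sum_eq_single i]
    · have h6 := congrFun (congrFun h4 i) i
      rw [Matrix.mul_apply, Matrix.one_apply_eq] at h6
      simp only [← mul_assoc, ← Finset.sum_mul]
      change MvPowerSeries.X i = (∑ l, (polarMatrix V d c)⁻¹ i l * polarMatrix V d c l i) *
        MvPowerSeries.X i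
      rw [h6, one_mul]
    · intro m _ hm
      have h6 := congrFun (congrFun h4 i) m
      rw [Matrix.mul_apply, Matrix.one_apply_ne (Ne.symm hm)] at h6
      simp only [← mul_assoc, ← Finset.sum_mul]
      change (∑ l, (polarMatrix V d c)⁻¹ i l * polarMatrix V d c l m) *
        MvPowerSeries.X m = 0
      rw [h6, zero_mul]
    · simp only [Finset.mem_univ, not_true_eq_false, IsEmpty.forall_iff]
  simp only [SetLike.mem_coe]
  rw [h5, map_sum]
  refine Ideal.sum_mem _ fun l _ => ?_
  rw [map_mul]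
  refine Ideal.mul_mem_left _ _ ?_
  rw [map_sum]
  exact Ideal.subset_span ⟨l, rfl⟩

section descend

variable {R C : Type u} [CommRing R] [CommRing C] [IsLocalRing R] [IsNoetherianRing R]
  [IsLocalRing C] [IsNoetherianRing C] [Algebra R C] [Module.Flat R C]

theorem SerrePair.descend (hloc : (maximalIdeal R).map (algebraMap R C) = maximalIdeal C) {d : ℕ}
    (M N : Type u) [AddCommGroup M] [Module R M] [Module.Finite R M]
    [AddCommGroup N] [Module R N] [Module.Finite R N]
    (h : SerrePair C d (C ⊗[R] M) (C ⊗[R] N)) : SerrePair R d M N := by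
  obtain ⟨h1, h2⟩ := h
  have heq : eulerTor C (d + 1) (C ⊗[R] M) (C ⊗[R] N) = eulerTor R (d + 1) M N := by
    unfold eulerTor
    refine Finset.sum_congr rfl fun j _ => ?_
    rw [length_tor_bc₂ (A := R) (C := C) hloc j (TensorProduct.isBaseChange R M C)
      (TensorProduct.isBaseChange R N C)]
  rw [heq] at h1 h2
  exact ⟨h1, fun m n hm hn => h2 m n (hm.trans (supportDim_le_baseChange R C hloc M))
    (hn.trans (supportDim_le_baseChange R C hloc N))⟩

end descend

end Vale.Agent.P177
end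
end

section

section

/-!
Nonnegativity at the points of a chart, for strict transforms.
-/

namespace Vale.Agent.P177

open IsLocalRing Function TensorProduct

universe u

section side

variable {R : Type u} [CommRing R] [IsRegularLocalRing R] {d : ℕ} {x' : Fin d → R}

theorem exists_side (hd : ringKrullDim R = d) (hx' : Ideal.span (Set.range x') = maximalIdeal R)
    {Ω : Type u} [CommRing Ω] [IsLocalRing Ω] (ρ : ERees x' →+* Ω) (hρ : ρ.Flat)
    (q : Ideal (MvPolynomial (Fin d) (ResidueField R))) [q.IsPrime]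
    (hq : (maximalIdeal Ω).comap ρ = q.comap (eRes hx')) :
    ∃ (Λ : Type u) (_ : CommRing Λ) (_ : IsRegularLocalRing Λ) (_ : Algebra Λ Ω)
      (_ : Module.Flat Λ Ω) (_ : IsLocalHom (algebraMap Λ Ω)) (σ : ERees x' →+* Λ),
      ringKrullDim Λ = ((q.height + 1 : ℕ∞) : WithBot ℕ∞) ∧ ∀ z, algebraMap Λ Ω (σ z) = ρ z := by
  obtain ⟨hreg, hht, -⟩ := eRees_regular_aux hd hx' q
  let 𝔭 : Ideal (ERees x') := q.comap (eRes hx')
  have hu : ∀ y : 𝔭.primeCompl, IsUnit (ρ y) := by
    rintro ⟨y, hy⟩
    by_contra hcon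
    apply hy
    change y ∈ q.comap (eRes hx')
    rw [← hq]
    exact hcon
  let f : Localization.AtPrime 𝔭 →+* Ω := IsLocalization.lift hu
  have hf : ∀ z, f (algebraMap _ _ z) = ρ z := fun z => IsLocalization.lift_eq hu z
  let _ : Algebra (Localization.AtPrime 𝔭) Ω := f.toAlgebra
  let _ : Algebra (ERees x') Ω := ρ.toAlgebra
  have htow : IsScalarTower (ERees x') (Localization.AtPrime 𝔭) Ω :=
    IsScalarTower.of_algebraMap_eq fun z => (hf z).symm
  have hflat₀ : Module.Flat (ERees x') Ω := RingHom.flat_algebraMap_iff.1 hρ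
  have hflat : Module.Flat (Localization.AtPrime 𝔭) Ω :=
    (Module.flat_iff_of_isLocalization (Localization.AtPrime 𝔭) 𝔭.primeCompl Ω).2 hflat₀
  have hlocal : IsLocalHom (algebraMap (Localization.AtPrime 𝔭) Ω) := by
    refine ⟨fun a ha => ?_⟩
    by_contra hcon
    obtain ⟨⟨z, s⟩, hzs⟩ := IsLocalization.surj 𝔭.primeCompl a
    have hz : z ∈ 𝔭 := by
      have h1 : algebraMap (ERees x') (Localization.AtPrime 𝔭) z ∈
          maximalIdeal (Localization.AtPrime 𝔭) := by
        rw [← hzs]
        exact Ideal.mul_mem_right _ _ hcon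
      exact (IsLocalization.AtPrime.to_map_mem_maximal_iff (Localization.AtPrime 𝔭) 𝔭 z).1 h1
    have h2 : ρ z ∈ maximalIdeal Ω := by
      have : z ∈ (maximalIdeal Ω).comap ρ := by rw [hq]; exact hz
      exact this
    have h3 : IsUnit (ρ z) := by
      rw [← hf, ← hzs, map_mul]
      refine IsUnit.mul ha ?_
      rw [hf]
      exact hu s
    exact h2 h3
  refine ⟨Localization.AtPrime 𝔭, inferInstance, hreg, inferInstance, hflat, hlocal,
    algebraMap _ _, ?_, hf⟩
  rw [IsLocalization.AtPrime.ringKrullDim_eq_height 𝔭 (Localization.AtPrime 𝔭), hht]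

end side

section transfer

theorem eulerTor_bc {B C : Type u} [CommRing B] [CommRing C] [IsLocalRing B] [IsNoetherianRing B]
    [IsLocalRing C] [IsNoetherianRing C] [Algebra B C] [Module.Flat B C]
    (hloc : (maximalIdeal B).map (algebraMap B C) = maximalIdeal C) (n : ℕ) (X Y : Type u)
    [AddCommGroup X] [Module B X] [AddCommGroup Y] [Module B Y] :
    eulerTor B n X Y = eulerTor C n (C ⊗[B] X) (C ⊗[B] Y) := by
  unfold eulerTor
  refine Finset.sum_congr rfl fun j _ => ?_
  rw [length_tor_bc₂ (A := B) (C := C) hloc j (TensorProduct.isBaseChange B X C)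
    (TensorProduct.isBaseChange B Y C)]

theorem eulerTor_left_zero {C : Type u} [CommRing C] (n : ℕ) (X Y : Type u)
    [AddCommGroup X] [Module C X] [AddCommGroup Y] [Module C Y] (hX : Subsingleton X) :
    eulerTor C n X Y = 0 := by
  unfold eulerTor
  refine Finset.sum_eq_zero fun j _ => ?_
  have h0 : Subsingleton (TorM C j X Y) := tor_subsingleton_left (T := C) j X Y
  rw [Module.length_eq_zero]
  simp only [Int.reduceNeg, ENat.toNat_zero, CharP.cast_eq_zero, mul_zero]

theorem eulerTor_right_zero {C : Type u} [CommRing C] (n : ℕ) (X Y : Type u)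
    [AddCommGroup X] [Module C X] [AddCommGroup Y] [Module C Y] (hY : Subsingleton Y) :
    eulerTor C n X Y = 0 := by
  unfold eulerTor
  refine Finset.sum_eq_zero fun j _ => ?_
  obtain ⟨e⟩ := tor_symm (R := C) j X Y
  have h0 : Subsingleton (TorM C j Y X) := tor_subsingleton_left (T := C) j Y X
  have h1 : Subsingleton (TorM C j X Y) := e.toEquiv.subsingleton
  rw [Module.length_eq_zero]
  simp only [Int.reduceNeg, ENat.toNat_zero, CharP.cast_eq_zero, mul_zero]

theorem length_congr₂ {C : Type u} [CommRing C] {X X' Y Y' : Type u} [AddCommGroup X] [Module C X]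
    [AddCommGroup X'] [Module C X'] [AddCommGroup Y] [Module C Y] [AddCommGroup Y'] [Module C Y']
    (e₁ : X ≃ₗ[C] X') (e₂ : Y ≃ₗ[C] Y') :
    Module.length C (X ⊗[C] Y) = Module.length C (X' ⊗[C] Y') :=
  (TensorProduct.congr e₁ e₂).length_eq

end transfer

section height

variable {K : Type u} [Field K] {d : ℕ}

/-- A homogeneous prime different from the irrelevant ideal has height less than `d`. -/
theorem height_lt_of_homogeneous (q : Ideal (MvPolynomial (Fin d) K)) [q.IsPrime]
    (hhom : ∀ f ∈ q, ∀ n, MvPolynomial.homogeneousComponent n f ∈ q)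
    (hX : ∃ i, MvPolynomial.X i ∉ q) : q.height + 1 ≤ d := by
  let n : Ideal (MvPolynomial (Fin d) K) :=
    RingHom.ker (MvPolynomial.constantCoeff : MvPolynomial (Fin d) K →+* K)
  have hn : n.IsPrime := RingHom.ker_isPrime _
  have hle : q ≤ n := by
    intro f hf
    have h1 := hhom f hf 0
    rw [MvPolynomial.homogeneousComponent_zero] at h1
    by_contra hcon
    apply (inferInstance : q.IsPrime).ne_top
    refine Ideal.eq_top_of_isUnit_mem _ h1 ?_
    exact (IsUnit.mk0 _ hcon).map MvPolynomial.C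
  have hlt : q < n := by
    refine lt_of_le_of_ne hle ?_
    rintro rfl
    obtain ⟨i, hi⟩ := hX
    apply hi
    change MvPolynomial.constantCoeff (MvPolynomial.X i) = 0
    simp
  refine (Ideal.height_add_one_le_of_lt_of_isPrime hlt).trans ?_
  have h1 : ringKrullDim (MvPolynomial (Fin d) K) = d := by
    rw [MvPolynomial.ringKrullDim_of_isNoetherianRing, ringKrullDim_eq_zero_of_field]
    simp only [Nat.card_eq_fintype_card, Fintype.card_fin, zero_add]
  have h2 : (n.height : WithBot ℕ∞) ≤ d := by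
    rw [← h1]
    exact Ideal.height_le_ringKrullDim_of_isPrime
  exact_mod_cast h2

end height

section forms

variable {R : Type u} [CommRing R] [IsLocalRing R] {d : ℕ}

/-- The ideal `z` contains the initial forms of the elements of `I` (with respect to the
system of parameters `x`). -/
def InForm (x : Fin d → R) (I : Ideal R) (z : Ideal (MvPolynomial (Fin d) (ResidueField R))) :
    Prop :=
  ∀ (n : ℕ) (F : MvPolynomial (Fin d) R), F.IsHomogeneous n → MvPolynomial.eval x F ∈ I →
    F.map (residue R) ∈ z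

omit [IsLocalRing R] in
theorem st_subsingleton {x : Fin d → R} {Λ : Type u} [CommRing Λ] [Algebra R Λ]
    (σ : ERees x →+* Λ) (hσ : ∀ r, σ (algebraMap R _ r) = algebraMap R Λ r)
    (M : Type u) [AddCommGroup M] [Module R M] {n : ℕ} {F : MvPolynomial (Fin d) R}
    (hF : F.IsHomogeneous n) (hFM : MvPolynomial.eval x F ∈ Module.annihilator R M)
    (hu : IsUnit (σ (MvPolynomial.aeval (eY x) F))) :
    Subsingleton (St (σ (eT x)) (Λ ⊗[R] M)) := by
  rw [Submodule.Quotient.subsingleton_iff, eq_top_iff]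
  intro w _
  have h1 : ∀ w : Λ ⊗[R] M, algebraMap R Λ (MvPolynomial.eval x F) • w = 0 := by
    intro w
    induction w with
    | zero => rw [smul_zero]
    | add y z hy hz => rw [smul_add, hy, hz, add_zero]
    | tmul s m =>
      rw [algebraMap_smul, ← TensorProduct.tmul_smul, Module.mem_annihilator.1 hFM,
        TensorProduct.tmul_zero]
  rw [← hσ, algebraMap_eval_of_isHomogeneous F n hF, map_mul, map_pow] at h1
  obtain ⟨u, hu⟩ := hu
  refine ⟨n, ?_⟩
  have h2 := h1 ((u⁻¹ : Λˣ) • w)
  rw [← hu, mul_smul] at h2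
  have h3 : (u : Λ) • ((u⁻¹ : Λˣ) • w) = w := by
    rw [Units.smul_def, ← mul_smul, Units.mul_inv, one_smul]
  rwa [h3] at h2

theorem subsingleton_of_not_inForm {x : Fin d → R}
    (hx : Ideal.span (Set.range x) = maximalIdeal R) {Λ : Type u} [CommRing Λ] [Algebra R Λ]
    (σ : ERees x →+* Λ) (hσ : ∀ r, σ (algebraMap R _ r) = algebraMap R Λ r)
    {q : Ideal (MvPolynomial (Fin d) (ResidueField R))}
    (hu : ∀ z, z ∉ q.comap (eRes hx) → IsUnit (σ z))
    (M : Type u) [AddCommGroup M] [Module R M]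
    (hin : ¬ InForm x (Module.annihilator R M) q) :
    Subsingleton (St (σ (eT x)) (Λ ⊗[R] M)) := by
  unfold InForm at hin
  push Not at hin
  obtain ⟨n, F, hF, hFM, hq⟩ := hin
  refine st_subsingleton σ hσ M hF hFM (hu _ ?_)
  change eRes hx _ ∉ q
  rwa [eRes_aeval]

end forms

section main

variable {R₁ R₂ A : Type u} [CommRing R₁] [CommRing R₂] [CommRing A]
  [IsRegularLocalRing R₁] [IsRegularLocalRing R₂] [IsRegularLocalRing A]
  [Algebra R₁ A] [Algebra R₂ A]
  [IsLocalHom (algebraMap R₁ A)] [IsLocalHom (algebraMap R₂ A)] {d : ℕ}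

noncomputable instance chart_noetherian (x c : Fin d → A) : IsNoetherianRing (Chart x c) :=
  isNoetherianRing_of_surjective _ _ (cMk x c) (cMk_surjective x c)

theorem nat_of_height {B Λ : Type u} [CommRing B] [CommRing Λ] [IsLocalRing Λ]
    [IsNoetherianRing Λ] (q : Ideal B) (h : ringKrullDim Λ = ((q.height + 1 : ℕ∞) : WithBot ℕ∞)) :
    ∃ n : ℕ, q.height = n ∧ ringKrullDim Λ = ((n + 1 : ℕ) : WithBot ℕ∞) := by
  obtain ⟨m, hm⟩ := exists_nat_eq_ringKrullDim Λ
  rw [hm] at h
  have h1 : (m : ℕ∞) = q.height + 1 := by exact_mod_cast h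
  have h2 : q.height ≠ ⊤ := by
    intro h3
    rw [h3] at h1
    exact ENat.natCast_ne_top m h1
  obtain ⟨n, hn⟩ := ENat.ne_top_iff_exists.1 h2
  refine ⟨n, hn.symm, ?_⟩
  rw [← hn] at h1
  have h3 : m = n + 1 := by exact_mod_cast h1
  rw [hm, h3]

/-- Nonnegativity of the local Euler characteristics of strict transforms. -/
theorem chart_local_nonneg (hd₁ : ringKrullDim R₁ = d) (hd₂ : ringKrullDim R₂ = d)
    (hd : ringKrullDim A = d) {x₁ : Fin d → R₁} {x₂ : Fin d → R₂} {x : Fin d → A}
    (hx₁ : Ideal.span (Set.range x₁) = maximalIdeal R₁)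
    (hx₂ : Ideal.span (Set.range x₂) = maximalIdeal R₂)
    (hx : Ideal.span (Set.range x) = maximalIdeal A) (θ₁ θ₂ : Fin d → Fin d → A)
    (hθ₁ : ∀ i, algebraMap R₁ A (x₁ i) = ∑ l, θ₁ i l * x l)
    (hθ₂ : ∀ i, algebraMap R₂ A (x₂ i) = ∑ l, θ₂ i l * x l)
    (hf₁ : (eMap θ₁ hθ₁).Flat) (hf₂ : (eMap θ₂ hθ₂).Flat)
    (c : Fin d → A) (P : Ideal (Chart x c)) [P.IsMaximal]
    (hmP : ∀ a ∈ maximalIdeal A, algebraMap A (Chart x c) a ∈ P)
    (M N : Type u) [AddCommGroup M] [Module R₁ M] [Module.Finite R₁ M]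
    [AddCommGroup N] [Module R₂ N] [Module.Finite R₂ N]
    (hK : ∀ (z : Ideal (MvPolynomial (Fin d) (ResidueField A))) [z.IsPrime],
      (∀ f ∈ z, ∀ n, MvPolynomial.homogeneousComponent n f ∈ z) →
      (∃ i, MvPolynomial.X i ∉ z) →
      InForm x₁ (Module.annihilator R₁ M) (z.comap (jMap R₁ θ₁)) →
      InForm x₂ (Module.annihilator R₂ N) (z.comap (jMap R₂ θ₂)) →
      (z.comap (jMap R₁ θ₁)).height + (z.comap (jMap R₂ θ₂)).height ≤ z.height + 1)
    (hfin : Module.length (Localization.AtPrime P) (TorM (Localization.AtPrime P) 0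
      (Localization.AtPrime P ⊗[Chart x c] StM (S := Chart x c) (x0 x c) (A ⊗[R₁] M))
      (Localization.AtPrime P ⊗[Chart x c] StM (S := Chart x c) (x0 x c) (A ⊗[R₂] N))) ≠ ⊤) :
    0 ≤ eulerTor (Localization.AtPrime P) (d + 1)
      (Localization.AtPrime P ⊗[Chart x c] StM (S := Chart x c) (x0 x c) (A ⊗[R₁] M))
      (Localization.AtPrime P ⊗[Chart x c] StM (S := Chart x c) (x0 x c) (A ⊗[R₂] N)) := by
  obtain ⟨Ω, _, _, _, _, ρ, q, _, hmax, hdimΩ, hhom, hX, hA, ⟨u, hu⟩, hρflat, hρcomap⟩ :=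
    exists_omega c hd hx P hmP
  have hq₁ : (maximalIdeal Ω).comap (ρ.comp (eMap θ₁ hθ₁)) =
      (q.comap (jMap R₁ θ₁)).comap (eRes hx₁) := by
    rw [← Ideal.comap_comap, hρcomap, Ideal.comap_comap, Ideal.comap_comap,
      eRes_eMap θ₁ hθ₁ hx₁ hx]
  have hq₂ : (maximalIdeal Ω).comap (ρ.comp (eMap θ₂ hθ₂)) =
      (q.comap (jMap R₂ θ₂)).comap (eRes hx₂) := by
    rw [← Ideal.comap_comap, hρcomap, Ideal.comap_comap, Ideal.comap_comap,
      eRes_eMap θ₂ hθ₂ hx₂ hx]
  obtain ⟨Λ₁, _, _, _, _, _, σ₁, hdimΛ₁, hσ₁⟩ := exists_side hd₁ hx₁ (ρ.comp (eMap θ₁ hθ₁))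
    (hf₁.comp hρflat) (q.comap (jMap R₁ θ₁)) hq₁
  obtain ⟨Λ₂, _, _, _, _, _, σ₂, hdimΛ₂, hσ₂⟩ := exists_side hd₂ hx₂ (ρ.comp (eMap θ₂ hθ₂))
    (hf₂.comp hρflat) (q.comap (jMap R₂ θ₂)) hq₂
  obtain ⟨h, hh, hdΩ⟩ := nat_of_height q hdimΩ
  obtain ⟨h₁, hh₁, hdΛ₁⟩ := nat_of_height _ hdimΛ₁
  obtain ⟨h₂, hh₂, hdΛ₂⟩ := nat_of_height _ hdimΛ₂
  have hhd : h + 1 ≤ d := by
    have := height_lt_of_homogeneous q hhom hX
    rw [hh] at this
    exact_mod_cast this
  -- algebra structures
  let S := Chart x c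
  let SP := Localization.AtPrime P
  let _ : Algebra R₁ Λ₁ := (σ₁.comp (algebraMap R₁ (ERees x₁))).toAlgebra
  let _ : Algebra R₂ Λ₂ := (σ₂.comp (algebraMap R₂ (ERees x₂))).toAlgebra
  let _ : Algebra R₁ Ω := ((algebraMap Λ₁ Ω).comp (algebraMap R₁ Λ₁)).toAlgebra
  let _ : Algebra R₂ Ω := ((algebraMap Λ₂ Ω).comp (algebraMap R₂ Λ₂)).toAlgebra
  let _ : Algebra A Ω := (ρ.comp (algebraMap A (ERees x))).toAlgebra
  let _ : Algebra S Ω := ((algebraMap SP Ω).comp (algebraMap S SP)).toAlgebra
  have t1 : IsScalarTower R₁ Λ₁ Ω := IsScalarTower.of_algebraMap_eq fun _ => rfl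
  have t2 : IsScalarTower R₂ Λ₂ Ω := IsScalarTower.of_algebraMap_eq fun _ => rfl
  have t3 : IsScalarTower R₁ A Ω := by
    refine IsScalarTower.of_algebraMap_eq fun r => ?_
    change algebraMap Λ₁ Ω (σ₁ (algebraMap R₁ (ERees x₁) r)) = ρ (algebraMap A (ERees x) _)
    rw [hσ₁, RingHom.comp_apply, eMap_algebraMap]
  have t4 : IsScalarTower R₂ A Ω := by
    refine IsScalarTower.of_algebraMap_eq fun r => ?_
    change algebraMap Λ₂ Ω (σ₂ (algebraMap R₂ (ERees x₂) r)) = ρ (algebraMap A (ERees x) _)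
    rw [hσ₂, RingHom.comp_apply, eMap_algebraMap]
  have t5 : IsScalarTower S SP Ω := IsScalarTower.of_algebraMap_eq fun _ => rfl
  have t6 : IsScalarTower A S Ω := IsScalarTower.of_algebraMap_eq fun a => (hA a).symm
  have f1 : Module.Flat S Ω := Module.Flat.trans S SP Ω
  obtain ⟨e₁⟩ := st_compare (R₁ := R₁) (A := A) (S := S) (S' := SP) (Λ := Λ₁) (Ω := Ω)
    (algebraMap A S (x0 x c)) (σ₁ (eT x₁)) u (by
      rw [hσ₁, RingHom.comp_apply, eMap_eT]
      exact hu) M
  obtain ⟨e₂⟩ := st_compare (R₁ := R₂) (A := A) (S := S) (S' := SP) (Λ := Λ₂) (Ω := Ω)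
    (algebraMap A S (x0 x c)) (σ₂ (eT x₂)) u (by
      rw [hσ₂, RingHom.comp_apply, eMap_eT]
      exact hu) N
  let E := St (σ₁ (eT x₁)) (Λ₁ ⊗[R₁] M)
  let G := St (σ₂ (eT x₂)) (Λ₂ ⊗[R₂] N)
  have hnoeth : IsNoetherianRing SP := inferInstance
  rw [eulerTor_bc (B := SP) (C := Ω) hmax, eulerTor_congr e₁ e₂]
  by_cases hin₁ : InForm x₁ (Module.annihilator R₁ M) (q.comap (jMap R₁ θ₁))
  swap
  · have hE : Subsingleton E := subsingleton_of_not_inForm hx₁ σ₁ (fun _ => rfl)
      (fun z hz => by
        rw [← isUnit_map_iff (algebraMap Λ₁ Ω), hσ₁]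
        by_contra hcon
        have h5 : z ∈ (maximalIdeal Ω).comap (ρ.comp (eMap θ₁ hθ₁)) := hcon
        rw [hq₁] at h5
        exact hz h5) M hin₁
    have hE' : Subsingleton (Ω ⊗[Λ₁] E) := inferInstance
    rw [eulerTor_left_zero _ _ _ hE']
  by_cases hin₂ : InForm x₂ (Module.annihilator R₂ N) (q.comap (jMap R₂ θ₂))
  swap
  · have hE : Subsingleton G := subsingleton_of_not_inForm hx₂ σ₂ (fun _ => rfl)
      (fun z hz => by
        rw [← isUnit_map_iff (algebraMap Λ₂ Ω), hσ₂]
        by_contra hcon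
        have h5 : z ∈ (maximalIdeal Ω).comap (ρ.comp (eMap θ₂ hθ₂)) := hcon
        rw [hq₂] at h5
        exact hz h5) N hin₂
    have hE' : Subsingleton (Ω ⊗[Λ₂] G) := inferInstance
    rw [eulerTor_right_zero _ _ _ hE']
  have hbound : h₁ + h₂ ≤ h + 1 := by
    have := hK q hhom hX hin₁ hin₂
    rw [hh, hh₁, hh₂] at this
    exact_mod_cast this
  refine pair_nonneg (R₁ := Λ₁) (R₂ := Λ₂) (T := Ω) hdΛ₁ hdΛ₂ hdΩ (by omega) (d + 1) (by omega)
    E G ?_
  rw [← Module.length_ne_top_iff]
  have h3 := length_tor_bc₂ (A := SP) (C := Ω) hmax 0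
    (TensorProduct.isBaseChange SP (SP ⊗[S] StM (S := S) (x0 x c) (A ⊗[R₁] M)) Ω)
    (TensorProduct.isBaseChange SP (SP ⊗[S] StM (S := S) (x0 x c) (A ⊗[R₂] N)) Ω)
  rw [h3, (torZero _ _).length_eq] at hfin
  have h4 := length_congr₂ e₁ e₂
  exact fun hc => hfin (h4.trans hc)

end main

end Vale.Agent.P177
end
end

section

section

/-!
Existence of a good chart.
-/

namespace Vale.Agent.P177

open IsLocalRing Function

universe u

section cond

variable {R₁ R₂ A : Type u} [CommRing R₁] [CommRing R₂] [CommRing A]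
  [IsRegularLocalRing R₁] [IsRegularLocalRing R₂] [IsRegularLocalRing A]
  [Algebra R₁ A] [Algebra R₂ A]
  [IsLocalHom (algebraMap R₁ A)] [IsLocalHom (algebraMap R₂ A)] {d : ℕ}

/-- The initial forms of the elements of an ideal, over the residue field of `A`. -/
def inSet {R A : Type u} [CommRing R] [CommRing A] [IsLocalRing A] [Algebra R A]
    {d : ℕ} (x' : Fin d → R) (θ : Fin d → Fin d → A) (I : Ideal R) :
    Set (MvPolynomial (Fin d) (ResidueField A)) :=
  {f | ∃ (n : ℕ) (F : MvPolynomial (Fin d) R), F.IsHomogeneous n ∧ MvPolynomial.eval x' F ∈ I ∧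
    f = (tMap R θ F).map (residue A)}

theorem inForm_of_le {R A : Type u} [CommRing R] [CommRing A] [IsLocalRing R] [IsLocalRing A]
    [Algebra R A] [IsLocalHom (algebraMap R A)] {d : ℕ} {x' : Fin d → R}
    {θ : Fin d → Fin d → A} {I : Ideal R} {z : Ideal (MvPolynomial (Fin d) (ResidueField A))}
    (h : inSet x' θ I ⊆ z) : InForm x' I (z.comap (jMap R θ)) := by
  intro n F hF hFI
  change jMap R θ (F.map (residue R)) ∈ z
  rw [← map_tMap]
  exact h ⟨n, F, hF, hFI, rfl⟩

theorem exists_linear [Infinite (ResidueField A)] (hd₁ : ringKrullDim R₁ = d)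
    (hd₂ : ringKrullDim R₂ = d) {x₁ : Fin d → R₁} {x₂ : Fin d → R₂}
    (hx₁ : Ideal.span (Set.range x₁) = maximalIdeal R₁)
    (hx₂ : Ideal.span (Set.range x₂) = maximalIdeal R₂) (θ₁ θ₂ : Fin d → Fin d → A)
    (I : Ideal R₁) (J : Ideal R₂)
    (hK : ∀ (z : Ideal (MvPolynomial (Fin d) (ResidueField A))) [z.IsPrime],
      (∀ f ∈ z, ∀ n, MvPolynomial.homogeneousComponent n f ∈ z) →
      (∃ i, MvPolynomial.X i ∉ z) →
      InForm x₁ I (z.comap (jMap R₁ θ₁)) →
      InForm x₂ J (z.comap (jMap R₂ θ₂)) →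
      (z.comap (jMap R₁ θ₁)).height + (z.comap (jMap R₂ θ₂)).height ≤ z.height + 1)
    (hH : ∀ P₁ : Ideal R₁, P₁.IsPrime → I ≤ P₁ → ∀ P₂ : Ideal R₂, P₂.IsPrime → J ≤ P₂ →
      (d : ℕ∞) ≤ P₁.height + P₂.height) :
    ∃ (c : Fin d → A) (n : ℕ), (Ideal.span (Set.range MvPolynomial.X)) ^ (n + 1) ≤
      Ideal.span (inSet x₁ θ₁ I ∪ inSet x₂ θ₂ J ∪
        {∑ i, MvPolynomial.C (residue A (c i)) * MvPolynomial.X i}) := by
  obtain ⟨c', hc'⟩ := exists_generic (Ideal.span (inSet x₁ θ₁ I ∪ inSet x₂ θ₂ J))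
  choose c hc using fun i => residue_surjective (c' i)
  obtain rfl : (fun i => residue A (c i)) = c' := funext hc
  have hs : ∀ f ∈ inSet x₁ θ₁ I ∪ inSet x₂ θ₂ J, ∃ n : ℕ, f.IsHomogeneous n := by
    rintro f (⟨n, F, hF, -, rfl⟩ | ⟨n, F, hF, -, rfl⟩)
    · exact ⟨n, (tMap_isHomogeneous θ₁ hF).map _⟩
    · exact ⟨n, (tMap_isHomogeneous θ₂ hF).map _⟩
  have hs' : ∀ f ∈ inSet x₁ θ₁ I ∪ inSet x₂ θ₂ J ∪
        {∑ i, MvPolynomial.C (residue A (c i)) * MvPolynomial.X i}, ∃ n : ℕ,
        f.IsHomogeneous n := by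
    rintro f (hf | rfl)
    · exact hs f hf
    · refine ⟨1, MvPolynomial.IsHomogeneous.sum _ _ _ fun l _ => ?_⟩
      exact MvPolynomial.IsHomogeneous.C_mul (MvPolynomial.isHomogeneous_X _ _) _
  have key : Ideal.span (Set.range MvPolynomial.X) ≤ (Ideal.span (inSet x₁ θ₁ I ∪
      inSet x₂ θ₂ J ∪ {∑ i, MvPolynomial.C (residue A (c i)) * MvPolynomial.X i})).radical := by
    rw [← Ideal.sInf_minimalPrimes]
    refine le_sInf fun z' hz' => ?_
    rw [Ideal.span_le]
    by_contra hcon
    rw [Set.range_subset_iff] at hcon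
    push Not at hcon
    obtain ⟨i, hi⟩ := hcon
    have hz'p : z'.IsPrime := hz'.1.1
    have hz'h : HomId z' := minimal_homId _ hs' rfl hz'
    have hle : Ideal.span (inSet x₁ θ₁ I ∪ inSet x₂ θ₂ J) ≤ z' :=
      (Ideal.span_mono Set.subset_union_left).trans hz'.1.2
    obtain ⟨z, hz, hzz'⟩ := Ideal.exists_minimalPrimes_le hle
    have hzp : z.IsPrime := hz.1.1
    have hzh : HomId z := minimal_homId _ hs rfl hz
    have hiz : MvPolynomial.X i ∉ z := fun h => hi (hzz' h)
    have hξ := hc' z hz ⟨i, hiz⟩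
    have hlt : z < z' := by
      refine lt_of_le_of_ne hzz' ?_
      rintro rfl
      exact hξ (hz'.1.2 (Ideal.subset_span (Or.inr rfl)))
    have h1 := Ideal.height_add_one_le_of_lt_of_isPrime hlt
    have h2 := height_lt_of_homogeneous z' hz'h ⟨i, hi⟩
    have hin₁ : InForm x₁ I (z.comap (jMap R₁ θ₁)) := inForm_of_le fun f hf =>
      hz.1.2 (Ideal.subset_span (Or.inl hf))
    have hin₂ : InForm x₂ J (z.comap (jMap R₂ θ₂)) := inForm_of_le fun f hf =>
      hz.1.2 (Ideal.subset_span (Or.inr hf))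
    have h3 := hK z hzh ⟨i, hiz⟩ hin₁ hin₂
    obtain ⟨P₁, hP₁, hIP₁, hht₁⟩ := exists_prime_height_le (I := I) hd₁ hx₁
      (z.comap (jMap R₁ θ₁)) (eStar_le hx₁ _ hin₁)
    obtain ⟨P₂, hP₂, hJP₂, hht₂⟩ := exists_prime_height_le (I := J) hd₂ hx₂
      (z.comap (jMap R₂ θ₂)) (eStar_le hx₂ _ hin₂)
    have h4 : (d : ℕ∞) ≤ z.height + 1 :=
      (hH P₁ hP₁ hIP₁ P₂ hP₂ hJP₂).trans ((add_le_add hht₁ hht₂).trans h3)
    have h5 : z.height + 1 + 1 ≤ d := (add_le_add h1 le_rfl).trans h2
    have h6 : z.height + 1 + 1 ≤ z.height + 1 := h5.trans h4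
    have h7 : z.height ≠ ⊤ := by
      intro h8
      rw [h8] at h5
      exact absurd (top_le_iff.1 h5) (by simp)
    obtain ⟨m, hm⟩ := ENat.ne_top_iff_exists.1 h7
    rw [← hm] at h6
    have h8 : m + 1 + 1 ≤ m + 1 := by exact_mod_cast h6
    omega
  obtain ⟨n, hn⟩ := Ideal.exists_pow_le_of_le_radical_of_fg key (IsNoetherian.noetherian _)
  exact ⟨c, n, (Ideal.pow_le_pow_right (Nat.le_succ n)).trans hn⟩

/-- Existence of a chart satisfying the generation condition. -/
theorem exists_chart [Infinite (ResidueField A)] (hd₁ : ringKrullDim R₁ = d)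
    (hd₂ : ringKrullDim R₂ = d) {x₁ : Fin d → R₁} {x₂ : Fin d → R₂} {x : Fin d → A}
    (hx₁ : Ideal.span (Set.range x₁) = maximalIdeal R₁)
    (hx₂ : Ideal.span (Set.range x₂) = maximalIdeal R₂)
    (hx : Ideal.span (Set.range x) = maximalIdeal A) (θ₁ θ₂ : Fin d → Fin d → A)
    (hθ₁ : ∀ i, algebraMap R₁ A (x₁ i) = ∑ l, θ₁ i l * x l)
    (hθ₂ : ∀ i, algebraMap R₂ A (x₂ i) = ∑ l, θ₂ i l * x l)
    (I : Ideal R₁) (J : Ideal R₂)
    (hK : ∀ (z : Ideal (MvPolynomial (Fin d) (ResidueField A))) [z.IsPrime],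
      (∀ f ∈ z, ∀ n, MvPolynomial.homogeneousComponent n f ∈ z) →
      (∃ i, MvPolynomial.X i ∉ z) →
      InForm x₁ I (z.comap (jMap R₁ θ₁)) →
      InForm x₂ J (z.comap (jMap R₂ θ₂)) →
      (z.comap (jMap R₁ θ₁)).height + (z.comap (jMap R₂ θ₂)).height ≤ z.height + 1)
    (hH : ∀ P₁ : Ideal R₁, P₁.IsPrime → I ≤ P₁ → ∀ P₂ : Ideal R₂, P₂.IsPrime → J ≤ P₂ →
      (d : ℕ∞) ≤ P₁.height + P₂.height) :
    ∃ (c : Fin d → A) (n₀ : ℕ), maximalIdeal A ^ (n₀ + 1) ≤
      (I.map (algebraMap R₁ A) ⊓ maximalIdeal A ^ (n₀ + 1)) ⊔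
      (J.map (algebraMap R₂ A) ⊓ maximalIdeal A ^ (n₀ + 1)) ⊔
      Ideal.span {x0 x c} * maximalIdeal A ^ n₀ := by
  obtain ⟨c, n₀, hc⟩ := exists_linear hd₁ hd₂ hx₁ hx₂ θ₁ θ₂ I J hK hH
  refine ⟨c, n₀, ?_⟩
  refine pow_le_of_liftable hx (W := fun n => (I.map (algebraMap R₁ A) ⊓ maximalIdeal A ^ n) ⊔
      (J.map (algebraMap R₂ A) ⊓ maximalIdeal A ^ n) ⊔
      Ideal.span {x0 x c} * maximalIdeal A ^ (n - 1)) ?_ (n₀ + 1) hc
  rintro f ((⟨n, F, hF, hFI, rfl⟩ | ⟨n, F, hF, hFI, rfl⟩) | rfl)
  · refine ⟨n, tMap R₁ θ₁ F, tMap_isHomogeneous θ₁ hF, rfl, fun j b hb => ?_⟩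
    have h1 := eval_mem_pow hx (tMap_isHomogeneous θ₁ hF)
    refine Submodule.mem_sup_left (Submodule.mem_sup_left ⟨?_, ?_⟩)
    · rw [eval_tMap θ₁ hθ₁]
      exact Ideal.mul_mem_left _ _ (Ideal.mem_map_of_mem _ hFI)
    · rw [pow_add]
      exact Ideal.mul_mem_mul hb h1
  · refine ⟨n, tMap R₂ θ₂ F, tMap_isHomogeneous θ₂ hF, rfl, fun j b hb => ?_⟩
    have h1 := eval_mem_pow hx (tMap_isHomogeneous θ₂ hF)
    refine Submodule.mem_sup_left (Submodule.mem_sup_right ⟨?_, ?_⟩)
    · rw [eval_tMap θ₂ hθ₂]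
      exact Ideal.mul_mem_left _ _ (Ideal.mem_map_of_mem _ hFI)
    · rw [pow_add]
      exact Ideal.mul_mem_mul hb h1
  · refine ⟨1, ∑ i, MvPolynomial.C (c i) * MvPolynomial.X i, ?_, ?_, fun j b hb => ?_⟩
    · refine MvPolynomial.IsHomogeneous.sum _ _ _ fun l _ => ?_
      exact MvPolynomial.IsHomogeneous.C_mul (MvPolynomial.isHomogeneous_X _ _) _
    · rw [map_sum]
      refine Finset.sum_congr rfl fun i _ => ?_
      rw [map_mul, MvPolynomial.map_C, MvPolynomial.map_X]
    · refine Submodule.mem_sup_right ?_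
      have h1 : MvPolynomial.eval x (∑ i, MvPolynomial.C (c i) * MvPolynomial.X i) = x0 x c := by
        rw [map_sum]
        unfold x0
        refine Finset.sum_congr rfl fun i _ => ?_
        rw [map_mul, MvPolynomial.eval_C, MvPolynomial.eval_X]
      rw [h1, mul_comm b, Nat.add_sub_cancel]
      exact Ideal.mul_mem_mul (Ideal.mem_span_singleton_self _) hb

end cond

end Vale.Agent.P177
end
end

section

section

/-!
The resolution of a strict transform.
-/

namespace Vale.Agent.P177

open Function IsLocalRing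

universe u

section overS

variable {A S : Type u} [CommRing A] [CommRing S] [Algebra A S] {I : Ideal A} {x : A}
  {M M₁ : Type u} [AddCommGroup M] [Module A M] [AddCommGroup M₁] [Module A M₁] [Module S M₁]
  [IsScalarTower A S M₁] {F : ℕ → Submodule A M} {ι : M →ₗ[A] M₁}

theorem lc_single {R : Type*} [CommRing R] {N : Type*} [AddCommGroup N] [Module R N] {b : ℕ}
    (w : Fin b → N) (j : Fin b) : lc w (Pi.single j (1 : R)) = w j := by
  rw [lc_apply, Finset.sum_eq_single j]
  · rw [Pi.single_eq_same, one_smul]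
  · intro i _ hi
    rw [Pi.single_eq_of_ne hi, zero_smul]
  · simp only [Finset.mem_univ, not_true_eq_false, Pi.single_eq_same, one_smul, IsEmpty.forall_iff]

/-- The strict transform of a filtered map from a free module. -/
theorem exists_strict_map (hM : IsStrict x F ι) {b : ℕ} (a : Fin b → ℕ)
    (ε : (Fin b → A) →ₗ[A] M) (hε : ∀ j, ε (Pi.single j 1) ∈ F (a j)) :
    ∃ ε₁ : (Fin b → S) →ₗ[S] M₁,
      (∀ j, x ^ a j • ε₁ (Pi.single j 1) = ι (ε (Pi.single j 1))) ∧
      ∀ f, ε₁ (wmap x (Algebra.linearMap A S) a f) = ι (ε f) := by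
  have h1 : ∀ j, ∃ v, x ^ a j • v = ι (ε (Pi.single j 1)) := fun j => hM.div _ _ (hε j)
  choose v hv using h1
  refine ⟨lc v, fun j => by rw [lc_single, hv], fun f => ?_⟩
  have h2 : f = ∑ j, f j • (Pi.single j (1 : A) : Fin b → A) := by
    funext k
    simp only [Finset.sum_apply, Pi.smul_apply, Pi.single_apply, smul_eq_mul, mul_ite, mul_one, mul_zero, Finset.sum_ite_eq, Finset.mem_univ, ↓reduceIte]
  conv_rhs => rw [h2]
  rw [lc_apply, map_sum, map_sum]
  refine Finset.sum_congr rfl fun j _ => ?_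
  rw [wmap_apply, map_smul, map_smul, ← hv j]
  change (x ^ a j • algebraMap A S (f j)) • v j = _
  rw [smul_assoc, algebraMap_smul, smul_comm]

section fr

variable {r : ℕ} (X : FRes I F r)

theorem FRes.eps_mem (j : Fin (X.b 0)) : X.ε (Pi.single j 1) ∈ F (X.a 0 j) := by
  rw [← X.strict_ε]
  exact ⟨_, single_mem_wfil _ _, rfl⟩

theorem FRes.delta_mem' (i : ℕ) (j : Fin (X.b (i + 1))) : X.δ i (Pi.single j 1) ∈
    wfil (fun k => (I ^ k : Ideal A)) (X.a i) (X.a (i + 1) j) := by
  rw [mem_wfil]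
  exact fun k => X.delta_mem i j k

variable (hS : IsStrict x (fun k => (I ^ k : Ideal A)) (Algebra.linearMap A S)) (hx : x ∈ I)
  (hM : IsStrict x F ι)

include hS hx in
theorem strict_free {b : ℕ} (a : Fin b → ℕ) : IsStrict x (wfil (fun k => (I ^ k : Ideal A)) a)
    (wmap x (Algebra.linearMap A S) a) := by
  refine hS.weighted (goodFil_self I).antitone ?_ a
  intro n m hm
  exact (goodFil_self I).smul n (Submodule.smul_mem_smul hx hm)

/-- The augmentation of the strict transform. -/
noncomputable def strictEps : (Fin (X.b 0) → S) →ₗ[S] M₁ :=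
  (exists_strict_map (S := S) hM (X.a 0) X.ε X.eps_mem).choose

theorem strictEps_wmap (f : Fin (X.b 0) → A) :
    strictEps X hM (wmap x (Algebra.linearMap A S) (X.a 0) f) = ι (X.ε f) :=
  (exists_strict_map (S := S) hM (X.a 0) X.ε X.eps_mem).choose_spec.2 f

/-- The differentials of the strict transform. -/
noncomputable def strictDelta (i : ℕ) : (Fin (X.b (i + 1)) → S) →ₗ[S] (Fin (X.b i) → S) :=
  (exists_strict_map (S := S) (strict_free hS hx (X.a i)) (X.a (i + 1)) (X.δ i)
    (X.delta_mem' i)).choose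

theorem strictDelta_wmap (i : ℕ) (f : Fin (X.b (i + 1)) → A) :
    strictDelta X hS hx i (wmap x (Algebra.linearMap A S) (X.a (i + 1)) f) =
      wmap x (Algebra.linearMap A S) (X.a i) (X.δ i f) :=
  (exists_strict_map (S := S) (strict_free hS hx (X.a i)) (X.a (i + 1)) (X.δ i)
    (X.delta_mem' i)).choose_spec.2 f

theorem strictDelta_single (i : ℕ) (j : Fin (X.b (i + 1))) (k : Fin (X.b i)) :
    x ^ X.a (i + 1) j • strictDelta X hS hx i (Pi.single j 1) k =
      x ^ X.a i k • algebraMap A S (X.δ i (Pi.single j 1) k) :=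
  congrFun ((exists_strict_map (S := S) (strict_free hS hx (X.a i)) (X.a (i + 1)) (X.δ i)
    (X.delta_mem' i)).choose_spec.1 j) k

theorem GoodFil.x_smul {N : Type*} [AddCommGroup N] [Module A N] {G : ℕ → Submodule A N}
    (hG : GoodFil I G) (hx : x ∈ I) (n : ℕ) (m : N) (hm : m ∈ G n) : x • m ∈ G (n + 1) :=
  hG.smul n (Submodule.smul_mem_smul hx hm)

/-- The resolution of the strict transform. -/
noncomputable def strictFR (hF : GoodFil I F) : FR S M₁ where
  b := X.b
  ε := strictEps X hM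
  δ := strictDelta X hS hx
  surj := by
    have h := strict_exact (D := X.ε) (D₁ := (strictEps X hM (S := S)).restrictScalars A)
      (K₂ := wfil (fun k => (I ^ k : Ideal A)) (X.a 0))
      (strict_free hS hx (X.a 0)) hM (strictEps_wmap X hM)
      (hF.x_smul hx) (Z := ⊤) (Z₁ := ⊤) (fun _ _ _ _ _ _ => ⟨0, trivial⟩)
      (fun n => by rw [X.strict_ε, top_inf_eq])
    intro v
    exact h (Submodule.mem_top (x := v))
  exact_zero := by
    intro v
    constructor
    · intro hv
      have h := strict_exact (D := X.δ 0)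
        (D₁ := (strictDelta X hS hx 0).restrictScalars A)
        (K₂ := wfil (fun k => (I ^ k : Ideal A)) (X.a 1))
        (K₁ := wfil (fun k => (I ^ k : Ideal A)) (X.a 0))
        (strict_free hS hx (X.a 1)) (strict_free hS hx (X.a 0)) (strictDelta_wmap X hS hx 0)
        (((goodFil_self I).weighted (X.a 0)).x_smul hx) (Z := LinearMap.ker X.ε)
        (Z₁ := LinearMap.ker ((strictEps X hM (S := S)).restrictScalars A))
        (fun v n m _ hvm hv => zA_ker hM (D := X.ε)
          (D₁ := (strictEps X hM (S := S)).restrictScalars A) (strictEps_wmap X hM) v n m hvm hv)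
        (fun n => X.strict_zero n)
      exact h hv
    · rintro ⟨w, rfl⟩
      obtain ⟨n, m, -, hwm⟩ := (strict_free hS hx (X.a 1)).surj w
      apply hM.reg_pow n
      have h1 : ((strictEps X hM (S := S)).restrictScalars A)
        (((strictDelta X hS hx 0).restrictScalars A) (x ^ n • w)) = 0 := by
        rw [hwm]
        change strictEps X hM (strictDelta X hS hx 0 (wmap x (Algebra.linearMap A S) (X.a 1) m)) = 0
        rw [strictDelta_wmap, strictEps_wmap, X.exact_zero.apply_apply_eq_zero, map_zero]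
      rw [map_smul, map_smul] at h1
      exact h1
  exact_succ i := by
    intro v
    constructor
    · intro hv
      have h := strict_exact (D := X.δ (i + 1))
        (D₁ := (strictDelta X hS hx (i + 1)).restrictScalars A)
        (K₂ := wfil (fun k => (I ^ k : Ideal A)) (X.a (i + 2)))
        (K₁ := wfil (fun k => (I ^ k : Ideal A)) (X.a (i + 1)))
        (strict_free hS hx (X.a (i + 2))) (strict_free hS hx (X.a (i + 1)))
        (strictDelta_wmap X hS hx (i + 1))
        (((goodFil_self I).weighted (X.a (i + 1))).x_smul hx) (Z := LinearMap.ker (X.δ i))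
        (Z₁ := LinearMap.ker ((strictDelta X hS hx i).restrictScalars A))
        (fun v n m _ hvm hv => zA_ker (strict_free hS hx (X.a i)) (D := X.δ i)
          (D₁ := (strictDelta X hS hx i).restrictScalars A) (strictDelta_wmap X hS hx i)
          v n m hvm hv)
        (fun n => X.strict_succ i n)
      exact h hv
    · rintro ⟨w, rfl⟩
      obtain ⟨n, m, -, hwm⟩ := (strict_free hS hx (X.a (i + 2))).surj w
      apply (strict_free hS hx (X.a i)).reg_pow n
      have h1 : ((strictDelta X hS hx i).restrictScalars A)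
        (((strictDelta X hS hx (i + 1)).restrictScalars A) (x ^ n • w)) = 0 := by
        rw [hwm]
        change strictDelta X hS hx i (strictDelta X hS hx (i + 1)
          (wmap x (Algebra.linearMap A S) (X.a (i + 2)) m)) = 0
        rw [strictDelta_wmap, strictDelta_wmap, (X.exact_succ i).apply_apply_eq_zero, map_zero]
      rw [map_smul, map_smul] at h1
      exact h1

end fr

section tensor

variable {r : ℕ} (X : FRes I F r)
  (hS : IsStrict x (fun k => (I ^ k : Ideal A)) (Algebra.linearMap A S)) (hx : x ∈ I)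
  (hM : IsStrict x F ι) (hF : GoodFil I F) {N N₁ : Type u} [AddCommGroup N] [Module A N]
  [AddCommGroup N₁] [Module A N₁] [Module S N₁] [IsScalarTower A S N₁] {G : ℕ → Submodule A N}
  {κ : N →ₗ[A] N₁} (hN : IsStrict x G κ) (hG : GoodFil I G)

include hN hG hx in
theorem strict_wN {b : ℕ} (a : Fin b → ℕ) : IsStrict x (wfil G a) (wmap x κ a) :=
  hN.weighted hG.antitone (hG.x_smul hx) a

theorem act_strictDelta (i : ℕ) (v : Fin (X.b (i + 1)) → N) :
    act N₁ (strictDelta X hS hx i) (wmap x κ (X.a (i + 1)) v) =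
      wmap x κ (X.a i) (act N (X.δ i) v) := by
  funext k
  rw [act_apply, wmap_apply, act_apply, map_sum, Finset.smul_sum]
  refine Finset.sum_congr rfl fun j _ => ?_
  rw [wmap_apply, map_smul, smul_comm, ← smul_assoc, strictDelta_single, smul_assoc,
    algebraMap_smul]

include hN hG in
/-- The homology of the filtered pieces is the homology of the strict transform. -/
theorem strict_length (i k : ℕ) (hstab : ∀ k', k ≤ k' → X.Stab G x i k') :
    rl (X.ZK G k i) (X.BK G k i) = Module.length A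
      ((strictFR X hS hx hM hF).Z N₁ i ⧸ ((strictFR X hS hx hM hF).B N₁ i).submoduleOf
        ((strictFR X hS hx hM hF).Z N₁ i)) := by
  let X₁ := strictFR X hS hx hM hF
  let D₁ : (Fin (X.b (i + 1)) → N₁) →ₗ[A] (Fin (X.b i) → N₁) :=
    (act N₁ (strictDelta X hS hx i)).restrictScalars A
  have hz : (∀ (v : Fin (X.b i) → N₁) (n : ℕ), ∀ m ∈ wfil G (X.a i) n,
        x ^ n • v = wmap x κ (X.a i) m → v ∈ (X₁.Z N₁ i).restrictScalars A →
        ∃ e, x ^ e • m ∈ X.Z N i) ∧
      (∀ (v : Fin (X.b i) → N₁) (n : ℕ), ∀ m ∈ wfil G (X.a i) n,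
        x ^ n • v = wmap x κ (X.a i) m → m ∈ X.Z N i → v ∈ (X₁.Z N₁ i).restrictScalars A) := by
    cases i with
    | zero => exact ⟨fun _ _ _ _ _ _ => ⟨0, trivial⟩, fun _ _ _ _ _ _ => trivial⟩
    | succ i =>
      refine ⟨fun v n m _ hvm hv => ?_, fun v n m _ hvm hm => ?_⟩
      · exact zA_ker (strict_wN hx hN hG (X.a i)) (D := act N (X.δ i))
          (D₁ := (act N₁ (strictDelta X hS hx i)).restrictScalars A) (act_strictDelta X hS hx i)
          v n m hvm hv
      · exact zB_ker (strict_wN hx hN hG (X.a i)) (D := act N (X.δ i))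
          (D₁ := (act N₁ (strictDelta X hS hx i)).restrictScalars A) (act_strictDelta X hS hx i)
          v n m hvm hm
  obtain ⟨e⟩ := strict_homology (D := act N (X.δ i)) (D₁ := D₁)
    (strict_wN hx hN hG (X.a (i + 1))) (strict_wN hx hN hG (X.a i)) (act_strictDelta X hS hx i)
    ((hG.weighted (X.a (i + 1))).x_smul hx) ((hG.weighted (X.a i)).x_smul hx)
    (Z := X.Z N i) (Z₁ := (X₁.Z N₁ i).restrictScalars A) hz.1 hz.2
    (fun k' hk' => (hstab k' hk').1) (fun k' hk' => (hstab k' hk').2)
  have e' := e.length_eq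
  refine e'.trans ?_
  exact (Submodule.Quotient.restrictScalarsEquiv A
    ((X₁.B N₁ i).submoduleOf (X₁.Z N₁ i))).length_eq

end tensor

end overS

end Vale.Agent.P177
end
end

section

section

/-!
Nonnegativity and positivity of the Euler characteristic from a chart of the blow-up.
-/

namespace Vale.Agent.P177

open Function IsLocalRing TensorProduct

universe u

/-- Nonnegativity (and positivity) of the Euler characteristic, given a chart of the blow-up on
which the local Euler characteristics of the strict transforms are nonnegative. -/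
theorem pos_of_chart {A S : Type u} [CommRing A] [IsRegularLocalRing A] [CommRing S]
    [Algebra A S] {d : ℕ} (hd : ringKrullDim A = d) {M N : Type u}
    [AddCommGroup M] [Module A M] [Module.Finite A M] [AddCommGroup N] [Module A N]
    [Module.Finite A N] [Nontrivial M] [Nontrivial N]
    (hfin : ∀ i, Module.length A (TorM A i M N) ≠ ⊤)
    {x : A} (hx : x ∈ maximalIdeal A) {n₀ : ℕ} {I₁ J₁ : Ideal A}
    (hI : ∀ c ∈ I₁, ∀ v : M, c • v = 0) (hJ : ∀ c ∈ J₁, ∀ v : N, c • v = 0)
    (hC : maximalIdeal A ^ (n₀ + 1) ≤ (I₁ ⊓ maximalIdeal A ^ (n₀ + 1)) ⊔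
      (J₁ ⊓ maximalIdeal A ^ (n₀ + 1)) ⊔ Ideal.span {x} * maximalIdeal A ^ n₀)
    (hS : IsStrict x (fun k => (maximalIdeal A ^ k : Ideal A)) (Algebra.linearMap A S))
    {M₁ N₁ : Type u} [AddCommGroup M₁] [Module A M₁] [Module S M₁] [IsScalarTower A S M₁]
    [AddCommGroup N₁] [Module A N₁] [Module S N₁] [IsScalarTower A S N₁]
    {ι : M →ₗ[A] M₁} {κ : N →ₗ[A] N₁}
    (hM : IsStrict x (fun n => (maximalIdeal A ^ n • ⊤ : Submodule A M)) ι)
    (hN : IsStrict x (fun n => (maximalIdeal A ^ n • ⊤ : Submodule A N)) κ)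
    (hloc : ∀ m : MaximalSpectrum S, (∀ a ∈ maximalIdeal A, algebraMap A S a ∈ m.asIdeal) →
      (∀ i, i < d + 1 → Module.length (Localization.AtPrime m.asIdeal)
        (TorM (Localization.AtPrime m.asIdeal) i (Localization.AtPrime m.asIdeal ⊗[S] M₁)
          (Localization.AtPrime m.asIdeal ⊗[S] N₁)) ≠ ⊤) →
      0 ≤ eulerTor (Localization.AtPrime m.asIdeal) (d + 1)
        (Localization.AtPrime m.asIdeal ⊗[S] M₁) (Localization.AtPrime m.asIdeal ⊗[S] N₁)) :
    0 ≤ eulerTor A (d + 1) M N ∧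
    (∀ k l : ℕ, (k : WithBot ℕ∞) ≤ Module.supportDim A M → (l : WithBot ℕ∞) ≤
      Module.supportDim A N → d ≤ k + l → 0 < eulerTor A (d + 1) M N) := by
  let F : ℕ → Submodule A M := fun n => (maximalIdeal A ^ n • ⊤ : Submodule A M)
  let G : ℕ → Submodule A N := fun n => (maximalIdeal A ^ n • ⊤ : Submodule A N)
  have hF : GoodFil (maximalIdeal A) F := goodFil_pow _ _
  have hG : GoodFil (maximalIdeal A) G := goodFil_pow _ _
  obtain ⟨X⟩ := exists_fres_of_regular hd hF
  have hfinK : ∀ i n, rl (X.ZK G n i) (X.BK G n i) ≠ ⊤ := fun i n => (euler_split X hfin n).1 i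
  obtain ⟨k₁, hk₁⟩ := X.exists_stab hG hx hI hJ hC hfinK (d + 1)
  let X₁ : FR S M₁ := strictFR X hS hx hM hF
  -- nonnegativity of the contribution of the chart
  have hh : ∀ k, k₁ ≤ k → 0 ≤ ∑ i ∈ Finset.range (d + 1), (-1) ^ i *
      ((rl (X.ZK G k i) (X.BK G k i)).toNat : ℤ) := by
    intro k hk
    have hlen : ∀ i, i < d + 1 → rl (X.ZK G k i) (X.BK G k i) = Module.length A
        (X₁.Z N₁ i ⧸ (X₁.B N₁ i).submoduleOf (X₁.Z N₁ i)) := fun i hi =>
      strict_length X hS hx hM hF hN hG i k fun k' hk' => hk₁ i hi k' (hk.trans hk')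
    have e : ∑ i ∈ Finset.range (d + 1), (-1) ^ i *
        ((rl (X.ZK G k i) (X.BK G k i)).toNat : ℤ) = ∑ i ∈ Finset.range (d + 1), (-1) ^ i *
        ((Module.length A (X₁.Z N₁ i ⧸ (X₁.B N₁ i).submoduleOf (X₁.Z N₁ i))).toNat : ℤ) :=
      Finset.sum_congr rfl fun i hi => by rw [hlen i (Finset.mem_range.1 hi)]
    rw [e]
    refine sum_nonneg_of_local (S := S) (d + 1)
      (fun i => X₁.Z N₁ i ⧸ (X₁.B N₁ i).submoduleOf (X₁.Z N₁ i)) ?_ ?_
    · intro i hi
      rw [← hlen i hi]
      exact hfinK i k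
    · intro m hm hfinm
      have hT : ∀ i, Module.length (Localization.AtPrime m.asIdeal)
          (TorM (Localization.AtPrime m.asIdeal) i (Localization.AtPrime m.asIdeal ⊗[S] M₁)
            (Localization.AtPrime m.asIdeal ⊗[S] N₁)) =
          Module.length (Localization.AtPrime m.asIdeal) (Localization.AtPrime m.asIdeal ⊗[S]
            (X₁.Z N₁ i ⧸ (X₁.B N₁ i).submoduleOf (X₁.Z N₁ i))) := by
        intro i
        obtain ⟨e1⟩ := exists_tor_flat_iso (A := S) (C := Localization.AtPrime m.asIdeal) i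
          (TensorProduct.isBaseChange S M₁ (Localization.AtPrime m.asIdeal))
          (TensorProduct.isBaseChange S N₁ (Localization.AtPrime m.asIdeal))
        obtain ⟨e2⟩ := X₁.tor_eq N₁ i
        exact (e1 ≪≫ₗ e2.baseChange S (Localization.AtPrime m.asIdeal) _ _).length_eq
      have h1 := hloc m hm (fun i hi => by rw [hT]; exact hfinm i hi)
      unfold eulerTor at h1
      simp only [hT] at h1
      exact h1
  obtain ⟨⟨n₁, hn₁⟩, hpos⟩ := psi_cases hd (N := N) X
  refine ⟨?_, ?_⟩
  · have h1 := (euler_split X hfin (max k₁ n₁)).2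
    rw [h1]
    exact add_nonneg (hh _ (le_max_left _ _)) (hn₁ _ (le_max_right _ _))
  · intro k l hk hl hkl
    obtain ⟨n₂, hn₂⟩ := hpos k l hk hl hkl
    have h1 := (euler_split X hfin (max k₁ n₂)).2
    rw [h1]
    have h2 := hh _ (le_max_left k₁ n₂)
    have h3 := hn₂ _ (le_max_right k₁ n₂)
    change 0 < ∑ i ∈ Finset.range (d + 1), (-1) ^ i *
        ((rl (X.ZK G (max k₁ n₂) i) (X.BK G (max k₁ n₂) i)).toNat : ℤ) + _
    (clear hd n₀ I₁ J₁ hI hJ hC hpos n₁ hn₁ k l hk hl hkl h1; linarith)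

end Vale.Agent.P177
end
end

section

section

/-!
Change of systems of parameters, and heights from dimensions.
-/

namespace Vale.Agent.P177

open IsLocalRing Function TensorProduct

universe u

section inv

variable {A : Type u} [CommRing A] [IsRegularLocalRing A] {d : ℕ} (hd : ringKrullDim A = d)
  {x : Fin d → A} (hx : Ideal.span (Set.range x) = maximalIdeal A)

include hd hx in
theorem coeff_mem_of_sum_eq_zero (a : Fin d → A) (h : ∑ i, a i * x i = 0) (i : Fin d) :
    residue A (a i) = 0 := by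
  have h1 := map_residue_eq_zero hd hx (∑ i, MvPolynomial.C (a i) * MvPolynomial.X i) 1 (by
    refine MvPolynomial.IsHomogeneous.sum _ _ _ fun l _ => ?_
    exact MvPolynomial.IsHomogeneous.C_mul (MvPolynomial.isHomogeneous_X _ _) _) (by
    rw [map_sum]
    have h2 : ∀ i, MvPolynomial.eval x (MvPolynomial.C (a i) * MvPolynomial.X i) = a i * x i := by
      intro i
      rw [map_mul, MvPolynomial.eval_C, MvPolynomial.eval_X]
    rw [Finset.sum_congr rfl fun i _ => h2 i, h]
    exact zero_mem _)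
  have h2 := congrArg (MvPolynomial.eval (Pi.single i 1 : Fin d → ResidueField A)) h1
  rw [map_sum, map_sum, map_zero, Finset.sum_eq_single i] at h2
  · simpa using h2
  · intro j _ hj
    rw [map_mul, map_mul, MvPolynomial.map_X, MvPolynomial.eval_X, Pi.single_eq_of_ne hj, mul_zero]
  · intro h
    exact absurd (Finset.mem_univ i) h

include hd hx in
/-- Two systems of parameters differ by an invertible matrix. -/
theorem exists_inverse {y : Fin d → A} (hy : Ideal.span (Set.range y) = maximalIdeal A)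
    (θ : Fin d → Fin d → A) (hθ : ∀ i, y i = ∑ l, θ i l * x l) :
    ∃ θ' : Fin d → Fin d → A, (∀ l, x l = ∑ i, θ' l i * y i) ∧
      (∀ i l, ∑ m, θ i m * θ' m l = if i = l then 1 else 0) ∧
      (∀ i l, ∑ m, θ' i m * θ m l = if i = l then 1 else 0) := by
  have h0 : ∀ l, ∃ φ : Fin d → A, ∑ i, φ i * y i = x l := by
    intro l
    rw [← Ideal.mem_span_range_iff_exists_fun, hy, ← hx]
    exact Ideal.subset_span ⟨l, rfl⟩
  choose φ hφ using h0
  let Θ : Matrix (Fin d) (Fin d) A := Matrix.of θ
  let Φ : Matrix (Fin d) (Fin d) A := Matrix.of φ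
  have hres : (residue A).mapMatrix (Φ * Θ) = 1 := by
    ext l m
    have h1 : ∑ m, ((Φ * Θ) l m - (1 : Matrix (Fin d) (Fin d) A) l m) * x m = 0 := by
      simp only [sub_mul, Finset.sum_sub_distrib, Matrix.one_apply, sum_ite_mul]
      rw [sub_eq_zero]
      simp only [Matrix.mul_apply, Finset.sum_mul]
      rw [Finset.sum_comm, ← hφ l]
      refine Finset.sum_congr rfl fun i _ => ?_
      rw [hθ i, Finset.mul_sum]
      refine Finset.sum_congr rfl fun m _ => ?_
      change φ l i * θ i m * x m = φ l i * (θ i m * x m)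
      ring
    have h2 := coeff_mem_of_sum_eq_zero hd hx _ h1 m
    rw [map_sub, sub_eq_zero] at h2
    rw [RingHom.mapMatrix_apply, Matrix.map_apply, h2, Matrix.one_apply, Matrix.one_apply]
    split_ifs
    · rw [map_one]
    · rw [map_zero]
  have hdet : IsUnit (Φ * Θ).det := by
    rw [← residue_ne_zero_iff_isUnit, RingHom.map_det, hres, Matrix.det_one]
    exact one_ne_zero
  have hdetΘ : IsUnit Θ.det := by
    rw [Matrix.det_mul] at hdet
    exact isUnit_of_mul_isUnit_right hdet
  refine ⟨fun i m => Θ⁻¹ i m, ?_, ?_, ?_⟩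
  · intro l
    have h1 : Matrix.mulVec Θ⁻¹ y = x := by
      have h2 : y = Matrix.mulVec Θ x := by
        funext i
        rw [hθ i]
        rfl
      rw [h2, Matrix.mulVec_mulVec, Matrix.nonsing_inv_mul _ hdetΘ, Matrix.one_mulVec]
    conv_lhs => rw [← h1]
    rfl
  · intro i l
    have h1 := congrFun (congrFun (Matrix.mul_nonsing_inv Θ hdetΘ) i) l
    rw [Matrix.mul_apply, Matrix.one_apply] at h1
    exact h1
  · intro i l
    have h1 := congrFun (congrFun (Matrix.nonsing_inv_mul Θ hdetΘ) i) l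
    rw [Matrix.mul_apply, Matrix.one_apply] at h1
    exact h1

end inv

section idm

variable {R A : Type u} [CommRing R] [CommRing A] [IsLocalRing R] [IsLocalRing A]
    [Algebra R A] [IsLocalHom (algebraMap R A)] {d : ℕ}

/-- The change of coordinates given by the identity matrix. -/
theorem jMap_one : jMap R (fun i l : Fin d => if i = l then (1 : A) else 0) =
    MvPolynomial.map (ResidueField.map (algebraMap R A)) := by
  refine MvPolynomial.ringHom_ext (fun a => ?_) (fun i => ?_)
  · rw [jMap_C, MvPolynomial.map_C]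
  · rw [jMap_X, MvPolynomial.map_X, Finset.sum_eq_single i]
    · simp
    · intro j _ hj
      rw [if_neg (Ne.symm hj), map_zero, map_zero, zero_mul]
    · intro h
      exact absurd (Finset.mem_univ i) h

end idm

section hts

theorem supportDim_quotient_le {R : Type u} [CommRing R] (M : Type u) [AddCommGroup M]
    [Module R M] [Module.Finite R M] (P : Ideal R) (hP : Module.annihilator R M ≤ P) :
    Module.supportDim R (R ⧸ P) ≤ Module.supportDim R M := by
  rw [Module.supportDim_quotient_eq_ringKrullDim,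
    Module.supportDim_eq_ringKrullDim_quotient_annihilator]
  exact ringKrullDim_le_of_surjective (Ideal.Quotient.factor hP)
    (Ideal.Quotient.factor_surjective hP)

/-- Heights of primes in the supports, from the dimension hypothesis. -/
theorem height_ge_of_supportDim {R₁ R₂ : Type u} [CommRing R₁] [CommRing R₂]
    [IsRegularLocalRing R₁] [IsRegularLocalRing R₂] {d : ℕ} (hd₁ : ringKrullDim R₁ = d)
    (hd₂ : ringKrullDim R₂ = d) (M N : Type u) [AddCommGroup M] [Module R₁ M]
    [Module.Finite R₁ M] [AddCommGroup N] [Module R₂ N] [Module.Finite R₂ N]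
    (hdim : ∀ e g : ℕ, (e : WithBot ℕ∞) ≤ Module.supportDim R₁ M →
      (g : WithBot ℕ∞) ≤ Module.supportDim R₂ N → e + g ≤ d)
    (P₁ : Ideal R₁) (hP₁ : P₁.IsPrime) (hI : Module.annihilator R₁ M ≤ P₁)
    (P₂ : Ideal R₂) (hP₂ : P₂.IsPrime) (hJ : Module.annihilator R₂ N ≤ P₂) :
    (d : ℕ∞) ≤ P₁.height + P₂.height := by
  obtain ⟨h₁, e₁, l₁, s₁⟩ := supportDim_prime_eq hd₁ P₁
  obtain ⟨h₂, e₂, l₂, s₂⟩ := supportDim_prime_eq hd₂ P₂
  have h := hdim (d - h₁) (d - h₂) (s₁ ▸ supportDim_quotient_le M P₁ hI)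
    (s₂ ▸ supportDim_quotient_le N P₂ hJ)
  rw [e₁, e₂]
  have h3 : d ≤ h₁ + h₂ := by omega
  exact_mod_cast h3

end hts

end Vale.Agent.P177
end
end

section

section

/-!
The local positivity theorem for a pair of flat local maps with transversality of tangent cones.
-/

namespace Vale.Agent.P177

open IsLocalRing Function TensorProduct

universe u

theorem map_smul_eq_zero {R A : Type u} [CommRing R] [CommRing A] [Algebra R A] (M : Type u)
    [AddCommGroup M] [Module R M] (c : A)
    (hc : c ∈ (Module.annihilator R M).map (algebraMap R A)) (v : A ⊗[R] M) : c • v = 0 := by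
  have h1 : (Module.annihilator R M).map (algebraMap R A) ≤ Module.annihilator A (A ⊗[R] M) := by
    rw [Ideal.map_le_iff_le_comap]
    intro r hr
    change algebraMap R A r ∈ Module.annihilator A (A ⊗[R] M)
    rw [Module.mem_annihilator]
    intro w
    induction w with
    | zero => rw [smul_zero]
    | add y z hy hz => rw [smul_add, hy, hz, add_zero]
    | tmul s m =>
      rw [algebraMap_smul, ← TensorProduct.tmul_smul, Module.mem_annihilator.1 hr,
        TensorProduct.tmul_zero]
  exact Module.mem_annihilator.1 (h1 hc) v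

section pos

variable {R₁ R₂ A : Type u} [CommRing R₁] [CommRing R₂] [CommRing A]
  [IsRegularLocalRing R₁] [IsRegularLocalRing R₂] [IsRegularLocalRing A]
  [Algebra R₁ A] [Algebra R₂ A] [Module.Flat R₁ A] [Module.Flat R₂ A]
  [IsLocalHom (algebraMap R₁ A)] [IsLocalHom (algebraMap R₂ A)] {d : ℕ}

/-- The local positivity theorem, with general changes of parameters. -/
theorem loc_pos_aux [Infinite (ResidueField A)] (hd₁ : ringKrullDim R₁ = d)
    (hd₂ : ringKrullDim R₂ = d) (hd : ringKrullDim A = d) {x₁ : Fin d → R₁} {x₂ : Fin d → R₂}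
    {x : Fin d → A} (hx₁ : Ideal.span (Set.range x₁) = maximalIdeal R₁)
    (hx₂ : Ideal.span (Set.range x₂) = maximalIdeal R₂)
    (hx : Ideal.span (Set.range x) = maximalIdeal A)
    (hxA : (maximalIdeal R₁).map (algebraMap R₁ A) = maximalIdeal A)
    (hyA : (maximalIdeal R₂).map (algebraMap R₂ A) = maximalIdeal A)
    (θ₁ θ₂ : Fin d → Fin d → A)
    (hθ₁ : ∀ i, algebraMap R₁ A (x₁ i) = ∑ l, θ₁ i l * x l)
    (hθ₂ : ∀ i, algebraMap R₂ A (x₂ i) = ∑ l, θ₂ i l * x l)
    (hf₁ : (eMap θ₁ hθ₁).Flat) (hf₂ : (eMap θ₂ hθ₂).Flat)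
    (M N : Type u) [AddCommGroup M] [Module R₁ M] [Module.Finite R₁ M]
    [AddCommGroup N] [Module R₂ N] [Module.Finite R₂ N]
    (hK : ∀ (z : Ideal (MvPolynomial (Fin d) (ResidueField A))) [z.IsPrime],
      (∀ f ∈ z, ∀ n, MvPolynomial.homogeneousComponent n f ∈ z) →
      (∃ i, MvPolynomial.X i ∉ z) →
      InForm x₁ (Module.annihilator R₁ M) (z.comap (jMap R₁ θ₁)) →
      InForm x₂ (Module.annihilator R₂ N) (z.comap (jMap R₂ θ₂)) →
      (z.comap (jMap R₁ θ₁)).height + (z.comap (jMap R₂ θ₂)).height ≤ z.height + 1)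
    (hFP : FP R₁ R₂ A M N)
    (hdim : ∀ e g : ℕ, (e : WithBot ℕ∞) ≤ Module.supportDim R₁ M →
      (g : WithBot ℕ∞) ≤ Module.supportDim R₂ N → e + g ≤ d) :
    0 ≤ eulerTor A (d + 1) (A ⊗[R₁] M) (A ⊗[R₂] N) ∧
    (∀ e g : ℕ, (e : WithBot ℕ∞) ≤ Module.supportDim R₁ M →
      (g : WithBot ℕ∞) ≤ Module.supportDim R₂ N → d ≤ e + g →
      0 < eulerTor A (d + 1) (A ⊗[R₁] M) (A ⊗[R₂] N)) := by
  rcases subsingleton_or_nontrivial M with hM | hM
  · have hM' : Subsingleton (A ⊗[R₁] M) := inferInstance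
    refine ⟨(eulerTor_left_zero _ _ _ hM').ge, fun e g he _ _ => ?_⟩
    rw [Module.supportDim_eq_bot_of_subsingleton] at he
    exact absurd (le_bot_iff.1 he) (WithBot.coe_ne_bot)
  rcases subsingleton_or_nontrivial N with hN | hN
  · have hN' : Subsingleton (A ⊗[R₂] N) := inferInstance
    refine ⟨(eulerTor_right_zero _ _ _ hN').ge, fun e g _ hg _ => ?_⟩
    rw [Module.supportDim_eq_bot_of_subsingleton] at hg
    exact absurd (le_bot_iff.1 hg) (WithBot.coe_ne_bot)
  have hff₁ : Module.FaithfullyFlat R₁ A := Module.FaithfullyFlat.of_flat_of_isLocalHom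
  have hff₂ : Module.FaithfullyFlat R₂ A := Module.FaithfullyFlat.of_flat_of_isLocalHom
  have hM' : Nontrivial (A ⊗[R₁] M) := inferInstance
  have hN' : Nontrivial (A ⊗[R₂] N) := inferInstance
  obtain ⟨c, n₀, hc⟩ := exists_chart hd₁ hd₂ hx₁ hx₂ hx θ₁ θ₂ hθ₁ hθ₂
    (Module.annihilator R₁ M) (Module.annihilator R₂ N) hK
    (fun P₁ hP₁ hI P₂ hP₂ hJ => height_ge_of_supportDim hd₁ hd₂ M N hdim P₁ hP₁ hI P₂ hP₂ hJ)
  have hS := chart_isStrict hd hx c
  have hx0 := x0_mem hx c
  obtain ⟨f, hf⟩ := exists_chart_away x c (Localization.Away (x0 x c))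
      (IsLocalization.Away.algebraMap_isUnit (x0 x c))
  obtain ⟨p₁, p₂⟩ := pos_of_chart (A := A) (S := Chart x c) hd (M := A ⊗[R₁] M)
    (N := A ⊗[R₂] N) (fun i => hFP.length_ne_top i) hx0 (n₀ := n₀)
    (I₁ := (Module.annihilator R₁ M).map (algebraMap R₁ A))
    (J₁ := (Module.annihilator R₂ N).map (algebraMap R₂ A))
    (map_smul_eq_zero M) (map_smul_eq_zero N) hc hS
    (stMap_isStrict (M := A ⊗[R₁] M) hS hx0 f hf)
    (stMap_isStrict (M := A ⊗[R₂] N) hS hx0 f hf)
    (fun m hm hlen => chart_local_nonneg hd₁ hd₂ hd hx₁ hx₂ hx θ₁ θ₂ hθ₁ hθ₂ hf₁ hf₂ c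
      m.asIdeal hm M N hK (hlen 0 (Nat.succ_pos d)))
  refine ⟨p₁, fun e g he hg hle => p₂ e g ?_ ?_ hle⟩
  · exact he.trans (supportDim_le_baseChange R₁ A hxA M)
  · exact hg.trans (supportDim_le_baseChange R₂ A hyA N)

/-- The local positivity theorem for a pair of flat local maps. -/
theorem loc_pos [Infinite (ResidueField A)] (hd₁ : ringKrullDim R₁ = d)
    (hd₂ : ringKrullDim R₂ = d) (hd : ringKrullDim A = d) {x₁ : Fin d → R₁} {x₂ : Fin d → R₂}
    (hx₁ : Ideal.span (Set.range x₁) = maximalIdeal R₁)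
    (hx₂ : Ideal.span (Set.range x₂) = maximalIdeal R₂)
    (hxA : (maximalIdeal R₁).map (algebraMap R₁ A) = maximalIdeal A)
    (hyA : (maximalIdeal R₂).map (algebraMap R₂ A) = maximalIdeal A)
    (θ : Fin d → Fin d → A)
    (hθ : ∀ i, algebraMap R₂ A (x₂ i) = ∑ l, θ i l * algebraMap R₁ A (x₁ l))
    (M N : Type u) [AddCommGroup M] [Module R₁ M] [Module.Finite R₁ M]
    [AddCommGroup N] [Module R₂ N] [Module.Finite R₂ N]
    (hK : ∀ (z : Ideal (MvPolynomial (Fin d) (ResidueField A))) [z.IsPrime],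
      (∀ f ∈ z, ∀ n, MvPolynomial.homogeneousComponent n f ∈ z) →
      (∃ i, MvPolynomial.X i ∉ z) →
      InForm x₁ (Module.annihilator R₁ M)
        (z.comap (MvPolynomial.map (ResidueField.map (algebraMap R₁ A)))) →
      InForm x₂ (Module.annihilator R₂ N) (z.comap (jMap R₂ θ)) →
      (z.comap (MvPolynomial.map (ResidueField.map (algebraMap R₁ A)))).height +
        (z.comap (jMap R₂ θ)).height ≤ z.height + 1)
    (hFP : FP R₁ R₂ A M N)
    (hdim : ∀ e g : ℕ, (e : WithBot ℕ∞) ≤ Module.supportDim R₁ M →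
      (g : WithBot ℕ∞) ≤ Module.supportDim R₂ N → e + g ≤ d) :
    0 ≤ eulerTor A (d + 1) (A ⊗[R₁] M) (A ⊗[R₂] N) ∧
    (∀ e g : ℕ, (e : WithBot ℕ∞) ≤ Module.supportDim R₁ M →
      (g : WithBot ℕ∞) ≤ Module.supportDim R₂ N → d ≤ e + g →
      0 < eulerTor A (d + 1) (A ⊗[R₁] M) (A ⊗[R₂] N)) := by
  have hx : Ideal.span (Set.range fun l => algebraMap R₁ A (x₁ l)) = maximalIdeal A := by
    rw [← hxA, ← hx₁, Ideal.map_span, ← Set.range_comp]
    rfl
  have hy : Ideal.span (Set.range fun l => algebraMap R₂ A (x₂ l)) = maximalIdeal A := by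
    rw [← hyA, ← hx₂, Ideal.map_span, ← Set.range_comp]
    rfl
  let θ₁ : Fin d → Fin d → A := fun i l => if i = l then 1 else 0
  have hθ₁ : ∀ i, algebraMap R₁ A (x₁ i) = ∑ l, θ₁ i l * algebraMap R₁ A (x₁ l) := fun i =>
    (sum_ite_mul i fun l => algebraMap R₁ A (x₁ l)).symm
  have hone : ∀ i l, ∑ m, θ₁ i m * θ₁ m l = if i = l then 1 else 0 := fun i l =>
    sum_ite_mul i fun m => θ₁ m l
  have hf₁ : (eMap (x' := x₁) (x := fun l => algebraMap R₁ A (x₁ l)) θ₁ hθ₁).Flat :=
    eMap_flat θ₁ hθ₁ θ₁ hθ₁ hone hone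
  obtain ⟨θ', h1, h2, h3⟩ := exists_inverse hd hx hy θ hθ
  have hf₂ : (eMap (x' := x₂) (x := fun l => algebraMap R₁ A (x₁ l)) θ hθ).Flat :=
    eMap_flat θ hθ θ' h1 h2 h3
  refine loc_pos_aux hd₁ hd₂ hd hx₁ hx₂ hx hxA hyA θ₁ θ hθ₁ hθ hf₁ hf₂ M N ?_ hFP hdim
  have hj : jMap R₁ θ₁ = MvPolynomial.map (ResidueField.map (algebraMap R₁ A)) := jMap_one
  rw [hj]
  exact hK

end pos

end Vale.Agent.P177
end
end

section

section

/-!
The theorem on ramified hypersurface rings.
-/

namespace Vale.Agent.P177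

open TensorProduct IsLocalRing RingTheory.Sequence Function

universe u

theorem locStmt : LocStmt.{u} := by
  intro R₁ R₂ W _ _ _ _ _ _ j₁ j₂ hl₁ hl₂ hf₁ hf₂ hinf d hd₁ hd₂ hd x₁ x₂ hx₁ hx₂ hm₁ hm₂ θ hθ
    E G _ _ _ _ _ _ hK hFP hdim
  let _ : Algebra R₁ W := j₁.toAlgebra
  let _ : Algebra R₂ W := j₂.toAlgebra
  have i1 : Module.Flat R₁ W := hf₁
  have i2 : Module.Flat R₂ W := hf₂
  have i3 : IsLocalHom (algebraMap R₁ W) := hl₁
  have i4 : IsLocalHom (algebraMap R₂ W) := hl₂
  have e₁ : jHom j₁ (idMat d) = MvPolynomial.map (ResidueField.map (algebraMap R₁ W)) :=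
    jMap_one (R := R₁) (A := W)
  have e₂ : jHom j₂ θ = jMap R₂ θ := rfl
  obtain ⟨h1, h2⟩ := loc_pos hd₁ hd₂ hd hx₁ hx₂ hm₁ hm₂ θ hθ E G (fun z hz hhom hX hI hJ => by
    have := hK z hhom hX (fun n F hF hFI => by
      rw [e₁]
      exact hI n F hF hFI) (fun n F hF hFJ => by
      rw [e₂]
      exact hJ n F hF hFJ)
    rwa [e₁, e₂] at this) hFP hdim
  exact ⟨hdim, h1, h2⟩

/-- Serre's statements for a pair of modules over an arbitrary regular local ring
`V[[x_1, …, x_d]]/(ϖ - ∑ x_i c_ij x_j)`, when the tangent cones meet the radical of the polar form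
only at the origin. -/
theorem serrePair_of_transTo (V : Type u) [CommRing V] [IsRegularLocalRing V]
    (ϖ : V) (hϖ : maximalIdeal V = Ideal.span {ϖ}) (hV : ringKrullDim V = (1 : ℕ)) (d : ℕ)
    (c : Fin d → Fin d → MvPowerSeries (Fin d) V) [IsLocalRing (QuadRing V ϖ d c)]
    (M N : Type u) [AddCommGroup M] [Module (QuadRing V ϖ d c) M]
    [Module.Finite (QuadRing V ϖ d c) M] [AddCommGroup N] [Module (QuadRing V ϖ d c) N]
    [Module.Finite (QuadRing V ϖ d c) N]
    (hlen : Module.length (QuadRing V ϖ d c) (M ⊗[QuadRing V ϖ d c] N) ≠ ⊤)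
    (htr : TransTo (Module.annihilator (QuadRing V ϖ d c) M)
      (Module.annihilator (QuadRing V ϖ d c) N) (polarIdeal V ϖ d c)) :
    SerrePair (QuadRing V ϖ d c) d M N :=
  serrePair_quadRing locStmt V ϖ hϖ hV d c M N hlen htr

/-- Serre's positivity conjecture for ramified regular local rings with nondegenerate quadratic
part. -/
theorem serreAll_of_nondegenerate (V : Type u) [CommRing V] [IsRegularLocalRing V]
    (ϖ : V) (hϖ : maximalIdeal V = Ideal.span {ϖ}) (hV : ringKrullDim V = (1 : ℕ)) (d : ℕ)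
    (c : Fin d → Fin d → MvPowerSeries (Fin d) V) (hc : IsUnit (polarMatrix V d c).det) :
    SerreAll (QuadRing V ϖ d c) d := by
  intro M N _ _ _ _ _ _ hlen
  obtain ⟨h1, -, -⟩ := quadRing_regular V ϖ hϖ hV d c
  exact serrePair_of_transTo V ϖ hϖ hV d c M N hlen (transTo_of_isUnit_det V ϖ hϖ hV d c hc _ _)

end Vale.Agent.P177
end
end

section

section

/-!
Serre's statements for modules over a regular quotient of a regular local ring.
-/

namespace Vale.Agent.P177

open CategoryTheory TensorProduct Function IsLocalRing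
open scoped Pointwise

universe u

/-- Serre's statements for a pair of modules over a ring of dimension `d`. -/
def SP (R : Type u) [CommRing R] (d : ℕ) (M N : Type u) [AddCommGroup M] [Module R M]
    [AddCommGroup N] [Module R N] : Prop :=
  0 ≤ eulerTor R (d + 1) M N ∧ ∀ m n : ℕ, (m : WithBot ℕ∞) ≤ Module.supportDim R M →
      (n : WithBot ℕ∞) ≤ Module.supportDim R N →
      (m + n ≤ d) ∧ (d ≤ m + n → 0 < eulerTor R (d + 1) M N)

section basic

variable {R : Type u} [CommRing R] {d : ℕ}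

theorem SP.symm {M N : Type u} [AddCommGroup M] [Module R M] [AddCommGroup N] [Module R N]
    (h : SP R d M N) : SP R d N M := by
  unfold SP at h ⊢
  rw [eulerTor_symm]
  refine ⟨h.1, fun m n hm hn => ?_⟩
  obtain ⟨h1, h2⟩ := h.2 n m hn hm
  exact ⟨by omega, fun hd => h2 (by omega)⟩

theorem SP.congr {M N M' N' : Type u} [AddCommGroup M] [Module R M] [AddCommGroup N]
    [Module R N] [AddCommGroup M'] [Module R M'] [AddCommGroup N'] [Module R N']
    (e : M ≃ₗ[R] M') (e' : N ≃ₗ[R] N') (h : SP R d M N) : SP R d M' N' := by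
  unfold SP at h ⊢
  rw [← eulerTor_congr e e', ← Module.supportDim_eq_of_equiv e,
    ← Module.supportDim_eq_of_equiv e']
  exact h

theorem SP.of_subsingleton {M N : Type u} [AddCommGroup M] [Module R M] [AddCommGroup N]
    [Module R N] (hM : Subsingleton M) : SP R d M N := by
  refine ⟨(eulerTor_left_zero _ _ _ hM).ge, fun m n hm _ => ?_⟩
  rw [Module.supportDim_eq_bot_of_subsingleton] at hm
  exact absurd (le_bot_iff.1 hm) (WithBot.coe_ne_bot)

theorem SP.of_exact [IsRegularLocalRing R] (hd : ringKrullDim R = d)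
    {M' M M'' N : Type u} [AddCommGroup M'] [Module R M']
    [AddCommGroup M] [Module R M] [AddCommGroup M''] [Module R M''] [Module.Finite R M']
    [Module.Finite R M] [Module.Finite R M'']
    [AddCommGroup N] [Module R N] [Module.Finite R N]
    (f : M' →ₗ[R] M) (g : M →ₗ[R] M'') (hf : Injective f) (hg : Surjective g) (h : Exact f g)
    (hlen : Module.length R (M ⊗[R] N) ≠ ⊤) (h1 : SP R d M' N) (h3 : SP R d M'' N) :
    SP R d M N := by
  have hlen' : Module.length R (M' ⊗[R] N) ≠ ⊤ :=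
    length_tensor_ne_top_of_annihilator_le M M' N hlen (LinearMap.annihilator_le_of_injective f hf)
  have hv : Module.length R (TorM R (d + 1) M'' N) = 0 := by
    have := regular_tor_vanish R d hd M'' N (d + 1) le_rfl
    exact Module.length_eq_zero
  have hadd := eulerTor_add_aux f g hf hg h N (fun i => tor_length_ne_top i M' N hlen')
    (fun i => tor_length_ne_top i M N hlen) (d + 1) hv
  unfold SP
  rw [hadd]
  refine ⟨add_nonneg h1.1 h3.1, fun m n hm hn => ?_⟩
  rcases le_supportDim_of_exact f g hf hg h m hm with hm' | hm'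
  · obtain ⟨k1, k2⟩ := h1.2 m n hm' hn
    exact ⟨k1, fun hh => add_pos_of_pos_of_nonneg (k2 hh) h3.1⟩
  · obtain ⟨k1, k2⟩ := h3.2 m n hm' hn
    exact ⟨k1, fun hh => add_pos_of_nonneg_of_pos h1.1 (k2 hh)⟩

end basic

section step

variable {B A : Type u} [CommRing B] [IsRegularLocalRing B] [CommRing A] [IsRegularLocalRing A]
  [Algebra B A] {f : B}

omit [IsRegularLocalRing B] [IsRegularLocalRing A] in
theorem exists_quotHyp_equiv (H : IsHypersurface B A f) (N : Type u) [AddCommGroup N] [Module B N] :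
    Nonempty (QuotSMulTop f N ≃ₗ[B] A ⊗[B] N) := by
  let e1 : (B ⧸ Ideal.span {f}) ≃ₗ[B] A :=
    ((Ideal.quotientEquivAlgOfEq B H.ker.symm).trans
      (Ideal.quotientKerAlgEquivOfSurjective (f := Algebra.ofId B A) H.surj)).toLinearEquiv
  exact ⟨(QuotSMulTop.equivQuotTensor f N).trans
    (TensorProduct.congr e1 (LinearEquiv.refl B N))⟩

theorem IsHypersurface.mem (H : IsHypersurface B A f) : f ∈ maximalIdeal B := by
  rw [mem_maximalIdeal, mem_nonunits_iff]
  intro hu
  have h1 := hu.map (algebraMap B A)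
  rw [H.algebraMap_f] at h1
  exact not_isUnit_zero h1

variable {d : ℕ} (H : IsHypersurface B A f)
  (hdB : ringKrullDim B = ((d + 1 : ℕ) : WithBot ℕ∞)) (hdA : ringKrullDim A = d)
  (M : Type u) [AddCommGroup M] [Module B M] [Module A M] [IsScalarTower B A M]
  [Module.Finite A M] [Module.Finite B M]
  (hA : ∀ (N' : Type u) [AddCommGroup N'] [Module A N'] [Module.Finite A N'],
    Module.length A (N' ⊗[A] M) ≠ ⊤ → SP A d N' M)

include H hdA hA in
theorem sp_step_regular (N : Type u) [AddCommGroup N] [Module B N] [Module.Finite B N]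
    (hN : IsSMulRegular N f) (hlen : Module.length B (N ⊗[B] M) ≠ ⊤) : SP B (d + 1) N M := by
  have hbc := TensorProduct.isBaseChange B N A
  have hX : Module.Finite A (A ⊗[B] N) := inferInstance
  rw [length_tensor_baseChange H.surj hbc M] at hlen
  obtain ⟨h1, h2⟩ := hA (A ⊗[B] N) hlen
  have heq : eulerTor B (d + 1 + 1) N M = eulerTor A (d + 1) (A ⊗[B] N) M := by
    rw [← eulerTor_of_vanish (T := A) (A ⊗[B] N) M (d + 1) (d + 1 + 1) (Nat.le_succ _)
      (fun j hj => regular_tor_vanish A d hdA (A ⊗[B] N) M j hj)]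
    unfold eulerTor
    refine Finset.sum_congr rfl fun i _ => ?_
    rw [H.length_tor_baseChange i hbc hN M]
  have hfinB : Module.Finite B (A ⊗[B] N) := by
    have : Module.Finite B A := Module.Finite.of_surjective (Algebra.linearMap B A) H.surj
    exact Module.Finite.trans A _
  have hdimX : Module.supportDim A (A ⊗[B] N) + 1 = Module.supportDim B N := by
    obtain ⟨e⟩ := exists_quotHyp_equiv H N
    rw [← supportDim_eq_of_surjective H.surj (A ⊗[B] N), ← Module.supportDim_eq_of_equiv e]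
    exact Module.supportDim_quotSMulTop_succ_eq_supportDim hN H.mem
  unfold SP
  rw [heq]
  refine ⟨h1, fun n m hn hm => ?_⟩
  rw [supportDim_eq_of_surjective H.surj M] at hm
  rw [← hdimX] at hn
  have hnb : Module.supportDim A (A ⊗[B] N) ≠ ⊥ := by
    intro hb
    rw [hb] at hn
    simp only [WithBot.bot_add, le_bot_iff, WithBot.natCast_ne_bot] at hn
  have h0 : ((0 : ℕ) : WithBot ℕ∞) ≤ Module.supportDim A (A ⊗[B] N) := by
    generalize Module.supportDim A (A ⊗[B] N) = a at hnb ⊢
    induction a using WithBot.recBotCoe with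
    | bot => exact absurd rfl hnb
    | coe a => exact_mod_cast (bot_le : (0 : ℕ∞) ≤ a)
  obtain ⟨k1, k2⟩ := h2 0 m h0 hm
  rcases n with _ | n
  · exact ⟨by omega, fun hh => by omega⟩
  · have hn' : (n : WithBot ℕ∞) ≤ Module.supportDim A (A ⊗[B] N) := by
      generalize Module.supportDim A (A ⊗[B] N) = a at hn ⊢
      push_cast at hn
      induction a using WithBot.recBotCoe with
      | bot => simp only [WithBot.bot_add, le_bot_iff, WithBot.add_eq_bot, WithBot.natCast_ne_bot, WithBot.one_ne_bot, or_self] at hn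
      | coe a =>
        have h7 : ((n : ℕ∞) + 1) ≤ a + 1 := by exact_mod_cast hn
        have h8 : (n : ℕ∞) ≤ a := (ENat.add_le_add_iff_right (by simp)).1 h7
        exact_mod_cast h8
    obtain ⟨k3, k4⟩ := h2 n m hn' hm
    exact ⟨by omega, fun hh => k4 (by omega)⟩

include H hdB hdA hA in
theorem sp_step_killed (N : Type u) [AddCommGroup N] [Module B N] [Module.Finite B N]
    (hN : ∀ v : N, f • v = 0) (hlen : Module.length B (N ⊗[B] M) ≠ ⊤) : SP B (d + 1) N M := by
  have hbot : f • (⊤ : Submodule B N) = ⊥ := by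
    rw [eq_bot_iff]
    rintro _ ⟨v, -, rfl⟩
    exact hN v
  have hfinB : Module.Finite B (A ⊗[B] N) := by
    have : Module.Finite B A := Module.Finite.of_surjective (Algebra.linearMap B A) H.surj
    exact Module.Finite.trans A _
  obtain ⟨e⟩ := exists_quotHyp_equiv H N
  let e' : N ≃ₗ[B] A ⊗[B] N := (Submodule.quotEquivOfEqBot _ hbot).symm.trans e
  refine SP.congr e'.symm (LinearEquiv.refl B M) ?_
  have hlenX : Module.length B ((A ⊗[B] N) ⊗[B] M) ≠ ⊤ := by
    rw [← (TensorProduct.congr e' (LinearEquiv.refl B M)).length_eq]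
    exact hlen
  have hlenA : Module.length A ((A ⊗[B] N) ⊗[A] M) ≠ ⊤ := by
    rw [← length_tensor_baseChange H.surj (isBaseChange_id_of_surjective H.surj (A ⊗[B] N)) M]
    exact hlenX
  obtain ⟨-, h2⟩ := hA (A ⊗[B] N) hlenA
  have hBv : Module.length B (TorM B (d + 1 + 1) (A ⊗[B] N) M) = 0 := by
    have := regular_tor_vanish B (d + 1) hdB (A ⊗[B] N) M (d + 1 + 1) le_rfl
    exact Module.length_eq_zero
  have h6 := H.eulerTor_eq (A ⊗[B] N) M (fun n => tor_length_ne_top n _ M hlenA) (d + 1) hBv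
  have h7 : Module.length A (TorM A (d + 1) (A ⊗[B] N) M) = 0 := by
    have := regular_tor_vanish A d hdA (A ⊗[B] N) M (d + 1) le_rfl
    exact Module.length_eq_zero
  have h8 : Module.length A (TorM A (d + 1 + 1) (A ⊗[B] N) M) = 0 := by
    have := regular_tor_vanish A d hdA (A ⊗[B] N) M (d + 1 + 1) (by omega)
    exact Module.length_eq_zero
  rw [h7, h8, sub_self, mul_zero] at h6
  unfold SP
  rw [h6]
  refine ⟨le_rfl, fun n m hn hm => ?_⟩
  rw [supportDim_eq_of_surjective H.surj M] at hm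
  rw [supportDim_eq_of_surjective H.surj (A ⊗[B] N)] at hn
  obtain ⟨k1, -⟩ := h2 n m hn hm
  exact ⟨by omega, fun hh => by omega⟩

include H hdB hdA hA in
/-- Passage from a regular hypersurface to the ambient ring. -/
theorem sp_step (N : Type u) [AddCommGroup N] [Module B N] [Module.Finite B N]
    (hlen : Module.length B (N ⊗[B] M) ≠ ⊤) : SP B (d + 1) N M := by
  refine IsNoetherianRing.induction_on_isQuotientEquivQuotientPrime B (M := N) inferInstance
    (motive := fun N => Module.length B (N ⊗[B] M) ≠ ⊤ → SP B (d + 1) N M) ?_ ?_ ?_ hlen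
  · intro N _ _ _ hN _
    exact SP.of_subsingleton hN
  · intro N _ _ _ q e hlen
    by_cases hf : f ∈ q.1
    · refine sp_step_killed H hdB hdA M hA N (fun v => ?_) hlen
      apply e.injective
      rw [map_smul, map_zero]
      obtain ⟨b, hb⟩ := Ideal.Quotient.mk_surjective (e v)
      rw [← hb]
      change Ideal.Quotient.mk q.1 (f * b) = 0
      rw [Ideal.Quotient.eq_zero_iff_mem]
      exact Ideal.mul_mem_right _ _ hf
    · refine sp_step_regular H hdA M hA N ?_ hlen
      rw [isSMulRegular_iff_right_eq_zero_of_smul]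
      intro v hv
      apply e.injective
      rw [map_zero]
      have h1 : f • e v = 0 := by rw [← map_smul, hv, map_zero]
      obtain ⟨b, hb⟩ := Ideal.Quotient.mk_surjective (e v)
      rw [← hb] at h1 ⊢
      have h2 : Ideal.Quotient.mk q.1 (f * b) = 0 := h1
      rw [Ideal.Quotient.eq_zero_iff_mem] at h2 ⊢
      exact (q.2.mem_or_mem h2).resolve_left hf
  · intro N₁ _ _ _ N₂ _ _ _ N₃ _ _ _ i g hi hg hex h1 h3 hlen
    refine SP.of_exact hdB i g hi hg hex hlen (h1 ?_) (h3 ?_)
    · exact length_tensor_ne_top_of_annihilator_le N₂ N₁ M hlen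
        (LinearMap.annihilator_le_of_injective i hi)
    · exact length_tensor_ne_top_of_annihilator_le N₂ N₃ M hlen
        (LinearMap.annihilator_le_of_surjective g hg)

end step

end Vale.Agent.P177
end
end

section

section

/-!
Serre's statements for modules over a regular quotient of a regular local ring: induction on the
codimension.
-/

namespace Vale.Agent.P177

open CategoryTheory TensorProduct Function IsLocalRing
open scoped Pointwise

universe u

section ker

variable {R R' : Type u} [CommRing R] [IsRegularLocalRing R] [CommRing R'] [IsRegularLocalRing R']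

theorem exists_mem_ker_notMem_sq (φ : R →+* R') (hφ : Surjective φ)
    (h : ringKrullDim R' < ringKrullDim R) :
    ∃ f ∈ RingHom.ker φ, f ∈ maximalIdeal R ∧ f ∉ maximalIdeal R ^ 2 := by
  classical
  by_contra hcon
  push Not at hcon
  have hkm : RingHom.ker φ ≤ maximalIdeal R := le_maximalIdeal (RingHom.ker_ne_top φ)
  have hk2 : RingHom.ker φ ≤ maximalIdeal R ^ 2 := fun f hf => hcon f hf (hkm hf)
  obtain ⟨s, hcard, hs⟩ := Submodule.FG.exists_span_finset_card_eq_spanFinrank
    ((maximalIdeal R').fg_of_isNoetherianRing)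
  change Ideal.span (s : Set R') = maximalIdeal R' at hs
  choose g hg using hφ
  have hloc : maximalIdeal R = (maximalIdeal R').comap φ := by
    have : IsLocalHom φ := .of_surjective φ (fun y => ⟨g y, hg y⟩)
    have h9 : (maximalIdeal R').comap φ = maximalIdeal R :=
      ((IsLocalRing.local_hom_TFAE φ).out 0 4).1 this
    exact h9.symm
  have hle : maximalIdeal R ≤ Ideal.span ((s.image g : Finset R) : Set R) ⊔
      maximalIdeal R • maximalIdeal R := by
    intro x hx
    rw [hloc, Ideal.mem_comap, ← hs] at hx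
    have hmap : (Ideal.span ((s.image g : Finset R) : Set R)).map φ =
        Ideal.span (s : Set R') := by
      rw [Ideal.map_span, Finset.coe_image, ← Set.image_comp]
      congr 1
      ext y
      constructor
      · rintro ⟨z, hz, rfl⟩
        rw [Function.comp_apply, hg]
        exact hz
      · intro hy
        exact ⟨y, hy, hg y⟩
    rw [← hmap] at hx
    obtain ⟨y, hy, hyx⟩ := (Ideal.mem_map_iff_of_surjective φ (fun y => ⟨g y, hg y⟩)).1 hx
    have h1 : x - y ∈ RingHom.ker φ := by
      rw [RingHom.mem_ker, map_sub, hyx, sub_self]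
    have h3 : x = y + (x - y) := by ring
    rw [h3]
    refine Submodule.add_mem_sup hy ?_
    rw [smul_eq_mul, ← pow_two]
    exact hk2 h1
  have hle2 : maximalIdeal R ≤ Ideal.span ((s.image g : Finset R) : Set R) :=
    Submodule.le_of_le_smul_of_le_jacobson_bot ((maximalIdeal R).fg_of_isNoetherianRing)
      (IsLocalRing.maximalIdeal_le_jacobson ⊥) hle
  have hge : Ideal.span ((s.image g : Finset R) : Set R) ≤ maximalIdeal R := by
    rw [Ideal.span_le]
    intro x hx
    rw [Finset.coe_image] at hx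
    obtain ⟨y, hy, rfl⟩ := hx
    change g y ∈ maximalIdeal R
    rw [hloc, Ideal.mem_comap, hg, ← hs]
    exact Ideal.subset_span hy
  have heq : Ideal.span ((s.image g : Finset R) : Set R) = maximalIdeal R :=
    le_antisymm hge hle2
  have h5 : (maximalIdeal R).spanFinrank ≤ (s.image g).card := by
    rw [← heq]
    exact (Submodule.spanFinrank_span_le_ncard_of_finite (Finset.finite_toSet _)).trans
      (by rw [Set.ncard_coe_finset])
  have h6 : (s.image g).card ≤ (maximalIdeal R').spanFinrank := hcard ▸ Finset.card_image_le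
  rw [exists_nat_ringKrullDim R, exists_nat_ringKrullDim R'] at h
  have h7 : (maximalIdeal R').spanFinrank < (maximalIdeal R).spanFinrank := by exact_mod_cast h
  omega

omit [IsRegularLocalRing R'] in
theorem ker_eq_bot_of_dim_eq (φ : R →+* R') (hφ : Surjective φ)
    (h : ringKrullDim R' = ringKrullDim R) : RingHom.ker φ = ⊥ := by
  have hdom : IsDomain R := regular_isDomain R
  by_contra hne
  obtain ⟨f, hf, hf0⟩ := Submodule.exists_mem_ne_zero_of_ne_bot hne
  have h1 : ringKrullDim (R ⧸ Ideal.span {f}) + 1 ≤ ringKrullDim R :=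
    ringKrullDim_quotient_succ_le_of_nonZeroDivisor (mem_nonZeroDivisors_of_ne_zero hf0)
  have h2 : ringKrullDim R' ≤ ringKrullDim (R ⧸ Ideal.span {f}) := by
    refine ringKrullDim_le_of_surjective (Ideal.Quotient.lift (Ideal.span {f}) φ ?_) ?_
    · intro a ha
      have : Ideal.span {f} ≤ RingHom.ker φ := by
        rw [Ideal.span_singleton_le_iff_mem]
        exact hf
      exact this ha
    · intro y
      obtain ⟨x, rfl⟩ := hφ y
      exact ⟨Ideal.Quotient.mk _ x, rfl⟩
  rw [h] at h2
  obtain ⟨n, hn⟩ := exists_nat_eq_ringKrullDim R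
  have h3 := (add_le_add_left h2 1).trans h1
  rw [hn] at h3
  have h4 : n + 1 ≤ n := by exact_mod_cast h3
  omega

end ker

section main

/-- The case of a bijection. -/
theorem sp_of_bijective {R R' : Type u} [CommRing R] [IsRegularLocalRing R] [CommRing R']
    [IsRegularLocalRing R'] [Algebra R R'] (hb : Bijective (algebraMap R R')) (d : ℕ)
    (M : Type u) [AddCommGroup M] [Module R M] [Module R' M] [IsScalarTower R R' M]
    [Module.Finite R' M]
    (hM : ∀ (N' : Type u) [AddCommGroup N'] [Module R' N'] [Module.Finite R' N'],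
      Module.length R' (N' ⊗[R'] M) ≠ ⊤ → SP R' d N' M)
    (N : Type u) [AddCommGroup N] [Module R N] [Module.Finite R N]
    (hlen : Module.length R (N ⊗[R] M) ≠ ⊤) : SP R d N M := by
  let e : R ≃ₗ[R] R' := LinearEquiv.ofBijective (Algebra.linearMap R R') hb
  have hflat : Module.Flat R R' := Module.Flat.of_linearEquiv e.symm
  have hloc : (maximalIdeal R).map (algebraMap R R') = maximalIdeal R' :=
    map_maximalIdeal_of_surjective _ hb.2
  have hN : ∀ b : R', ∃ s : R, ∀ t : M, b • t = s • t := fun b => by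
    obtain ⟨s, rfl⟩ := hb.2 b
    exact ⟨s, fun t => algebraMap_smul R' s t⟩
  have hfin : Module.Finite R R' := Module.Finite.of_surjective (Algebra.linearMap R R') hb.2
  have hfinN : Module.Finite R (R' ⊗[R] N) := Module.Finite.trans R' _
  have hfinM : Module.Finite R M := Module.Finite.trans R' _
  have hbc := TensorProduct.isBaseChange R N R'
  have heq : eulerTor R (d + 1) N M = eulerTor R' (d + 1) (R' ⊗[R] N) M := by
    unfold eulerTor
    refine Finset.sum_congr rfl fun i _ => ?_
    rw [length_tor_bc i hbc M hN]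
  have hl : Module.length R' ((R' ⊗[R] N) ⊗[R'] M) ≠ ⊤ := by
    rw [← length_tensor_baseChange hb.2 hbc M]
    exact hlen
  have h := hM (R' ⊗[R] N) hl
  have hd1 : Module.supportDim R' (R' ⊗[R] N) = Module.supportDim R N := by
    rw [← supportDim_eq_of_surjective hb.2 (R' ⊗[R] N)]
    refine (Module.supportDim_eq_of_equiv ?_).symm
    exact (TensorProduct.lid R N).symm.trans (TensorProduct.congr e (LinearEquiv.refl R N))
  have hd2 : Module.supportDim R M = Module.supportDim R' M := supportDim_eq_of_surjective hb.2 M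
  unfold SP at h ⊢
  rw [heq, hd2, ← hd1]
  exact h

/-- Serre's statements for a module over a regular quotient, against all modules. -/
theorem sp_of_regular_quotient (k : ℕ) : ∀ {R R' : Type u} [CommRing R] [IsRegularLocalRing R]
    [CommRing R'] [IsRegularLocalRing R'] [Algebra R R'] (_ : Surjective (algebraMap R R'))
    {d' : ℕ} (_ : ringKrullDim R = ((d' + k : ℕ) : WithBot ℕ∞)) (_ : ringKrullDim R' = d')
    (M : Type u) [AddCommGroup M] [Module R M] [Module R' M] [IsScalarTower R R' M]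
    [Module.Finite R' M]
    (_ : ∀ (N' : Type u) [AddCommGroup N'] [Module R' N'] [Module.Finite R' N'],
      Module.length R' (N' ⊗[R'] M) ≠ ⊤ → SP R' d' N' M)
    (N : Type u) [AddCommGroup N] [Module R N] [Module.Finite R N]
    (_ : Module.length R (N ⊗[R] M) ≠ ⊤), SP R (d' + k) N M := by
  induction k with
  | zero =>
    intro R R' _ _ _ _ _ hs d' hd hd' M _ _ _ _ _ hM N _ _ _ hlen
    have hinj : Injective (algebraMap R R') := by
      rw [RingHom.injective_iff_ker_eq_bot]
      refine ker_eq_bot_of_dim_eq (algebraMap R R') hs ?_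
      rw [hd, hd', add_zero]
    exact sp_of_bijective ⟨hinj, hs⟩ d' M hM N hlen
  | succ k ih =>
    intro R R' _ _ _ _ _ hs d' hd hd' M _ _ _ _ _ hM N _ _ _ hlen
    obtain ⟨f, hfk, hfm, hf2⟩ := exists_mem_ker_notMem_sq (algebraMap R R') hs (by
      rw [hd, hd']
      exact_mod_cast (by omega : d' < d' + (k + 1)))
    obtain ⟨hreg, hdim⟩ := regular_quotient R f hfm hf2
    have hdom : IsDomain R := regular_isDomain R
    have hf0 : f ≠ 0 := fun h => hf2 (h ▸ zero_mem _)
    have hdimA : ringKrullDim (R ⧸ Ideal.span {f}) = ((d' + k : ℕ) : WithBot ℕ∞) := by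
      obtain ⟨n, hn⟩ := exists_nat_eq_ringKrullDim (R ⧸ Ideal.span {f})
      rw [hn, hd] at hdim
      have h4 : n + 1 = d' + (k + 1) := by exact_mod_cast hdim
      rw [hn]
      exact_mod_cast (by omega : n = d' + k)
    have hle : ∀ a ∈ Ideal.span {f}, algebraMap R R' a = 0 := by
      intro a ha
      have : Ideal.span {f} ≤ RingHom.ker (algebraMap R R') := by
        rw [Ideal.span_singleton_le_iff_mem]
        exact hfk
      exact this ha
    let ψ : (R ⧸ Ideal.span {f}) →+* R' := Ideal.Quotient.lift (Ideal.span {f})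
      (algebraMap R R') hle
    let : Algebra (R ⧸ Ideal.span {f}) R' := ψ.toAlgebra
    let : Module (R ⧸ Ideal.span {f}) M := Module.compHom M ψ
    have ht1 : IsScalarTower (R ⧸ Ideal.span {f}) R' M := ⟨fun a b m => by
      change (ψ a * b) • m = ψ a • (b • m)
      rw [mul_smul]⟩
    have ht2 : IsScalarTower R (R ⧸ Ideal.span {f}) M := ⟨fun a b m => by
      obtain ⟨b, rfl⟩ := Ideal.Quotient.mk_surjective b
      change (algebraMap R R' (a * b)) • m = a • (algebraMap R R' b • m)
      rw [map_mul, mul_smul, algebraMap_smul R' a]⟩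
    have hs' : Surjective (algebraMap (R ⧸ Ideal.span {f}) R') := fun y => by
      obtain ⟨x, hx⟩ := hs y
      exact ⟨Ideal.Quotient.mk _ x, hx⟩
    have H : IsHypersurface R (R ⧸ Ideal.span {f}) f :=
      ⟨(IsRegular.of_ne_zero hf0).left.isSMulRegular, Ideal.Quotient.mk_surjective,
        Ideal.mk_ker⟩
    have hfinR' : Module.Finite R R' := Module.Finite.of_surjective (Algebra.linearMap R R') hs
    have hfinM : Module.Finite R M := Module.Finite.trans R' _
    have hfinA : Module.Finite (R ⧸ Ideal.span {f}) R' :=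
      Module.Finite.of_surjective (Algebra.linearMap (R ⧸ Ideal.span {f}) R') hs'
    have hfinM' : Module.Finite (R ⧸ Ideal.span {f}) M := Module.Finite.trans R' _
    exact sp_step H (d := d' + k) hd hdimA M
      (fun N' _ _ _ hlen' => ih hs' hdimA hd' M hM N' hlen') N hlen

/-- **Serre's statements over a regular quotient.** Let `R → R'` be a surjection of regular local
rings and `M` a finitely generated `R'`-module for which Serre's statements hold over `R'` against
all finitely generated `R'`-modules. Then they hold over `R` for `M` against all finitely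
generated `R`-modules. -/
theorem serre_of_regular_quotient {R R' : Type u} [CommRing R] [IsRegularLocalRing R]
    [CommRing R'] [IsRegularLocalRing R'] [Algebra R R'] (hs : Surjective (algebraMap R R'))
    {d d' : ℕ} (hd : ringKrullDim R = d) (hd' : ringKrullDim R' = d')
    (M : Type u) [AddCommGroup M] [Module R M] [Module R' M] [IsScalarTower R R' M]
    [Module.Finite R' M]
    (hM : ∀ (N' : Type u) [AddCommGroup N'] [Module R' N'] [Module.Finite R' N'],
      Module.length R' (M ⊗[R'] N') ≠ ⊤ →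
      0 ≤ eulerTor R' (d' + 1) M N' ∧
        ∀ m n : ℕ, (m : WithBot ℕ∞) ≤ Module.supportDim R' M →
          (n : WithBot ℕ∞) ≤ Module.supportDim R' N' →
          (m + n ≤ d') ∧ (d' ≤ m + n → 0 < eulerTor R' (d' + 1) M N'))
    (N : Type u) [AddCommGroup N] [Module R N] [Module.Finite R N]
    (hlen : Module.length R (M ⊗[R] N) ≠ ⊤) :
    0 ≤ eulerTor R (d + 1) M N ∧
      ∀ m n : ℕ, (m : WithBot ℕ∞) ≤ Module.supportDim R M →
        (n : WithBot ℕ∞) ≤ Module.supportDim R N →
        (m + n ≤ d) ∧ (d ≤ m + n → 0 < eulerTor R (d + 1) M N) := by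
  have hle : ringKrullDim R' ≤ ringKrullDim R := ringKrullDim_le_of_surjective _ hs
  rw [hd, hd'] at hle
  have hle' : d' ≤ d := by exact_mod_cast hle
  obtain ⟨k, rfl⟩ := Nat.exists_eq_add_of_le hle'
  refine SP.symm (sp_of_regular_quotient k hs hd hd' M (fun N' _ _ _ hlen' => ?_) N ?_)
  · refine SP.symm (hM N' ?_)
    rw [(TensorProduct.comm R' M N').length_eq]
    exact hlen'
  · rw [(TensorProduct.comm R N M).length_eq]
    exact hlen

end main

end Vale.Agent.P177
end
end

section

section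

/-!
The canonical map from the Witt vectors of a perfect residue field to a complete local ring.
-/

namespace Vale.Agent.P177

open IsLocalRing Ideal Function

universe u

section witt

variable {S : Type u} [CommRing S] [IsLocalRing S] (p : ℕ) [Fact p.Prime]

theorem mk_ghostComponent_eq_zero (hp : (p : S) ∈ maximalIdeal S) (n : ℕ) (x : WittVector p S)
    (hx : WittVector.map (residue S) x = 0) :
    Ideal.Quotient.mk (maximalIdeal S ^ (n + 1)) (WittVector.ghostComponent n x) = 0 := by
  have hc : ∀ i, x.coeff i ∈ maximalIdeal S := by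
    intro i
    have h1 := congrArg (fun y => WittVector.coeff y i) hx
    simp only [WittVector.map_coeff, WittVector.zero_coeff] at h1
    exact (residue_eq_zero_iff _).1 h1
  rw [Ideal.Quotient.eq_zero_iff_mem, WittVector.ghostComponent_apply, aeval_wittPolynomial]
  refine Ideal.sum_mem _ fun i hi => ?_
  have hi' : i ≤ n := Nat.lt_succ_iff.1 (Finset.mem_range.1 hi)
  have h2 : n + 1 ≤ i + p ^ (n - i) := by
    have := Nat.lt_pow_self (Fact.out (p := p.Prime)).one_lt (n := n - i)
    omega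
  have h3 : (p : S) ^ i * x.coeff i ^ p ^ (n - i) ∈ maximalIdeal S ^ (i + p ^ (n - i)) := by
    rw [pow_add]
    exact Ideal.mul_mem_mul (Ideal.pow_mem_pow hp i) (Ideal.pow_mem_pow (hc i) _)
  exact Ideal.pow_le_pow_right h2 h3

/-- The `n`-th ghost component modulo a power of the maximal ideal. -/
noncomputable def ghostMod (hp : (p : S) ∈ maximalIdeal S) (n : ℕ) :
    WittVector p (ResidueField S) →+* S ⧸ maximalIdeal S ^ (n + 1) :=
  RingHom.liftOfSurjective (WittVector.map (residue S))
    (WittVector.map_surjective _ residue_surjective)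
    ⟨(Ideal.Quotient.mk (maximalIdeal S ^ (n + 1))).comp (WittVector.ghostComponent n),
      fun x hx => mk_ghostComponent_eq_zero p hp n x hx⟩

theorem ghostMod_map (hp : (p : S) ∈ maximalIdeal S) (n : ℕ) (x : WittVector p S) :
    ghostMod p hp n (WittVector.map (residue S) x) =
      Ideal.Quotient.mk (maximalIdeal S ^ (n + 1)) (WittVector.ghostComponent n x) :=
  RingHom.liftOfSurjective_comp_apply ..

variable [CharP (ResidueField S) p] [PerfectRing (ResidueField S) p]

/-- The inverse of the Frobenius map. -/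
noncomputable def rootHom (k : Type u) [Field k] [CharP k p] [PerfectRing k p] : k →+* k :=
  ((frobeniusEquiv k p).symm : k →+* k)

/-- The canonical map modulo a power of the maximal ideal. -/
noncomputable def wittMod (hp : (p : S) ∈ maximalIdeal S) (n : ℕ) :
    WittVector p (ResidueField S) →+* S ⧸ maximalIdeal S ^ (n + 1) :=
  (ghostMod p hp n).comp (WittVector.map (rootHom p (ResidueField S) ^ n))

theorem wittMod_teichmuller (hp : (p : S) ∈ maximalIdeal S) (n : ℕ) (a : ResidueField S) (b : S)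
    (hb : residue S b = (rootHom p (ResidueField S) ^ n) a) :
    wittMod p hp n (WittVector.teichmuller p a) =
      Ideal.Quotient.mk (maximalIdeal S ^ (n + 1)) (b ^ p ^ n) := by
  rw [wittMod, RingHom.comp_apply, WittVector.map_teichmuller, ← hb,
    ← WittVector.map_teichmuller, ghostMod_map, WittVector.ghostComponent_teichmuller]

theorem factorPowSucc_comp_wittMod (hp : (p : S) ∈ maximalIdeal S) (n : ℕ) :
    (Ideal.Quotient.factorPowSucc (maximalIdeal S) (n + 1)).comp (wittMod p hp (n + 1)) =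
      wittMod p hp n := by
  apply WittVector.eq_of_apply_teichmuller_eq
  · refine ⟨n + 1, ?_⟩
    rw [← map_natCast (Ideal.Quotient.mk (maximalIdeal S ^ (n + 1))), ← map_pow,
      Ideal.Quotient.eq_zero_iff_mem]
    exact Ideal.pow_mem_pow hp _
  · intro a
    obtain ⟨b, hb⟩ := residue_surjective ((rootHom p (ResidueField S) ^ (n + 1)) a)
    have hb' : residue S (b ^ p) = (rootHom p (ResidueField S) ^ n) a := by
      rw [map_pow, hb]
      have h1 : (rootHom p (ResidueField S) ^ (n + 1)) a =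
          rootHom p (ResidueField S) ((rootHom p (ResidueField S) ^ n) a) := by
        rw [pow_succ']
        rfl
      rw [h1]
      exact frobeniusEquiv_symm_pow_p _ _ _
    rw [RingHom.comp_apply, wittMod_teichmuller p hp (n + 1) a b hb,
      wittMod_teichmuller p hp n a (b ^ p) hb']
    rw [← pow_mul, ← pow_succ']
    rfl

theorem exists_witt_hom [IsAdicComplete (maximalIdeal S) S] :
    ∃ σ : WittVector p (ResidueField S) →+* S, ∀ w, residue S (σ w) = w.coeff 0 := by
  have hp : (p : S) ∈ maximalIdeal S := by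
    rw [← residue_eq_zero_iff, map_natCast]
    exact CharP.cast_eq_zero _ _
  refine ⟨IsAdicComplete.StrictMono.liftRingHom (maximalIdeal S) Order.succ_strictMono
    (fun n => wittMod p hp n) (factorPowSucc_comp_wittMod p hp _), fun w => ?_⟩
  have h1 := IsAdicComplete.StrictMono.mk_liftRingHom (maximalIdeal S) Order.succ_strictMono
    (fun n => wittMod p hp n) (factorPowSucc_comp_wittMod p hp _) (n := 0) w
  obtain ⟨x, rfl⟩ := WittVector.map_surjective (p := p) _ (residue_surjective (R := S)) w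
  set y := IsAdicComplete.StrictMono.liftRingHom (maximalIdeal S) Order.succ_strictMono
    (fun n => wittMod p hp n) (factorPowSucc_comp_wittMod p hp _)
    (WittVector.map (residue S) x)
  have h2 : wittMod p hp 0 (WittVector.map (residue S) x) =
      Ideal.Quotient.mk (maximalIdeal S ^ (0 + 1)) (x.coeff 0) := by
    have h3 : wittMod p hp 0 (WittVector.map (residue S) x) =
        ghostMod p hp 0 (WittVector.map (residue S) x) := by
      rw [wittMod, RingHom.comp_apply]
      congr 1
    rw [h3, ghostMod_map]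
    congr 1
    rw [WittVector.ghostComponent_apply, aeval_wittPolynomial]
    simp only [zero_add, Finset.range_one, zero_tsub, pow_zero, pow_one, Finset.sum_singleton, one_mul]
  have h4 : Ideal.Quotient.mk (maximalIdeal S ^ (0 + 1)) y =
      Ideal.Quotient.mk (maximalIdeal S ^ (0 + 1)) (x.coeff 0) := h1.trans h2
  rw [Ideal.Quotient.mk_eq_mk_iff_sub_mem, zero_add, pow_one] at h4
  rw [WittVector.map_coeff, ← sub_eq_zero, ← map_sub, residue_eq_zero_iff]
  exact h4

end witt

end Vale.Agent.P177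
end
end

section

section

/-!
Presentation of a complete regular local ring with perfect residue field as a quotient of a power
series ring over the Witt vectors.
-/

namespace Vale.Agent.P177

open TensorProduct IsLocalRing RingTheory.Sequence Function

universe u

theorem exists_evalHom_surjective {ι A R : Type*} [Finite ι] [CommRing A] [IsLocalRing A]
    [IsAdicComplete (maximalIdeal A) A] [CommRing R] (σ : R →+* A)
    (hσ : Function.Surjective (fun x => residue A (σ x))) (x : ι → A)
    (hx : Ideal.span (Set.range x) = maximalIdeal A) :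
    ∃ φ : MvPowerSeries ι R →+* A, Function.Surjective φ ∧ (∀ r, φ (MvPowerSeries.C r) = σ r) ∧
      ∀ i, φ (MvPowerSeries.X i) = x i := by
  obtain ⟨φ, hφ⟩ := exists_evalHom (maximalIdeal A) σ x
    (fun i => hx ▸ Ideal.subset_span ⟨i, rfl⟩)
  have hC : ∀ r, φ (MvPowerSeries.C r) = σ r := by
    intro r
    rw [← MvPolynomial.coe_C, hφ]
    simp
  have hX : ∀ i, φ (MvPowerSeries.X i) = x i := by
    intro i
    rw [← MvPolynomial.coe_X, hφ]
    simp
  refine ⟨φ, ?_, hC, hX⟩
  have hmap : (Ideal.span (Set.range MvPowerSeries.X) : Ideal (MvPowerSeries ι R)).map φ =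
      maximalIdeal A := by
    rw [Ideal.map_span, ← Set.range_comp, ← hx]
    congr 2
    ext i
    exact hX i
  have hH : IsHausdorff ((Ideal.span (Set.range MvPowerSeries.X) :
      Ideal (MvPowerSeries ι R)).map φ) A := by
    rw [hmap]
    infer_instance
  apply surjective_of_mk_map_comp_surjective (I := Ideal.span (Set.range MvPowerSeries.X)) φ
  intro y
  obtain ⟨a, rfl⟩ := Ideal.Quotient.mk_surjective y
  obtain ⟨c, hc⟩ := hσ (residue A a)
  refine ⟨MvPowerSeries.C c, ?_⟩
  rw [RingHom.comp_apply, hC]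
  rw [Ideal.Quotient.mk_eq_mk_iff_sub_mem, hmap]
  rw [← Ideal.Quotient.mk_eq_mk_iff_sub_mem]
  exact hc

/-- Presentation over a one-dimensional regular local ring with the same residue field. -/
theorem exists_quadRing_equiv_of_hom {S : Type u} [CommRing S] [IsRegularLocalRing S]
    [IsAdicComplete (maximalIdeal S) S] {d : ℕ} (hd : ringKrullDim S = d) (x : Fin d → S)
    (hx : Ideal.span (Set.range x) = maximalIdeal S) (c : Fin d → Fin d → S)
    (V : Type u) [CommRing V] [IsRegularLocalRing V] (ϖ : V)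
    (hϖ : maximalIdeal V = Ideal.span {ϖ}) (hV : ringKrullDim V = (1 : ℕ)) (σ : V →+* S)
    (hσ : Function.Surjective (fun v => residue S (σ v)))
    (hc : σ ϖ = ∑ i, ∑ j, x i * c i j * x j) :
    ∃ (c' : Fin d → Fin d → MvPowerSeries (Fin d) V) (e : QuadRing V ϖ d c' ≃+* S),
      (∀ i, e (Ideal.Quotient.mk _ (MvPowerSeries.X i)) = x i) ∧
      ∀ i j, e (Ideal.Quotient.mk _ (c' i j)) = c i j := by
  obtain ⟨φ, hφ, hC, hX⟩ := exists_evalHom_surjective σ hσ x hx
  choose g hg using hφ
  let c' : Fin d → Fin d → MvPowerSeries (Fin d) V := fun i j => g (c i j)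
  have hq : ∀ a ∈ Ideal.span {quadEq V ϖ d c'}, φ a = 0 := by
    intro a ha
    have h1 : Ideal.span {quadEq V ϖ d c'} ≤ RingHom.ker φ := by
      rw [Ideal.span_singleton_le_iff_mem, RingHom.mem_ker, quadEq, map_sub, hC, hc, map_sum,
        sub_eq_zero]
      refine Finset.sum_congr rfl fun i _ => ?_
      rw [map_sum]
      refine Finset.sum_congr rfl fun j _ => ?_
      rw [map_mul, map_mul, hX, hX, hg]
    exact h1 ha
  obtain ⟨hR, -, hdR⟩ := quadRing_regular V ϖ hϖ hV d c'
  let ψ : QuadRing V ϖ d c' →+* S := Ideal.Quotient.lift _ φ hq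
  have hψ : Surjective ψ := fun s => ⟨Ideal.Quotient.mk _ (g s), hg s⟩
  have hinj : Injective ψ := by
    rw [RingHom.injective_iff_ker_eq_bot]
    refine ker_eq_bot_of_dim_eq ψ hψ ?_
    rw [hd, hdR]
  exact ⟨c', RingEquiv.ofBijective ψ ⟨hinj, hψ⟩, fun i => hX i, fun i j => hg _⟩

theorem exists_completion_residue (R : Type u) [CommRing R] [IsRegularLocalRing R] {r : ℕ}
    (hr : ringKrullDim R = r) :
    ∃ (S : Type u) (_ : CommRing S) (_ : IsRegularLocalRing S) (_ : Algebra R S),
      Module.Flat R S ∧ (maximalIdeal R).map (algebraMap R S) = maximalIdeal S ∧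
      ringKrullDim S = r ∧ IsAdicComplete (maximalIdeal S) S ∧
      Surjective (fun z => residue S (algebraMap R S z)) := by
  have hN := isNoetherianRing_adicCompletion R
  have hdim := ringKrullDim_adicCompletion R hr
  refine ⟨AdicCompletion (maximalIdeal R) R, inferInstance, ?_, inferInstance, inferInstance,
    AdicCompletion.maximalIdeal_eq_map.symm, hdim, inferInstance, ?_⟩
  · apply IsRegularLocalRing.of_spanFinrank_maximalIdeal_le
    rw [AdicCompletion.spanFinrank_maximalIdeal_eq, IsRegularLocalRing.spanFinrank_maximalIdeal,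
      hr, hdim]
  · intro y
    obtain ⟨z, hz⟩ := (AdicCompletion.residueField_map_bijective R).2 y
    obtain ⟨z, rfl⟩ := residue_surjective z
    exact ⟨z, hz⟩

theorem witt_dim_one (k : Type u) [Field k] (p : ℕ) [Fact p.Prime] [CharP k p]
    [PerfectRing k p] : ∃ _ : IsRegularLocalRing (WittVector p k),
      maximalIdeal (WittVector p k) = Ideal.span {(p : WittVector p k)} ∧
      ringKrullDim (WittVector p k) = (1 : ℕ) := by
  refine ⟨inferInstance, (WittVector.irreducible p).maximalIdeal_eq, ?_⟩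
  rw [IsDiscreteValuationRing.ringKrullDim_eq_one]
  rfl

/-- Presentation after a flat local extension with perfect residue field. -/
theorem exists_presentation_of_flat {R S : Type u} [CommRing R] [IsRegularLocalRing R]
    [CommRing S] [IsRegularLocalRing S] [Algebra R S] [Module.Flat R S]
    (hm : (maximalIdeal R).map (algebraMap R S) = maximalIdeal S)
    [IsAdicComplete (maximalIdeal S) S] (p : ℕ) [Fact p.Prime] [CharP (ResidueField S) p]
    [PerfectRing (ResidueField S) p] {d : ℕ} (hd : ringKrullDim S = d) (x : Fin d → R)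
    (hx : Ideal.span (Set.range x) = maximalIdeal R) (c : Fin d → Fin d → R)
    (hc : (p : R) = ∑ i, ∑ j, x i * c i j * x j) :
    ∃ (V : Type u) (_ : CommRing V) (_ : IsRegularLocalRing V) (ϖ : V)
      (_ : maximalIdeal V = Ideal.span {ϖ}) (_ : ringKrullDim V = (1 : ℕ))
      (c' : Fin d → Fin d → MvPowerSeries (Fin d) V)
      (_ : IsLocalRing (QuadRing V ϖ d c')) (φ : R →+* QuadRing V ϖ d c'), φ.Flat ∧
      (maximalIdeal R).map φ = maximalIdeal (QuadRing V ϖ d c') ∧
      (∀ i, φ (x i) = Ideal.Quotient.mk _ (MvPowerSeries.X i)) ∧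
      ∀ i j, φ (c i j) = Ideal.Quotient.mk _ (c' i j) := by
  obtain ⟨hV1, hV2, hV3⟩ := witt_dim_one (ResidueField S) p
  obtain ⟨σ, hσ⟩ := exists_witt_hom (S := S) p
  have hx' : Ideal.span (Set.range (fun i => algebraMap R S (x i))) = maximalIdeal S := by
    rw [← hm, ← hx, Ideal.map_span, ← Set.range_comp]
    rfl
  obtain ⟨c', e, he1, he2⟩ := exists_quadRing_equiv_of_hom hd (fun i => algebraMap R S (x i)) hx'
    (fun i j => algebraMap R S (c i j)) (WittVector p (ResidueField S)) (p : _) hV2 hV3 σ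
    (fun y => ⟨WittVector.teichmuller p y, by
      change residue S (σ (WittVector.teichmuller p y)) = y
      rw [hσ, WittVector.teichmuller_coeff_zero]⟩) (by
      rw [map_natCast, ← map_natCast (algebraMap R S), hc, map_sum]
      refine Finset.sum_congr rfl fun i _ => ?_
      rw [map_sum]
      refine Finset.sum_congr rfl fun j _ => ?_
      rw [map_mul, map_mul])
  obtain ⟨hR, -, -⟩ := quadRing_regular (WittVector p (ResidueField S)) _ hV2 hV3 d c'
  let ε : S →+* QuadRing (WittVector p (ResidueField S)) (p : _) d c' := e.symm.toRingHom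
  have hε : Bijective ε := e.symm.bijective
  refine ⟨WittVector p (ResidueField S), inferInstance, hV1, _, hV2, hV3, c', inferInstance,
    ε.comp (algebraMap R S), ?_, ?_, fun i => ?_, fun i j => ?_⟩
  · have h1 : (algebraMap R S).Flat := RingHom.flat_algebraMap_iff.2 inferInstance
    have h2 : ε.Flat := RingHom.Flat.of_bijective hε
    exact RingHom.Flat.comp h1 h2
  · rw [← Ideal.map_map, hm]
    exact map_maximalIdeal_of_surjective _ hε.2
  · rw [RingHom.comp_apply]
    change e.symm _ = _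
    rw [← he1, e.symm_apply_apply]
  · rw [RingHom.comp_apply]
    change e.symm _ = _
    rw [← he2, e.symm_apply_apply]

end Vale.Agent.P177
end
end

section

section

/-!
Flat extension of a regular local ring to a complete one with perfect residue field, and the
presentation theorem.
-/

namespace Vale.Agent.P177

open IsLocalRing Function TensorProduct

universe u

section completion

variable {A : Type u} [CommRing A] [IsLocalRing A] (fg : (maximalIdeal A).FG)

include fg in
theorem adic_approx (n : ℕ) (s : AdicCompletion (maximalIdeal A) A) :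
    ∃ a : A, s - algebraMap A (AdicCompletion (maximalIdeal A) A) a ∈
      ((maximalIdeal A) ^ n).map (algebraMap A (AdicCompletion (maximalIdeal A) A)) := by
  obtain ⟨a, ha⟩ := Ideal.Quotient.mk_surjective (s.1 n)
  refine ⟨a, ?_⟩
  rw [← Submodule.restrictScalars_mem A, ← Ideal.smul_top_eq_map,
    AdicCompletion.pow_smul_top_eq_ker_eval fg, LinearMap.mem_ker, map_sub, sub_eq_zero]
  exact ha.symm

include fg in
theorem adic_closed (n : ℕ) (a : A) (ha : algebraMap A (AdicCompletion (maximalIdeal A) A) a ∈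
      ((maximalIdeal A) ^ n).map (algebraMap A (AdicCompletion (maximalIdeal A) A))) :
    a ∈ (maximalIdeal A) ^ n := by
  rw [← Submodule.restrictScalars_mem A, ← Ideal.smul_top_eq_map,
    AdicCompletion.pow_smul_top_eq_ker_eval fg, LinearMap.mem_ker] at ha
  have h1 : (Submodule.Quotient.mk a : A ⧸ (maximalIdeal A ^ n • ⊤ : Submodule A A)) = 0 := ha
  rw [Submodule.Quotient.mk_eq_zero, smul_eq_mul, Ideal.mul_top] at h1
  exact h1

end completion

/-- Every regular local ring with residue characteristic `p` has a flat complete extension, with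
the same parameters and with perfect residue field. -/
theorem exists_gonflement (R : Type u) [CommRing R] [IsRegularLocalRing R] (p : ℕ) [Fact p.Prime]
    [CharP (ResidueField R) p] {d : ℕ} (hd : ringKrullDim R = d) :
    ∃ (S : Type u) (_ : CommRing S) (_ : IsRegularLocalRing S) (_ : Algebra R S),
      Module.Flat R S ∧ (maximalIdeal R).map (algebraMap R S) = maximalIdeal S ∧
      ringKrullDim S = d ∧ IsAdicComplete (maximalIdeal S) S ∧
      CharP (ResidueField S) p ∧ PerfectRing (ResidueField S) p := by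
  have hdom : IsDomain R := regular_isDomain R
  obtain ⟨rs, hrs, hlen⟩ := exists_list_maximalIdeal R
  have hl : rs.length = d := by
    rw [hd] at hlen
    exact_mod_cast hlen
  subst hl
  let x : Fin rs.length → R := fun i => rs.get i
  have hx : Ideal.span (Set.range x) = maximalIdeal R := by
    rw [← hrs, Ideal.ofList]
    congr 1
    ext y
    simp only [x, Set.mem_range, Set.mem_ofPred_eq, List.mem_iff_get]
  let Ω := AlgebraicClosure (FractionRing R)
  have hinj : Injective (algebraMap R Ω) := by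
    rw [IsScalarTower.algebraMap_eq R (FractionRing R) Ω]
    exact (algebraMap (FractionRing R) Ω).injective.comp (IsFractionRing.injective R _)
  obtain ⟨A, hA, hroot⟩ := exists_locUnion_perfect (Ω := Ω) hx p Fact.out
  have hint : Algebra.IsIntegral R A := hA.isIntegral
  have hflat : Module.Flat R A := hA.flat hx hd hinj
  obtain ⟨hloc, hm⟩ := isLocalRing_of_integral_map (hA.isMaximal hx)
  have fg : (maximalIdeal A).FG := by
    rw [← hm]
    exact ((maximalIdeal R).fg_of_isNoetherianRing).map _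
  let S := AdicCompletion (maximalIdeal A) A
  have hlS : IsLocalRing S := AdicCompletion.isLocalRing_of_fg fg
  have hmS : maximalIdeal S = (maximalIdeal A).map (algebraMap A S) :=
    AdicCompletion.maximalIdeal_eq_map_of_fg fg
  have hcS : IsAdicComplete (maximalIdeal S) S := AdicCompletion.isAdicComplete_of_fg fg
  have htow : IsScalarTower R A S := inferInstance
  have hmRS : (maximalIdeal R).map (algebraMap R S) = maximalIdeal S := by
    rw [IsScalarTower.algebraMap_eq R A S, ← Ideal.map_map, hm, hmS]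
  have hpow : ∀ n, ((maximalIdeal R) ^ n).map (algebraMap R S) =
      ((maximalIdeal A) ^ n).map (algebraMap A S) := fun n => by
    rw [IsScalarTower.algebraMap_eq R A S, ← Ideal.map_map, Ideal.map_pow (algebraMap R A), hm]
  have happ : ∀ (n : ℕ) (s : S), ∃ a : A, s - algebraMap A S a ∈
      ((maximalIdeal R) ^ n).map (algebraMap R S) := fun n s => by
    rw [hpow]
    exact adic_approx fg n s
  have hcl : ∀ (n : ℕ) (a : A), algebraMap A S a ∈ ((maximalIdeal R) ^ n).map (algebraMap R S) →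
      a ∈ ((maximalIdeal R) ^ n).map (algebraMap R A) := fun n a ha => by
    rw [hpow] at ha
    rw [Ideal.map_pow, hm]
    exact adic_closed fg n a ha
  let f : ResidueField R →+* ResidueField S := Ideal.quotientMap (maximalIdeal S)
    (algebraMap R S) (Ideal.map_le_iff_le_comap.1 hmRS.le)
  have hch : CharP (ResidueField S) p := charP_of_injective_ringHom f.injective p
  have hpr : PerfectRing (ResidueField S) p := PerfectRing.ofSurjective _ p fun y => by
    obtain ⟨s, rfl⟩ := residue_surjective y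
    obtain ⟨a, ha⟩ := happ 1 s
    obtain ⟨b, hb, h1⟩ := hroot a a.2
    have h2 : (⟨b, hb⟩ : A) ^ p - a ∈ maximalIdeal A := by
      rw [← hm]
      exact (mem_map_iff hx A _).2 h1
    refine ⟨residue S (algebraMap A S ⟨b, hb⟩), ?_⟩
    rw [frobenius_def, ← map_pow, ← sub_eq_zero, ← map_sub, residue_eq_zero_iff]
    have h3 : algebraMap A S ⟨b, hb⟩ ^ p - s =
        algebraMap A S (⟨b, hb⟩ ^ p - a) - (s - algebraMap A S a) := by
      rw [map_sub, map_pow]
      ring
    rw [h3]
    refine sub_mem ?_ ?_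
    · rw [hmS]
      exact Ideal.mem_map_of_mem _ h2
    · rw [pow_one, hmRS] at ha
      exact ha
  have hxS : Ideal.span (Set.range fun i => algebraMap R S (x i)) = maximalIdeal S := by
    rw [← hmRS, ← hx, Ideal.map_span, ← Set.range_comp]
    rfl
  have hNS : IsNoetherianRing S := by
    obtain ⟨σ, hσ⟩ := exists_witt_hom (S := S) p
    obtain ⟨φ, hφ, -⟩ := exists_evalHom_surjective σ (fun y =>
      ⟨WittVector.teichmuller p y, by
        change residue S (σ (WittVector.teichmuller p y)) = y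
        rw [hσ, WittVector.teichmuller_coeff_zero]⟩) (fun i => algebraMap R S (x i)) hxS
    exact isNoetherianRing_of_surjective _ _ φ hφ
  have hfS : Module.Flat R S := flat_of_approx hx hmRS happ hcl
  have hdS : ringKrullDim S = rs.length := by
    rw [ringKrullDim_eq_of_flat hmRS, hd]
  have hrS := (isRegularLocalRing_of_list (B := S) (rs.map (algebraMap R S)) (by
    rw [← Ideal.map_ofList, hrs, hmRS]) (by rw [List.length_map, hdS])).1
  exact ⟨S, inferInstance, hrS, inferInstance, hfS, hmRS, hdS, hcS, hch, hpr⟩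

/-- **Presentation.** Every regular local ring with residue characteristic `p` and with
`p = ∑ x_i c_ij x_j` has a flat extension, with the same parameters, of the form
`V[[x_1, …, x_d]]/(p - ∑ x_i c'_ij x_j)`. -/
theorem exists_presentation {R : Type u} [CommRing R] [IsRegularLocalRing R]
    (p : ℕ) [Fact p.Prime] [CharP (ResidueField R) p] {d : ℕ} (hd : ringKrullDim R = d)
    (x : Fin d → R) (hx : Ideal.span (Set.range x) = maximalIdeal R) (c : Fin d → Fin d → R)
    (hc : (p : R) = ∑ i, ∑ j, x i * c i j * x j) :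
    ∃ (V : Type u) (_ : CommRing V) (_ : IsRegularLocalRing V) (ϖ : V)
      (_ : maximalIdeal V = Ideal.span {ϖ}) (_ : ringKrullDim V = (1 : ℕ))
      (c' : Fin d → Fin d → MvPowerSeries (Fin d) V)
      (_ : IsLocalRing (QuadRing V ϖ d c')) (φ : R →+* QuadRing V ϖ d c'), φ.Flat ∧
      (maximalIdeal R).map φ = maximalIdeal (QuadRing V ϖ d c') ∧
      (∀ i, φ (x i) = Ideal.Quotient.mk _ (MvPowerSeries.X i)) ∧
      ∀ i j, φ (c i j) = Ideal.Quotient.mk _ (c' i j) := by
  obtain ⟨S, _, _, _, hflat, hm, hdS, hcomp, hch, hpr⟩ := exists_gonflement R p hd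
  exact exists_presentation_of_flat hm p hdS x hx c hc

end Vale.Agent.P177
end
end

section

section

/-!
Pairs of modules supported on a common hypersurface: transfer between two regular local rings,
along a flat local map with closed fibre of finite length.
-/

namespace Vale.Agent.P177

open CategoryTheory TensorProduct Function IsLocalRing RingTheory.Sequence Pointwise

universe u

section data

variable (A : Type u) [CommRing A] [IsLocalRing A] [IsNoetherianRing A]
    (C : Type u) [CommRing C] [IsLocalRing C] [IsNoetherianRing C] [Algebra A C] [Module.Flat A C]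
    [IsLocalHom (algebraMap A C)]
    (hfin : Module.length C (C ⧸ (maximalIdeal A).map (algebraMap A C)) ≠ ⊤)
    (S : Type u) [CommRing S] [Algebra S C]
    (hφ : Surjective (algebraMap S C))

include hfin hφ in
/-- Data over `S` attached to a pair of `A`-modules. -/
theorem exists_modules_of_surjective' (d : ℕ) (hS : SerreAll S d)
    (M N : Type u) [AddCommGroup M] [Module A M] [Module.Finite A M]
    [AddCommGroup N] [Module A N] [Module.Finite A N]
    (hlen : Module.length A (M ⊗[A] N) ≠ ⊤) :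
    ∃ (X Y : Type u) (_ : AddCommGroup X) (_ : Module C X) (_ : Module S X)
      (_ : IsScalarTower S C X)
      (_ : AddCommGroup Y) (_ : Module C Y) (_ : Module S Y)
      (_ : IsScalarTower S C Y),
      (∀ n, Module.length C (TorM C n X Y) = Module.length A (TorM A n M N) *
        Module.length C (C ⧸ (maximalIdeal A).map (algebraMap A C))) ∧
      (0 ≤ eulerTor S (d + 1) X Y) ∧
      (Module.Finite S X) ∧ (Module.Finite S Y) ∧
      (∀ a b : ℕ, (a : WithBot ℕ∞) ≤ Module.supportDim A M →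
        (b : WithBot ℕ∞) ≤ Module.supportDim A N →
        (a + b ≤ d) ∧ (d ≤ a + b → 0 < eulerTor S (d + 1) X Y)) := by
  obtain ⟨X, _, _, _, _, φ, hφX⟩ := exists_baseChange (R := A) C M
  obtain ⟨Y, _, _, _, _, ψ, hψY⟩ := exists_baseChange (R := A) C N
  let mX : Module S X := Module.compHom X (algebraMap S C)
  let mY : Module S Y := Module.compHom Y (algebraMap S C)
  have sX : IsScalarTower S C X := ⟨fun s b t => by
    rw [Algebra.smul_def, mul_smul]
    rfl⟩
  have sY : IsScalarTower S C Y := ⟨fun s b t => by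
    rw [Algebra.smul_def, mul_smul]
    rfl⟩
  have fX : Module.Finite C X := Module.Finite.of_surjective hφX.equiv.toLinearMap
    hφX.equiv.surjective
  have fY : Module.Finite C Y := Module.Finite.of_surjective hψY.equiv.toLinearMap
    hψY.equiv.surjective
  have fC : Module.Finite S C :=
    Module.Finite.of_surjective (Algebra.linearMap _ C) hφ
  have fX' : Module.Finite S X := Module.Finite.trans C X
  have fY' : Module.Finite S Y := Module.Finite.trans C Y
  have ht : ∀ n, Module.length C (TorM C n X Y) = Module.length A (TorM A n M N) *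
      Module.length C (C ⧸ (maximalIdeal A).map (algebraMap A C)) := fun n => by
    obtain ⟨e⟩ := exists_tor_baseChange (A := A) n hφX hψY
    rw [e.length_eq, IsLocalRing.length_baseChange]
  have hlenS : Module.length S (X ⊗[S] Y) ≠ ⊤ := by
    rw [length_tensor_baseChange hφ (isBaseChange_id_of_surjective hφ X) Y,
      ← (torZero X Y).length_eq, ht 0, (torZero M N).length_eq]
    exact WithTop.mul_ne_top hlen hfin
  obtain ⟨h1, h2⟩ := hS X Y hlenS
  have hdim : ∀ (M : Type u) [AddCommGroup M] [Module A M] [Module.Finite A M]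
      (X : Type u) [AddCommGroup X] [Module A X] [Module C X] [IsScalarTower A C X]
      [Module S X] [IsScalarTower S C X]
      [Module.Finite S X]
      (φ : M →ₗ[A] X), IsBaseChange C φ →
      Module.supportDim A M ≤ Module.supportDim S X := by
    intro M _ _ _ X _ _ _ _ _ _ _ φ hφX
    rw [supportDim_eq_of_surjective hφ X, ← Module.supportDim_eq_of_equiv hφX.equiv]
    have h6 : Module.FaithfullyFlat A C := Module.FaithfullyFlat.of_flat_of_isLocalHom
    exact supportDim_le_baseChange_of_faithfullyFlat M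
  refine ⟨X, Y, inferInstance, inferInstance, mX, sX, inferInstance, inferInstance, mY, sY, ht, h1,
    fX', fY', ?_⟩
  intro a b ha hb
  exact h2 a b (ha.trans (hdim M X φ hφX)) (hb.trans (hdim N Y ψ hψY))

end data

section base

variable (R : Type u) [CommRing R] [IsRegularLocalRing R] (d : ℕ) (hd : ringKrullDim R = d)
  (f : R) (hf0 : f ≠ 0)
  (S : Type u) [CommRing S] [IsRegularLocalRing S] (hdS : ringKrullDim S = d)
  (hS : SerreAll S d) (g : S) (hg0 : g ≠ 0)
  (C : Type u) [CommRing C] [IsLocalRing C] [IsNoetherianRing C]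
  [Algebra (R ⧸ Ideal.span {f}) C]
  [Module.Flat (R ⧸ Ideal.span {f}) C] [IsLocalRing (R ⧸ Ideal.span {f})]
  [IsLocalHom (algebraMap (R ⧸ Ideal.span {f}) C)]
  (hfin : Module.length C (C ⧸ (maximalIdeal (R ⧸ Ideal.span {f})).map
    (algebraMap (R ⧸ Ideal.span {f}) C)) ≠ ⊤)
  [Algebra S C] (hφ : Surjective (algebraMap S C))
  (hker : RingHom.ker (algebraMap S C) = Ideal.span {g})

include hd hf0 hdS hS hg0 hfin hφ hker in
theorem good_hypersurface_aux'
    (M N : Type u) [AddCommGroup M] [Module R M] [Module.Finite R M]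
    [Module (R ⧸ Ideal.span {f}) M] [IsScalarTower R (R ⧸ Ideal.span {f}) M]
    [AddCommGroup N] [Module R N] [Module.Finite R N]
    [Module (R ⧸ Ideal.span {f}) N] [IsScalarTower R (R ⧸ Ideal.span {f}) N]
    (hlen : Module.length R (M ⊗[R] N) ≠ ⊤) : Good R d M N := by
  have hdom : IsDomain R := regular_isDomain R
  have hdomS : IsDomain S := regular_isDomain S
  have hsurj : Surjective (algebraMap R (R ⧸ Ideal.span {f})) :=
    Ideal.Quotient.mk_surjective
  have fM : Module.Finite (R ⧸ Ideal.span {f}) M :=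
    Module.Finite.of_restrictScalars_finite R _ M
  have fN : Module.Finite (R ⧸ Ideal.span {f}) N :=
    Module.Finite.of_restrictScalars_finite R _ N
  have H : IsHypersurface R (R ⧸ Ideal.span {f}) f :=
    { regular := fun x y hxy => mul_left_cancel₀ hf0 hxy
      surj := hsurj
      ker := Ideal.mk_ker }
  have H' : IsHypersurface S C g :=
    { regular := fun x y hxy => mul_left_cancel₀ hg0 hxy
      surj := hφ
      ker := hker }
  have hlenA : Module.length (R ⧸ Ideal.span {f})
      (M ⊗[R ⧸ Ideal.span {f}] N) ≠ ⊤ := by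
    rw [← length_tensor_baseChange hsurj (isBaseChange_id_of_surjective hsurj M) N]
    exact hlen
  obtain ⟨X, Y, _, _, _, _, _, _, _, _, ht, h1, fX, fY, h2⟩ :=
    exists_modules_of_surjective' (R ⧸ Ideal.span {f}) C hfin S hφ d hS M N hlenA
  have hfinA : ∀ n, Module.length (R ⧸ Ideal.span {f})
      (TorM (R ⧸ Ideal.span {f}) n M N) ≠ ⊤ := fun n =>
    tor_length_ne_top n M N hlenA
  have hfinC : ∀ n, Module.length C (TorM C n X Y) ≠ ⊤ := fun n => by
    rw [ht]
    exact WithTop.mul_ne_top (hfinA n) hfin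
  have hRv : Module.length R (TorM R (d + 1) M N) = 0 := by
    have := regular_tor_vanish R d hd M N (d + 1) le_rfl
    exact Module.length_eq_zero
  have hSv : Module.length S (TorM S (d + 1) X Y) = 0 := by
    have := regular_tor_vanish S d hdS X Y (d + 1) le_rfl
    exact Module.length_eq_zero
  have hc : 0 < ((Module.length C (C ⧸ (maximalIdeal (R ⧸ Ideal.span {f})).map
      (algebraMap (R ⧸ Ideal.span {f}) C))).toNat : ℤ) := by
    have h3 := ENat.toNat_pos (length_fibre_pos (R := R ⧸ Ideal.span {f}) (C := C)).ne' hfin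
    exact_mod_cast h3
  have heq : eulerTor S (d + 1) X Y = ((Module.length C
      (C ⧸ (maximalIdeal (R ⧸ Ideal.span {f})).map
      (algebraMap (R ⧸ Ideal.span {f}) C))).toNat : ℤ) * eulerTor R (d + 1) M N := by
    rw [H.eulerTor_eq M N hfinA d hRv, H'.eulerTor_eq X Y hfinC d hSv, ht, ht, ENat.toNat_mul,
      ENat.toNat_mul]
    push_cast
    ring
  rw [heq] at h1 h2
  refine ⟨nonneg_of_mul_nonneg_right h1 hc, ?_⟩
  intro a b ha hb hab
  rw [supportDim_eq_of_surjective hsurj M] at ha
  rw [supportDim_eq_of_surjective hsurj N] at hb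
  exact (mul_pos_iff_of_pos_left hc).1 ((h2 a b ha hb).2 hab)

include hd hf0 hdS hS hg0 hfin hφ hker in
theorem good_killed_by'
    (M N : Type u) [AddCommGroup M] [Module R M] [Module.Finite R M]
    [AddCommGroup N] [Module R N] [Module.Finite R N]
    (hM : ∀ m : M, f • m = 0) (hN : ∀ m : N, f • m = 0)
    (hlen : Module.length R (M ⊗[R] N) ≠ ⊤) : Good R d M N := by
  have tM : Module.IsTorsionBySet R M (Ideal.span {f} : Set R) := by
    intro x a
    obtain ⟨c, hc⟩ := Ideal.mem_span_singleton'.1 a.2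
    rw [← hc, mul_smul, hM, smul_zero]
  have tN : Module.IsTorsionBySet R N (Ideal.span {f} : Set R) := by
    intro x a
    obtain ⟨c, hc⟩ := Ideal.mem_span_singleton'.1 a.2
    rw [← hc, mul_smul, hN, smul_zero]
  let _ : Module (R ⧸ Ideal.span {f}) M := tM.module
  let _ : Module (R ⧸ Ideal.span {f}) N := tN.module
  have _ : IsScalarTower R (R ⧸ Ideal.span {f}) M := tM.isScalarTower
  have _ : IsScalarTower R (R ⧸ Ideal.span {f}) N := tN.isScalarTower
  exact good_hypersurface_aux' R d hd f hf0 S hdS hS g hg0 C hfin hφ hker M N hlen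

include hd hf0 hdS hS hg0 hfin hφ hker in
theorem good_power_torsion'
    (M N : Type u) [AddCommGroup M] [Module R M] [Module.Finite R M]
    [AddCommGroup N] [Module R N] [Module.Finite R N] (a b : ℕ)
    (hM : ∀ x : M, f ^ a • x = 0) (hN : ∀ x : N, f ^ b • x = 0)
    (hlen : Module.length R (M ⊗[R] N) ≠ ⊤) : Good R d M N := by
  refine good_devissage hd f N ?_ a M hM hlen
  intro X _ _ _ hX hlenX
  apply Good.symm
  have hsymm : ∀ (Y : Type u) [AddCommGroup Y] [Module R Y],
      Module.length R (X ⊗[R] Y) = Module.length R (Y ⊗[R] X) := fun Y _ _ =>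
    (TensorProduct.comm R X Y).length_eq
  refine good_devissage hd f X ?_ b N hN (by rwa [← hsymm])
  intro Y _ _ _ hY hlenY
  exact good_killed_by' R d hd f hf0 S hdS hS g hg0 C hfin hφ hker Y X hY hX hlenY

end base

end Vale.Agent.P177
end
end

section

section

/-!
Positivity for essentially smooth algebras over a regular local ring of arbitrary dimension, for
pairs of modules one of which has fibres of codimension at most one over the primes of height at
least five.
-/

namespace Vale.Agent.P177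

open CategoryTheory TensorProduct Function IsLocalRing RingTheory.Sequence Pointwise

universe u

/-- Every component of the fibre over `q` of every irreducible component of the support of `X` has
codimension at most one in that component. -/
def FibreCodimLeOne (A R X : Type u) [CommRing A] [CommRing R] [Algebra A R] [AddCommGroup X]
    [Module R X] (q : Ideal A) : Prop :=
  ∀ p ∈ (Module.annihilator R X).minimalPrimes,
    ∀ P ∈ (p ⊔ q.map (algebraMap A R)).minimalPrimes, P.comap (algebraMap A R) = q →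
      ∀ p' : Ideal R, p'.IsPrime → p < p' → ¬ p' < P

section

variable {A R₁ R₂ : Type u} [CommRing A] [CommRing R₁] [CommRing R₂] [Algebra A R₁]
  [Algebra A R₂]

theorem comap_mem_minimalPrimes_left (I₁ : Ideal R₁) (I₂ : Ideal R₂) (Q : Ideal (R₁ ⊗[A] R₂))
    [Q.IsPrime] (hQ : Q ∈ (I₁.map (algebraMap R₁ (R₁ ⊗[A] R₂)) ⊔
      I₂.map (Algebra.TensorProduct.includeRight : R₂ →ₐ[A] R₁ ⊗[A] R₂)).minimalPrimes) :
    Q.comap (algebraMap R₁ (R₁ ⊗[A] R₂)) ∈
      (I₁ ⊔ (Q.comap (algebraMap A (R₁ ⊗[A] R₂))).map (algebraMap A R₁)).minimalPrimes := by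
  let e : R₂ ⊗[A] R₁ ≃ₐ[A] R₁ ⊗[A] R₂ := Algebra.TensorProduct.comm A R₂ R₁
  have hs : Surjective (e : R₂ ⊗[A] R₁ →+* R₁ ⊗[A] R₂) := e.surjective
  have h1 := Ideal.comap_minimalPrimes_eq_of_surjective hs
    (I₁.map (algebraMap R₁ (R₁ ⊗[A] R₂)) ⊔
      I₂.map (Algebra.TensorProduct.includeRight : R₂ →ₐ[A] R₁ ⊗[A] R₂))
  have hcom : (I₁.map (algebraMap R₁ (R₁ ⊗[A] R₂)) ⊔
      I₂.map (Algebra.TensorProduct.includeRight : R₂ →ₐ[A] R₁ ⊗[A] R₂)).comap
        (e : R₂ ⊗[A] R₁ →+* R₁ ⊗[A] R₂) = I₂.map (algebraMap R₂ (R₂ ⊗[A] R₁)) ⊔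
      I₁.map (Algebra.TensorProduct.includeRight : R₁ →ₐ[A] R₂ ⊗[A] R₁) := by
    have h2 : (I₂.map (algebraMap R₂ (R₂ ⊗[A] R₁)) ⊔
      I₁.map (Algebra.TensorProduct.includeRight : R₁ →ₐ[A] R₂ ⊗[A] R₁)).map
        (e : R₂ ⊗[A] R₁ →+* R₁ ⊗[A] R₂) = I₁.map (algebraMap R₁ (R₁ ⊗[A] R₂)) ⊔
      I₂.map (Algebra.TensorProduct.includeRight : R₂ →ₐ[A] R₁ ⊗[A] R₂) := by
      rw [Ideal.map_sup, sup_comm]
      congr 1
      · rw [← Ideal.map_coe (Algebra.TensorProduct.includeRight : R₁ →ₐ[A] R₂ ⊗[A] R₁),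
          Ideal.map_map]
        congr 1
      · rw [← Ideal.map_coe (Algebra.TensorProduct.includeRight : R₂ →ₐ[A] R₁ ⊗[A] R₂),
          Ideal.map_map]
        congr 1
    rw [← h2]
    exact Ideal.comap_map_of_bijective _ e.bijective
  have hQ' : (Q.comap (e : R₂ ⊗[A] R₁ →+* R₁ ⊗[A] R₂)) ∈
      (I₂.map (algebraMap R₂ (R₂ ⊗[A] R₁)) ⊔
      I₁.map (Algebra.TensorProduct.includeRight : R₁ →ₐ[A] R₂ ⊗[A] R₁)).minimalPrimes := by
    rw [← hcom, h1]
    exact ⟨Q, hQ, rfl⟩
  have : (Q.comap (e : R₂ ⊗[A] R₁ →+* R₁ ⊗[A] R₂)).IsPrime := Ideal.IsPrime.comap _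
  have h3 := comap_mem_minimalPrimes I₂ I₁ (Q.comap (e : R₂ ⊗[A] R₁ →+* R₁ ⊗[A] R₂)) hQ'
  have h4 : (Q.comap (e : R₂ ⊗[A] R₁ →+* R₁ ⊗[A] R₂)).comap
      (Algebra.TensorProduct.includeRight : R₁ →ₐ[A] R₂ ⊗[A] R₁) =
      Q.comap (algebraMap R₁ (R₁ ⊗[A] R₂)) := by
    ext x
    change Algebra.TensorProduct.comm A R₂ R₁ (1 ⊗ₜ x) ∈ Q ↔ _
    rw [Algebra.TensorProduct.comm_tmul]
    rfl
  have h5 : (Q.comap (e : R₂ ⊗[A] R₁ →+* R₁ ⊗[A] R₂)).comap (algebraMap A (R₂ ⊗[A] R₁)) =
      Q.comap (algebraMap A (R₁ ⊗[A] R₂)) := by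
    ext x
    change e (algebraMap A _ x) ∈ Q ↔ _
    rw [AlgEquiv.commutes]
    rfl
  rw [h4, h5] at h3
  exact h3

end

/-- A bound for the dimension of a localized module from a chain condition. -/
theorem supportDim_loc_le_one {R : Type u} [CommRing R] (P : Ideal R) [P.IsPrime] (L : Type u)
    [CommRing L] [Algebra R L] [IsLocalization.AtPrime L P] (X : Type u) [AddCommGroup X]
    [Module R X] (h : ∀ p₀ p₁ : Ideal R, p₀.IsPrime → p₁.IsPrime → Module.annihilator R X ≤ p₀ →
      p₀ < p₁ → ¬ p₁ < P) :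
    Module.supportDim L (L ⊗[R] X) ≤ ((1 : ℕ) : WithBot ℕ∞) := by
  by_contra hcon
  rw [not_le] at hcon
  have h2 := succ_le_of_lt_withBot hcon
  unfold Module.supportDim at h2
  obtain ⟨l, hl⟩ := Order.le_krullDim_iff.1 h2
  have hlt : ∀ i j : Fin (l.length + 1), i < j → (l i).1.asIdeal < (l j).1.asIdeal :=
    fun i j hij => l.strictMono hij
  have hl' : l.length = 2 := hl
  have hcl : ∀ q q' : Ideal L, q.IsPrime → q'.IsPrime → q < q' →
      q.comap (algebraMap R L) < q'.comap (algebraMap R L) := by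
    intro q q' _ _ hqq
    refine lt_of_le_of_ne (Ideal.comap_mono hqq.le) fun heq => hqq.ne ?_
    rw [← IsLocalization.map_under P.primeCompl L q, ← IsLocalization.map_under P.primeCompl L q',
      Ideal.under, Ideal.under, heq]
  refine h ((l ⟨0, by omega⟩).1.asIdeal.comap (algebraMap R L))
    ((l ⟨1, by omega⟩).1.asIdeal.comap (algebraMap R L)) (Ideal.IsPrime.comap _)
    (Ideal.IsPrime.comap _) ?_ ?_ ?_
  · rw [← Ideal.map_le_iff_le_comap]
    refine (map_annihilator_le X).trans ?_
    exact Module.annihilator_le_of_mem_support (l ⟨0, by omega⟩).2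
  · exact hcl _ _ (l ⟨0, by omega⟩).1.isPrime (l ⟨1, by omega⟩).1.isPrime
      (hlt _ _ (Fin.mk_lt_mk.2 (by omega)))
  · have h3 := hcl _ _ (l ⟨1, by omega⟩).1.isPrime (l ⟨2, by omega⟩).1.isPrime
      (hlt ⟨1, by omega⟩ ⟨2, by omega⟩ (Fin.mk_lt_mk.2 (by omega)))
    refine lt_of_lt_of_le h3 ?_
    have hdisj := (IsLocalization.isPrime_iff_isPrime_disjoint P.primeCompl L
      (l ⟨2, by omega⟩).1.asIdeal).1 (l ⟨2, by omega⟩).1.isPrime
    intro x hx
    by_contra hxP
    exact Set.disjoint_left.1 hdisj.2 hxP hx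

/-- The chain condition at a minimal prime of the fibre. -/
theorem chain_of_fibre {A R X : Type u} [CommRing A] [CommRing R] [Algebra A R] [AddCommGroup X]
    [Module R X] (q : Ideal A) (h : FibreCodimLeOne A R X q) (I : Ideal R)
    (hI : Module.annihilator R X ≤ I) (hI' : I = Module.annihilator R X ∨
      I ∈ (Module.annihilator R X).minimalPrimes) (P : Ideal R)
    (hP : P ∈ (I ⊔ q.map (algebraMap A R)).minimalPrimes) (hPq : P.comap (algebraMap A R) = q)
    (p₀ p₁ : Ideal R) (h₀ : p₀.IsPrime) (h₁ : p₁.IsPrime) (hp₀ : I ≤ p₀) (h01 : p₀ < p₁) :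
    ¬ p₁ < P := by
  intro hlt
  rcases hI' with rfl | hI'
  · obtain ⟨p, hp, hpp⟩ := Ideal.exists_minimalPrimes_le hp₀
    refine h p hp P ⟨⟨hP.1.1, sup_le ?_ (le_sup_right.trans hP.1.2)⟩, ?_⟩ hPq p₁ h₁
      (lt_of_le_of_lt hpp h01) hlt
    · exact hpp.trans (h01.le.trans hlt.le)
    · rintro P' ⟨hP', hle'⟩ hle
      exact hP.2 ⟨hP', (sup_le_sup_right hp.1.2 _).trans hle'⟩ hle
  · exact h I hI' P hP hPq p₁ h₁ (lt_of_le_of_lt hp₀ h01) hlt

section

variable {A R₁ R₂ T : Type u} [CommRing A] [IsNoetherianRing A] [CommRing R₁] [CommRing R₂]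
  [Algebra A R₁] [Algebra A R₂]
  [CommRing T] [IsRegularLocalRing R₁] [IsRegularLocalRing R₂] [IsRegularLocalRing T]
  [Module.Flat A R₁] [Module.Flat A R₂] [IsNoetherianRing (R₁ ⊗[A] R₂)]
  [Algebra R₁ T] [Algebra R₂ T] [Module.Flat R₁ T] [Module.Flat R₂ T]
  [Algebra (R₁ ⊗[A] R₂) T]

omit [Module.Flat A R₁] in
theorem locPosAt_essSmooth (S : Submonoid (R₁ ⊗[A] R₂)) [IsLocalization S T]
    (hT₁ : algebraMap R₁ T = (algebraMap (R₁ ⊗[A] R₂) T).comp (algebraMap R₁ (R₁ ⊗[A] R₂)))
    (hT₂ : algebraMap R₂ T = (algebraMap (R₁ ⊗[A] R₂) T).comp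
      ((Algebra.TensorProduct.includeRight : R₂ →ₐ[A] R₁ ⊗[A] R₂) : R₂ →+* R₁ ⊗[A] R₂))
    (M N M' N' : Type u) [AddCommGroup M] [Module R₂ M] [Module.Finite R₂ M] [AddCommGroup N]
    [Module R₁ N] [Module.Finite R₁ N] [AddCommGroup M'] [Module R₂ M'] [Module.Finite R₂ M']
    [AddCommGroup N'] [Module R₁ N'] [Module.Finite R₁ N']
    (hM' : Module.annihilator R₂ M ≤ Module.annihilator R₂ M')
    (hM'' : Module.annihilator R₂ M' = Module.annihilator R₂ M ∨
      Module.annihilator R₂ M' ∈ (Module.annihilator R₂ M).minimalPrimes)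
    (hN' : Module.annihilator R₁ N ≤ Module.annihilator R₁ N')
    (hN'' : Module.annihilator R₁ N' = Module.annihilator R₁ N ∨
      Module.annihilator R₁ N' ∈ (Module.annihilator R₁ N).minimalPrimes)
    (hcond : ∀ q : Ideal A, q.IsPrime → 5 ≤ q.height →
      FibreCodimLeOne A R₂ M q ∨ FibreCodimLeOne A R₁ N q)
    (Q : Ideal T) [Q.IsPrime]
    (hQ : Q ∈ ((Module.annihilator R₁ N').map (algebraMap R₁ T) ⊔
      (Module.annihilator R₂ M').map (algebraMap R₂ T)).minimalPrimes) :
    LocPosAt (T := T) R₁ R₂ N' M' Q := by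
  let Q' : Ideal (R₁ ⊗[A] R₂) := Q.comap (algebraMap (R₁ ⊗[A] R₂) T)
  have hQ' : Q'.IsPrime := Ideal.IsPrime.comap _
  have hQm : Q' ∈ ((Module.annihilator R₁ N').map (algebraMap R₁ (R₁ ⊗[A] R₂)) ⊔
      (Module.annihilator R₂ M').map
        (Algebra.TensorProduct.includeRight : R₂ →ₐ[A] R₁ ⊗[A] R₂)).minimalPrimes := by
    have h1 := IsLocalization.minimalPrimes_map S T
      ((Module.annihilator R₁ N').map (algebraMap R₁ (R₁ ⊗[A] R₂)) ⊔
      (Module.annihilator R₂ M').map
        (Algebra.TensorProduct.includeRight : R₂ →ₐ[A] R₁ ⊗[A] R₂))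
    rw [Ideal.map_sup, Ideal.map_map, ← hT₁,
      ← Ideal.map_coe (Algebra.TensorProduct.includeRight : R₂ →ₐ[A] R₁ ⊗[A] R₂), Ideal.map_map,
      ← hT₂] at h1
    rw [h1] at hQ
    exact hQ
  let q : Ideal A := Q'.comap (algebraMap A (R₁ ⊗[A] R₂))
  have hq : q.IsPrime := Ideal.IsPrime.comap _
  have e₁ : Q.comap (algebraMap R₁ T) = Q'.comap (algebraMap R₁ (R₁ ⊗[A] R₂)) := by
    rw [hT₁, ← Ideal.comap_comap]
  have e₂ : Q.comap (algebraMap R₂ T) = Q'.comap
      (Algebra.TensorProduct.includeRight : R₂ →ₐ[A] R₁ ⊗[A] R₂) := by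
    rw [hT₂, ← Ideal.comap_comap]
    rfl
  by_cases h5 : 5 ≤ q.height
  · intro L₁ L₂ _ _ _ _ _ _ D₁ D₂ r₁ r₂ t b h₁ h₂ ht hrb hFP
    have i0 : IsRegularLocalRing (Localization.AtPrime Q) :=
      isRegularLocalRing_localization T Q (Localization.AtPrime Q)
    have i1 := D₁.reg
    have i2 := D₂.reg
    have i3 := D₁.flat
    have i4 := D₂.flat
    have i5 := D₁.loc
    have i6 := D₂.loc
    have i7 := D₁.isloc
    have i8 := D₂.isloc
    have hpos : Pos L₁ L₂ (Localization.AtPrime Q) t b (L₁ ⊗[R₁] N') (L₂ ⊗[R₂] M') := by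
      rcases hcond q hq h5 with hc | hc
      · have h6 : Module.supportDim L₂ (L₂ ⊗[R₂] M') ≤ ((1 : ℕ) : WithBot ℕ∞) := by
          refine supportDim_loc_le_one (Q.comap (algebraMap R₂ T)) L₂ M' ?_
          intro p₀ p₁ k₀ k₁ k2 k3
          refine chain_of_fibre q hc (Module.annihilator R₂ M') hM' hM'' _ ?_ ?_ p₀ p₁ k₀ k₁ k2 k3
          · rw [e₂]
            exact comap_mem_minimalPrimes _ _ Q' hQm
          · rw [e₂]
            ext x
            change (Algebra.TensorProduct.includeRight : R₂ →ₐ[A] R₁ ⊗[A] R₂)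
              (algebraMap A R₂ x) ∈ Q' ↔ algebraMap A (R₁ ⊗[A] R₂) x ∈ Q'
            rw [AlgHom.commutes]
        exact (pos_dim_le_one h₂ h₁ ht (by omega) (L₁ ⊗[R₁] N') (L₂ ⊗[R₂] M') h6 hFP.symm).symm
      · have h6 : Module.supportDim L₁ (L₁ ⊗[R₁] N') ≤ ((1 : ℕ) : WithBot ℕ∞) := by
          refine supportDim_loc_le_one (Q.comap (algebraMap R₁ T)) L₁ N' ?_
          intro p₀ p₁ k₀ k₁ k2 k3
          refine chain_of_fibre q hc (Module.annihilator R₁ N') hN' hN'' _ ?_ ?_ p₀ p₁ k₀ k₁ k2 k3
          · rw [e₁]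
            exact comap_mem_minimalPrimes_left _ _ Q' hQm
          · rw [e₁, Ideal.comap_comap, ← IsScalarTower.algebraMap_eq]
        exact pos_dim_le_one h₁ h₂ ht hrb (L₂ ⊗[R₂] M') (L₁ ⊗[R₁] N') h6 hFP
    exact ⟨hpos.dim_le, hpos.nonneg, hpos.pos⟩
  · refine locPosAt_of_locPos 4 locPos_four N' M' Q ?_
    intro r₁ r₂ t h₁ h₂ ht
    have h7 := height_bound Q'
    have h8 : Q'.height = t := by
      rw [← ht]
      exact IsLocalization.height_under S Q
    rw [e₁] at h₁
    rw [e₂] at h₂
    have h9 : q.height ≤ ((4 : ℕ) : ℕ∞) := by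
      rw [not_le] at h5
      exact Order.le_of_lt_add_one h5
    rw [h8, h₁, h₂] at h7
    have h12 : ((r₁ : ℕ∞) + r₂) ≤ t + (4 : ℕ) := h7.trans (by (clear * - h9; gcongr))
    exact_mod_cast h12

end


section

variable {A R₁ R₂ : Type u} [CommRing A] [IsRegularLocalRing A] [CommRing R₁] [IsLocalRing R₁]
  [Algebra A R₁] [Algebra.EssFiniteType A R₁] [Algebra.FormallySmooth A R₁] [CommRing R₂]
  [IsLocalRing R₂] [Algebra A R₂] [Algebra.EssFiniteType A R₂] [Algebra.FormallySmooth A R₂]

theorem serre_essSmooth_loc₂ (θ : R₂ ≃ₐ[A] R₁) (d : ℕ) (hd : ringKrullDim R₁ = d)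
    (M N : Type u) [AddCommGroup M] [Module R₂ M] [Module.Finite R₂ M]
    [AddCommGroup N] [Module R₁ N] [Module R₂ N] [Module.Finite R₁ N]
    (hcond : ∀ q : Ideal A, q.IsPrime → 5 ≤ q.height →
      FibreCodimLeOne A R₂ M q ∨ FibreCodimLeOne A R₁ N q)
    (hN : ∀ (s : R₂) (t : N), s • t = θ s • t)
    (hlen : Module.length R₂ (M ⊗[R₂] N) ≠ ⊤) :
    0 ≤ eulerTor R₂ (d + 1) M N ∧ ∀ m n : ℕ, (m : WithBot ℕ∞) ≤ Module.supportDim R₂ M →
      (n : WithBot ℕ∞) ≤ Module.supportDim R₁ N →
      (m + n ≤ d) ∧ (d ≤ m + n → 0 < eulerTor R₂ (d + 1) M N) := by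
  obtain ⟨hR₁, hflat₁⟩ := regular_flat_of_essSmooth A R₁
  obtain ⟨hR₂, hflat₂⟩ := regular_flat_of_essSmooth A R₂
  let μ₀ : R₁ ⊗[A] R₂ →ₐ[R₁] R₁ := Algebra.TensorProduct.lift (AlgHom.id R₁ R₁)
    (θ : R₂ →ₐ[A] R₁) (fun x y => mul_comm _ _)
  have hμ₀ : ∀ x y, μ₀ (x ⊗ₜ y) = x * θ y := fun x y => Algebra.TensorProduct.lift_tmul _ _ _ _ _
  let 𝔐 : Ideal (R₁ ⊗[A] R₂) := (maximalIdeal R₁).comap μ₀
  have h𝔐 : 𝔐.IsPrime := Ideal.IsPrime.comap _
  let T := Localization.AtPrime 𝔐
  have hunit : ∀ y : 𝔐.primeCompl, IsUnit (μ₀ y) := by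
    intro y
    by_contra hcon
    exact y.2 ((mem_maximalIdeal _).2 hcon)
  let μ : T →ₐ[R₁] R₁ := IsLocalization.liftAlgHom (M := 𝔐.primeCompl)
    (S := T) (f := μ₀) hunit
  have hμ : ∀ x, μ (algebraMap _ _ x) = μ₀ x := by
    intro x
    exact IsLocalization.lift_eq (S := T) (g := (μ₀ : _ →+* R₁)) hunit x
  have hμs : Surjective μ := fun s => ⟨algebraMap R₁ _ s, μ.commutes s⟩
  have f1 : Algebra.FormallySmooth (R₁ ⊗[A] R₂) T :=
    Algebra.FormallySmooth.of_isLocalization 𝔐.primeCompl
  have f2 : Algebra.FormallySmooth R₁ T :=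
    Algebra.FormallySmooth.comp R₁ (R₁ ⊗[A] R₂) T
  obtain ⟨hT, hTflat⟩ := regular_flat_of_essSmooth R₁ T
  obtain ⟨-, z, hz1, hz2⟩ := exists_regular_list_of_formallySmooth R₁ T R₁ μ
    hμs
  have hN1 : IsNoetherianRing (R₁ ⊗[A] R₂) :=
    Algebra.EssFiniteType.isNoetherianRing R₁ (R₁ ⊗[A] R₂)
  let i₂ : R₂ →+* T := (algebraMap (R₁ ⊗[A] R₂) T).comp
      ((Algebra.TensorProduct.includeRight : R₂ →ₐ[A] R₁ ⊗[A] R₂) : R₂ →+* R₁ ⊗[A] R₂)
  let _ : Algebra R₂ T := i₂.toAlgebra
  have hflat2 : Module.Flat R₂ T := by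
    have : i₂.Flat := by
      refine (flat_includeRight A R₁ R₂).comp ?_
      rw [RingHom.flat_algebraMap_iff]
      exact IsLocalization.flat _ 𝔐.primeCompl
    exact this
  have hT₁ : algebraMap R₁ T = (algebraMap (R₁ ⊗[A] R₂) T).comp
      (algebraMap R₁ (R₁ ⊗[A] R₂)) := IsScalarTower.algebraMap_eq _ _ _
  have hT₂ : algebraMap R₂ T = (algebraMap (R₁ ⊗[A] R₂) T).comp
      ((Algebra.TensorProduct.includeRight : R₂ →ₐ[A] R₁ ⊗[A] R₂) : R₂ →+* R₁ ⊗[A] R₂) := rfl
  refine global_pos_of_loc (μ : T →+* R₁) (fun s => μ.commutes s) z hz1.symm hz2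
    (θ : R₂ ≃+* R₁) ?_ d hd M N ?_ ?_ hN hlen
  · intro s
    change μ (algebraMap (R₁ ⊗[A] R₂) _ (1 ⊗ₜ s)) = θ s
    rw [hμ, hμ₀, one_mul]
  · intro Q _ hQ
    exact locPosAt_essSmooth 𝔐.primeCompl hT₁ hT₂ M N M N le_rfl (Or.inl rfl) le_rfl (Or.inl rfl)
      hcond Q hQ
  · intro p₁ p₂ hp₁ hp₂ Q _ hQ
    have k₁ : Module.annihilator R₁ (R₁ ⧸ p₁.asIdeal) = p₁.asIdeal := Ideal.annihilator_quotient
    have k₂ : Module.annihilator R₂ (R₂ ⧸ p₂.asIdeal) = p₂.asIdeal := Ideal.annihilator_quotient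
    refine locPosAt_essSmooth 𝔐.primeCompl hT₁ hT₂ M N (R₂ ⧸ p₂.asIdeal) (R₁ ⧸ p₁.asIdeal)
      ?_ ?_ ?_ ?_ hcond Q ?_
    · rw [k₂]; exact hp₂.1.2
    · rw [k₂]; exact Or.inr hp₂
    · rw [k₁]; exact hp₁.1.2
    · rw [k₁]; exact Or.inr hp₁
    · rw [k₁, k₂]; exact hQ

end

theorem serre_essSmooth_loc (A R : Type u) [CommRing A]
    [IsRegularLocalRing A] [CommRing R] [IsLocalRing R] [Algebra A R]
    [Algebra.EssFiniteType A R] [Algebra.FormallySmooth A R] (d : ℕ) (hd : ringKrullDim R = d)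
    (M N : Type u) [AddCommGroup M] [Module R M] [Module.Finite R M]
    [AddCommGroup N] [Module R N] [Module.Finite R N]
    (hcond : ∀ q : Ideal A, q.IsPrime → 5 ≤ q.height →
      FibreCodimLeOne A R M q ∨ FibreCodimLeOne A R N q)
    (hlen : Module.length R (M ⊗[R] N) ≠ ⊤) :
    0 ≤ eulerTor R (d + 1) M N ∧ ∀ m n : ℕ, (m : WithBot ℕ∞) ≤ Module.supportDim R M →
      (n : WithBot ℕ∞) ≤ Module.supportDim R N →
      (m + n ≤ d) ∧ (d ≤ m + n → 0 < eulerTor R (d + 1) M N) :=
  serre_essSmooth_loc₂ (AlgEquiv.refl : R ≃ₐ[A] R) d hd M N hcond (fun _ _ => rfl) hlen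

end Vale.Agent.P177
end
end

section

/-!
The cases of Serre's positivity conjecture.
-/

namespace Vale.Agent.P177

open CategoryTheory TensorProduct Function IsLocalRing RingTheory.Sequence Serre

universe u

/-! ### Devissage -/

/-- Devissage to prime cyclic modules in the first variable. -/
theorem sp_devissage {R : Type u} [CommRing R] [IsRegularLocalRing R] {d : ℕ}
    (hd : ringKrullDim R = d) (M N : Type u) [AddCommGroup M] [Module R M] [Module.Finite R M]
    [AddCommGroup N] [Module R N] [Module.Finite R N]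
    (hlen : Module.length R (M ⊗[R] N) ≠ ⊤)
    (h : ∀ P : Ideal R, P.IsPrime → Module.annihilator R M ≤ P → SP R d (R ⧸ P) N) :
    SP R d M N := by
  refine IsNoetherianRing.induction_on_isQuotientEquivQuotientPrime R (M := M) inferInstance
    (motive := fun X => Module.annihilator R M ≤ Module.annihilator R X → SP R d X N)
    ?_ ?_ ?_ le_rfl
  · intro X _ _ _ hX _
    exact SP.of_subsingleton hX
  · intro X _ _ _ q e hle
    refine SP.congr e.symm (LinearEquiv.refl R N) (h q.1 q.2 ?_)
    rw [e.annihilator_eq, Ideal.annihilator_quotient] at hle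
    exact hle
  · intro X₁ _ _ _ X₂ _ _ _ X₃ _ _ _ i g hi hg hex h1 h3 hle
    refine SP.of_exact hd i g hi hg hex ?_ (h1 ?_) (h3 ?_)
    · exact length_tensor_ne_top_of_annihilator_le M X₂ N hlen hle
    · exact hle.trans (LinearMap.annihilator_le_of_injective i hi)
    · exact hle.trans (LinearMap.annihilator_le_of_surjective g hg)

/-- Devissage to prime cyclic modules in both variables. -/
theorem sp_devissage₂ {R : Type u} [CommRing R] [IsRegularLocalRing R] {d : ℕ}
    (hd : ringKrullDim R = d) (M N : Type u) [AddCommGroup M] [Module R M] [Module.Finite R M]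
    [AddCommGroup N] [Module R N] [Module.Finite R N]
    (hlen : Module.length R (M ⊗[R] N) ≠ ⊤)
    (h : ∀ P Q : Ideal R, P.IsPrime → Q.IsPrime → Module.annihilator R M ≤ P →
      Module.annihilator R N ≤ Q → Module.length R ((R ⧸ P) ⊗[R] (R ⧸ Q)) ≠ ⊤ →
      SP R d (R ⧸ P) (R ⧸ Q)) :
    SP R d M N := by
  refine sp_devissage hd M N hlen fun P hP hle => ?_
  have h1 : Module.length R ((R ⧸ P) ⊗[R] N) ≠ ⊤ :=
    length_tensor_ne_top_of_annihilator_le M (R ⧸ P) N hlen (by
      rw [Ideal.annihilator_quotient]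
      exact hle)
  have h2 : Module.length R (N ⊗[R] (R ⧸ P)) ≠ ⊤ := by
    rw [(TensorProduct.comm R N (R ⧸ P)).length_eq]
    exact h1
  refine (sp_devissage hd N (R ⧸ P) h2 fun Q hQ hleQ => ?_).symm
  have h3 : Module.length R ((R ⧸ Q) ⊗[R] (R ⧸ P)) ≠ ⊤ :=
    length_tensor_ne_top_of_annihilator_le N (R ⧸ Q) (R ⧸ P) h2 (by
      rw [Ideal.annihilator_quotient]
      exact hleQ)
  refine (h P Q hP hQ hle hleQ ?_).symm
  rw [(TensorProduct.comm R (R ⧸ P) (R ⧸ Q)).length_eq]
  exact h3

/-! ### Flat maps with closed fibre of finite length -/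

theorem isLocalHom_of_fibre {R C : Type u} [CommRing R] [IsLocalRing R] [CommRing C]
    [IsLocalRing C] (φ : R →+* C) (h : (maximalIdeal R).map φ ≤ maximalIdeal C) :
    IsLocalHom φ := ((local_hom_TFAE φ).out 0 2).2 h

theorem length_fibre_ne_top {R C : Type u} [CommRing R] [IsLocalRing R] [CommRing C]
    [IsLocalRing C] [IsNoetherianRing C] (φ : R →+* C) {k : ℕ}
    (h : maximalIdeal C ^ k ≤ (maximalIdeal R).map φ) :
    Module.length C (C ⧸ (maximalIdeal R).map φ) ≠ ⊤ := by
  rw [Module.length_ne_top_iff]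
  refine isFiniteLength_of_pow_smul_eq_zero k ?_
  intro a ha x
  obtain ⟨c, rfl⟩ := Ideal.Quotient.mk_surjective x
  change Ideal.Quotient.mk _ (a * c) = 0
  rw [Ideal.Quotient.eq_zero_iff_mem]
  exact Ideal.mul_mem_right _ _ (h ha)

theorem ringKrullDim_eq_of_flat_fibre {R C : Type u} [CommRing R] [CommRing C]
    [IsRegularLocalRing R] [IsLocalRing C] [IsNoetherianRing C] [Algebra R C] [Module.Flat R C]
    (hle : (maximalIdeal R).map (algebraMap R C) ≤ maximalIdeal C) {k : ℕ}
    (hk : maximalIdeal C ^ k ≤ (maximalIdeal R).map (algebraMap R C)) :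
    ringKrullDim C = ringKrullDim R := by
  obtain ⟨rs, hrs, hlen⟩ := exists_list_maximalIdeal R
  have hreg := isRegular_of_ofList_eq_maximalIdeal R rs hrs hlen
  have h1 : IsWeaklyRegular C (rs.map (algebraMap R C)) := hreg.toIsWeaklyRegular.of_flat
  have h2 := length_le_height (maximalIdeal C) _ (fun z hz => by
    rw [List.mem_map] at hz
    obtain ⟨y, hy, rfl⟩ := hz
    refine hle (Ideal.mem_map_of_mem _ ?_)
    rw [← hrs]
    exact Ideal.subset_span hy) h1
  rw [List.length_map] at h2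
  have h3 : (rs.length : WithBot ℕ∞) ≤ ringKrullDim C := by
    refine le_trans ?_ (Ideal.height_le_ringKrullDim_of_isPrime (I := maximalIdeal C))
    exact_mod_cast h2
  have hmin : maximalIdeal C ∈ ((maximalIdeal R).map (algebraMap R C)).minimalPrimes := by
    refine ⟨⟨inferInstance, hle⟩, ?_⟩
    rintro J ⟨hJ, hJle⟩ -
    exact hJ.le_of_pow_le (hk.trans hJle)
  have h4 : ringKrullDim C ≤ (rs.length : WithBot ℕ∞) := by
    rw [← IsLocalRing.maximalIdeal_height_eq_ringKrullDim]
    have h5 := Ideal.height_le_spanRank_toENat_of_mem_minimalPrimes _ _ hmin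
    have h6 : ((maximalIdeal R).map (algebraMap R C)).spanRank.toENat ≤ (rs.length : ℕ∞) := by
      classical
      have h7 : {x | x ∈ rs.map (algebraMap R C)} =
          ((rs.map (algebraMap R C)).toFinset : Set C) := by
        ext x
        simp only [List.mem_map, Set.mem_ofPred_eq, List.coe_toFinset]
      rw [← hrs, Ideal.map_ofList, Ideal.ofList, h7]
      refine Cardinal.toENat_le_natCast.2 ?_
      refine (Submodule.spanRank_span_le_card _).trans ?_
      simp only [Finset.coe_sort_coe, Cardinal.mk_coe_finset]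
      have h8 := List.toFinset_card_le (rs.map (algebraMap R C))
      rw [List.length_map] at h8
      exact_mod_cast h8
    exact_mod_cast h5.trans h6
  rw [← hlen]
  exact le_antisymm h4 h3

theorem serreAll_of_fibre {R C : Type u} [CommRing R] [CommRing C]
    [IsRegularLocalRing R] [IsLocalRing C] [IsNoetherianRing C] (φ : R →+* C)
    (hφ : FlatFiniteFibre φ) (d : ℕ)
    (hd : ringKrullDim R = d) (h : ∀ d' : ℕ, ringKrullDim C = d' → SerreAll C d') :
    SerreAll R d := by
  obtain ⟨hflat, hle, k, hk⟩ := hφ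
  let _ : Algebra R C := φ.toAlgebra
  have : Module.Flat R C := hflat
  have : IsLocalHom (algebraMap R C) := isLocalHom_of_fibre φ hle
  refine SerreAll.descend_finite (length_fibre_ne_top φ hk) (h d ?_)
  rw [ringKrullDim_eq_of_flat_fibre hle hk, hd]

/-! ### The cases -/

theorem serreHolds_of_sp {R : Type u} [CommRing R] [IsRegularLocalRing R] {d : ℕ}
    (hd : ringKrullDim R = d) {M N : Type u} [AddCommGroup M] [Module R M] [Module.Finite R M]
    [AddCommGroup N] [Module R N] [Module.Finite R N] (hlen : Module.length R (M ⊗[R] N) ≠ ⊤)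
    (h : Good R d M N) : SerreHolds R d M N := by
  refine ⟨fun i => tor_length_ne_top i M N hlen,
    fun i hi => regular_tor_vanish R d hd M N i hi, h.1, ?_⟩
  intro hdim
  obtain ⟨m, n, hm, hn, hmn⟩ := exists_nat_of_sum_eq _ _ d hdim
  exact h.2 m n hm.ge hn.ge hmn.ge

theorem SP.good {R : Type u} [CommRing R] {d : ℕ} {M N : Type u} [AddCommGroup M] [Module R M]
    [AddCommGroup N] [Module R N] (h : SP R d M N) : Good R d M N :=
  ⟨h.1, fun a b ha hb hab => (h.2 a b ha hb).2 hab⟩

theorem mvPowerSeries_regular_fin' (A : Type u) [CommRing A] [IsRegularLocalRing A] (n : ℕ) :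
    IsRegularLocalRing (MvPowerSeries (Fin n) A) := by
  obtain ⟨a', ha'⟩ : ∃ a' : ℕ, ringKrullDim A = a' := by
    obtain ⟨rs, -, hlen⟩ := exists_list_maximalIdeal A
    exact ⟨_, hlen.symm⟩
  exact (mvPowerSeries_regular n (Equiv.refl (Fin n)) ha').1

/-- The presentation as a quadric, after a flat local extension with trivial closed fibre. -/
theorem exists_presentation_of_uniformizing {C : Type u} [CommRing C] [IsRegularLocalRing C]
    {d : ℕ} (hd : ringKrullDim C = d) (x : Fin d → C)
    (hx : Ideal.span (Set.range x) = maximalIdeal C) (c : Fin d → Fin d → C)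
    (h : IsUniformizing (∑ i, ∑ j, x i * c i j * x j)) :
    ∃ (V : Type u) (_ : CommRing V) (_ : IsRegularLocalRing V) (ϖ : V)
      (_ : maximalIdeal V = Ideal.span {ϖ}) (_ : ringKrullDim V = (1 : ℕ))
      (c' : Fin d → Fin d → MvPowerSeries (Fin d) V)
      (_ : IsLocalRing (QuadRing V ϖ d c')) (φ : C →+* QuadRing V ϖ d c'), φ.Flat ∧
      (maximalIdeal C).map φ = maximalIdeal (QuadRing V ϖ d c') ∧
      (∀ i, φ (x i) = Ideal.Quotient.mk _ (MvPowerSeries.X i)) ∧
      ∀ i j, φ (c i j) = Ideal.Quotient.mk _ (c' i j) := by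
  have hmem : ∑ i, ∑ j, x i * c i j * x j ∈ maximalIdeal C := by
    refine Ideal.sum_mem _ fun i _ => Ideal.sum_mem _ fun j _ => Ideal.mul_mem_left _ _ ?_
    rw [← hx]
    exact Ideal.subset_span ⟨j, rfl⟩
  rcases h with ⟨p, hp, hc⟩ | ⟨V, _, _, τ, ψ, hV, hτ, hc, hres⟩
  · have : Fact p.Prime := ⟨hp⟩
    have : CharP (ResidueField C) p := by
      rw [CharP.charP_iff_prime_eq_zero hp]
      have h1 : residue C (p : C) = 0 := by
        rw [residue_eq_zero_iff, hc]
        exact hmem
      rwa [map_natCast] at h1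
    exact exists_presentation p hd x hx c hc
  · obtain ⟨S, _, _, _, hflat, hm, hdS, hcomp, hres'⟩ := exists_completion_residue C hd
    have hx' : Ideal.span (Set.range (fun i => algebraMap C S (x i))) = maximalIdeal S := by
      rw [← hm, ← hx, Ideal.map_span, ← Set.range_comp]
      rfl
    obtain ⟨c', e, he1, he2⟩ := exists_quadRing_equiv_of_hom hdS (fun i => algebraMap C S (x i)) hx'
      (fun i j => algebraMap C S (c i j)) V τ hτ hV ((algebraMap C S).comp ψ) (fun y => by
        obtain ⟨z, hz⟩ := hres' y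
        obtain ⟨v, hv⟩ := hres z
        refine ⟨v, ?_⟩
        rw [← hz]
        refine (sub_eq_zero.1 ?_).symm
        rw [← map_sub, residue_eq_zero_iff, RingHom.comp_apply, ← map_sub, ← hm]
        exact Ideal.mem_map_of_mem _ hv) (by
        rw [RingHom.comp_apply, hc, map_sum]
        refine Finset.sum_congr rfl fun i _ => ?_
        rw [map_sum]
        refine Finset.sum_congr rfl fun j _ => ?_
        rw [map_mul, map_mul])
    obtain ⟨hreg, -, -⟩ := quadRing_regular V τ hτ hV d c'
    refine ⟨V, inferInstance, inferInstance, τ, hτ, hV, c', inferInstance,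
      (e.symm : S →+* QuadRing V τ d c').comp (algebraMap C S), ?_, ?_, ?_, ?_⟩
    · have hflat' : (algebraMap C S).Flat := by
        rw [RingHom.flat_algebraMap_iff]
        exact hflat
      exact hflat'.comp (RingHom.Flat.of_bijective e.symm.bijective)
    · rw [← Ideal.map_map, hm]
      exact map_maximalIdeal_of_surjective _ e.symm.surjective
    · intro i
      rw [RingHom.comp_apply, ← he1]
      exact e.symm_apply_apply _
    · intro i j
      rw [RingHom.comp_apply, ← he2]
      exact e.symm_apply_apply _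

theorem flatFiniteFibre_comp {R C D : Type u} [CommRing R] [IsLocalRing R] [CommRing C]
    [IsLocalRing C] [CommRing D] [IsLocalRing D] {φ : R →+* C} (h : FlatFiniteFibre φ)
    {ψ : C →+* D} (hψ : ψ.Flat) (he : (maximalIdeal C).map ψ = maximalIdeal D) :
    FlatFiniteFibre (ψ.comp φ) := by
  obtain ⟨h1, h2, k, h3⟩ := h
  refine ⟨h1.comp hψ, ?_, k, ?_⟩
  · rw [← Ideal.map_map, ← he]
    exact Ideal.map_mono h2
  · rw [← Ideal.map_map, ← he, ← Ideal.map_pow]
    exact Ideal.map_mono h3

theorem flatFiniteFibre_of_map_eq {C D : Type u} [CommRing C]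
    [IsLocalRing C] [CommRing D] [IsLocalRing D] {ψ : C →+* D} (hψ : ψ.Flat)
    (he : (maximalIdeal C).map ψ = maximalIdeal D) : FlatFiniteFibre ψ := by
  refine ⟨hψ, he.le, 1, ?_⟩
  rw [pow_one]
  exact he.ge

/-- Tame rings are regular and satisfy Serre's positivity conjecture. -/
theorem tame_serreAll {R : Type u} [hR : CommRing R] (h : Tame R) :
    IsRegularLocalRing R ∧ ∀ d : ℕ, ringKrullDim R = d → SerreAll R d := by
  induction h with
  | @smooth A R _ _ _ _ _ _ _ hA =>
    exact ⟨(regular_flat_of_essSmooth A R).1,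
      fun d hd => serreAll_essSmooth 4 locPos_four A R hA d hd⟩
  | @powerSeries A _ _ n hA =>
    exact ⟨mvPowerSeries_regular_fin' A n,
      fun d hd => serreAll_powerSeries 4 locPos_four A hA n d hd⟩
  | @quadric R _ _ n x c hn hx hu hc =>
    obtain ⟨V, _, _, ϖ, hϖ, hV, c', hloc, φ, hflat, hm, hX, hC⟩ :=
      exists_presentation_of_uniformizing hn x hx c hu
    obtain ⟨hreg, -, hdim⟩ := quadRing_regular V ϖ hϖ hV n c'
    refine ⟨inferInstance, fun d hd => serreAll_of_fibre φ
      (flatFiniteFibre_of_map_eq hflat hm) d hd fun d' hd' => ?_⟩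
    have h1 : n = d' := by
      rw [hdim] at hd'
      exact_mod_cast hd'
    subst h1
    refine serreAll_of_nondegenerate V ϖ hϖ hV n c' ?_
    have h2 : IsUnit ((Ideal.Quotient.mk (Ideal.span {quadEq V ϖ n c'}))
        (polarMatrix V n c').det) := by
      rw [RingHom.map_det]
      have h3 : (Ideal.Quotient.mk (Ideal.span {quadEq V ϖ n c'})).mapMatrix (polarMatrix V n c') =
          φ.mapMatrix (Matrix.of fun i j => c i j + c j i) := by
        ext i j
        simp only [RingHom.mapMatrix_apply, Matrix.map_apply, polarMatrix, Matrix.of_apply, map_add,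
          hC]
      rw [h3, ← RingHom.map_det]
      exact hc.map φ
    have h4 : IsLocalHom (Ideal.Quotient.mk (Ideal.span {quadEq V ϖ n c'})) :=
      IsLocalHom.of_surjective _ Ideal.Quotient.mk_surjective
    exact isUnit_of_map_unit _ _ h2
  | @descend R C _ _ _ _ φ hφ _ ih =>
    obtain ⟨hreg, ih⟩ := ih
    exact ⟨inferInstance, fun d hd => serreAll_of_fibre φ hφ d hd ih⟩

/-- A prime cyclic module over a tame regular quotient. -/
theorem sp_of_liesOnTame {R : Type u} [CommRing R] [IsRegularLocalRing R] {d : ℕ}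
    (hd : ringKrullDim R = d) (P : Ideal R) (h : LiesOnTame R P) (P' : Ideal R) (hP : P ≤ P')
    (N : Type u) [AddCommGroup N] [Module R N] [Module.Finite R N]
    (hlen : Module.length R ((R ⧸ P') ⊗[R] N) ≠ ⊤) : SP R d (R ⧸ P') N := by
  obtain ⟨R', _, ψ, hψ, hker, ht⟩ := h
  obtain ⟨hreg, hall⟩ := tame_serreAll ht
  let _ : Algebra R R' := ψ.toAlgebra
  obtain ⟨d', hd'⟩ := exists_nat_eq_ringKrullDim R'
  let M := R' ⧸ P'.map ψ
  have hker' : RingHom.ker ((Ideal.Quotient.mk (P'.map ψ)).comp ψ) = P' := by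
    ext x
    rw [RingHom.mem_ker, RingHom.comp_apply, Ideal.Quotient.eq_zero_iff_mem]
    constructor
    · intro hx
      obtain ⟨y, hy, hyx⟩ := (Ideal.mem_map_iff_of_surjective ψ hψ).1 hx
      have h1 : x - y ∈ RingHom.ker ψ := by
        rw [RingHom.mem_ker, map_sub, hyx, sub_self]
      have h2 := Ideal.add_mem _ (hP (hker h1)) hy
      rwa [sub_add_cancel] at h2
    · intro hx
      exact Ideal.mem_map_of_mem _ hx
  have hlin : LinearMap.ker (Algebra.linearMap R M) = P' := by
    ext x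
    rw [LinearMap.mem_ker, Algebra.linearMap_apply]
    exact (SetLike.ext_iff.1 hker' x)
  have hsurj : Surjective (Algebra.linearMap R M) :=
    Ideal.Quotient.mk_surjective.comp hψ
  let e : (R ⧸ P') ≃ₗ[R] M :=
    (Submodule.quotEquivOfEq _ _ hlin.symm) ≪≫ₗ
      (Algebra.linearMap R M).quotKerEquivOfSurjective hsurj
  refine SP.congr e.symm (LinearEquiv.refl R N) ?_
  refine serre_of_regular_quotient hψ hd hd' M (fun N' _ _ _ hl => hall d' hd' M N' hl) N ?_
  rw [← (TensorProduct.congr e (LinearEquiv.refl R N)).length_eq]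
  exact hlen

theorem tameCase : TameCase.{u} := by
  intro R _ _ d hd M N _ _ _ _ _ _ h hlen
  refine serreHolds_of_sp hd hlen (SP.good ?_)
  refine sp_devissage₂ hd M N hlen fun P Q hP hQ hle hleQ hl => ?_
  obtain ⟨P₀, hP₀, hPP⟩ := Ideal.exists_minimalPrimes_le hle
  obtain ⟨Q₀, hQ₀, hQQ⟩ := Ideal.exists_minimalPrimes_le hleQ
  rcases h P₀ hP₀ Q₀ hQ₀ with h | h
  · exact sp_of_liesOnTame hd P₀ h P hPP (R ⧸ Q) hl
  · refine (sp_of_liesOnTame hd Q₀ h Q hQQ (R ⧸ P) ?_).symm
    rw [(TensorProduct.comm R (R ⧸ Q) (R ⧸ P)).length_eq]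
    exact hl

theorem transversalCase : TransversalCase.{u} := by
  intro R C _ _ _ _ φ₁ d x c hφ₁ hd hx hu M N _ _ _ _ _ _ htr hlen
  have hdC : ringKrullDim C = d := by
    obtain ⟨hflat, hle, k, hk⟩ := hφ₁
    let _ : Algebra R C := φ₁.toAlgebra
    have i1 : Module.Flat R C := hflat
    rw [ringKrullDim_eq_of_flat_fibre (R := R) (C := C) hle hk, hd]
  obtain ⟨V, _, _, ϖ, hϖ, hV, c', hloc, φ₂, hflat₂, hm₂, hX, hC⟩ :=
    exists_presentation_of_uniformizing hdC x hx c hu
  obtain ⟨hreg, -, -⟩ := quadRing_regular V ϖ hϖ hV d c'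
  have hφ := flatFiniteFibre_comp hφ₁ hflat₂ hm₂
  have htr' := TransTo.map φ₂ hm₂ htr
  rw [Ideal.map_map, Ideal.map_map, Ideal.map_span, ← Set.range_comp] at htr'
  obtain ⟨hflat, hle, k, hk⟩ := hφ
  let _ : Algebra R (QuadRing V ϖ d c') := (φ₂.comp φ₁).toAlgebra
  have i1 : Module.Flat R (QuadRing V ϖ d c') := hflat
  have i2 : IsLocalHom (algebraMap R (QuadRing V ϖ d c')) := isLocalHom_of_fibre _ hle
  have hfin : Module.length (QuadRing V ϖ d c') (QuadRing V ϖ d c' ⧸
      (maximalIdeal R).map (algebraMap R (QuadRing V ϖ d c'))) ≠ ⊤ :=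
    length_fibre_ne_top _ hk
  refine serreHolds_of_sp hd hlen (SP.good (serrePair_descend_finite hfin M N ?_))
  refine serrePair_of_transTo V ϖ hϖ hV d c' (QuadRing V ϖ d c' ⊗[R] M)
    (QuadRing V ϖ d c' ⊗[R] N) (length_tensor_ne_top_of_fibre hfin M N hlen) ?_
  have hU : Ideal.span (Set.range (φ₂ ∘ fun i => ∑ j, (c i j + c j i) * x j)) =
      polarIdeal V ϖ d c' := by
    unfold polarIdeal
    congr 2
    funext i
    rw [Function.comp_apply, map_sum]
    refine Finset.sum_congr rfl fun j _ => ?_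
    rw [map_mul, map_add, hC, hC, hX, map_mul, map_add]
  rw [hU] at htr'
  exact htr'.mono (map_annihilator_le M) (map_annihilator_le N) le_rfl

theorem essSmoothCase : EssSmoothCase.{u} := by
  intro A R _ _ _ _ _ _ _ d hd M N _ _ _ _ _ _ hfib hlen
  have hreg := (regular_flat_of_essSmooth A R).1
  have h := serre_essSmooth_loc A R d hd M N hfib hlen
  exact ⟨hreg, serreHolds_of_sp hd hlen ⟨h.1, fun a b ha hb hab => (h.2 a b ha hb).2 hab⟩⟩

theorem torsionCase : TorsionCase.{u} := by
  intro R S A C _ _ _ _ _ _ _ d f g α β φ hd hdS hf0 hg0 hα hα' hβ hβ' ht hφ M N _ _ _ _ _ _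
    s t hM hN hlen
  obtain ⟨hregS, hall⟩ := tame_serreAll ht
  obtain ⟨e, -⟩ : ∃ e : (R ⧸ Ideal.span {f}) ≃+* A, True :=
    ⟨(Ideal.quotEquivOfEq hα'.symm).trans (RingHom.quotientKerEquivOfSurjective hα), trivial⟩
  have hlA : IsLocalRing (R ⧸ Ideal.span {f}) := e.symm.isLocalRing
  have hφ' : FlatFiniteFibre (φ.comp (e : (R ⧸ Ideal.span {f}) →+* A)) := by
    obtain ⟨h1, h2, k, h3⟩ := hφ
    have he : (maximalIdeal (R ⧸ Ideal.span {f})).map (e : (R ⧸ Ideal.span {f}) →+* A) =
        maximalIdeal A := map_maximalIdeal_of_surjective _ e.surjective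
    refine ⟨(RingHom.Flat.of_bijective e.bijective).comp h1, ?_, k, ?_⟩
    · rw [← Ideal.map_map, he]
      exact h2
    · rw [← Ideal.map_map, he]
      exact h3
  obtain ⟨hflat, hle, k, hk⟩ := hφ'
  let _ : Algebra (R ⧸ Ideal.span {f}) C := (φ.comp (e : (R ⧸ Ideal.span {f}) →+* A)).toAlgebra
  let _ : Algebra S C := β.toAlgebra
  have hnC : IsNoetherianRing C := isNoetherianRing_of_surjective S C β hβ
  have i1 : Module.Flat (R ⧸ Ideal.span {f}) C := hflat
  have i2 : IsLocalHom (algebraMap (R ⧸ Ideal.span {f}) C) := isLocalHom_of_fibre _ hle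
  exact serreHolds_of_sp hd hlen (good_power_torsion' R d hd f hf0 S hdS (hall d hdS) g
    hg0 C (length_fibre_ne_top _ hk) hβ hβ' M N s t hM hN hlen)

theorem pPowerTorsionCase : PPowerTorsionCase.{u} := by
  intro R _ _ d p _ hd hp0 hpm M N _ _ _ _ _ _ s t hM hN hlen
  exact serreHolds_of_sp hd hlen (good_p_power R d hd p hp0 hpm M N s t hM hN hlen)

end Vale.Agent.P177
end
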